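import Mathlib
import Vale.Agent.P245.Defs

set_option linter.all false

section

section

open MeasureTheory Real
open scoped ENNReal

namespace Vale.Agent.P245

/-- standard Gaussian density on `Fin n → ℝ` -/
noncomputable def gd {n : ℕ} (z : Fin n → ℝ) : ℝ := ∏ i, ((√(2 * π))⁻¹ * exp (-(z i) ^ 2 / 2))

/-- standard Gaussian measure -/
noncomputable def gsn (n : ℕ) : Measure (Fin n → ℝ) :=
  volume.withDensity fun z => ENNReal.ofReal (gd z)

theorem gd_pos {n : ℕ} (z : Fin n → ℝ) : 0 < gd z :=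
  Finset.prod_pos fun i _ => by positivity

theorem continuous_gd {n : ℕ} : Continuous (gd : (Fin n → ℝ) → ℝ) := by
  unfold gd; (clear * -; fun_prop)

theorem measurable_gd {n : ℕ} : Measurable (gd : (Fin n → ℝ) → ℝ) := continuous_gd.measurable

theorem gd_eq {n : ℕ} (z : Fin n → ℝ) :
    gd z = (√(2 * π))⁻¹ ^ n * exp (-(∑ i, z i ^ 2) / 2) := by
  unfold gd
  rw [Finset.prod_mul_distrib, ← exp_sum]
  simp only [Finset.prod_const, Finset.card_univ, Fintype.card_fin]
  congr 2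
  rw [neg_div, Finset.sum_div, ← Finset.sum_neg_distrib]
  apply Finset.sum_congr rfl
  intro i _
  ring

theorem integral_gam {n : ℕ} (F : (Fin n → ℝ) → ℝ) :
    ∫ z, F z ∂(gsn n) = ∫ z, gd z * F z := by
  unfold gsn
  rw [integral_withDensity_eq_integral_toReal_smul (by exact measurable_gd.ennreal_ofReal)
    (Filter.Eventually.of_forall fun z => ENNReal.ofReal_lt_top)]
  apply integral_congr_ae
  filter_upwards with z
  rw [ENNReal.toReal_ofReal (gd_pos z).le, smul_eq_mul]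

theorem integrable_gam_iff {n : ℕ} {F : (Fin n → ℝ) → ℝ} :
    Integrable F (gsn n) ↔ Integrable (fun z => gd z * F z) := by
  unfold gsn
  rw [integrable_withDensity_iff_integrable_smul' (by exact measurable_gd.ennreal_ofReal)
    (Filter.Eventually.of_forall fun z => ENNReal.ofReal_lt_top)]
  apply integrable_congr
  filter_upwards with z
  rw [ENNReal.toReal_ofReal (gd_pos z).le, smul_eq_mul]

/-- one dimensional integrability -/
theorem integrable_exp_abs_gauss (c : ℝ) :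
    Integrable (fun x : ℝ => (√(2 * π))⁻¹ * exp (-x ^ 2 / 2) * exp (c * |x|)) := by
  have h : Integrable (fun x : ℝ => (√(2 * π))⁻¹ * exp (c ^ 2) * exp (-(1 / 4) * x ^ 2)) :=
    (integrable_exp_neg_mul_sq (by (clear * -; norm_num))).const_mul _
  refine h.mono' (by (clear * -; exact Continuous.aestronglyMeasurable (by fun_prop))) (Filter.Eventually.of_forall fun x => ?_)
  rw [Real.norm_of_nonneg (by positivity), mul_assoc, mul_assoc, ← exp_add, ← exp_add]
  apply mul_le_mul_of_nonneg_left _ (by positivity)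
  apply exp_le_exp.2
  have : |x| ^ 2 = x ^ 2 := sq_abs x
  linarith only [sq_nonneg (|x| / 2 - c), this]

theorem integrable_exp_abs {n : ℕ} (c : ℝ) :
    Integrable (fun z : Fin n → ℝ => exp (c * ∑ i, |z i|)) (gsn n) := by
  rw [integrable_gam_iff]
  have : (fun z : Fin n → ℝ => gd z * exp (c * ∑ i, |z i|))
      = fun z : Fin n → ℝ => ∏ i, ((√(2 * π))⁻¹ * exp (-(z i) ^ 2 / 2) * exp (c * |z i|)) := by
    funext z
    rw [Finset.prod_mul_distrib, ← exp_sum, gd, Finset.mul_sum]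
  rw [this]
  exact Integrable.fintype_prod (f := fun _ x => (√(2 * π))⁻¹ * exp (-x ^ 2 / 2) * exp (c * |x|))
    (fun _ => integrable_exp_abs_gauss c)

theorem integral_gd_one {n : ℕ} : ∫ z : Fin n → ℝ, gd z = 1 := by
  unfold gd
  rw [integral_fintype_prod_volume_eq_prod (fun _ x => (√(2 * π))⁻¹ * exp (-x ^ 2 / 2))]
  apply Finset.prod_eq_one
  intro i _
  have e : (fun x : ℝ => (√(2 * π))⁻¹ * exp (-x ^ 2 / 2))
      = fun x => (√(2 * π))⁻¹ * exp (-(1 / 2) * x ^ 2) := by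
    funext x; congr 2; ring
  rw [e, integral_const_mul, integral_gaussian]
  have : π / (1 / 2) = 2 * π := by ring
  rw [this, inv_mul_cancel₀ (by positivity)]

theorem integrable_gd {n : ℕ} : Integrable (gd : (Fin n → ℝ) → ℝ) := by
  by_contra h
  have := integral_undef h
  rw [integral_gd_one] at this
  exact one_ne_zero this

instance isProb_gam {n : ℕ} : IsProbabilityMeasure (gsn n) := by
  constructor
  unfold gsn
  rw [withDensity_apply _ MeasurableSet.univ, Measure.restrict_univ,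
    ← ofReal_integral_eq_lintegral_ofReal integrable_gd
      (Filter.Eventually.of_forall fun z => (gd_pos z).le), integral_gd_one, ENNReal.ofReal_one]

/-- Cameron–Martin shift -/
theorem integral_gam_shift {n : ℕ} (a : Fin n → ℝ) (F : (Fin n → ℝ) → ℝ) :
    ∫ z, F (z + a) ∂(gsn n)
      = ∫ z, F z * exp (∑ i, a i * z i - (∑ i, a i ^ 2) / 2) ∂(gsn n) := by
  rw [integral_gam, integral_gam]
  have h := integral_add_right_eq_self (μ := (volume : Measure (Fin n → ℝ)))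
    (fun z => gd (z - a) * F z) a
  simp only [add_sub_cancel_right] at h
  rw [h]
  apply integral_congr_ae
  filter_upwards with z
  have : gd (z - a) = gd z * exp (∑ i, a i * z i - (∑ i, a i ^ 2) / 2) := by
    rw [gd_eq, gd_eq, mul_assoc, ← exp_add]
    congr 2
    simp only [Pi.sub_apply]
    rw [← sub_eq_zero]
    have e : ∑ i, (z i - a i) ^ 2 = ∑ i, z i ^ 2 - 2 * ∑ i, a i * z i + ∑ i, a i ^ 2 := by
      rw [Finset.mul_sum, ← Finset.sum_sub_distrib, ← Finset.sum_add_distrib]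
      apply Finset.sum_congr rfl
      intro i _; ring
    rw [e]; ring
  rw [this]; ring

/-- exponential moments -/
theorem integral_gam_exp {n : ℕ} (a : Fin n → ℝ) :
    ∫ z, exp (∑ i, a i * z i) ∂(gsn n) = exp ((∑ i, a i ^ 2) / 2) := by
  have h := integral_gam_shift a (fun _ => (1 : ℝ))
  simp only [integral_const, probReal_univ, smul_eq_mul, mul_one, one_mul] at h
  have e : ∀ z : Fin n → ℝ, exp (∑ i, a i * z i - (∑ i, a i ^ 2) / 2)
      = exp (-((∑ i, a i ^ 2) / 2)) * exp (∑ i, a i * z i) := by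
    intro z; rw [← exp_add]; congr 1; ring
  simp_rw [e] at h
  rw [integral_const_mul] at h
  have h2 : exp ((∑ i, a i ^ 2) / 2) * 1
      = exp ((∑ i, a i ^ 2) / 2) * (exp (-((∑ i, a i ^ 2) / 2)) * ∫ z, exp (∑ i, a i * z i) ∂(gsn n)) := by
    rw [← h]
  rw [mul_one, ← mul_assoc, ← exp_add, add_neg_cancel, exp_zero, one_mul] at h2
  exact h2.symm

theorem hasDerivAt_gd_line {n : ℕ} (z : Fin n → ℝ) (i : Fin n) :
    fderiv ℝ gd z (Pi.single i 1) = -(z i) * gd z := by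
  have hfun : (gd : (Fin n → ℝ) → ℝ)
      = fun z => (√(2 * π))⁻¹ ^ n * exp (-(∑ i, z i ^ 2) / 2) := by
    funext z; exact gd_eq z
  have h1 : HasFDerivAt (fun z : Fin n → ℝ => ∑ i, z i ^ 2)
      (∑ i, (2 * z i) • (ContinuousLinearMap.proj (R := ℝ) i : (Fin n → ℝ) →L[ℝ] ℝ)) z := by
    apply HasFDerivAt.fun_sum
    intro j _
    have := (ContinuousLinearMap.proj (R := ℝ) (φ := fun _ : Fin n => ℝ) j).hasFDerivAt (x := z)
    simpa only [ContinuousLinearMap.proj_apply, Nat.add_one_sub_one, pow_one, nsmul_eq_mul, Nat.cast_ofNat] using     this.pow 2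
  have h2 : HasFDerivAt (gd : (Fin n → ℝ) → ℝ)
      ((√(2 * π))⁻¹ ^ n • (exp (-(1 / 2) * (∑ i, z i ^ 2)) • ((-(1 / 2) : ℝ) •
        (∑ i, (2 * z i) • (ContinuousLinearMap.proj (R := ℝ) i : (Fin n → ℝ) →L[ℝ] ℝ))))) z := by
    rw [hfun]
    have h3 := ((h1.const_mul (-(1 / 2) : ℝ)).exp.const_mul ((√(2 * π))⁻¹ ^ n))
    have e : ∀ y : Fin n → ℝ, (√(2 * π))⁻¹ ^ n * exp (-(∑ i, y i ^ 2) / 2)
        = (√(2 * π))⁻¹ ^ n * exp (-(1 / 2) * (∑ i, y i ^ 2)) := by
      intro y; congr 2; ring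
    simp_rw [e]
    exact h3
  have hs : (∑ j, (2 * z j) • (ContinuousLinearMap.proj (R := ℝ) j : (Fin n → ℝ) →L[ℝ] ℝ))
      (Pi.single i 1) = 2 * z i := by
    rw [_root_.sum_apply]
    rw [Finset.sum_eq_single i]
    · simp
    · intro j _ hj
      simp [hj]
    · simp only [Finset.mem_univ, not_true_eq_false, smul_apply, ContinuousLinearMap.proj_apply, Pi.single_eq_same, smul_eq_mul, mul_one, mul_eq_zero, OfNat.ofNat_ne_zero, false_or, IsEmpty.forall_iff]
  rw [h2.fderiv, gd_eq z]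
  simp only [_root_.smul_apply, smul_eq_mul, hs]
  have e : -(∑ i, z i ^ 2) / 2 = -(1 / 2) * (∑ i, z i ^ 2) := by ring
  rw [e]; ring

theorem differentiable_gd {n : ℕ} : Differentiable ℝ (gd : (Fin n → ℝ) → ℝ) := by
  have hfun : (gd : (Fin n → ℝ) → ℝ)
      = fun z => (√(2 * π))⁻¹ ^ n * exp (-(∑ i, z i ^ 2) / 2) := by
    funext z; exact gd_eq z
  rw [hfun]
  fun_prop

/-- growth control by exponentials of the `ℓ¹` norm -/
def EG1 {n : ℕ} (φ : (Fin n → ℝ) → ℝ) : Prop :=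
  ∃ C : ℝ, 0 ≤ C ∧ ∀ z, |φ z| ≤ C * exp (C * ∑ i, |z i|)

theorem EG1.integrable {n : ℕ} {φ : (Fin n → ℝ) → ℝ} (h : EG1 φ)
    (hm : AEStronglyMeasurable φ (gsn n)) : Integrable φ (gsn n) := by
  obtain ⟨C, hC0, hC⟩ := h
  exact ((integrable_exp_abs C).const_mul C).mono' hm
    (Filter.Eventually.of_forall fun z => by rw [Real.norm_eq_abs]; exact hC z)

theorem EG1.mul_coord {n : ℕ} {φ : (Fin n → ℝ) → ℝ} (h : EG1 φ) (i : Fin n) :
    EG1 fun z => z i * φ z := by
  obtain ⟨C, hC0, hC⟩ := h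
  refine ⟨C + 1, by linarith only [hC0], fun z => ?_⟩
  have hS : |z i| ≤ ∑ i, |z i| := Finset.single_le_sum (f := fun i => |z i|)
    (fun j _ => abs_nonneg _) (Finset.mem_univ i)
  have hS0 : 0 ≤ ∑ i, |z i| := Finset.sum_nonneg fun j _ => abs_nonneg _
  rw [abs_mul]
  calc |z i| * |φ z| ≤ exp (∑ i, |z i|) * (C * exp (C * ∑ i, |z i|)) := by
        apply mul_le_mul _ (hC z) (abs_nonneg _) (exp_pos _).le
        exact hS.trans ((by linarith only [add_one_le_exp (∑ i, |z i|)]))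
    _ = C * exp ((C + 1) * ∑ i, |z i|) := by
        rw [mul_left_comm, ← exp_add]; ring_nf
    _ ≤ (C + 1) * exp ((C + 1) * ∑ i, |z i|) := by
        apply mul_le_mul_of_nonneg_right (by linarith only []) (exp_pos _).le

/-- Gaussian integration by parts -/
theorem gauss_ibp {n : ℕ} {φ : (Fin n → ℝ) → ℝ} (hφ : Differentiable ℝ φ) (h0 : EG1 φ)
    (i : Fin n) (h1 : EG1 fun z => fderiv ℝ φ z (Pi.single i 1))
    (hm : AEStronglyMeasurable (fun z => fderiv ℝ φ z (Pi.single i 1)) (gsn n)) :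
    ∫ z, z i * φ z ∂(gsn n) = ∫ z, fderiv ℝ φ z (Pi.single i 1) ∂(gsn n) := by
  have hφm : AEStronglyMeasurable φ (gsn n) := hφ.continuous.aestronglyMeasurable
  have i0 : Integrable (fun z => φ z * gd z) := by
    have := integrable_gam_iff.1 (h0.integrable hφm)
    simpa only [mul_comm] using this
  have i1 : Integrable (fun z => fderiv ℝ φ z (Pi.single i 1) * gd z) := by
    have := integrable_gam_iff.1 (h1.integrable hm)
    simpa only [mul_comm] using this
  have i2 : Integrable (fun z => φ z * fderiv ℝ gd z (Pi.single i 1)) := by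
    have := integrable_gam_iff.1 ((h0.mul_coord i).integrable
      ((continuous_apply i).aestronglyMeasurable.mul hφm))
    refine (this.neg).congr (Filter.Eventually.of_forall fun z => ?_)
    simp only [Pi.neg_apply]
    rw [hasDerivAt_gd_line]; ring
  have key := integral_mul_fderiv_eq_neg_fderiv_mul_of_integrable (μ := volume)
    (f := φ) (g := gd) (v := Pi.single i 1) i1 i2 i0 (fun x _ => hφ x)
    (fun x _ => differentiable_gd x)
  rw [integral_gam, integral_gam]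
  have e1 : ∀ z : Fin n → ℝ, gd z * (z i * φ z) = -(φ z * fderiv ℝ gd z (Pi.single i 1)) := by
    intro z; rw [hasDerivAt_gd_line]; ring
  simp_rw [e1]
  rw [integral_neg, key, neg_neg]
  apply integral_congr_ae
  filter_upwards with z
  ring

end Vale.Agent.P245
end
end

section

section

open MeasureTheory Real
open scoped ENNReal Topology

namespace Vale.Agent.P245

/-- derivative in the time variable -/
noncomputable def dS {n : ℕ} (F : ℝ × (Fin n → ℝ) → ℝ) (p : ℝ × (Fin n → ℝ)) : ℝ :=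
  fderiv ℝ F p (1, 0)

/-- derivative in the `i`-th space variable -/
noncomputable def dI {n : ℕ} (i : Fin n) (F : ℝ × (Fin n → ℝ) → ℝ) (p : ℝ × (Fin n → ℝ)) : ℝ :=
  fderiv ℝ F p (0, Pi.single i 1)

theorem fderiv_expand {n : ℕ} (F : ℝ × (Fin n → ℝ) → ℝ) (p : ℝ × (Fin n → ℝ)) (a : ℝ)
    (z : Fin n → ℝ) : fderiv ℝ F p (a, z) = a * dS F p + ∑ i, z i * dI i F p := by
  have h : ((a, z) : ℝ × (Fin n → ℝ)) = a • ((1 : ℝ), (0 : Fin n → ℝ))
      + ∑ i, z i • ((0 : ℝ), (Pi.single i (1 : ℝ) : Fin n → ℝ)) := by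
    apply Prod.ext
    · simp only [Prod.smul_mk, smul_eq_mul, mul_one, smul_zero, mul_zero, Prod.fst_add, Prod.fst_sum, Finset.sum_const_zero, add_zero]
    · simp only [Prod.smul_mk, smul_zero, Prod.snd_add, Prod.snd_sum, zero_add]
      funext j
      simp only [Finset.sum_apply, Pi.smul_apply, Pi.single_apply, smul_eq_mul, mul_ite, mul_one, mul_zero, Finset.sum_ite_eq, Finset.mem_univ, ↓reduceIte]
  rw [h, map_add, map_smul, map_sum]
  simp only [map_smul, smul_eq_mul]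
  rfl

theorem ContDiff.dS {n : ℕ} {F : ℝ × (Fin n → ℝ) → ℝ} {m k : ℕ∞} (h : ContDiff ℝ m F)
    (hk : k + 1 ≤ m) : ContDiff ℝ k (dS F) := by
  have := (h.fderiv_right (m := k) (by exact_mod_cast hk))
  exact this.clm_apply contDiff_const

theorem ContDiff.dI {n : ℕ} {F : ℝ × (Fin n → ℝ) → ℝ} {m k : ℕ∞} (h : ContDiff ℝ m F)
    (hk : k + 1 ≤ m) (i : Fin n) : ContDiff ℝ k (dI i F) := by
  have := (h.fderiv_right (m := k) (by exact_mod_cast hk))
  exact this.clm_apply contDiff_const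

/-- growth bound -/
def GB {n : ℕ} (T C : ℝ) (F : ℝ × (Fin n → ℝ) → ℝ) : Prop :=
  ∀ p : ℝ × (Fin n → ℝ), 0 ≤ p.1 → p.1 ≤ T → |F p| ≤ C * exp (C * ∑ i, |p.2 i|)

theorem GB.mono {n : ℕ} {T C C' : ℝ} {F : ℝ × (Fin n → ℝ) → ℝ} (h : GB T C F) (hC : 0 ≤ C)
    (hCC : C ≤ C') : GB T C' F := by
  intro p h0 h1
  have hS0 : 0 ≤ ∑ i, |p.2 i| := Finset.sum_nonneg fun j _ => abs_nonneg _
  refine (h p h0 h1).trans ?_
  apply mul_le_mul hCC _ (exp_pos _).le (hC.trans hCC)
  exact exp_le_exp.2 (mul_le_mul_of_nonneg_right hCC hS0)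

theorem GB.eg1 {n : ℕ} {T C : ℝ} {F : ℝ × (Fin n → ℝ) → ℝ} (h : GB T C F) (hC : 0 ≤ C) {r : ℝ}
    (hr : r ^ 2 ≤ T) : EG1 fun z => F (r ^ 2, r • z) := by
  refine ⟨C * (1 + |r|), by positivity, fun z => ?_⟩
  have h1 := h (r ^ 2, r • z) (sq_nonneg r) hr
  refine h1.trans ?_
  have e : ∑ i, |(r • z) i| = |r| * ∑ i, |z i| := by
    rw [Finset.mul_sum]; apply Finset.sum_congr rfl; intro i _
    rw [Pi.smul_apply, smul_eq_mul, abs_mul]
  simp only at e ⊢
  rw [e]
  have hS0 : 0 ≤ ∑ i, |z i| := Finset.sum_nonneg fun j _ => abs_nonneg _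
  have hr0 := abs_nonneg r
  have : C * (|r| * ∑ i, |z i|) ≤ C * (1 + |r|) * ∑ i, |z i| := by
    have := mul_nonneg hC hS0
    linarith
  apply mul_le_mul _ (exp_le_exp.2 this) (exp_pos _).le (by (clear * - hC; positivity))
  nlinarith only [hC, hr0]

theorem exp_poly_bound {x C : ℝ} (hx : 0 ≤ x) : x * exp (C * x) ≤ exp ((C + 1) * x) := by
  have : x ≤ exp x := by linarith only [add_one_le_exp x]
  calc x * exp (C * x) ≤ exp x * exp (C * x) := mul_le_mul_of_nonneg_right this (exp_pos _).le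
    _ = exp ((C + 1) * x) := by rw [← exp_add]; ring_nf

/-- the heat equation in the variable `r = √s` -/
theorem heat {n : ℕ} {H : ℝ × (Fin n → ℝ) → ℝ} (hH : ContDiff ℝ 2 H) {T C : ℝ} (hC : 0 ≤ C)
    (h0 : GB T C H) (h1 : GB T C (dS H)) (h2 : ∀ i, GB T C (dI i H))
    (h3 : ∀ i, GB T C (dI i (dI i H))) {r : ℝ} (hr : r ^ 2 < T) :
    HasDerivAt (fun r : ℝ => ∫ z, H (r ^ 2, r • z) ∂(gsn n))
      (2 * r * ∫ z, (dS H (r ^ 2, r • z) + 1 / 2 * ∑ i, dI i (dI i H) (r ^ 2, r • z)) ∂(gsn n))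
      r := by
  have hT : 0 < T := lt_of_le_of_lt (sq_nonneg r) hr
  set ρ := √T with hρ
  have hρ0 : 0 < ρ := Real.sqrt_pos.2 hT
  have hρ2 : ρ ^ 2 = T := Real.sq_sqrt hT.le
  have habs : |r| < ρ := by
    rw [← abs_of_pos hρ0]; exact sq_lt_sq.1 (by rw [hρ2]; exact hr)
  have hHd : Differentiable ℝ H := hH.differentiable (by norm_num)
  have cH : Continuous H := hH.continuous
  have c1 : Continuous (dS H) := (ContDiff.dS (m := 2) (k := 0) hH (by norm_num)).continuous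
  have cd2 : ∀ i, ContDiff ℝ 1 (dI i H) := fun i =>
    ContDiff.dI (m := 2) (k := 1) hH (by norm_num) i
  have c2 : ∀ i, Continuous (dI i H) := fun i => (cd2 i).continuous
  have c3 : ∀ i, Continuous (dI i (dI i H)) := fun i =>
    (ContDiff.dI (m := 1) (k := 0) (cd2 i) (by norm_num) i).continuous
  have cpath : ∀ r : ℝ, Continuous fun z : Fin n → ℝ => ((r ^ 2, r • z) : ℝ × (Fin n → ℝ)) :=
    fun r => by fun_prop
  have hS0 : ∀ z : Fin n → ℝ, 0 ≤ ∑ i, |z i| := fun z => Finset.sum_nonneg fun j _ => abs_nonneg _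
  -- domination
  have key := hasDerivAt_integral_of_dominated_loc_of_deriv_le (μ := gsn n)
    (F := fun r z => H (r ^ 2, r • z))
    (F' := fun r z => 2 * r * dS H (r ^ 2, r • z) + ∑ i, z i * dI i H (r ^ 2, r • z))
    (x₀ := r) (s := Set.Ioo (-ρ) ρ)
    (bound := fun z => (2 * ρ * C + C) * exp ((C * ρ + 1) * ∑ i, |z i|))
    (Ioo_mem_nhds (by linarith [(abs_lt.1 habs).1]) (abs_lt.1 habs).2)
    (Filter.Eventually.of_forall fun r' => (cH.comp (cpath r')).aestronglyMeasurable)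
    ((h0.eg1 hC hr.le).integrable (cH.comp (cpath r)).aestronglyMeasurable)
    (by
      have : Continuous fun z => 2 * r * dS H (r ^ 2, r • z) + ∑ i, z i * dI i H (r ^ 2, r • z) := by
        refine ((c1.comp (cpath r)).const_smul (2 * r)).add ?_
        exact continuous_finsetSum _ fun i _ => (continuous_apply i).mul ((c2 i).comp (cpath r))
      exact this.aestronglyMeasurable)
    (by
      refine Filter.Eventually.of_forall fun z r' hr' => ?_
      have hr'a : |r'| < ρ := abs_lt.2 hr'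
      have hr'2 : r' ^ 2 ≤ T := by
        rw [← hρ2]; rw [← sq_abs]; exact pow_le_pow_left₀ (abs_nonneg _) hr'a.le 2
      have hexp : exp (C * ∑ i, |(r' • z) i|) ≤ exp (C * ρ * ∑ i, |z i|) := by
        apply exp_le_exp.2
        have e : ∑ i, |(r' • z) i| = |r'| * ∑ i, |z i| := by
          rw [Finset.mul_sum]; apply Finset.sum_congr rfl; intro i _
          rw [Pi.smul_apply, smul_eq_mul, abs_mul]
        rw [e, mul_assoc]
        exact mul_le_mul_of_nonneg_left (mul_le_mul_of_nonneg_right hr'a.le (hS0 z)) hC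
      have b1 : |dS H (r' ^ 2, r' • z)| ≤ C * exp (C * ρ * ∑ i, |z i|) :=
        (h1 (r' ^ 2, r' • z) (sq_nonneg _) hr'2).trans (mul_le_mul_of_nonneg_left hexp hC)
      have b2 : ∀ i, |dI i H (r' ^ 2, r' • z)| ≤ C * exp (C * ρ * ∑ i, |z i|) := fun i =>
        (h2 i (r' ^ 2, r' • z) (sq_nonneg _) hr'2).trans (mul_le_mul_of_nonneg_left hexp hC)
      rw [Real.norm_eq_abs]
      have b3 : |2 * r' * dS H (r' ^ 2, r' • z)| ≤ 2 * ρ * (C * exp (C * ρ * ∑ i, |z i|)) := by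
        rw [abs_mul, abs_mul, abs_of_pos (by norm_num : (0 : ℝ) < 2)]
        apply mul_le_mul _ b1 (abs_nonneg _) (by (clear * - hT; positivity))
        linarith only [hr'a]
      have b4 : |∑ i, z i * dI i H (r' ^ 2, r' • z)| ≤
          (∑ i, |z i|) * (C * exp (C * ρ * ∑ i, |z i|)) := by
        refine (Finset.abs_sum_le_sum_abs _ _).trans ?_
        rw [Finset.sum_mul]
        apply Finset.sum_le_sum
        intro i _
        rw [abs_mul]
        exact mul_le_mul_of_nonneg_left (b2 i) (abs_nonneg _)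
      have b5 : (∑ i, |z i|) * exp (C * ρ * ∑ i, |z i|) ≤ exp ((C * ρ + 1) * ∑ i, |z i|) :=
        exp_poly_bound (hS0 z)
      have b6 : exp (C * ρ * ∑ i, |z i|) ≤ exp ((C * ρ + 1) * ∑ i, |z i|) := by
        apply exp_le_exp.2; nlinarith only [hS0 z]
      calc _ ≤ |2 * r' * dS H (r' ^ 2, r' • z)| + |∑ i, z i * dI i H (r' ^ 2, r' • z)| :=
            abs_add_le _ _
        _ ≤ 2 * ρ * (C * exp (C * ρ * ∑ i, |z i|))
            + (∑ i, |z i|) * (C * exp (C * ρ * ∑ i, |z i|)) := add_le_add b3 b4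
        _ = 2 * ρ * C * exp (C * ρ * ∑ i, |z i|)
            + C * ((∑ i, |z i|) * exp (C * ρ * ∑ i, |z i|)) := by ring
        _ ≤ 2 * ρ * C * exp ((C * ρ + 1) * ∑ i, |z i|)
            + C * exp ((C * ρ + 1) * ∑ i, |z i|) :=
            add_le_add (mul_le_mul_of_nonneg_left b6 (by (clear * - hT hC; positivity)))
              (mul_le_mul_of_nonneg_left b5 hC)
        _ = _ := by ring)
    ((integrable_exp_abs _).const_mul _)
    (by
      refine Filter.Eventually.of_forall fun z r' _ => ?_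
      have hc : HasDerivAt (fun r : ℝ => ((r ^ 2, r • z) : ℝ × (Fin n → ℝ))) (2 * r', z) r' := by
        have a1 : HasDerivAt (fun r : ℝ => r ^ 2) (2 * r') r' := by simpa only [Nat.cast_ofNat, Nat.add_one_sub_one, pow_one] using hasDerivAt_pow 2 r'
        have a2 : HasDerivAt (fun r : ℝ => r • z) z r' := by
          simpa using (hasDerivAt_id r').smul_const z
        exact a1.prodMk a2
      have := (hHd (r' ^ 2, r' • z)).hasFDerivAt.comp_hasDerivAt r' hc
      rw [fderiv_expand] at this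
      exact this)
  refine key.2.congr_deriv ?_
  -- integration by parts
  have int1 : Integrable (fun z => dS H (r ^ 2, r • z)) (gsn n) :=
    (h1.eg1 hC hr.le).integrable (c1.comp (cpath r)).aestronglyMeasurable
  have int2 : ∀ i, Integrable (fun z => z i * dI i H (r ^ 2, r • z)) (gsn n) := fun i =>
    (((h2 i).eg1 hC hr.le).mul_coord i).integrable
      ((continuous_apply i).mul ((c2 i).comp (cpath r))).aestronglyMeasurable
  have int3 : ∀ i, Integrable (fun z => dI i (dI i H) (r ^ 2, r • z)) (gsn n) := fun i =>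
    ((h3 i).eg1 hC hr.le).integrable ((c3 i).comp (cpath r)).aestronglyMeasurable
  have hder : ∀ i, ∀ z : Fin n → ℝ,
      fderiv ℝ (fun z => dI i H (r ^ 2, r • z)) z (Pi.single i 1)
        = r * dI i (dI i H) (r ^ 2, r • z) := by
    intro i z
    have hL : HasFDerivAt (fun z : Fin n → ℝ => ((r ^ 2, r • z) : ℝ × (Fin n → ℝ)))
        ((0 : (Fin n → ℝ) →L[ℝ] ℝ).prod (r • ContinuousLinearMap.id ℝ (Fin n → ℝ))) z :=
      (hasFDerivAt_const (r ^ 2) z).prodMk ((hasFDerivAt_id z).const_smul r)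
    have := (((cd2 i).differentiable (by norm_num)) (r ^ 2, r • z)).hasFDerivAt.comp z hL
    have e := this.fderiv
    change fderiv ℝ ((dI i H) ∘ fun z : Fin n → ℝ => ((r ^ 2, r • z) : ℝ × (Fin n → ℝ))) z
      (Pi.single i 1) = _
    rw [e]
    simp only [ContinuousLinearMap.comp_apply]
    have e2 : ((0 : (Fin n → ℝ) →L[ℝ] ℝ).prod (r • ContinuousLinearMap.id ℝ (Fin n → ℝ)))
        (Pi.single i 1) = r • ((0 : ℝ), (Pi.single i 1 : Fin n → ℝ)) := by
      apply Prod.ext <;> simp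
    rw [e2, map_smul, smul_eq_mul]
    rfl
  have ibp : ∀ i, ∫ z, z i * dI i H (r ^ 2, r • z) ∂(gsn n)
      = r * ∫ z, dI i (dI i H) (r ^ 2, r • z) ∂(gsn n) := by
    intro i
    have eqf : (fun z : Fin n → ℝ => fderiv ℝ (fun z => dI i H (r ^ 2, r • z)) z (Pi.single i 1))
        = fun z => r * dI i (dI i H) (r ^ 2, r • z) := by funext z; exact hder i z
    have := gauss_ibp (φ := fun z => dI i H (r ^ 2, r • z))
      (((cd2 i).differentiable (by norm_num)).comp (by fun_prop))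
      ((h2 i).eg1 hC hr.le) i
      (by
        rw [eqf]
        obtain ⟨C', hC', hb⟩ := (h3 i).eg1 hC hr.le
        refine ⟨(1 + |r|) * C', by (clear * - hC'; positivity), fun z => ?_⟩
        rw [abs_mul]
        have h5 : exp (C' * ∑ i, |z i|) ≤ exp ((1 + |r|) * C' * ∑ i, |z i|) := by
          apply exp_le_exp.2
          have := mul_nonneg hC' (hS0 z)
          have := mul_nonneg (abs_nonneg r) this
          nlinarith only [this]
        calc |r| * |dI i (dI i H) (r ^ 2, r • z)| ≤ |r| * (C' * exp (C' * ∑ i, |z i|)) :=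
              mul_le_mul_of_nonneg_left (hb z) (abs_nonneg _)
          _ ≤ (1 + |r|) * (C' * exp ((1 + |r|) * C' * ∑ i, |z i|)) := by
              apply mul_le_mul (by linarith) (mul_le_mul_of_nonneg_left h5 hC')
                (by (clear * - hC'; positivity)) (by (clear * -; positivity))
          _ = _ := by ring)
      (by rw [eqf]; exact (((c3 i).comp (cpath r)).const_smul r).aestronglyMeasurable)
    rw [this, eqf, integral_const_mul]
  rw [integral_add (int1.const_mul _) (integrable_finsetSum _ fun i _ => int2 i),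
    integral_const_mul, integral_finsetSum _ (fun i _ => int2 i)]
  simp_rw [ibp]
  rw [integral_add int1 ((integrable_finsetSum _ fun i _ => int3 i).const_mul _),
    integral_const_mul, integral_finsetSum _ (fun i _ => int3 i), ← Finset.mul_sum]
  ring

end Vale.Agent.P245
end
end

section

section

open MeasureTheory Real
open scoped ENNReal Topology

namespace Vale.Agent.P245

/-- support in the cube of side `2R` -/
structure CSupp {n : ℕ} (μ : Measure (Fin n → ℝ)) (R : ℝ) : Prop where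
  nonneg : 0 ≤ R
  supp : ∀ᵐ x ∂μ, ∀ i, |x i| ≤ R

/-- admissible integrands: measurable and essentially bounded -/
structure Adm {n : ℕ} (μ : Measure (Fin n → ℝ)) (g : (Fin n → ℝ) → ℝ) : Prop where
  meas : Measurable g
  bdd : ∃ G, 0 ≤ G ∧ ∀ᵐ x ∂μ, |g x| ≤ G

theorem Adm.const {n : ℕ} (μ : Measure (Fin n → ℝ)) (c : ℝ) : Adm μ fun _ => c :=
  ⟨measurable_const, |c|, abs_nonneg _, Filter.Eventually.of_forall fun _ => le_rfl⟩

theorem Adm.mul {n : ℕ} {μ : Measure (Fin n → ℝ)} {g h : (Fin n → ℝ) → ℝ} (hg : Adm μ g)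
    (hh : Adm μ h) : Adm μ fun x => g x * h x := by
  obtain ⟨G, hG0, hG⟩ := hg.bdd
  obtain ⟨H, hH0, hH⟩ := hh.bdd
  refine ⟨hg.meas.mul hh.meas, G * H, by (clear * - hG0 hH0; positivity), ?_⟩
  filter_upwards [hG, hH] with x h1 h2
  rw [abs_mul]
  exact mul_le_mul h1 h2 (abs_nonneg _) hG0

theorem Adm.add {n : ℕ} {μ : Measure (Fin n → ℝ)} {g h : (Fin n → ℝ) → ℝ} (hg : Adm μ g)
    (hh : Adm μ h) : Adm μ fun x => g x + h x := by
  obtain ⟨G, hG0, hG⟩ := hg.bdd
  obtain ⟨H, hH0, hH⟩ := hh.bdd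
  refine ⟨hg.meas.add hh.meas, G + H, by (clear * - hG0 hH0; positivity), ?_⟩
  filter_upwards [hG, hH] with x h1 h2
  exact (abs_add_le _ _).trans (add_le_add h1 h2)

theorem Adm.const_mul {n : ℕ} {μ : Measure (Fin n → ℝ)} {g : (Fin n → ℝ) → ℝ} (hg : Adm μ g)
    (c : ℝ) : Adm μ fun x => c * g x := (Adm.const μ c).mul hg

theorem Adm.neg {n : ℕ} {μ : Measure (Fin n → ℝ)} {g : (Fin n → ℝ) → ℝ} (hg : Adm μ g) :
    Adm μ fun x => - g x := by
  simpa only [neg_mul, one_mul] using hg.const_mul (-1)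

theorem Adm.sub {n : ℕ} {μ : Measure (Fin n → ℝ)} {g h : (Fin n → ℝ) → ℝ} (hg : Adm μ g)
    (hh : Adm μ h) : Adm μ fun x => g x - h x := by
  simpa only [sub_eq_add_neg] using hg.add hh.neg

theorem Adm.sum {n : ℕ} {μ : Measure (Fin n → ℝ)} {ι : Type*} (s : Finset ι)
    {g : ι → (Fin n → ℝ) → ℝ} (hg : ∀ i ∈ s, Adm μ (g i)) : Adm μ fun x => ∑ i ∈ s, g i x := by
  classical
  induction s using Finset.induction_on with
  | empty => simpa using Adm.const μ 0
  | insert i s hi ih =>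
    simp only [Finset.sum_insert hi]
    exact (hg i (Finset.mem_insert_self _ _)).add
      (ih fun j hj => hg j (Finset.mem_insert_of_mem hj))

theorem CSupp.adm_coord {n : ℕ} {μ : Measure (Fin n → ℝ)} {R : ℝ} (h : CSupp μ R) (i : Fin n) :
    Adm μ fun x => x i := by
  refine ⟨measurable_pi_apply i, R, h.nonneg, ?_⟩
  filter_upwards [h.supp] with x hx using hx i

theorem CSupp.adm_sq {n : ℕ} {μ : Measure (Fin n → ℝ)} {R : ℝ} (h : CSupp μ R) :
    Adm μ fun x => ∑ i, x i ^ 2 := by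
  refine Adm.sum _ fun i _ => ?_
  simpa [sq] using (h.adm_coord i).mul (h.adm_coord i)

theorem Adm.of_continuous {n : ℕ} {μ : Measure (Fin n → ℝ)} {R : ℝ} (h : CSupp μ R)
    {g : (Fin n → ℝ) → ℝ} (hg : Continuous g) : Adm μ g := by
  have hK : IsCompact {x : Fin n → ℝ | ∀ i, x i ∈ Set.Icc (-R) R} := by
    have : {x : Fin n → ℝ | ∀ i, x i ∈ Set.Icc (-R) R} = Set.pi Set.univ fun _ => Set.Icc (-R) R := by
      ext x; simp only [Set.mem_setOf_eq, Set.mem_univ_pi]
    rw [this]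
    exact isCompact_univ_pi fun _ => isCompact_Icc
  obtain ⟨G, hG⟩ := hK.exists_bound_of_continuousOn hg.continuousOn
  refine ⟨hg.measurable, |G|, abs_nonneg _, ?_⟩
  filter_upwards [h.supp] with x hx
  exact (hG x fun i => abs_le.1 (hx i)).trans (le_abs_self G)

theorem Adm.integrable {n : ℕ} {μ : Measure (Fin n → ℝ)} [IsFiniteMeasure μ]
    {g : (Fin n → ℝ) → ℝ} (hg : Adm μ g) : Integrable g μ := by
  obtain ⟨G, hG0, hG⟩ := hg.bdd
  exact Integrable.of_bound hg.meas.aestronglyMeasurable G (by simpa only [norm_eq_abs] using hG)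

/-- the exponent `θ·x - s|x|²/2` -/
noncomputable def lx {n : ℕ} (x : Fin n → ℝ) (p : ℝ × (Fin n → ℝ)) : ℝ :=
  ∑ i, p.2 i * x i - p.1 / 2 * ∑ i, x i ^ 2

/-- the exponent as a continuous linear map in `p` -/
noncomputable def lxL {n : ℕ} (x : Fin n → ℝ) : (ℝ × (Fin n → ℝ)) →L[ℝ] ℝ :=
  (-(1 / 2 * ∑ i, x i ^ 2)) • ContinuousLinearMap.fst ℝ ℝ (Fin n → ℝ)
    + ∑ i, x i • ((ContinuousLinearMap.proj (R := ℝ) i : (Fin n → ℝ) →L[ℝ] ℝ).comp
        (ContinuousLinearMap.snd ℝ ℝ (Fin n → ℝ)))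

theorem lxL_apply {n : ℕ} (x : Fin n → ℝ) (p : ℝ × (Fin n → ℝ)) : lxL x p = lx x p := by
  unfold lxL lx
  simp only [_root_.add_apply, _root_.smul_apply, _root_.sum_apply,
    ContinuousLinearMap.comp_apply, ContinuousLinearMap.proj_apply, smul_eq_mul,
    ContinuousLinearMap.coe_fst', ContinuousLinearMap.coe_snd']
  have : ∑ i, x i * p.2 i = ∑ i, p.2 i * x i := Finset.sum_congr rfl fun i _ => mul_comm _ _
  rw [this]; ring

theorem measurable_lx {n : ℕ} (p : ℝ × (Fin n → ℝ)) : Measurable fun x => lx x p := by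
  unfold lx; fun_prop

/-- Laplace type functional -/
noncomputable def Zf {n : ℕ} (μ : Measure (Fin n → ℝ)) (g : (Fin n → ℝ) → ℝ)
    (p : ℝ × (Fin n → ℝ)) : ℝ := ∫ x, g x * exp (lx x p) ∂μ

theorem CSupp.adm_exp_lx {n : ℕ} {μ : Measure (Fin n → ℝ)} {R : ℝ} (h : CSupp μ R)
    (p : ℝ × (Fin n → ℝ)) : Adm μ fun x => exp (lx x p) :=
  Adm.of_continuous h (by unfold lx; fun_prop)

theorem norm_lxL_le {n : ℕ} {R : ℝ} (hR : 0 ≤ R) {x : Fin n → ℝ} (hx : ∀ i, |x i| ≤ R) :
    ‖lxL x‖ ≤ n * R ^ 2 + n * R := by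
  have hx2 : ∀ i, x i ^ 2 ≤ R ^ 2 := fun i => by
    rw [← sq_abs]; exact pow_le_pow_left₀ (abs_nonneg _) (hx i) 2
  unfold lxL
  refine (norm_add_le _ _).trans (add_le_add ?_ ?_)
  · rw [norm_smul]
    have h1 : ‖(-(1 / 2 * ∑ i, x i ^ 2) : ℝ)‖ ≤ n * R ^ 2 := by
      have h0 : 0 ≤ ∑ i, x i ^ 2 := Finset.sum_nonneg fun i _ => sq_nonneg _
      have h2 : ∑ i, x i ^ 2 ≤ n * R ^ 2 := by
        refine (Finset.sum_le_sum fun i _ => hx2 i).trans ?_
        simp only [Finset.sum_const, Finset.card_univ, Fintype.card_fin, nsmul_eq_mul, Std.le_refl]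
      rw [norm_neg, Real.norm_of_nonneg (by (clear * -; positivity))]
      linarith
    calc _ ≤ n * R ^ 2 * 1 := mul_le_mul h1 (ContinuousLinearMap.norm_fst_le ℝ ℝ (Fin n → ℝ))
          (norm_nonneg _) (by (clear * -; positivity))
      _ = _ := mul_one _
  · refine (norm_sum_le _ _).trans ?_
    have : ∀ i ∈ (Finset.univ : Finset (Fin n)),
        ‖x i • ((ContinuousLinearMap.proj (R := ℝ) i : (Fin n → ℝ) →L[ℝ] ℝ).comp
        (ContinuousLinearMap.snd ℝ ℝ (Fin n → ℝ)))‖ ≤ R := by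
      intro i _
      rw [norm_smul]
      have h2 : ‖((ContinuousLinearMap.proj (R := ℝ) i : (Fin n → ℝ) →L[ℝ] ℝ).comp
        (ContinuousLinearMap.snd ℝ ℝ (Fin n → ℝ)))‖ ≤ 1 := by
        apply ContinuousLinearMap.opNorm_le_bound _ zero_le_one
        intro p
        simp only [ContinuousLinearMap.comp_apply, ContinuousLinearMap.proj_apply, one_mul,
          ContinuousLinearMap.coe_snd']
        exact (norm_le_pi_norm p.2 i).trans (norm_snd_le p)
      calc _ ≤ R * 1 := mul_le_mul (by simpa only [norm_eq_abs] using hx i) h2 (norm_nonneg _) hR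
        _ = R := mul_one _
    refine (Finset.sum_le_sum this).trans ?_
    simp only [Finset.sum_const, Finset.card_univ, Fintype.card_fin, nsmul_eq_mul, Std.le_refl]

/-- differentiation of the Laplace functional -/
theorem hasFDerivAt_Zf {n : ℕ} {μ : Measure (Fin n → ℝ)} [IsFiniteMeasure μ] {R : ℝ}
    (h : CSupp μ R) {g : (Fin n → ℝ) → ℝ} (hg : Adm μ g) (p : ℝ × (Fin n → ℝ)) :
    HasFDerivAt (Zf μ g)
      (Zf μ (fun x => -(1 / 2 * ∑ i, x i ^ 2) * g x) p • ContinuousLinearMap.fst ℝ ℝ (Fin n → ℝ)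
        + ∑ i, Zf μ (fun x => x i * g x) p •
          ((ContinuousLinearMap.proj (R := ℝ) i : (Fin n → ℝ) →L[ℝ] ℝ).comp
            (ContinuousLinearMap.snd ℝ ℝ (Fin n → ℝ)))) p := by
  have hR := h.nonneg
  obtain ⟨G, hG0, hG⟩ := hg.bdd
  set K := (n : ℝ) * R ^ 2 + n * R with hK
  have hK0 : 0 ≤ K := by (clear * - hR; positivity)
  have hF' : ∀ q : ℝ × (Fin n → ℝ), Measurable fun x => g x * exp (lx x q) := fun q =>
    hg.meas.mul (measurable_lx q).exp
  have key := hasFDerivAt_integral_of_dominated_of_fderiv_le (𝕜 := ℝ) (μ := μ)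
    (F := fun q x => g x * exp (lx x q))
    (F' := fun q x => (g x * exp (lx x q)) • lxL x) (x₀ := p)
    (s := Metric.ball p 1) (bound := fun _ => G * exp (K * (‖p‖ + 1)) * K)
    (Metric.ball_mem_nhds p one_pos)
    (Filter.Eventually.of_forall fun q => (hF' q).aestronglyMeasurable)
    (hg.mul (h.adm_exp_lx p)).integrable
    (by
      have hl : Measurable (lxL : (Fin n → ℝ) → _) := by
        unfold lxL
        apply Measurable.add
        · exact Measurable.smul_const (by fun_prop) _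
        · exact Finset.measurable_sum _ fun i _ => (measurable_pi_apply i).smul_const _
      exact ((hF' p).smul hl).aestronglyMeasurable)
    (by
      filter_upwards [hG, h.supp] with x hx1 hx2 q hq
      have hl := norm_lxL_le hR hx2
      rw [norm_smul, norm_mul, Real.norm_eq_abs, Real.norm_of_nonneg (exp_pos _).le]
      have hq1 : ‖q‖ ≤ ‖p‖ + 1 := by
        have : ‖q - p‖ < 1 := by rwa [← dist_eq_norm]
        calc ‖q‖ = ‖p + (q - p)‖ := by congr 1; abel
          _ ≤ ‖p‖ + ‖q - p‖ := norm_add_le _ _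
          _ ≤ _ := by linarith only [this]
      have hlq : lx x q ≤ K * (‖p‖ + 1) := by
        rw [← lxL_apply]
        calc lxL x q ≤ ‖lxL x q‖ := Real.le_norm_self _
          _ ≤ ‖lxL x‖ * ‖q‖ := ContinuousLinearMap.le_opNorm _ _
          _ ≤ K * (‖p‖ + 1) := mul_le_mul hl hq1 (norm_nonneg _) hK0
      apply mul_le_mul _ hl (norm_nonneg _) (by (clear * - hG0; positivity))
      exact mul_le_mul hx1 (exp_le_exp.2 hlq) (exp_pos _).le hG0)
    (integrable_const _)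
    (by
      refine Filter.Eventually.of_forall fun x q _ => ?_
      have h1 : HasFDerivAt (fun q => lx x q) (lxL x) q := by
        have := (lxL x).hasFDerivAt (x := q)
        have e : (fun q => lx x q) = fun q => lxL x q := by funext q; exact (lxL_apply x q).symm
        rw [e]; exact this
      have h2 := h1.exp.const_mul (g x)
      rw [smul_smul] at h2
      exact h2)
  refine key.congr_fderiv ?_
  have e1 : ∀ x, (g x * exp (lx x p)) • lxL x
      = (-(1 / 2 * ∑ i, x i ^ 2) * g x * exp (lx x p)) • ContinuousLinearMap.fst ℝ ℝ (Fin n → ℝ)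
        + ∑ i, (x i * g x * exp (lx x p)) •
          ((ContinuousLinearMap.proj (R := ℝ) i : (Fin n → ℝ) →L[ℝ] ℝ).comp
            (ContinuousLinearMap.snd ℝ ℝ (Fin n → ℝ))) := by
    intro x
    unfold lxL
    rw [smul_add, smul_smul, Finset.smul_sum]
    congr 1
    · congr 1; ring
    · apply Finset.sum_congr rfl
      intro i _
      rw [smul_smul]; congr 1; ring
  simp_rw [e1]
  have i1 : Integrable (fun x => -(1 / 2 * ∑ i, x i ^ 2) * g x * exp (lx x p)) μ :=
    (((h.adm_sq.const_mul (1 / 2)).neg.mul hg).mul (h.adm_exp_lx p)).integrable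
  have i2 : ∀ i, Integrable (fun x => x i * g x * exp (lx x p)) μ := fun i =>
    (((h.adm_coord i).mul hg).mul (h.adm_exp_lx p)).integrable
  rw [integral_add (i1.smul_const _) (integrable_finsetSum _ fun i _ => (i2 i).smul_const _),
    integral_smul_const, integral_finsetSum _ fun i _ => (i2 i).smul_const _]
  congr 1
  apply Finset.sum_congr rfl
  intro i _
  rw [integral_smul_const]
  rfl

theorem Adm.tmul {n : ℕ} {μ : Measure (Fin n → ℝ)} {R : ℝ}
    (h : CSupp μ R) {g : (Fin n → ℝ) → ℝ} (hg : Adm μ g) :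
    Adm μ fun x => -(1 / 2 * ∑ i, x i ^ 2) * g x := (h.adm_sq.const_mul (1 / 2)).neg.mul hg

theorem Adm.xmul {n : ℕ} {μ : Measure (Fin n → ℝ)} {R : ℝ}
    (h : CSupp μ R) {g : (Fin n → ℝ) → ℝ} (hg : Adm μ g) (i : Fin n) :
    Adm μ fun x => x i * g x := (h.adm_coord i).mul hg

theorem contDiff_Zf {n : ℕ} {μ : Measure (Fin n → ℝ)} [IsFiniteMeasure μ] {R : ℝ}
    (h : CSupp μ R) {g : (Fin n → ℝ) → ℝ} (hg : Adm μ g) (m : ℕ) : ContDiff ℝ m (Zf μ g) := by
  induction m generalizing g with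
  | zero =>
    have : Differentiable ℝ (Zf μ g) := fun p => (hasFDerivAt_Zf h hg p).differentiableAt
    exact_mod_cast contDiff_zero.2 this.continuous
  | succ m ih =>
    have hd : Differentiable ℝ (Zf μ g) := fun p => (hasFDerivAt_Zf h hg p).differentiableAt
    rw [show ((m + 1 : ℕ) : WithTop ℕ∞) = (m : WithTop ℕ∞) + 1 by push_cast; rfl]
    rw [contDiff_succ_iff_fderiv]
    refine ⟨hd, by simp only [WithTop.natCast_ne_top, IsEmpty.forall_iff], ?_⟩
    have e : fderiv ℝ (Zf μ g) = fun p =>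
      (Zf μ (fun x => -(1 / 2 * ∑ i, x i ^ 2) * g x) p • ContinuousLinearMap.fst ℝ ℝ (Fin n → ℝ)
        + ∑ i, Zf μ (fun x => x i * g x) p •
          ((ContinuousLinearMap.proj (R := ℝ) i : (Fin n → ℝ) →L[ℝ] ℝ).comp
            (ContinuousLinearMap.snd ℝ ℝ (Fin n → ℝ)))) := by
      funext p; exact (hasFDerivAt_Zf h hg p).fderiv
    rw [e]
    apply ContDiff.add
    · exact (ih (hg.tmul h)).smul contDiff_const
    · exact ContDiff.sum fun i _ => (ih (hg.xmul h i)).smul contDiff_const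

theorem dS_Zf {n : ℕ} {μ : Measure (Fin n → ℝ)} [IsFiniteMeasure μ] {R : ℝ}
    (h : CSupp μ R) {g : (Fin n → ℝ) → ℝ} (hg : Adm μ g) :
    dS (Zf μ g) = Zf μ (fun x => -(1 / 2 * ∑ i, x i ^ 2) * g x) := by
  funext p
  unfold dS
  rw [(hasFDerivAt_Zf h hg p).fderiv]
  simp only [one_div, neg_mul, add_apply, smul_apply, ContinuousLinearMap.coe_fst', smul_eq_mul, mul_one, sum_apply, ContinuousLinearMap.comp_apply, ContinuousLinearMap.coe_snd', ContinuousLinearMap.proj_apply, Pi.zero_apply, mul_zero, Finset.sum_const_zero, add_zero]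

theorem dI_Zf {n : ℕ} {μ : Measure (Fin n → ℝ)} [IsFiniteMeasure μ] {R : ℝ}
    (h : CSupp μ R) {g : (Fin n → ℝ) → ℝ} (hg : Adm μ g) (i : Fin n) :
    dI i (Zf μ g) = Zf μ (fun x => x i * g x) := by
  funext p
  unfold dI
  rw [(hasFDerivAt_Zf h hg p).fderiv]
  simp only [_root_.add_apply, _root_.smul_apply, _root_.sum_apply,
    ContinuousLinearMap.comp_apply, ContinuousLinearMap.proj_apply, smul_eq_mul,
    ContinuousLinearMap.coe_fst', ContinuousLinearMap.coe_snd', mul_zero, zero_add]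
  rw [Finset.sum_eq_single i]
  · simp
  · intro j _ hj; simp [hj]
  · simp only [Finset.mem_univ, not_true_eq_false, Pi.single_eq_same, mul_one, IsEmpty.forall_iff]

theorem Zf_congr {n : ℕ} {μ : Measure (Fin n → ℝ)} {g g' : (Fin n → ℝ) → ℝ} (h : ∀ x, g x = g' x) :
    Zf μ g = Zf μ g' := by
  have : g = g' := funext h
  rw [this]

theorem Zf_add {n : ℕ} {μ : Measure (Fin n → ℝ)} [IsFiniteMeasure μ] {R : ℝ}
    (h : CSupp μ R) {g g' : (Fin n → ℝ) → ℝ} (hg : Adm μ g) (hg' : Adm μ g') (p) :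
    Zf μ (fun x => g x + g' x) p = Zf μ g p + Zf μ g' p := by
  unfold Zf
  rw [← integral_add (hg.mul (h.adm_exp_lx p)).integrable (hg'.mul (h.adm_exp_lx p)).integrable]
  congr 1; funext x; ring

theorem Zf_const_mul {n : ℕ} {μ : Measure (Fin n → ℝ)} (c : ℝ) (g : (Fin n → ℝ) → ℝ) (p) :
    Zf μ (fun x => c * g x) p = c * Zf μ g p := by
  unfold Zf
  rw [← integral_const_mul]
  congr 1; funext x; ring

theorem Zf_sum {n : ℕ} {μ : Measure (Fin n → ℝ)} [IsFiniteMeasure μ] {R : ℝ}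
    (h : CSupp μ R) {ι : Type*} (s : Finset ι) {g : ι → (Fin n → ℝ) → ℝ}
    (hg : ∀ i ∈ s, Adm μ (g i)) (p) :
    Zf μ (fun x => ∑ i ∈ s, g i x) p = ∑ i ∈ s, Zf μ (g i) p := by
  unfold Zf
  rw [← integral_finsetSum _ fun i hi => ((hg i hi).mul (h.adm_exp_lx p)).integrable]
  congr 1; funext x; rw [Finset.sum_mul]

/-- the heat equation for the Laplace functional -/
theorem Zf_heat {n : ℕ} {μ : Measure (Fin n → ℝ)} [IsFiniteMeasure μ] {R : ℝ}
    (h : CSupp μ R) {g : (Fin n → ℝ) → ℝ} (hg : Adm μ g) (p) :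
    dS (Zf μ g) p + 1 / 2 * ∑ i, dI i (dI i (Zf μ g)) p = 0 := by
  rw [dS_Zf h hg]
  have e : ∀ i, dI i (dI i (Zf μ g)) p = Zf μ (fun x => x i * (x i * g x)) p := by
    intro i
    rw [dI_Zf h hg, dI_Zf h (hg.xmul h i)]
  simp_rw [e]
  rw [← Zf_sum h _ (fun i _ => (hg.xmul h i).xmul h i), ← Zf_const_mul, ← Zf_add h (hg.tmul h)
    ((Adm.sum _ fun i _ => (hg.xmul h i).xmul h i).const_mul _)]
  have : (fun x : Fin n → ℝ => -(1 / 2 * ∑ i, x i ^ 2) * g x + 1 / 2 * ∑ i, x i * (x i * g x))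
      = fun _ => 0 := by
    funext x
    have : ∑ i, x i * (x i * g x) = (∑ i, x i ^ 2) * g x := by
      rw [Finset.sum_mul]; apply Finset.sum_congr rfl; intro i _; ring
    rw [this]; ring
  rw [this]
  simp [Zf]

end Vale.Agent.P245
end
end

section

section

open MeasureTheory Real
open scoped ENNReal Topology

namespace Vale.Agent.P245

variable {n : ℕ}

/-! ### product and chain rules -/

theorem dS_mul {F G : ℝ × (Fin n → ℝ) → ℝ} (hF : Differentiable ℝ F) (hG : Differentiable ℝ G) :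
    dS (fun p => F p * G p) = fun p => F p * dS G p + G p * dS F p := by
  funext p
  unfold dS
  rw [fderiv_fun_mul (hF p) (hG p)]
  simp

theorem dI_mul {F G : ℝ × (Fin n → ℝ) → ℝ} (hF : Differentiable ℝ F) (hG : Differentiable ℝ G)
    (i : Fin n) :
    dI i (fun p => F p * G p) = fun p => F p * dI i G p + G p * dI i F p := by
  funext p
  unfold dI
  rw [fderiv_fun_mul (hF p) (hG p)]
  simp only [add_apply, smul_apply, smul_eq_mul]

theorem dS_add {F G : ℝ × (Fin n → ℝ) → ℝ} (hF : Differentiable ℝ F) (hG : Differentiable ℝ G) :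
    dS (fun p => F p + G p) = fun p => dS F p + dS G p := by
  funext p
  unfold dS
  rw [fderiv_fun_add (hF p) (hG p)]
  simp only [add_apply]

theorem dI_add {F G : ℝ × (Fin n → ℝ) → ℝ} (hF : Differentiable ℝ F) (hG : Differentiable ℝ G)
    (i : Fin n) :
    dI i (fun p => F p + G p) = fun p => dI i F p + dI i G p := by
  funext p
  unfold dI
  rw [fderiv_fun_add (hF p) (hG p)]
  simp only [add_apply]

theorem dS_comp {φ φ' : ℝ → ℝ} {F : ℝ × (Fin n → ℝ) → ℝ} (hF : Differentiable ℝ F)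
    (hφ : ∀ p, HasDerivAt φ (φ' (F p)) (F p)) :
    dS (fun p => φ (F p)) = fun p => φ' (F p) * dS F p := by
  funext p
  unfold dS
  have := (hφ p).comp_hasFDerivAt p (hF p).hasFDerivAt
  have e : fderiv ℝ (fun p => φ (F p)) p = φ' (F p) • fderiv ℝ F p := this.fderiv
  rw [e]
  simp

theorem dI_comp {φ φ' : ℝ → ℝ} {F : ℝ × (Fin n → ℝ) → ℝ} (hF : Differentiable ℝ F)
    (hφ : ∀ p, HasDerivAt φ (φ' (F p)) (F p)) (i : Fin n) :
    dI i (fun p => φ (F p)) = fun p => φ' (F p) * dI i F p := by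
  funext p
  unfold dI
  have := (hφ p).comp_hasFDerivAt p (hF p).hasFDerivAt
  have e : fderiv ℝ (fun p => φ (F p)) p = φ' (F p) • fderiv ℝ F p := this.fderiv
  rw [e]
  simp

/-- `∂_s + Δ/2` -/
noncomputable def Dop (F : ℝ × (Fin n → ℝ) → ℝ) (p : ℝ × (Fin n → ℝ)) : ℝ :=
  dS F p + 1 / 2 * ∑ i, dI i (dI i F) p

theorem diff_dI {F : ℝ × (Fin n → ℝ) → ℝ} (hF : ContDiff ℝ 2 F) (i : Fin n) :
    Differentiable ℝ (dI i F) :=
  (ContDiff.dI (m := 2) (k := 1) hF (by norm_num) i).differentiable (by norm_num)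

theorem dI_dI_mul {F G : ℝ × (Fin n → ℝ) → ℝ} (hF : ContDiff ℝ 2 F) (hG : ContDiff ℝ 2 G)
    (i : Fin n) :
    dI i (dI i (fun p => F p * G p)) = fun p => F p * dI i (dI i G) p + G p * dI i (dI i F) p
      + 2 * (dI i F p * dI i G p) := by
  have dF : Differentiable ℝ F := hF.differentiable (by norm_num)
  have dG : Differentiable ℝ G := hG.differentiable (by norm_num)
  rw [dI_mul dF dG, dI_add (F := fun p => F p * dI i G p) (G := fun p => G p * dI i F p)
    (dF.mul (diff_dI hG i)) (dG.mul (diff_dI hF i)),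
    dI_mul dF (diff_dI hG i), dI_mul dG (diff_dI hF i)]
  funext p
  ring

theorem Dop_mul {F G : ℝ × (Fin n → ℝ) → ℝ} (hF : ContDiff ℝ 2 F) (hG : ContDiff ℝ 2 G)
    (p : ℝ × (Fin n → ℝ)) :
    Dop (fun p => F p * G p) p = F p * Dop G p + G p * Dop F p + ∑ i, dI i F p * dI i G p := by
  have dF : Differentiable ℝ F := hF.differentiable (by norm_num)
  have dG : Differentiable ℝ G := hG.differentiable (by norm_num)
  unfold Dop
  simp_rw [dI_dI_mul hF hG]
  rw [dS_mul dF dG, Finset.sum_add_distrib, Finset.sum_add_distrib, ← Finset.mul_sum,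
    ← Finset.mul_sum, ← Finset.mul_sum]
  ring

theorem dI_dI_comp {φ φ' φ'' : ℝ → ℝ} {F : ℝ × (Fin n → ℝ) → ℝ} (hF : ContDiff ℝ 2 F)
    (hφ : ∀ p, HasDerivAt φ (φ' (F p)) (F p)) (hφ' : ∀ p, HasDerivAt φ' (φ'' (F p)) (F p))
    (i : Fin n) :
    dI i (dI i (fun p => φ (F p))) = fun p => φ' (F p) * dI i (dI i F) p
      + φ'' (F p) * dI i F p ^ 2 := by
  have dF : Differentiable ℝ F := hF.differentiable (by norm_num)
  rw [dI_comp dF hφ, dI_mul (F := fun p => φ' (F p)) (fun p => ((hφ' p).comp_hasFDerivAt p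
    (dF p).hasFDerivAt).differentiableAt) (diff_dI hF i), dI_comp dF hφ']
  funext p
  ring

theorem Dop_comp {φ φ' φ'' : ℝ → ℝ} {F : ℝ × (Fin n → ℝ) → ℝ} (hF : ContDiff ℝ 2 F)
    (hφ : ∀ p, HasDerivAt φ (φ' (F p)) (F p)) (hφ' : ∀ p, HasDerivAt φ' (φ'' (F p)) (F p))
    (p : ℝ × (Fin n → ℝ)) :
    Dop (fun p => φ (F p)) p = φ' (F p) * Dop F p + 1 / 2 * (φ'' (F p) * ∑ i, dI i F p ^ 2) := by
  have dF : Differentiable ℝ F := hF.differentiable (by norm_num)
  unfold Dop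
  simp_rw [dI_dI_comp hF hφ hφ']
  rw [dS_comp dF hφ, Finset.sum_add_distrib, ← Finset.mul_sum, ← Finset.mul_sum]
  ring

/-! ### posterior means -/

/-- partition function -/
noncomputable def Zo (μ : Measure (Fin n → ℝ)) : ℝ × (Fin n → ℝ) → ℝ := Zf μ fun _ => 1

/-- posterior mean of `g` -/
noncomputable def Mf (μ : Measure (Fin n → ℝ)) (g : (Fin n → ℝ) → ℝ) (p : ℝ × (Fin n → ℝ)) : ℝ :=
  Zf μ g p / Zo μ p

/-- generator of the channel process -/
noncomputable def Lop (μ : Measure (Fin n → ℝ)) (F : ℝ × (Fin n → ℝ) → ℝ)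
    (p : ℝ × (Fin n → ℝ)) : ℝ :=
  Dop F p + ∑ i, Mf μ (fun x => x i) p * dI i F p

variable {μ : Measure (Fin n → ℝ)} [IsProbabilityMeasure μ] {R : ℝ}

theorem Zo_pos (h : CSupp μ R) (p : ℝ × (Fin n → ℝ)) : 0 < Zo μ p := by
  unfold Zo Zf
  simp only [one_mul]
  exact integral_exp_pos (h.adm_exp_lx p).integrable

theorem contDiff_Zo (h : CSupp μ R) (m : ℕ) : ContDiff ℝ m (Zo μ) := contDiff_Zf h (Adm.const μ 1) m

theorem contDiff_Mf (h : CSupp μ R) {g : (Fin n → ℝ) → ℝ} (hg : Adm μ g) (m : ℕ) :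
    ContDiff ℝ m (Mf μ g) :=
  (contDiff_Zf h hg m).div (contDiff_Zo h m) fun p => (Zo_pos h p).ne'

theorem dI_Zo (h : CSupp μ R) (i : Fin n) (p : ℝ × (Fin n → ℝ)) :
    dI i (Zo μ) p = Zo μ p * Mf μ (fun x => x i) p := by
  have e : dI i (Zo μ) = _ := dI_Zf h (Adm.const μ 1) i
  rw [e]
  unfold Mf
  simp only [mul_one]
  rw [mul_div_cancel₀]
  exact (Zo_pos h p).ne'

theorem Dop_Zo_mul (h : CSupp μ R) {F : ℝ × (Fin n → ℝ) → ℝ} (hF : ContDiff ℝ 2 F)
    (p : ℝ × (Fin n → ℝ)) :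
    Dop (fun p => Zo μ p * F p) p = Zo μ p * Lop μ F p := by
  rw [Dop_mul (by exact_mod_cast contDiff_Zo h 2) hF]
  have : Dop (Zo μ) p = 0 := Zf_heat h (Adm.const μ 1) p
  rw [this]
  unfold Lop
  simp_rw [dI_Zo h]
  rw [mul_add, Finset.mul_sum]
  congr 1
  · ring
  · apply Finset.sum_congr rfl; intro i _; ring

theorem Zf_eq_mul (h : CSupp μ R) (g : (Fin n → ℝ) → ℝ) (p : ℝ × (Fin n → ℝ)) :
    Zf μ g p = Zo μ p * Mf μ g p := by
  unfold Mf
  rw [mul_div_cancel₀]
  exact (Zo_pos h p).ne'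

theorem Lop_Mf (h : CSupp μ R) {g : (Fin n → ℝ) → ℝ} (hg : Adm μ g) (p : ℝ × (Fin n → ℝ)) :
    Lop μ (Mf μ g) p = 0 := by
  have h1 := Dop_Zo_mul h (F := Mf μ g) (by exact_mod_cast contDiff_Mf h hg 2) p
  have h2 : (fun p => Zo μ p * Mf μ g p) = Zf μ g := by funext q; exact (Zf_eq_mul h g q).symm
  rw [h2] at h1
  have h3 : Dop (Zf μ g) p = 0 := Zf_heat h hg p
  rw [h3] at h1
  exact (mul_eq_zero.1 h1.symm).resolve_left (Zo_pos h p).ne'

omit [IsProbabilityMeasure μ] in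
theorem Lop_mul {F G : ℝ × (Fin n → ℝ) → ℝ} (hF : ContDiff ℝ 2 F) (hG : ContDiff ℝ 2 G)
    (p : ℝ × (Fin n → ℝ)) :
    Lop μ (fun p => F p * G p) p = F p * Lop μ G p + G p * Lop μ F p
      + ∑ i, dI i F p * dI i G p := by
  unfold Lop
  rw [Dop_mul hF hG]
  simp_rw [dI_mul (hF.differentiable (by norm_num)) (hG.differentiable (by norm_num))]
  have : ∑ i, Mf μ (fun x => x i) p * (F p * dI i G p + G p * dI i F p)
      = F p * ∑ i, Mf μ (fun x => x i) p * dI i G p + G p * ∑ i, Mf μ (fun x => x i) p * dI i F p := by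
    rw [Finset.mul_sum, Finset.mul_sum, ← Finset.sum_add_distrib]
    apply Finset.sum_congr rfl; intro i _; ring
  rw [this]; ring

omit [IsProbabilityMeasure μ] in
theorem Lop_comp {φ φ' φ'' : ℝ → ℝ} {F : ℝ × (Fin n → ℝ) → ℝ} (hF : ContDiff ℝ 2 F)
    (hφ : ∀ p, HasDerivAt φ (φ' (F p)) (F p)) (hφ' : ∀ p, HasDerivAt φ' (φ'' (F p)) (F p))
    (p : ℝ × (Fin n → ℝ)) :
    Lop μ (fun p => φ (F p)) p
      = φ' (F p) * Lop μ F p + 1 / 2 * (φ'' (F p) * ∑ i, dI i F p ^ 2) := by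
  unfold Lop
  rw [Dop_comp hF hφ hφ']
  simp_rw [dI_comp (hF.differentiable (by norm_num)) hφ]
  have : ∑ i, Mf μ (fun x => x i) p * (φ' (F p) * dI i F p)
      = φ' (F p) * ∑ i, Mf μ (fun x => x i) p * dI i F p := by
    rw [Finset.mul_sum]; apply Finset.sum_congr rfl; intro i _; ring
  rw [this]; ring

/-! ### derivatives of posterior means -/

theorem dI_Mf (h : CSupp μ R) {g : (Fin n → ℝ) → ℝ} (hg : Adm μ g) (i : Fin n) :
    dI i (Mf μ g) = fun p => Mf μ (fun x => x i * g x) p - Mf μ g p * Mf μ (fun x => x i) p := by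
  funext p
  have h2 : (fun p => Zo μ p * Mf μ g p) = Zf μ g := by funext q; exact (Zf_eq_mul h g q).symm
  have h3 := congrFun (dI_mul (n := n) ((contDiff_Zo h 1).differentiable (by norm_num))
    ((contDiff_Mf h hg 1).differentiable (by norm_num)) i) p
  rw [h2, dI_Zf h hg, dI_Zo h] at h3
  have hz := (Zo_pos h p).ne'
  rw [Zf_eq_mul h] at h3
  have : Zo μ p * (Mf μ (fun x => x i * g x) p)
      = Zo μ p * (dI i (Mf μ g) p + Mf μ g p * Mf μ (fun x => x i) p) := by
    rw [h3]; ring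
  have := mul_left_cancel₀ hz this
  linarith only [this]

theorem dS_Zo (h : CSupp μ R) (p : ℝ × (Fin n → ℝ)) :
    dS (Zo μ) p = -(Zo μ p * (1 / 2 * Mf μ (fun x => ∑ i, x i ^ 2) p)) := by
  unfold Zo
  rw [dS_Zf h (Adm.const μ 1)]
  have e : Zf μ (fun x : Fin n → ℝ => -(1 / 2 * ∑ i, x i ^ 2) * 1)
      = fun p => -(1 / 2) * Zf μ (fun x => ∑ i, x i ^ 2) p := by
    funext q
    rw [← Zf_const_mul]
    apply congrFun
    apply Zf_congr
    intro x; ring
  rw [e]
  change -(1 / 2) * Zf μ (fun x => ∑ i, x i ^ 2) p = -(Zo μ p * _)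
  rw [Zf_eq_mul h (fun x => ∑ i, x i ^ 2)]
  ring

theorem dS_Mf (h : CSupp μ R) {g : (Fin n → ℝ) → ℝ} (hg : Adm μ g) :
    dS (Mf μ g) = fun p => 1 / 2 * (Mf μ g p * Mf μ (fun x => ∑ i, x i ^ 2) p
      - Mf μ (fun x => (∑ i, x i ^ 2) * g x) p) := by
  funext p
  have h2 : (fun p => Zo μ p * Mf μ g p) = Zf μ g := by funext q; exact (Zf_eq_mul h g q).symm
  have h3 := congrFun (dS_mul (n := n) ((contDiff_Zo h 1).differentiable (by norm_num))
    ((contDiff_Mf h hg 1).differentiable (by norm_num))) p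
  rw [h2, dS_Zf h hg] at h3
  have hz := (Zo_pos h p).ne'
  rw [dS_Zo h] at h3
  have e : Zf μ (fun x : Fin n → ℝ => -(1 / 2 * ∑ i, x i ^ 2) * g x) p
      = -(1 / 2) * Zf μ (fun x => (∑ i, x i ^ 2) * g x) p := by
    rw [← Zf_const_mul]
    apply congrFun
    apply Zf_congr
    intro x; ring
  rw [e, Zf_eq_mul h (fun x => (∑ i, x i ^ 2) * g x)] at h3
  have : Zo μ p * dS (Mf μ g) p = Zo μ p * (1 / 2 * (Mf μ g p * Mf μ (fun x => ∑ i, x i ^ 2) p
      - Mf μ (fun x => (∑ i, x i ^ 2) * g x) p)) := by linarith only [h3]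
  exact mul_left_cancel₀ hz this

/-! ### bounds -/

theorem Mf_abs_le (h : CSupp μ R) {g : (Fin n → ℝ) → ℝ} (hg : Adm μ g) {G : ℝ}
    (hG : ∀ᵐ x ∂μ, |g x| ≤ G) (p : ℝ × (Fin n → ℝ)) : |Mf μ g p| ≤ G := by
  unfold Mf
  rw [abs_div, abs_of_pos (Zo_pos h p), div_le_iff₀ (Zo_pos h p)]
  unfold Zo Zf
  rw [← integral_const_mul]
  refine (abs_integral_le_integral_abs).trans ?_
  apply integral_mono_ae
  · exact (hg.mul (h.adm_exp_lx p)).integrable.abs
  · exact (((Adm.const μ 1).mul (h.adm_exp_lx p)).const_mul G).integrable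
  · filter_upwards [hG] with x hx
    rw [abs_mul, abs_of_pos (exp_pos _), one_mul]
    exact mul_le_mul_of_nonneg_right hx (exp_pos _).le

theorem Mf_mono (h : CSupp μ R) {g g' : (Fin n → ℝ) → ℝ} (hg : Adm μ g) (hg' : Adm μ g')
    (hG : ∀ᵐ x ∂μ, g x ≤ g' x) (p : ℝ × (Fin n → ℝ)) : Mf μ g p ≤ Mf μ g' p := by
  unfold Mf
  apply div_le_div_of_nonneg_right _ (Zo_pos h p).le
  unfold Zf
  apply integral_mono_ae (hg.mul (h.adm_exp_lx p)).integrable (hg'.mul (h.adm_exp_lx p)).integrable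
  filter_upwards [hG] with x hx
  exact mul_le_mul_of_nonneg_right hx (exp_pos _).le

theorem Mf_const (h : CSupp μ R) (c : ℝ) (p : ℝ × (Fin n → ℝ)) : Mf μ (fun _ => c) p = c := by
  unfold Mf
  have : Zf μ (fun _ : Fin n → ℝ => c) p = c * Zo μ p := by
    unfold Zo
    rw [← Zf_const_mul]
    simp
  rw [this, mul_div_assoc, div_self (Zo_pos h p).ne', mul_one]

theorem Mf_add (h : CSupp μ R) {g g' : (Fin n → ℝ) → ℝ} (hg : Adm μ g) (hg' : Adm μ g')
    (p : ℝ × (Fin n → ℝ)) : Mf μ (fun x => g x + g' x) p = Mf μ g p + Mf μ g' p := by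
  unfold Mf; rw [Zf_add h hg hg', add_div]

omit [IsProbabilityMeasure μ] in
theorem Mf_const_mul (c : ℝ) (g : (Fin n → ℝ) → ℝ) (p : ℝ × (Fin n → ℝ)) :
    Mf μ (fun x => c * g x) p = c * Mf μ g p := by
  unfold Mf; rw [Zf_const_mul, mul_div_assoc]

theorem Mf_sum (h : CSupp μ R) {ι : Type*} (s : Finset ι) {g : ι → (Fin n → ℝ) → ℝ}
    (hg : ∀ i ∈ s, Adm μ (g i)) (p : ℝ × (Fin n → ℝ)) :
    Mf μ (fun x => ∑ i ∈ s, g i x) p = ∑ i ∈ s, Mf μ (g i) p := by
  unfold Mf; rw [Zf_sum h s hg, Finset.sum_div]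

/-- second order bounded functions on the slab `0 ≤ s ≤ T` -/
structure B2 (T : ℝ) (F : ℝ × (Fin n → ℝ) → ℝ) : Prop where
  cd : ContDiff ℝ 2 F
  bd : ∃ C, 0 ≤ C ∧ ∀ p : ℝ × (Fin n → ℝ), 0 ≤ p.1 → p.1 ≤ T → |F p| ≤ C ∧ |dS F p| ≤ C ∧
    (∀ i, |dI i F p| ≤ C) ∧ ∀ i, |dI i (dI i F) p| ≤ C

theorem GB.mul {T C C' : ℝ} {F G : ℝ × (Fin n → ℝ) → ℝ} (hC : 0 ≤ C) (h : GB T C F)
    (hG : ∀ p : ℝ × (Fin n → ℝ), 0 ≤ p.1 → p.1 ≤ T → |G p| ≤ C') (hC' : 0 ≤ C') :
    GB T (C * (1 + C')) fun p => F p * G p := by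
  intro p h0 h1
  have hS0 : 0 ≤ ∑ i, |p.2 i| := Finset.sum_nonneg fun j _ => abs_nonneg _
  rw [abs_mul]
  calc |F p| * |G p| ≤ (C * exp (C * ∑ i, |p.2 i|)) * C' :=
        mul_le_mul (h p h0 h1) (hG p h0 h1) (abs_nonneg _) (by (clear * - hC; positivity))
    _ ≤ (C * exp (C * (1 + C') * ∑ i, |p.2 i|)) * (1 + C') := by
        apply mul_le_mul _ (by linarith) hC' (by positivity)
        apply mul_le_mul_of_nonneg_left _ hC
        apply exp_le_exp.2
        have := mul_nonneg (mul_nonneg hC hC') hS0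
        linarith
    _ = _ := by ring

theorem GB.add {T C C' : ℝ} {F G : ℝ × (Fin n → ℝ) → ℝ} (hC : 0 ≤ C) (h : GB T C F)
    (h' : GB T C' G) (hC' : 0 ≤ C') : GB T (C + C') fun p => F p + G p := by
  intro p h0 h1
  have hS0 : 0 ≤ ∑ i, |p.2 i| := Finset.sum_nonneg fun j _ => abs_nonneg _
  have e1 : exp (C * ∑ i, |p.2 i|) ≤ exp ((C + C') * ∑ i, |p.2 i|) :=
    exp_le_exp.2 (mul_le_mul_of_nonneg_right (by linarith only [hC']) hS0)
  have e2 : exp (C' * ∑ i, |p.2 i|) ≤ exp ((C + C') * ∑ i, |p.2 i|) :=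
    exp_le_exp.2 (mul_le_mul_of_nonneg_right (by linarith only [hC]) hS0)
  calc |F p + G p| ≤ |F p| + |G p| := abs_add_le _ _
    _ ≤ C * exp (C * ∑ i, |p.2 i|) + C' * exp (C' * ∑ i, |p.2 i|) := add_le_add (h p h0 h1)
        (h' p h0 h1)
    _ ≤ C * exp ((C + C') * ∑ i, |p.2 i|) + C' * exp ((C + C') * ∑ i, |p.2 i|) :=
        add_le_add (mul_le_mul_of_nonneg_left e1 hC) (mul_le_mul_of_nonneg_left e2 hC')
    _ = _ := by ring

theorem GB_Zf (h : CSupp μ R) {g : (Fin n → ℝ) → ℝ} (hg : Adm μ g) (T : ℝ) :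
    ∃ C, 0 ≤ C ∧ GB T C (Zf μ g) := by
  obtain ⟨G, hG0, hG⟩ := hg.bdd
  have hR := h.nonneg
  refine ⟨G + R, by (clear * - hG0 hR; positivity), fun p h0 h1 => ?_⟩
  have hS0 : 0 ≤ ∑ i, |p.2 i| := Finset.sum_nonneg fun j _ => abs_nonneg _
  have e1 : exp (R * ∑ i, |p.2 i|) ≤ exp ((G + R) * ∑ i, |p.2 i|) :=
    exp_le_exp.2 (mul_le_mul_of_nonneg_right (by linarith only [hG0]) hS0)
  unfold Zf
  refine (abs_integral_le_integral_abs).trans ?_
  have : ∀ᵐ x ∂μ, |g x * exp (lx x p)| ≤ G * exp (R * ∑ i, |p.2 i|) := by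
    filter_upwards [hG, h.supp] with x hx hx2
    rw [abs_mul, abs_of_pos (exp_pos _)]
    apply mul_le_mul hx _ (exp_pos _).le hG0
    apply exp_le_exp.2
    unfold lx
    have a1 : 0 ≤ p.1 / 2 * ∑ i, x i ^ 2 := by (clear * - h0; positivity)
    have a2 : ∑ i, p.2 i * x i ≤ R * ∑ i, |p.2 i| := by
      rw [Finset.mul_sum]
      apply Finset.sum_le_sum
      intro i _
      calc p.2 i * x i ≤ |p.2 i * x i| := le_abs_self _
        _ = |p.2 i| * |x i| := abs_mul _ _
        _ ≤ |p.2 i| * R := mul_le_mul_of_nonneg_left (hx2 i) (abs_nonneg _)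
        _ = _ := mul_comm _ _
    linarith
  calc ∫ x, |g x * exp (lx x p)| ∂μ ≤ ∫ _, G * exp (R * ∑ i, |p.2 i|) ∂μ :=
        integral_mono_ae (hg.mul (h.adm_exp_lx p)).integrable.abs (integrable_const _) this
    _ = G * exp (R * ∑ i, |p.2 i|) := by simp only [integral_const, probReal_univ, smul_eq_mul, one_mul]
    _ ≤ (G + R) * exp ((G + R) * ∑ i, |p.2 i|) := mul_le_mul (by linarith) e1 (exp_pos _).le
        (by (clear * - hG0 hR; positivity))

theorem continuous_Dop {F : ℝ × (Fin n → ℝ) → ℝ} (hF : ContDiff ℝ 2 F) : Continuous (Dop F) := by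
  unfold Dop
  refine ((ContDiff.dS (m := 2) (k := 0) hF (by norm_num)).continuous).add
    (continuous_const.mul (continuous_finsetSum _ fun i _ => ?_))
  exact (ContDiff.dI (m := 1) (k := 0) (ContDiff.dI (m := 2) (k := 1) hF (by norm_num) i)
    (by norm_num) i).continuous

/-- the channel derivative formula -/
theorem chan_deriv (h : CSupp μ R) {T : ℝ} {F : ℝ × (Fin n → ℝ) → ℝ} (hF : B2 T F) {r : ℝ}
    (hr : r ^ 2 < T) :
    HasDerivAt (fun r : ℝ => ∫ z, Zo μ (r ^ 2, r • z) * F (r ^ 2, r • z) ∂(gsn n))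
      (2 * r * ∫ z, Zo μ (r ^ 2, r • z) * Lop μ F (r ^ 2, r • z) ∂(gsn n)) r := by
  obtain ⟨C, hC0, hC⟩ := hF.bd
  have hT : 0 < T := lt_of_le_of_lt (sq_nonneg r) hr
  have hz2 : ContDiff ℝ 2 (Zo μ) := by exact_mod_cast contDiff_Zo h 2
  have dZ : Differentiable ℝ (Zo μ) := hz2.differentiable (by norm_num)
  have dF : Differentiable ℝ F := hF.cd.differentiable (by norm_num)
  -- growth bounds for Z
  obtain ⟨C0, hC00, g0⟩ := GB_Zf h (Adm.const μ 1) T
  obtain ⟨C1, hC10, g1⟩ := GB_Zf h ((Adm.const μ 1).tmul h) T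
  have g2 : ∀ i, ∃ C, 0 ≤ C ∧ GB T C (Zf μ fun x => x i * 1) := fun i =>
    GB_Zf h ((Adm.const μ 1).xmul h i) T
  have g3 : ∀ i, ∃ C, 0 ≤ C ∧ GB T C (Zf μ fun x => x i * (x i * 1)) := fun i =>
    GB_Zf h (((Adm.const μ 1).xmul h i).xmul h i) T
  choose C2 hC20 g2 using g2
  choose C3 hC30 g3 using g3
  have S2 : ∀ i, C2 i ≤ ∑ i, C2 i := fun i =>
    Finset.single_le_sum (f := C2) (fun j _ => hC20 j) (Finset.mem_univ i)
  have S3 : ∀ i, C3 i ≤ ∑ i, C3 i := fun i =>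
    Finset.single_le_sum (f := C3) (fun j _ => hC30 j) (Finset.mem_univ i)
  set K := C0 + C1 + ∑ i, C2 i + ∑ i, C3 i with hK
  have hs2 : 0 ≤ ∑ i, C2 i := Finset.sum_nonneg fun i _ => hC20 i
  have hs3 : 0 ≤ ∑ i, C3 i := Finset.sum_nonneg fun i _ => hC30 i
  have hK0 : 0 ≤ K := by (clear * - hC00 hC10 hs2 hs3; positivity)
  have k0 : GB T K (Zo μ) := g0.mono hC00 (by linarith)
  have k1 : GB T K (dS (Zo μ)) := by
    have : dS (Zo μ) = _ := dS_Zf h (Adm.const μ 1)
    rw [this]; exact g1.mono hC10 (by linarith only [hC00, hs2, hs3])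
  have k2 : ∀ i, GB T K (dI i (Zo μ)) := fun i => by
    have : dI i (Zo μ) = _ := dI_Zf h (Adm.const μ 1) i
    rw [this]; exact (g2 i).mono (hC20 i) (by linarith only [hC00, hC10, hs3, S2 i])
  have k3 : ∀ i, GB T K (dI i (dI i (Zo μ))) := fun i => by
    have : dI i (Zo μ) = _ := dI_Zf h (Adm.const μ 1) i
    rw [this, dI_Zf h ((Adm.const μ 1).xmul h i) i]
    exact (g3 i).mono (hC30 i) (by linarith [S3 i])
  set K' := K * (1 + C) with hK'
  have hK'0 : 0 ≤ K' := by (clear * - hC00 hC10 hs2 hs3 hC0; positivity)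
  have key := heat (H := fun p => Zo μ p * F p) (T := T) (C := 4 * K') (hz2.mul hF.cd)
    (by (clear * - hC00 hC10 hs2 hs3 hC0; positivity))
    ((GB.mul hK0 k0 (fun p a b => (hC p a b).1) hC0).mono hK'0 (by linarith only [hK'0]))
    (by
      rw [dS_mul dZ dF]
      have e1 := GB.mul hK0 k0 (fun p a b => (hC p a b).2.1) hC0
      have e2 := GB.mul hK0 k1 (fun p a b => (hC p a b).1) hC0
      have e3 := GB.add hK'0 e1 e2 hK'0
      have : (fun p => Zo μ p * dS F p + F p * dS (Zo μ) p)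
          = fun p => Zo μ p * dS F p + dS (Zo μ) p * F p := by funext p; ring
      rw [this]
      exact e3.mono (by (clear * - hC00 hC10 hs2 hs3 hC0; positivity)) (by linarith only [hK'0]))
    (fun i => by
      rw [dI_mul dZ dF]
      have e1 := GB.mul hK0 k0 (fun p a b => (hC p a b).2.2.1 i) hC0
      have e2 := GB.mul hK0 (k2 i) (fun p a b => (hC p a b).1) hC0
      have e3 := GB.add hK'0 e1 e2 hK'0
      have : (fun p => Zo μ p * dI i F p + F p * dI i (Zo μ) p)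
          = fun p => Zo μ p * dI i F p + dI i (Zo μ) p * F p := by funext p; ring
      rw [this]
      exact e3.mono (by (clear * - hC00 hC10 hs2 hs3 hC0; positivity)) (by linarith only [hK'0]))
    (fun i => by
      rw [dI_dI_mul hz2 hF.cd]
      have e1 := GB.mul hK0 k0 (fun p a b => (hC p a b).2.2.2 i) hC0
      have e2 := GB.mul hK0 (k3 i) (fun p a b => (hC p a b).1) hC0
      have e3 := GB.mul hK0 (k2 i) (fun p a b => (hC p a b).2.2.1 i) hC0
      have e4 := GB.add (by (clear * - hC00 hC10 hs2 hs3 hC0; positivity)) (GB.add hK'0 e1 e2 hK'0)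
        (GB.add hK'0 e3 e3 hK'0) (by (clear * - hC00 hC10 hs2 hs3 hC0; positivity))
      have : (fun p => Zo μ p * dI i (dI i F) p + F p * dI i (dI i (Zo μ)) p
          + 2 * (dI i (Zo μ) p * dI i F p))
          = fun p => (Zo μ p * dI i (dI i F) p + dI i (dI i (Zo μ)) p * F p)
          + (dI i (Zo μ) p * dI i F p + dI i (Zo μ) p * dI i F p) := by funext p; ring
      rw [this]
      exact e4.mono (by (clear * - hC00 hC10 hs2 hs3 hC0; positivity)) (by linarith only []))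
    hr
  refine key.congr_deriv ?_
  congr 1
  apply integral_congr_ae
  filter_upwards with z
  exact Dop_Zo_mul h hF.cd _

end Vale.Agent.P245
end
end

section

section

open MeasureTheory Real
open scoped ENNReal Topology

namespace Vale.Agent.P245

variable {n : ℕ} {μ : Measure (Fin n → ℝ)} [IsProbabilityMeasure μ] {R : ℝ}

theorem EG1.const (c : ℝ) : EG1 (fun _ : Fin n → ℝ => c) := by
  refine ⟨|c|, abs_nonneg _, fun z => ?_⟩
  have hS0 : 0 ≤ ∑ i, |z i| := Finset.sum_nonneg fun j _ => abs_nonneg _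
  have : 1 ≤ exp (|c| * ∑ i, |z i|) := one_le_exp (by positivity)
  calc |c| = |c| * 1 := (mul_one _).symm
    _ ≤ _ := mul_le_mul_of_nonneg_left this (abs_nonneg _)

theorem EG1.coord (i : Fin n) : EG1 (fun z : Fin n → ℝ => z i) := by
  simpa using (EG1.const (n := n) 1).mul_coord i

theorem gauss_mean (i : Fin n) : ∫ z, z i ∂(gsn n) = 0 := by
  have h : ∀ z : Fin n → ℝ, fderiv ℝ (fun _ : Fin n → ℝ => (1 : ℝ)) z (Pi.single i 1) = 0 := by
    intro z; simp
  have := gauss_ibp (φ := fun _ : Fin n → ℝ => (1 : ℝ)) (differentiable_const _) (EG1.const 1) i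
    (by simp_rw [h]; exact EG1.const 0) (by simp_rw [h]; exact aestronglyMeasurable_const)
  simp_rw [h] at this
  simpa using this

theorem gauss_sq (i : Fin n) : ∫ z, z i ^ 2 ∂(gsn n) = 1 := by
  have h : ∀ z : Fin n → ℝ, fderiv ℝ (fun z : Fin n → ℝ => z i) z (Pi.single i 1) = 1 := by
    intro z
    have : HasFDerivAt (fun z : Fin n → ℝ => z i)
      (ContinuousLinearMap.proj (R := ℝ) i : (Fin n → ℝ) →L[ℝ] ℝ) z :=
      (ContinuousLinearMap.proj (R := ℝ) i : (Fin n → ℝ) →L[ℝ] ℝ).hasFDerivAt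
    rw [this.fderiv]; simp
  have := gauss_ibp (φ := fun z : Fin n → ℝ => z i) (by fun_prop) (EG1.coord i) i
    (by simp_rw [h]; exact EG1.const 1) (by simp_rw [h]; exact aestronglyMeasurable_const)
  simp_rw [h] at this
  simpa [sq] using this

/-- Bayes rule -/
theorem tower (h : CSupp μ R) {g : (Fin n → ℝ) → ℝ} (hg : Adm μ g) {Φ : (Fin n → ℝ) → ℝ}
    (hm : Measurable Φ) (hΦ : EG1 Φ) (r : ℝ) :
    ∫ z, Zf μ g (r ^ 2, r • z) * Φ (r • z) ∂(gsn n)
      = ∫ x, g x * ∫ z, Φ (r ^ 2 • x + r • z) ∂(gsn n) ∂μ := by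
  obtain ⟨G, hG0, hG⟩ := hg.bdd
  obtain ⟨C, hC0, hC⟩ := hΦ
  have hR := h.nonneg
  have e1 : ∀ z : Fin n → ℝ, Zf μ g (r ^ 2, r • z) * Φ (r • z)
      = ∫ x, g x * exp (lx x (r ^ 2, r • z)) * Φ (r • z) ∂μ := by
    intro z; unfold Zf; rw [integral_mul_const]
  simp_rw [e1]
  have hint : Integrable (Function.uncurry fun (z x : Fin n → ℝ) =>
      g x * exp (lx x (r ^ 2, r • z)) * Φ (r • z)) ((gsn n).prod μ) := by
    have hb : Integrable (fun q : (Fin n → ℝ) × (Fin n → ℝ) =>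
        (G * C) * exp ((R + C) * |r| * ∑ i, |q.1 i|)) ((gsn n).prod μ) := by
      have := ((integrable_exp_abs (n := n) ((R + C) * |r|)).const_mul (G * C)).mul_prod
        (integrable_const (1 : ℝ) (μ := μ))
      simpa only [mul_one] using this
    refine hb.mono' ?_ ?_
    · apply Measurable.aestronglyMeasurable
      unfold Function.uncurry lx
      apply Measurable.mul
      · apply Measurable.mul (hg.meas.comp measurable_snd)
        apply Measurable.exp
        simp only [Pi.smul_apply, smul_eq_mul]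
        fun_prop
      · exact hm.comp ((measurable_const_smul r).comp measurable_fst)
    · have hae : ∀ᵐ q ∂((gsn n).prod μ), (|g q.2| ≤ G ∧ ∀ i, |q.2 i| ≤ R) := by
        have : ∀ᵐ x ∂μ, (|g x| ≤ G ∧ ∀ i, |x i| ≤ R) := by
          filter_upwards [hG, h.supp] with x h1 h2 using ⟨h1, h2⟩
        exact Measure.quasiMeasurePreserving_snd.ae this
      filter_upwards [hae] with q hq
      simp only [Function.uncurry]
      rw [norm_mul, norm_mul, Real.norm_eq_abs, Real.norm_eq_abs, Real.norm_eq_abs,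
        abs_of_pos (exp_pos _)]
      have es : ∑ i, |(r • q.1) i| = |r| * ∑ i, |q.1 i| := by
        rw [Finset.mul_sum]; apply Finset.sum_congr rfl; intro i _
        rw [Pi.smul_apply, smul_eq_mul, abs_mul]
      have a1 : lx q.2 (r ^ 2, r • q.1) ≤ R * (|r| * ∑ i, |q.1 i|) := by
        rw [← es]
        unfold lx
        have a1 : 0 ≤ r ^ 2 / 2 * ∑ i, q.2 i ^ 2 := by (clear * -; positivity)
        have a2 : ∑ i, (r • q.1) i * q.2 i ≤ R * ∑ i, |(r • q.1) i| := by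
          rw [Finset.mul_sum]
          apply Finset.sum_le_sum
          intro i _
          calc (r • q.1) i * q.2 i ≤ |(r • q.1) i * q.2 i| := le_abs_self _
            _ = |(r • q.1) i| * |q.2 i| := abs_mul _ _
            _ ≤ |(r • q.1) i| * R := mul_le_mul_of_nonneg_left (hq.2 i) (abs_nonneg _)
            _ = _ := mul_comm _ _
        simp only at a1 a2 ⊢
        linarith
      have a2 := hC (r • q.1)
      rw [es] at a2
      calc |g q.2| * exp (lx q.2 (r ^ 2, r • q.1)) * |Φ (r • q.1)|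
          ≤ G * exp (R * (|r| * ∑ i, |q.1 i|)) * (C * exp (C * (|r| * ∑ i, |q.1 i|))) := by
            apply mul_le_mul _ a2 (abs_nonneg _) (by (clear * - hG0; positivity))
            exact mul_le_mul hq.1 (exp_le_exp.2 a1) (exp_pos _).le hG0
        _ = G * C * (exp (R * (|r| * ∑ i, |q.1 i|)) * exp (C * (|r| * ∑ i, |q.1 i|))) := by ring
        _ = _ := by rw [← exp_add]; congr 2; ring
  rw [integral_integral_swap hint]
  apply integral_congr_ae
  filter_upwards with x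
  have e2 : ∀ z : Fin n → ℝ, g x * exp (lx x (r ^ 2, r • z)) * Φ (r • z)
      = g x * (Φ (r • z) * exp (∑ i, (r • x) i * z i - (∑ i, (r • x) i ^ 2) / 2)) := by
    intro z
    have : lx x (r ^ 2, r • z) = ∑ i, (r • x) i * z i - (∑ i, (r • x) i ^ 2) / 2 := by
      unfold lx
      simp only [Pi.smul_apply, smul_eq_mul]
      congr 1
      · apply Finset.sum_congr rfl; intro i _; ring
      · rw [Finset.mul_sum, Finset.sum_div]
        apply Finset.sum_congr rfl; intro i _; ring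
    rw [this]; ring
  simp_rw [e2]
  rw [integral_const_mul, ← integral_gam_shift (r • x) (fun z => Φ (r • z))]
  congr 2
  funext z
  congr 1
  rw [smul_add, smul_smul, sq, add_comm]

theorem tower_one (h : CSupp μ R) {g : (Fin n → ℝ) → ℝ} (hg : Adm μ g) (r : ℝ) :
    ∫ z, Zf μ g (r ^ 2, r • z) ∂(gsn n) = ∫ x, g x ∂μ := by
  have := tower h hg (Φ := fun _ => 1) measurable_const (EG1.const 1) r
  simpa using this

theorem tower_coord (h : CSupp μ R) {g : (Fin n → ℝ) → ℝ} (hg : Adm μ g) (i : Fin n) (r : ℝ) :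
    ∫ z, Zf μ g (r ^ 2, r • z) * (r * z i) ∂(gsn n) = r ^ 2 * ∫ x, g x * x i ∂μ := by
  have := tower h hg (Φ := fun z => z i) (measurable_pi_apply i) (EG1.coord i) r
  simp only [Pi.smul_apply, smul_eq_mul, Pi.add_apply] at this
  rw [this]
  have i1 : Integrable (fun z : Fin n → ℝ => z i) (gsn n) :=
    (EG1.coord i).integrable (continuous_apply i).aestronglyMeasurable
  have e : ∀ x : Fin n → ℝ, ∫ z, (r ^ 2 * x i + r * z i) ∂(gsn n) = r ^ 2 * x i := by
    intro x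
    have a2 : Integrable (fun z : Fin n → ℝ => r * z i) (gsn n) := i1.const_mul r
    rw [integral_add (integrable_const _) a2, integral_const, integral_const_mul r, gauss_mean]
    simp
  simp_rw [e]
  rw [← integral_const_mul]
  congr 1; funext x; ring

theorem tower_sq (h : CSupp μ R) {g : (Fin n → ℝ) → ℝ} (hg : Adm μ g) (r : ℝ) :
    ∫ z, Zf μ g (r ^ 2, r • z) * (∑ i, (r * z i) ^ 2) ∂(gsn n)
      = r ^ 4 * ∫ x, g x * ∑ i, x i ^ 2 ∂μ + r ^ 2 * n * ∫ x, g x ∂μ := by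
  have hE : EG1 (fun z : Fin n → ℝ => ∑ i, z i ^ 2) := by
    refine ⟨2, by norm_num, fun z => ?_⟩
    have hS0 : 0 ≤ ∑ i, |z i| := Finset.sum_nonneg fun j _ => abs_nonneg _
    have h1 : ∑ i, z i ^ 2 ≤ (∑ i, |z i|) ^ 2 := by
      have : ∀ i, z i ^ 2 = |z i| * |z i| := fun i => by rw [← sq_abs, sq]
      simp_rw [this]
      rw [sq, Finset.sum_mul]
      apply Finset.sum_le_sum
      intro i _
      exact mul_le_mul_of_nonneg_left (Finset.single_le_sum (f := fun i => |z i|)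
        (fun j _ => abs_nonneg _) (Finset.mem_univ i)) (abs_nonneg _)
    rw [abs_of_nonneg (Finset.sum_nonneg fun i _ => sq_nonneg _)]
    refine h1.trans ?_
    have h2 : (∑ i, |z i|) ≤ exp (∑ i, |z i|) := by linarith [add_one_le_exp (∑ i, |z i|)]
    calc (∑ i, |z i|) ^ 2 ≤ exp (∑ i, |z i|) ^ 2 := pow_le_pow_left₀ hS0 h2 2
      _ = exp (2 * ∑ i, |z i|) := by rw [← exp_nat_mul]; (clear * -; norm_num)
      _ ≤ 2 * exp (2 * ∑ i, |z i|) := by linarith only [exp_pos (2 * ∑ i, |z i|)]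
  have := tower h hg (Φ := fun z => ∑ i, z i ^ 2) (by fun_prop) hE r
  simp only [Pi.smul_apply, smul_eq_mul, Pi.add_apply] at this
  rw [this]
  have i1 : ∀ i, Integrable (fun z : Fin n → ℝ => z i) (gsn n) := fun i =>
    (EG1.coord i).integrable (continuous_apply i).aestronglyMeasurable
  have i2 : ∀ i, Integrable (fun z : Fin n → ℝ => z i ^ 2) (gsn n) := fun i => by
    have := ((EG1.coord i).mul_coord i).integrable
      ((continuous_apply i).mul (continuous_apply i)).aestronglyMeasurable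
    simpa only [sq] using this
  have e : ∀ x : Fin n → ℝ, ∫ z, (∑ i, (r ^ 2 * x i + r * z i) ^ 2) ∂(gsn n)
      = r ^ 4 * (∑ i, x i ^ 2) + r ^ 2 * n := by
    intro x
    have e3 : ∀ i, ∀ z : Fin n → ℝ, (r ^ 2 * x i + r * z i) ^ 2
        = r ^ 4 * x i ^ 2 + (2 * r ^ 3 * x i * z i + r ^ 2 * z i ^ 2) := by
      intro i z; ring
    simp_rw [e3]
    have i3 : ∀ i, Integrable (fun z : Fin n → ℝ =>
        r ^ 4 * x i ^ 2 + (2 * r ^ 3 * x i * z i + r ^ 2 * z i ^ 2)) (gsn n) := fun i =>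
      (integrable_const _).add (((i1 i).const_mul _).add ((i2 i).const_mul _))
    rw [integral_finsetSum _ fun i _ => i3 i]
    have e4 : ∀ i, ∫ z, (r ^ 4 * x i ^ 2 + (2 * r ^ 3 * x i * z i + r ^ 2 * z i ^ 2)) ∂(gsn n)
        = r ^ 4 * x i ^ 2 + r ^ 2 := by
      intro i
      have a1 : Integrable (fun z : Fin n → ℝ => 2 * r ^ 3 * x i * z i) (gsn n) :=
        (i1 i).const_mul _
      have a2 : Integrable (fun z : Fin n → ℝ => r ^ 2 * z i ^ 2) (gsn n) := (i2 i).const_mul _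
      have a3 : Integrable (fun z : Fin n → ℝ => 2 * r ^ 3 * x i * z i + r ^ 2 * z i ^ 2) (gsn n) :=
        a1.add a2
      rw [integral_add (integrable_const _) a3, integral_add a1 a2, integral_const_mul (2 * r ^ 3 * x i),
        integral_const_mul (r ^ 2), gauss_mean, gauss_sq]
      simp only [integral_const, probReal_univ, smul_eq_mul, one_mul, mul_zero, mul_one, zero_add]
    simp_rw [e4]
    rw [Finset.sum_add_distrib, ← Finset.mul_sum]
    simp only [Finset.sum_const, Finset.card_univ, Fintype.card_fin, nsmul_eq_mul, add_right_inj]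
    ring
  simp_rw [e]
  have hga := hg.integrable
  have hgb := (hg.mul h.adm_sq).integrable
  have e5 : ∀ x : Fin n → ℝ, g x * (r ^ 4 * (∑ i, x i ^ 2) + r ^ 2 * n)
      = r ^ 4 * (g x * ∑ i, x i ^ 2) + r ^ 2 * n * g x := by intro x; ring
  simp_rw [e5]
  rw [integral_add (hgb.const_mul _) (hga.const_mul _), integral_const_mul, integral_const_mul]

end Vale.Agent.P245
end
end

section

section

open Real Set

/-! # Real-variable part of the bootstrap (P245, exponent one)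

Abstract lemmas about real functions on an interval; no measure theory. -/

namespace Vale.Agent.P245.E1

/-! ### Grönwall type lemmas -/

/-- `f' ≤ lam f + c`, forward. -/
theorem gron_up {f f' : ℝ → ℝ} {a b lam c : ℝ}
    (hf : ContinuousOn f (Icc a b)) (hd : ∀ v ∈ Ioo a b, HasDerivAt f (f' v) v)
    (hlam : 0 ≤ lam) (hc : 0 ≤ c) (h : ∀ v ∈ Ioo a b, f' v ≤ lam * f v + c) :
    ∀ v ∈ Icc a b, f v ≤ exp (lam * (v - a)) * (f a + c * (v - a)) := by
  intro v hv
  set g : ℝ → ℝ := fun v => exp (-(lam * (v - a))) * f v - c * (v - a) with hg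
  have hanti : AntitoneOn g (Icc a b) := by
    apply antitoneOn_of_deriv_nonpos (convex_Icc a b)
    · apply ContinuousOn.sub
      · exact (Continuous.continuousOn (by fun_prop)).mul hf
      · exact Continuous.continuousOn (by fun_prop)
    · intro x hx
      rw [interior_Icc] at hx
      exact ((((hasDerivAt_id x).sub_const a |>.const_mul lam).neg.exp.mul (hd x hx)).sub
        (((hasDerivAt_id x).sub_const a).const_mul c)).differentiableAt.differentiableWithinAt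
    · intro x hx
      rw [interior_Icc] at hx
      have e := ((((hasDerivAt_id x).sub_const a |>.const_mul lam).neg.exp.mul (hd x hx)).sub
        (((hasDerivAt_id x).sub_const a).const_mul c)).deriv
      have e2 : deriv g x = exp (-(lam * (x - a))) * (-(lam * 1)) * f x
          + exp (-(lam * (x - a))) * f' x - c * 1 := e
      rw [e2]
      have hx0 : 0 ≤ lam * (x - a) := mul_nonneg hlam (by linarith only [hx.1])
      have h1 : exp (-(lam * (x - a))) ≤ 1 := exp_le_one_iff.2 (by linarith only [hx0])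
      have h2 := h x hx
      have h3 : 0 < exp (-(lam * (x - a))) := exp_pos _
      nlinarith only [h2, h3, h1, hc]
  have h1 := hanti (left_mem_Icc.2 (hv.1.trans hv.2)) hv hv.1
  simp only [hg, sub_self, mul_zero, neg_zero, exp_zero, one_mul, sub_zero] at h1
  have h3 : 0 < exp (lam * (v - a)) := exp_pos _
  have h4 : exp (lam * (v - a)) * exp (-(lam * (v - a))) = 1 := by
    rw [← exp_add]; simp
  calc f v = exp (lam * (v - a)) * (exp (-(lam * (v - a))) * f v) := by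
        rw [← mul_assoc, h4, one_mul]
    _ ≤ exp (lam * (v - a)) * (f a + c * (v - a)) := by
        apply mul_le_mul_of_nonneg_left _ h3.le; linarith only [h1]

/-- `f' ≥ -lam f - c`, backward. -/
theorem gron_back {f f' : ℝ → ℝ} {a b lam c : ℝ}
    (hf : ContinuousOn f (Icc a b)) (hd : ∀ v ∈ Ioo a b, HasDerivAt f (f' v) v)
    (hlam : 0 ≤ lam) (hc : 0 ≤ c) (h : ∀ v ∈ Ioo a b, -(lam * f v) - c ≤ f' v) :
    ∀ v ∈ Icc a b, f v ≤ exp (lam * (b - v)) * (f b + c * (b - v)) := by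
  have key := gron_up (f := fun v => f (-v)) (f' := fun v => -f' (-v)) (a := -b) (b := -a)
    (lam := lam) (c := c)
    (hf.comp continuous_neg.continuousOn (fun v hv => ⟨by linarith [hv.2], by linarith [hv.1]⟩))
    (fun v hv => by
      have := (hd (-v) ⟨by linarith [hv.2], by linarith [hv.1]⟩).comp v (hasDerivAt_neg v)
      exact this.congr_deriv (by ring))
    hlam hc (fun v hv => by
      have := h (-v) ⟨by linarith [hv.2], by linarith [hv.1]⟩
      linarith)
  intro v hv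
  have := key (-v) ⟨by linarith [hv.2], by linarith [hv.1]⟩
  simp only [neg_neg] at this
  have e : -v - -b = b - v := by ring
  rwa [e] at this

/-- `f' ≤ -lam f + c`, forward (decay). -/
theorem gron_dec {f f' : ℝ → ℝ} {a b lam c : ℝ}
    (hf : ContinuousOn f (Icc a b)) (hd : ∀ v ∈ Ioo a b, HasDerivAt f (f' v) v)
    (hlam : 0 ≤ lam) (hc : 0 ≤ c) (h : ∀ v ∈ Ioo a b, f' v ≤ -(lam * f v) + c) :
    ∀ v ∈ Icc a b, f v ≤ exp (-(lam * (v - a))) * f a + c * (v - a) := by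
  intro v hv
  set g : ℝ → ℝ := fun x => exp (lam * (x - v)) * f x - c * (x - v) with hg
  have hanti : AntitoneOn g (Icc a v) := by
    apply antitoneOn_of_deriv_nonpos (convex_Icc a v)
    · apply ContinuousOn.sub
      · exact (Continuous.continuousOn (by fun_prop)).mul (hf.mono (Icc_subset_Icc_right hv.2))
      · exact Continuous.continuousOn (by fun_prop)
    · intro x hx
      rw [interior_Icc] at hx
      exact ((((hasDerivAt_id x).sub_const v |>.const_mul lam).exp.mul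
        (hd x ⟨hx.1, hx.2.trans_le hv.2⟩)).sub
        (((hasDerivAt_id x).sub_const v).const_mul c)).differentiableAt.differentiableWithinAt
    · intro x hx
      rw [interior_Icc] at hx
      have e := ((((hasDerivAt_id x).sub_const v |>.const_mul lam).exp.mul
        (hd x ⟨hx.1, hx.2.trans_le hv.2⟩)).sub
        (((hasDerivAt_id x).sub_const v).const_mul c)).deriv
      have e2 : deriv g x = exp (lam * (x - v)) * (lam * 1) * f x
          + exp (lam * (x - v)) * f' x - c * 1 := e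
      rw [e2]
      have hx0 : lam * (x - v) ≤ 0 := mul_nonpos_of_nonneg_of_nonpos hlam (by linarith [hx.2])
      have h1 : exp (lam * (x - v)) ≤ 1 := exp_le_one_iff.2 hx0
      have h2 := h x ⟨hx.1, hx.2.trans_le hv.2⟩
      have h3 : 0 < exp (lam * (x - v)) := exp_pos _
      (by_contra nlg; linarith [mul_nonneg (sub_nonneg.2 h1) (sub_nonneg.2 hc), mul_nonneg (sub_nonneg.2 h2) (le_of_lt (sub_pos.2 h3)), mul_nonneg (le_of_lt (sub_pos.2 (not_le.1 nlg))) (sub_nonneg.2 h1), mul_pos (sub_pos.2 (not_le.1 nlg)) (sub_pos.2 h3)])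
  have h1 := hanti (left_mem_Icc.2 hv.1) (right_mem_Icc.2 hv.1) hv.1
  simp only [hg, sub_self, mul_zero, exp_zero, one_mul, sub_zero] at h1
  have e : exp (-(lam * (v - a))) = exp (lam * (a - v)) := by congr 1; ring
  rw [e]; linarith only [h1]

/-- `f' ≥ lam f - c`, backward (decay). -/
theorem gron_back_dec {f f' : ℝ → ℝ} {a b lam c : ℝ}
    (hf : ContinuousOn f (Icc a b)) (hd : ∀ v ∈ Ioo a b, HasDerivAt f (f' v) v)
    (hlam : 0 ≤ lam) (hc : 0 ≤ c) (h : ∀ v ∈ Ioo a b, lam * f v - c ≤ f' v) :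
    ∀ v ∈ Icc a b, f v ≤ exp (-(lam * (b - v))) * f b + c * (b - v) := by
  have key := gron_dec (f := fun v => f (-v)) (f' := fun v => -f' (-v)) (a := -b) (b := -a)
    (lam := lam) (c := c)
    (hf.comp continuous_neg.continuousOn (fun v hv => ⟨by linarith [hv.2], by linarith [hv.1]⟩))
    (fun v hv => by
      have := (hd (-v) ⟨by linarith [hv.2], by linarith [hv.1]⟩).comp v (hasDerivAt_neg v)
      exact this.congr_deriv (by ring))
    hlam hc (fun v hv => by
      have := h (-v) ⟨by linarith [hv.2], by linarith [hv.1]⟩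
      linarith)
  intro v hv
  have := key (-v) ⟨by linarith only [hv.2], by linarith [hv.1]⟩
  simp only [neg_neg] at this
  have e : -v - -b = b - v := by ring
  rwa [e] at this

/-- monotonicity from the derivative on the interior -/
theorem mono_of_deriv {f f' : ℝ → ℝ} {a b : ℝ}
    (hf : ContinuousOn f (Icc a b)) (hd : ∀ v ∈ Ioo a b, HasDerivAt f (f' v) v)
    (h : ∀ v ∈ Ioo a b, 0 ≤ f' v) : MonotoneOn f (Icc a b) := by
  apply monotoneOn_of_deriv_nonneg (convex_Icc a b) hf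
  · intro x hx; rw [interior_Icc] at hx; exact (hd x hx).differentiableAt.differentiableWithinAt
  · intro x hx; rw [interior_Icc] at hx; rw [(hd x hx).deriv]; exact h x hx

/-- closing a contraction -/
theorem contraction_close {ι : Type*} {P : ι → ℝ} {A N0 : ℝ} (h0 : ∀ i, P i ≤ N0)
    (hA : 0 ≤ N0) (h : ∀ N, 0 ≤ N → (∀ i, P i ≤ N) → ∀ i, P i ≤ A + N / 2) (hA0 : 0 ≤ A) :
    ∀ i, P i ≤ 2 * A := by
  have key : ∀ k : ℕ, ∀ i, P i ≤ 2 * A + N0 / 2 ^ k := by
    intro k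
    induction k with
    | zero => intro i; simp only [pow_zero, div_one]; linarith [h0 i]
    | succ k ih =>
      intro i
      have := h (2 * A + N0 / 2 ^ k) (by positivity) ih i
      have e : A + (2 * A + N0 / 2 ^ k) / 2 = 2 * A + N0 / 2 ^ (k + 1) := by
        rw [pow_succ]; field_simp; ring
      linarith only [this, e]
  intro i
  have hlim : Filter.Tendsto (fun k : ℕ => 2 * A + N0 / 2 ^ k) Filter.atTop
      (nhds (2 * A + 0)) := by
    apply tendsto_const_nhds.add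
    exact tendsto_const_nhds.div_atTop (tendsto_pow_atTop_atTop_of_one_lt (by norm_num))
  have := ge_of_tendsto hlim (Filter.Eventually.of_forall fun k => key k i)
  linarith

theorem exp_le_one_add_two_mul {y : ℝ} (h0 : 0 ≤ y) (h1 : y ≤ 1 / 2) : exp y ≤ 1 + 2 * y := by
  have h2 : 1 - y ≤ exp (-y) := by have := add_one_le_exp (-y); linarith only [this]
  have h3 : exp y * exp (-y) = 1 := by rw [← exp_add]; simp
  have h4 : 0 < exp y := exp_pos y
  have h5 : exp y * (1 - y) ≤ exp y * exp (-y) := mul_le_mul_of_nonneg_left h2 h4.le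
  rw [h3] at h5
  nlinarith only [h5, h0, h1]

theorem exp_one_le_three : exp 1 ≤ 3 := by
  have := exp_one_lt_d9; linarith

/-! ### the defect along the two legs -/

/-- down leg: the defect stays small -/
theorem down_alpha {α Γ J : ℝ → ℝ} {s σ κ δ X a0 : ℝ} (hδ : 0 < δ) (hX : 0 ≤ X) (ha0 : 0 ≤ a0)
    (hlen : σ - s ≤ δ) (hc : ContinuousOn α (Icc s σ))
    (hd : ∀ v ∈ Ioo s σ, HasDerivAt α (κ * Γ v - J v / 2) v)
    (hR : ∀ v ∈ Ioo s σ, J v ≤ 2 * κ * Γ v + X + 2 * α v / δ) (hend : α σ ≤ a0) :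
    ∀ v ∈ Icc s σ, α v ≤ 3 * (a0 + δ * X / 2) := by
  intro v hv
  have key := gron_back (lam := 1 / δ) (c := X / 2) hc hd (by positivity) (by (clear * - hX; positivity))
    (fun v hv => by
      have := hR v hv
      have e : 2 * α v / δ = 2 * (1 / δ * α v) := by ring
      rw [e] at this
      linarith only [this]) v hv
  have h1 : 1 / δ * (σ - v) ≤ 1 := by
    rw [div_mul_eq_mul_div, div_le_one hδ]; linarith only [hlen, hv.1]
  have h2 : exp (1 / δ * (σ - v)) ≤ 3 := (exp_le_exp.2 h1).trans exp_one_le_three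
  have h3 : α σ + X / 2 * (σ - v) ≤ a0 + δ * X / 2 := by
    have : X / 2 * (σ - v) ≤ X / 2 * δ := mul_le_mul_of_nonneg_left (by linarith only [hlen, hv.1])
      (by (clear * - hX; positivity))
    linarith only [hend, this]
  have h4 : 0 ≤ a0 + δ * X / 2 := by (clear * - ha0 hδ hX; positivity)
  calc α v ≤ exp (1 / δ * (σ - v)) * (α σ + X / 2 * (σ - v)) := key
    _ ≤ exp (1 / δ * (σ - v)) * (a0 + δ * X / 2) := mul_le_mul_of_nonneg_left h3 (exp_pos _).le
    _ ≤ 3 * (a0 + δ * X / 2) := mul_le_mul_of_nonneg_right h2 h4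

/-- up leg: the defect stays small -/
theorem up_alpha {α Γ J B : ℝ → ℝ} {s r κ δ C A : ℝ} (hδ : 0 < δ) (hκ : 0 ≤ κ) (hC : 0 ≤ C)
    (hA : 0 ≤ A) (hlen : r - s ≤ δ) (hc : ContinuousOn α (Icc s r))
    (hd : ∀ v ∈ Ioo s r, HasDerivAt α (J v / 2 - κ * (Γ v + 2 * B v)) v)
    (hB : ∀ v ∈ Ioo s r, 0 ≤ B v)
    (hR : ∀ v ∈ Ioo s r, J v ≤ 2 * κ * Γ v + C + 2 * α v / δ) (hend : α s ≤ A) :
    ∀ v ∈ Icc s r, α v ≤ 3 * (A + δ * C / 2) := by
  intro v hv
  have key := gron_up (lam := 1 / δ) (c := C / 2) hc hd (by positivity) (by (clear * - hC; positivity))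
    (fun v hv => by
      have := hR v hv
      have e : 2 * α v / δ = 2 * (1 / δ * α v) := by ring
      rw [e] at this
      have := mul_nonneg hκ (hB v hv)
      (clear A hδ hC hA hlen hc hd hR hend e; linarith)) v hv
  have h1 : 1 / δ * (v - s) ≤ 1 := by
    rw [div_mul_eq_mul_div, div_le_one hδ]; linarith only [hlen, hv.2]
  have h2 : exp (1 / δ * (v - s)) ≤ 3 := (exp_le_exp.2 h1).trans exp_one_le_three
  have h3 : α s + C / 2 * (v - s) ≤ A + δ * C / 2 := by
    have : C / 2 * (v - s) ≤ C / 2 * δ := mul_le_mul_of_nonneg_left (by linarith only [hlen, hv.2])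
      (by (clear * - hC; positivity))
    linarith only [hend, this]
  have h4 : 0 ≤ A + δ * C / 2 := by positivity
  calc α v ≤ exp (1 / δ * (v - s)) * (α s + C / 2 * (v - s)) := key
    _ ≤ exp (1 / δ * (v - s)) * (A + δ * C / 2) := mul_le_mul_of_nonneg_left h3 (exp_pos _).le
    _ ≤ 3 * (A + δ * C / 2) := mul_le_mul_of_nonneg_right h2 h4

/-- AM-GM for a square bound -/
theorem abs_le_of_sq_le {e a b w : ℝ} (hw : 0 < w) (ha : 0 ≤ a) (hb : 0 ≤ b)
    (h : e ^ 2 ≤ a * b) : |e| ≤ w * b + a / (4 * w) := by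
  apply abs_le_of_sq_le_sq _ (by positivity)
  have : (w * b + a / (4 * w)) ^ 2 = (w * b - a / (4 * w)) ^ 2 + a * b := by
    field_simp; ring
  rw [this]; nlinarith only [h]

/-- bound of `|m|²` (the drift mismatch) -/
theorem m_bound {α α' B f e : ℝ → ℝ} {s r κ δ C M n2 : ℝ} (hs : 0 < s) (hκ : 0 < κ) (hδ : 0 < δ)
    (hsr : s ≤ r) (hlen : r - s ≤ δ) (hC : 0 ≤ C)
    (hc : ContinuousOn α (Icc s r)) (hd : ∀ v ∈ Ioo s r, HasDerivAt α (α' v) v)
    (h0 : ∀ v ∈ Icc s r, 0 ≤ α v) (hM : ∀ v ∈ Icc s r, α v ≤ M)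
    (hB : ∀ v ∈ Ioo s r, 0 ≤ B v)
    (hBα : ∀ v ∈ Ioo s r, 2 * κ * B v ≤ C / 2 + α v / δ - α' v)
    (hf : ContinuousOn f (Icc s r)) (hdf : ∀ v ∈ Ioo s r, HasDerivAt f (-e v) v)
    (he : ∀ v ∈ Ioo s r, e v ^ 2 ≤ n2 / s * B v) (hn0 : 0 ≤ n2) (hn : n2 ≤ f s - f r) :
    n2 ≤ δ / (2 * s * κ) * (2 * M + δ * C / 2) := by
  set w : ℝ := δ / (2 * s) with hw
  have hw0 : 0 < w := by positivity
  set cst : ℝ := w / (2 * κ) * (C / 2 + M / δ) + n2 / s / (4 * w) with hcst
  have hmono := mono_of_deriv (f := fun v => f v + cst * v - w / (2 * κ) * α v)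
    (f' := fun v => -e v + cst * 1 - w / (2 * κ) * α' v) (a := s) (b := r)
    ((hf.add (Continuous.continuousOn (by fun_prop))).sub (continuousOn_const.mul hc))
    (fun v hv => ((hdf v hv).add ((hasDerivAt_id v).const_mul cst)).sub
      ((hd v hv).const_mul _))
    (fun v hv => by
      have h1 := abs_le_of_sq_le hw0 (by (clear * - hn0 hs; positivity) : 0 ≤ n2 / s) (hB v hv) (he v hv)
      have h2 : e v ≤ w * B v + n2 / s / (4 * w) := (le_abs_self _).trans h1
      have hv' : v ∈ Icc s r := ⟨hv.1.le, hv.2.le⟩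
      have h3 : 2 * κ * B v ≤ C / 2 + M / δ - α' v := by
        have := hBα v hv
        have h4 : α v / δ ≤ M / δ := div_le_div_of_nonneg_right (hM v hv') hδ.le
        linarith only [this, h4]
      have h5 : w / (2 * κ) * (2 * κ * B v) ≤ w / (2 * κ) * (C / 2 + M / δ - α' v) :=
        mul_le_mul_of_nonneg_left h3 (by positivity)
      have h6 : w / (2 * κ) * (2 * κ * B v) = w * B v := by (clear * - hκ hw0; field_simp)
      rw [h6] at h5
      rw [hcst]
      linarith only [h5, h2])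
  have h1 := hmono (left_mem_Icc.2 hsr) (right_mem_Icc.2 hsr) hsr
  simp only at h1
  have hs' : s ∈ Icc s r := left_mem_Icc.2 hsr
  have hr' : r ∈ Icc s r := right_mem_Icc.2 hsr
  have hM0 : 0 ≤ M := (h0 s hs').trans (hM s hs')
  have h2 : n2 ≤ cst * (r - s) + w / (2 * κ) * (α s - α r) := by linarith only [hn, h1]
  have h3 : cst * (r - s) ≤ cst * δ := mul_le_mul_of_nonneg_left hlen (by (clear * - hδ hs hκ hC hM0 hn0; positivity))
  have h4 : w / (2 * κ) * (α s - α r) ≤ w / (2 * κ) * M :=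
    mul_le_mul_of_nonneg_left (by linarith only [hM s hs', h0 r hr']) (by positivity)
  have h5 : cst * δ = w / (2 * κ) * (δ * C / 2 + M) + n2 / 2 := by
    rw [hcst, hw]; field_simp; ring
  have h6 : n2 / 2 ≤ w / (2 * κ) * (δ * C / 2 + 2 * M) := by linarith only [h5, h4, h3, h1, hn]
  have h7 : δ / (2 * s * κ) * (2 * M + δ * C / 2) = 2 * (w / (2 * κ) * (δ * C / 2 + 2 * M)) := by
    rw [hw]; field_simp; ring
  rw [h7]; linarith only [h5, h4, h3, h1, hn]

/-! ### the `G`-trick, up leg `[s,r]` -/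

/-- `|G_v|² ≤ e^{-(r-v)/2κ} J₁ + E₁` -/
theorem g2_bound {α g2 DG : ℝ → ℝ} {s r κ δ K M : ℝ} (hκ : 0 < κ) (hδ : 0 < δ)
    (hlen : r - s ≤ δ) (hK : 0 ≤ K) (hM0 : 0 ≤ M)
    (hM : ∀ v ∈ Icc s r, α v ≤ M)
    (hg : ContinuousOn g2 (Icc s r)) (hdg : ∀ v ∈ Ioo s r, HasDerivAt g2 (DG v) v)
    (hRG : ∀ v ∈ Ioo s r, g2 v ≤ 2 * κ * DG v + K + 2 * α v / δ) :
    ∀ v ∈ Icc s r, g2 v ≤ exp (-(1 / (2 * κ) * (r - v))) * g2 r + (δ / (2 * κ) * K + M / κ) := by
  intro v hv
  have key := gron_back_dec (lam := 1 / (2 * κ)) (c := (K + 2 * M / δ) / (2 * κ)) hg hdg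
    (by (clear * - hκ; positivity)) (by (clear * - hK hM0 hδ hκ; positivity)) (fun v hv => by
      have h1 := hRG v hv
      have h2 : 2 * α v / δ ≤ 2 * M / δ :=
        div_le_div_of_nonneg_right (by linarith only [hM v ⟨hv.1.le, hv.2.le⟩]) hδ.le
      have h3 : g2 v - (K + 2 * M / δ) ≤ 2 * κ * DG v := by linarith only [h1, h2]
      have h4 : (g2 v - (K + 2 * M / δ)) / (2 * κ) ≤ DG v := by
        rw [div_le_iff₀ (by positivity)]; linarith only [h1, h2]
      have e : 1 / (2 * κ) * g2 v - (K + 2 * M / δ) / (2 * κ)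
        = (g2 v - (K + 2 * M / δ)) / (2 * κ) := by ring
      rw [e]; exact h4) v hv
  have h5 : (K + 2 * M / δ) / (2 * κ) * (r - v) ≤ (K + 2 * M / δ) / (2 * κ) * δ :=
    mul_le_mul_of_nonneg_left (by linarith only [hlen, hv.1]) (by (clear * - hK hM0 hδ hκ; positivity))
  have h6 : (K + 2 * M / δ) / (2 * κ) * δ = δ / (2 * κ) * K + M / κ := by
    (clear * - hδ hκ; field_simp)
  linarith only [h6, h5, key]

/-- `J(v) ≤ e^{(r-v)/2κ} J₁ + 2 M/κ` -/
theorem J_bound {α J : ℝ → ℝ} {s r κ δ M : ℝ} (hκ : 0 < κ)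
    (hlen : r - s ≤ δ) (hδκ : δ ≤ κ / 1000) (hM0 : 0 ≤ M) (hsr : s ≤ r)
    (h0 : ∀ v ∈ Icc s r, 0 ≤ α v)
    (hM : ∀ v ∈ Icc s r, α v ≤ M) (hcα : ContinuousOn α (Icc s r))
    (hJ : ContinuousOn J (Icc s r))
    (hdu : ∀ v ∈ Ioo s r, HasDerivAt (fun v => κ * J v - α v) (-J v / 2) v) :
    ∀ v ∈ Icc s r, J v ≤ exp (1 / (2 * κ) * (r - v)) * J r + 2 * (M / κ) := by
  intro v hv
  have key := gron_back (lam := 1 / (2 * κ)) (c := M / (2 * κ)) (f := fun v => κ * J v - α v)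
    ((continuousOn_const.mul hJ).sub hcα) hdu (by positivity) (by (clear * - hM0 hκ; positivity)) (fun v hv => by
      have h1 := hM v ⟨hv.1.le, hv.2.le⟩
      have e : -(1 / (2 * κ) * (κ * J v - α v)) - M / (2 * κ) = -J v / 2 - (M - α v) / (2 * κ) := by
        field_simp; ring
      rw [e]
      have : 0 ≤ (M - α v) / (2 * κ) := div_nonneg (by linarith only [h1]) (by positivity)
      linarith only [this]) v hv
  have hr : r ∈ Icc s r := right_mem_Icc.2 hsr
  set E := exp (1 / (2 * κ) * (r - v)) with hE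
  have hy0 : 0 ≤ 1 / (2 * κ) * (r - v) := mul_nonneg (by positivity) (by linarith only [hv.2])
  have hy1 : 1 / (2 * κ) * (r - v) ≤ 1 / 2000 := by
    rw [div_mul_eq_mul_div, div_le_iff₀ (by positivity)]
    linarith only [hlen, hδκ, hv.1]
  have hE2 : E ≤ 2 := (exp_le_one_add_two_mul hy0 (by linarith only [hy1])).trans (by linarith only [hy1])
  have hE0 : 0 < E := exp_pos _
  have hαr := h0 r hr
  have h2 : κ * J v ≤ E * (κ * J r) + E * (M / (2 * κ) * (r - v)) + M := by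
    have h3 := hM v hv
    have h4 : 0 ≤ E * α r := mul_nonneg hE0.le hαr
    linarith
  have h5 : E * (M / (2 * κ) * (r - v)) ≤ M := by
    have h6 : M / (2 * κ) * (r - v) = M * (1 / (2 * κ) * (r - v)) := by ring
    rw [h6]
    have h7 : M * (1 / (2 * κ) * (r - v)) ≤ M * (1 / 2000) := mul_le_mul_of_nonneg_left hy1 hM0
    nlinarith only [hM0, hE2, hE0, h7]
  have h8 : κ * J v ≤ κ * (E * J r + 2 * (M / κ)) := by
    have e : κ * (E * J r + 2 * (M / κ)) = E * (κ * J r) + 2 * M := by (clear * - hκ; field_simp)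
    rw [e]; linarith only [h2, h5]
  exact le_of_mul_le_mul_left h8 hκ

/-- a priori lower bound for the correlation `⟨G,g⟩` -/
theorem c_apriori {α α' g2 c e B : ℝ → ℝ} {s r κ δ C M J1 η : ℝ} (hs : 0 < s)
    (hκ : 0 < κ) (hδ : 0 < δ) (hlen : r - s ≤ δ) (hδs : δ ≤ s / 2)
    (hδκ : δ ≤ κ / 1000) (hC0 : 0 ≤ C) (hJ1 : 0 < J1)
    (hη : M / κ ≤ η) (hη1 : η ≤ J1 / 100) (hC : C ≤ 3 * J1)
    (hcα : ContinuousOn α (Icc s r)) (hd : ∀ v ∈ Ioo s r, HasDerivAt α (α' v) v)
    (h0 : ∀ v ∈ Icc s r, 0 ≤ α v) (hM : ∀ v ∈ Icc s r, α v ≤ M)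
    (hB : ∀ v ∈ Ioo s r, 0 ≤ B v)
    (hBα : ∀ v ∈ Ioo s r, 2 * κ * B v ≤ C / 2 + α v / δ - α' v)
    (hcc : ContinuousOn c (Icc s r)) (hdc : ∀ v ∈ Ioo s r, HasDerivAt c (-e v) v)
    (hcr : c r = J1)
    (he : ∀ v ∈ Ioo s r, e v ^ 2 ≤ g2 v * (B v / v))
    (hg2' : ∀ v ∈ Icc s r, g2 v ≤ 1.01 * J1) (v0 : ℝ) (hv0 : v0 ∈ Icc s r) :
    3 / 4 * J1 ≤ c v0 := by
  have hsr : s ≤ r := hv0.1.trans hv0.2
  have hM0 : 0 ≤ M := (h0 s (left_mem_Icc.2 hsr)).trans (hM s (left_mem_Icc.2 hsr))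
  set cst : ℝ := 1 / (2 * κ) * (C / 2 + M / δ) + 1.01 * J1 / s / 4 with hcst
  have hstep : ∀ v ∈ Ioo v0 r, 0 ≤ e v + cst * 1 - 1 / (2 * κ) * α' v := by
    intro v hv
    have hv' : v ∈ Ioo s r := ⟨hv0.1.trans_lt hv.1, hv.2⟩
    have hvI : v ∈ Icc s r := ⟨hv'.1.le, hv'.2.le⟩
    have hv0' : 0 < v := hs.trans hv'.1
    have h2 : e v ^ 2 ≤ 1.01 * J1 / s * B v := by
      have h5 : g2 v * (B v / v) ≤ 1.01 * J1 * (B v / s) := by
        apply mul_le_mul (hg2' v hvI)
        · exact div_le_div_of_nonneg_left (hB v hv') hs hv'.1.le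
        · exact div_nonneg (hB v hv') hv0'.le
        · positivity
      calc e v ^ 2 ≤ _ := he v hv'
        _ ≤ _ := h5
        _ = _ := by ring
    have h6 := abs_le_of_sq_le one_pos (by positivity : 0 ≤ 1.01 * J1 / s) (hB v hv') h2
    have h7 : -(1 * B v + 1.01 * J1 / s / (4 * 1)) ≤ e v := (abs_le.1 h6).1
    have h8 := hBα v hv'
    have h9 : α v / δ ≤ M / δ := div_le_div_of_nonneg_right (hM v hvI) hδ.le
    have h10 : 1 / (2 * κ) * (2 * κ * B v) ≤ 1 / (2 * κ) * (C / 2 + M / δ - α' v) :=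
      mul_le_mul_of_nonneg_left (by linarith only [h8, h9]) (by positivity)
    have h11 : 1 / (2 * κ) * (2 * κ * B v) = B v := by (clear * - hκ; field_simp)
    rw [h11] at h10
    have h12 : 1 / (2 * κ) * (C / 2 + M / δ - α' v) = 1 / (2 * κ) * (C / 2 + M / δ)
      - 1 / (2 * κ) * α' v := by ring
    rw [hcst]
    linarith only [h7, h10]
  have hmono := mono_of_deriv (f := fun v => -c v + cst * v - 1 / (2 * κ) * α v)
    (f' := fun v => e v + cst * 1 - 1 / (2 * κ) * α' v) (a := v0) (b := r)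
    (((hcc.mono (Icc_subset_Icc_left hv0.1)).neg.add
      (Continuous.continuousOn (by fun_prop))).sub
      (continuousOn_const.mul (hcα.mono (Icc_subset_Icc_left hv0.1))))
    (fun v hv => by
      have hv' : v ∈ Ioo s r := ⟨hv0.1.trans_lt hv.1, hv.2⟩
      have := (((hdc v hv').neg.add ((hasDerivAt_id v).const_mul cst)).sub
        ((hd v hv').const_mul (1 / (2 * κ))))
      exact this.congr_deriv (by ring)) hstep
  have h1 : -c v0 + cst * v0 - 1 / (2 * κ) * α v0 ≤ -c r + cst * r - 1 / (2 * κ) * α r :=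
    hmono (left_mem_Icc.2 hv0.2) (right_mem_Icc.2 hv0.2) hv0.2
  have h2 : cst * (r - v0) ≤ cst * δ := mul_le_mul_of_nonneg_left (by linarith only [hlen, hv0.1])
    (by (clear * - hκ hC0 hM0 hδ hJ1 hs; positivity))
  have h3 : cst * δ ≤ 1 / (2 * κ) * (δ * C / 2 + M) + 1.01 * J1 / 8 := by
    have e1 : cst * δ = 1 / (2 * κ) * (δ * C / 2 + M) + 1.01 * J1 / 4 * (δ / s) := by
      rw [hcst]; (clear * - hδ hs hκ hC0 hM0 hJ1; field_simp)
    have h4 : δ / s ≤ 1 / 2 := by rw [div_le_iff₀ hs]; linarith only [hδs]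
    have h5 : 1.01 * J1 / 4 * (δ / s) ≤ 1.01 * J1 / 4 * (1 / 2) :=
      mul_le_mul_of_nonneg_left h4 (by positivity)
    linarith only [e1, h5]
  have h6 : 1 / (2 * κ) * (α v0 - α r) ≤ 1 / (2 * κ) * M :=
    mul_le_mul_of_nonneg_left (by linarith only [hM v0 hv0, h0 r (right_mem_Icc.2 hsr)])
      (by positivity)
  have h7 : 1 / (2 * κ) * (δ * C / 2 + M) + 1 / (2 * κ) * M = δ / κ * (C / 4) + M / κ := by
    field_simp; ring
  have h8 : δ / κ ≤ 1 / 1000 := by rw [div_le_iff₀ hκ]; linarith only [hδκ]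
  have h9 : δ / κ * (C / 4) ≤ 1 / 1000 * (C / 4) := mul_le_mul_of_nonneg_right h8 (by (clear * - hC0; positivity))
  have h13 : 1 / (2 * κ) * (α v0 - α r) = 1 / (2 * κ) * α v0 - 1 / (2 * κ) * α r := by ring
  have h14 : cst * (r - v0) = cst * r - cst * v0 := by ring
  rw [hcr] at h1
  linarith only [hJ1, hη, hη1, hC, h1, h2, h3, h6, h7, h9]

/-- Cauchy-Schwarz deficit, pointwise -/
theorem deficit {g2 J c J1 E1 η y : ℝ} (hJ1 : 0 < J1) (hE0 : 0 ≤ E1) (hη0 : 0 ≤ η)
    (hE1 : E1 ≤ J1 / 100) (hy0 : 0 ≤ y) (hy1 : y ≤ 1 / 2000)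
    (hG : g2 ≤ exp (-y) * J1 + E1) (hJ : J ≤ exp y * J1 + 2 * η) (hJl : J1 ≤ J)
    (hcs : c ^ 2 ≤ g2 * J) :
    g2 * J - c ^ 2 ≤ J1 * (3 * (E1 + η) + 2 * (J1 - c)) ∧ 0 ≤ 3 * (E1 + η) + 2 * (J1 - c) := by
  have hJ0 : 0 < J := hJ1.trans_le hJl
  have hey : exp y ≤ 1.001 := (exp_le_one_add_two_mul hy0 (by linarith)).trans (by linarith only [hy1])
  have hee : exp (-y) * exp y = 1 := by rw [← exp_add]; simp
  have hey0 : 0 < exp y := exp_pos y
  have hemy0 : 0 < exp (-y) := exp_pos _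
  have hemy : exp (-y) ≤ 1 := exp_le_one_iff.2 (by linarith only [hy0])
  have hprod : g2 * J ≤ J1 ^ 2 + 1.001 * (E1 * J1) + 2 * η * J1 + 2 * η * E1 := by
    calc g2 * J ≤ (exp (-y) * J1 + E1) * (exp y * J1 + 2 * η) :=
          mul_le_mul hG hJ hJ0.le (by positivity)
      _ = (exp (-y) * exp y) * J1 ^ 2 + exp y * (E1 * J1) + exp (-y) * (2 * η * J1)
          + 2 * η * E1 := by ring
      _ ≤ 1 * J1 ^ 2 + 1.001 * (E1 * J1) + 1 * (2 * η * J1) + 2 * η * E1 := by
          rw [hee]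
          have a1 : exp y * (E1 * J1) ≤ 1.001 * (E1 * J1) :=
            mul_le_mul_of_nonneg_right hey (by positivity)
          have a2 : exp (-y) * (2 * η * J1) ≤ 1 * (2 * η * J1) :=
            mul_le_mul_of_nonneg_right hemy (by (clear * - hη0 hJ1; positivity))
          linarith only [a2, a1]
      _ = _ := by ring
  have h1 : J1 ^ 2 + 2 * (c - J1) * J1 ≤ c ^ 2 := by linarith only [sq_nonneg (c - J1)]
  have h2 : 2 * η * E1 ≤ 2 * η * (J1 / 100) := mul_le_mul_of_nonneg_left hE1 (by (clear * - hη0; positivity))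
  have h3 : g2 * J - c ^ 2 ≤ J1 * (3 * (E1 + η) + 2 * (J1 - c)) := by
    have a1 := mul_nonneg hE0 hJ1.le
    have a2 := mul_nonneg hη0 hJ1.le
    have e1 : J1 * (3 * (E1 + η) + 2 * (J1 - c)) = 3 * (E1 * J1) + 3 * (η * J1)
      + 2 * J1 ^ 2 - 2 * c * J1 := by ring
    have e2 : 2 * η * (J1 / 100) = (η * J1) / 50 := by ring
    have e3 : 2 * η * J1 = 2 * (η * J1) := by ring
    have e4 : 2 * (c - J1) * J1 = 2 * c * J1 - 2 * J1 ^ 2 := by ring
    rw [e1]; rw [e2] at h2; rw [e3] at hprod; rw [e4] at h1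
    linarith only [a2, a1, h2, h1, hprod]
  refine ⟨h3, ?_⟩
  have h4 : 0 ≤ J1 * (3 * (E1 + η) + 2 * (J1 - c)) := by linarith only [hcs, h3]
  exact nonneg_of_mul_nonneg_right h4 hJ1

/-- lower bound of `⟨G,P g⟩` in terms of the deficit, pointwise -/
theorem e_lower {g2 J c e B s v J1 X : ℝ} (hs : 0 < s) (hsv : s ≤ v) (hB : 0 ≤ B)
    (hJ0 : 0 < J) (hX0 : 0 ≤ X) (hlam : J / 2 ≤ c) (hJ1 : J1 ≤ J)
    (hdJ : g2 * J - c ^ 2 ≤ J1 * X)
    (he : ∀ lam : ℝ, (e - lam * B) ^ 2 ≤ (g2 - 2 * lam * c + lam ^ 2 * J) * (B / v)) :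
    -(X / s / 2) ≤ e := by
  have hv0 : 0 < v := hs.trans_le hsv
  set lam : ℝ := c / J with hlamd
  have hlam2 : 1 / 2 ≤ lam := by
    rw [hlamd, le_div_iff₀ hJ0]; (clear * - hlam; linarith)
  have hd1 : g2 - 2 * lam * c + lam ^ 2 * J ≤ X := by
    have h1 : g2 - 2 * lam * c + lam ^ 2 * J = (g2 * J - c ^ 2) / J := by
      rw [hlamd]; field_simp; ring
    rw [h1, div_le_iff₀ hJ0]
    calc g2 * J - c ^ 2 ≤ J1 * X := hdJ
      _ ≤ J * X := mul_le_mul_of_nonneg_right hJ1 hX0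
      _ = X * J := mul_comm _ _
  have h1 := he lam
  have h2 : (e - lam * B) ^ 2 ≤ X / s * B := by
    calc _ ≤ _ := h1
      _ ≤ X * (B / v) := mul_le_mul_of_nonneg_right hd1 (div_nonneg hB hv0.le)
      _ ≤ X * (B / s) := mul_le_mul_of_nonneg_left
          (div_le_div_of_nonneg_left hB hs hsv) hX0
      _ = _ := by ring
  have hlam0 : 0 < lam := by linarith only [hlam2]
  have h3 := abs_le_of_sq_le hlam0 (by (clear * - hX0 hs; positivity) : 0 ≤ X / s) hB h2
  have h4 : -(lam * B + X / s / (4 * lam)) ≤ e - lam * B := (abs_le.1 h3).1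
  have h5 : X / s / (4 * lam) ≤ X / s / 2 := by
    apply div_le_div_of_nonneg_left (by positivity) (by norm_num) (by linarith only [hlam2])
  linarith only [h4, h5]

/-- lower bound for the correlation `⟨G,g⟩` -/
theorem c_bound {α α' J g2 c e B : ℝ → ℝ} {s r κ δ C M J1 E1 η : ℝ} (hs : 0 < s)
    (hκ : 0 < κ) (hδ : 0 < δ) (hsr : s ≤ r) (hlen : r - s ≤ δ) (hδs : δ ≤ s / 2)
    (hδκ : δ ≤ κ / 1000) (hC0 : 0 ≤ C) (hJ1 : 0 < J1) (hE0 : 0 ≤ E1) (hη0 : 0 ≤ η)
    (hη : M / κ ≤ η) (hη1 : η ≤ J1 / 100) (hE1 : E1 ≤ J1 / 100) (hC : C ≤ 3 * J1)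
    (hcα : ContinuousOn α (Icc s r)) (hd : ∀ v ∈ Ioo s r, HasDerivAt α (α' v) v)
    (h0 : ∀ v ∈ Icc s r, 0 ≤ α v) (hM : ∀ v ∈ Icc s r, α v ≤ M)
    (hB : ∀ v ∈ Ioo s r, 0 ≤ B v)
    (hBα : ∀ v ∈ Ioo s r, 2 * κ * B v ≤ C / 2 + α v / δ - α' v)
    (hcc : ContinuousOn c (Icc s r)) (hdc : ∀ v ∈ Ioo s r, HasDerivAt c (-e v) v)
    (hcr : c r = J1)
    (he : ∀ v ∈ Ioo s r, ∀ lam : ℝ,
      (e v - lam * B v) ^ 2 ≤ (g2 v - 2 * lam * c v + lam ^ 2 * J v) * (B v / v))
    (hg2 : ∀ v ∈ Icc s r, g2 v ≤ exp (-(1 / (2 * κ) * (r - v))) * J1 + E1)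
    (hJl : ∀ v ∈ Icc s r, J1 ≤ J v)
    (hJu : ∀ v ∈ Icc s r, J v ≤ exp (1 / (2 * κ) * (r - v)) * J1 + 2 * η)
    (hcs : ∀ v ∈ Icc s r, c v ^ 2 ≤ g2 v * J v) :
    J1 - 2 * (E1 + η) ≤ c s := by
  have hg2' : ∀ v ∈ Icc s r, g2 v ≤ 1.01 * J1 := by
    intro v hv
    have h1 : exp (-(1 / (2 * κ) * (r - v))) ≤ 1 := exp_le_one_iff.2 (by
      have : 0 ≤ 1 / (2 * κ) * (r - v) := mul_nonneg (by positivity) (by linarith only [hv.2])
      linarith only [this])
    have h2 := hg2 v hv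
    have h3 : exp (-(1 / (2 * κ) * (r - v))) * J1 ≤ 1 * J1 :=
      mul_le_mul_of_nonneg_right h1 hJ1.le
    linarith only [hE1, h2, h3]
  have hapri := c_apriori (g2 := g2) hs hκ hδ hlen hδs hδκ hC0 hJ1 hη hη1 hC hcα hd h0 hM hB hBα
    hcc hdc hcr (fun v hv => by
      have := he v hv 0
      have e1 : (g2 v - 2 * 0 * c v + 0 ^ 2 * J v) = g2 v := by ring
      have e2 : (e v - 0 * B v) = e v := by ring
      rwa [e1, e2] at this) hg2'
  set K0 : ℝ := 3 * (E1 + η) with hK0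
  have hK00 : 0 ≤ K0 := by (clear * - hE0 hη0; positivity)
  have hdiff : ∀ v ∈ Ioo s r, -(1 / s * (J1 - c v)) - K0 / (2 * s) ≤ e v := by
    intro v hv
    have hvI : v ∈ Icc s r := ⟨hv.1.le, hv.2.le⟩
    have hJ0 : 0 < J v := hJ1.trans_le (hJl v hvI)
    have hy0 : 0 ≤ 1 / (2 * κ) * (r - v) := mul_nonneg (by positivity) (by linarith only [hv.2])
    have hy1 : 1 / (2 * κ) * (r - v) ≤ 1 / 2000 := by
      rw [div_mul_eq_mul_div, div_le_iff₀ (by positivity)]
      linarith only [hlen, hδκ, hv.1]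
    obtain ⟨hd1, hd2⟩ := deficit hJ1 hE0 hη0 hE1 hy0 hy1 (hg2 v hvI) (hJu v hvI) (hJl v hvI)
      (hcs v hvI)
    have hey : exp (1 / (2 * κ) * (r - v)) ≤ 1.001 :=
      (exp_le_one_add_two_mul hy0 (by linarith only [hy1])).trans (by linarith only [hy1])
    have hlam : J v / 2 ≤ c v := by
      have h1 : exp (1 / (2 * κ) * (r - v)) * J1 ≤ 1.001 * J1 :=
        mul_le_mul_of_nonneg_right hey hJ1.le
      linarith only [hJ1, hη1, h1, hJu v hvI, hapri v hvI]
    have h1 := e_lower hs hv.1.le (hB v hv) hJ0 hd2 hlam (hJl v hvI) hd1 (he v hv)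
    have h6 : (3 * (E1 + η) + 2 * (J1 - c v)) / s / 2 = 1 / s * (J1 - c v) + K0 / (2 * s) := by
      rw [hK0]; field_simp; ring
    rw [h6] at h1
    linarith only [h1]
  have key := gron_back (f := fun v => J1 - c v) (f' := e) (lam := 1 / s) (c := K0 / (2 * s))
    (continuousOn_const.sub hcc) (fun v hv => ((hasDerivAt_const v J1).sub (hdc v hv)).congr_deriv
      (by ring)) (by positivity) (by (clear * - hE0 hη0 hs; positivity)) (fun v hv => hdiff v hv) s (left_mem_Icc.2 hsr)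
  simp only [hcr, sub_self, zero_add] at key
  have h1 : 1 / s * (r - s) ≤ 1 / 2 := by
    rw [div_mul_eq_mul_div, div_le_iff₀ hs]; linarith only [hlen, hδs]
  have h10 : 0 ≤ 1 / s * (r - s) := mul_nonneg (by positivity) (by linarith only [hsr])
  have h2 : exp (1 / s * (r - s)) ≤ 2 := (exp_le_one_add_two_mul h10 h1).trans (by linarith only [h1])
  have h3 : K0 / (2 * s) * (r - s) ≤ K0 / 4 := by
    have : K0 / (2 * s) * (r - s) = K0 / 2 * (1 / s * (r - s)) := by (clear * - hs; field_simp)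
    rw [this]
    have := mul_le_mul_of_nonneg_left h1 (by (clear * - hE0 hη0; positivity) : 0 ≤ K0 / 2)
    linarith only [this]
  have h30 : 0 ≤ K0 / (2 * s) * (r - s) := mul_nonneg (by (clear * - hE0 hη0 hs; positivity)) (by linarith only [hsr])
  have h4 : exp (1 / s * (r - s)) * (K0 / (2 * s) * (r - s)) ≤ 2 * (K0 / 4) :=
    mul_le_mul h2 h3 h30 (by norm_num)
  rw [hK0] at h4 key
  linarith only [hE0, hη0, key, h4]

/-! ### down leg `[s,σ]` -/

/-- `J* ≤ e^{(σ-s)/2κ} J(s) + 2 M/κ` -/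
theorem Jstar_bound {α J : ℝ → ℝ} {s σ κ δ M : ℝ} (hκ : 0 < κ)
    (hlen : σ - s ≤ δ) (hδκ : δ ≤ κ / 1000) (hM0 : 0 ≤ M) (hsσ : s ≤ σ)
    (h0 : ∀ v ∈ Icc s σ, 0 ≤ α v)
    (hM : ∀ v ∈ Icc s σ, α v ≤ M) (hcα : ContinuousOn α (Icc s σ))
    (hJ : ContinuousOn J (Icc s σ))
    (hdu : ∀ v ∈ Ioo s σ, HasDerivAt (fun v => κ * J v - α v) (J v / 2) v) :
    J σ ≤ exp (1 / (2 * κ) * (σ - s)) * J s + 2 * (M / κ) := by
  have key := gron_up (lam := 1 / (2 * κ)) (c := M / (2 * κ)) (f := fun v => κ * J v - α v)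
    ((continuousOn_const.mul hJ).sub hcα) hdu (by positivity) (by positivity) (fun v hv => by
      have h1 := hM v ⟨hv.1.le, hv.2.le⟩
      have e : 1 / (2 * κ) * (κ * J v - α v) + M / (2 * κ) = J v / 2 + (M - α v) / (2 * κ) := by
        field_simp; ring
      rw [e]
      have : 0 ≤ (M - α v) / (2 * κ) := div_nonneg (by linarith only [h1]) (by positivity)
      linarith only [this]) σ (right_mem_Icc.2 hsσ)
  have hs : s ∈ Icc s σ := left_mem_Icc.2 hsσ
  have hσ : σ ∈ Icc s σ := right_mem_Icc.2 hsσ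
  set E := exp (1 / (2 * κ) * (σ - s)) with hE
  have hy0 : 0 ≤ 1 / (2 * κ) * (σ - s) := mul_nonneg (by positivity) (by linarith only [hsσ])
  have hy1 : 1 / (2 * κ) * (σ - s) ≤ 1 / 2000 := by
    rw [div_mul_eq_mul_div, div_le_iff₀ (by positivity)]
    linarith only [hlen, hδκ]
  have hE2 : E ≤ 2 := (exp_le_one_add_two_mul hy0 (by linarith only [hy1])).trans (by linarith only [hy1])
  have hE0 : 0 < E := exp_pos _
  have hαs := h0 s hs
  have h2 : κ * J σ ≤ E * (κ * J s) + E * (M / (2 * κ) * (σ - s)) + M := by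
    have h3 := hM σ hσ
    have h4 : 0 ≤ E * α s := mul_nonneg hE0.le hαs
    linarith
  have h5 : E * (M / (2 * κ) * (σ - s)) ≤ M := by
    have h6 : M / (2 * κ) * (σ - s) = M * (1 / (2 * κ) * (σ - s)) := by ring
    rw [h6]
    have h7 : M * (1 / (2 * κ) * (σ - s)) ≤ M * (1 / 2000) := mul_le_mul_of_nonneg_left hy1 hM0
    nlinarith only [hM0, hE2, hE0, h7]
  have h8 : κ * J σ ≤ κ * (E * J s + 2 * (M / κ)) := by
    have e : κ * (E * J s + 2 * (M / κ)) = E * (κ * J s) + 2 * M := by (clear * - hκ; field_simp)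
    rw [e]; linarith only [h2, h5]
  exact le_of_mul_le_mul_left h8 hκ

/-- `|R_σ|² ≤ e^{-(σ-s)/2κ} |R_s|² + E₁` -/
theorem r2_bound {α r2 DR : ℝ → ℝ} {s σ κ δ K M : ℝ} (hκ : 0 < κ) (hδ : 0 < δ) (hsσ : s ≤ σ)
    (hlen : σ - s ≤ δ) (hK : 0 ≤ K) (hM0 : 0 ≤ M)
    (hM : ∀ v ∈ Icc s σ, α v ≤ M)
    (hg : ContinuousOn r2 (Icc s σ)) (hdg : ∀ v ∈ Ioo s σ, HasDerivAt r2 (-DR v) v)
    (hRG : ∀ v ∈ Ioo s σ, r2 v ≤ 2 * κ * DR v + K + 2 * α v / δ) :
    r2 σ ≤ exp (-(1 / (2 * κ) * (σ - s))) * r2 s + (δ / (2 * κ) * K + M / κ) := by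
  have key := gron_dec (lam := 1 / (2 * κ)) (c := (K + 2 * M / δ) / (2 * κ)) hg hdg
    (by positivity) (by (clear * - hK hM0 hδ hκ; positivity)) (fun v hv => by
      have h1 := hRG v hv
      have h2 : 2 * α v / δ ≤ 2 * M / δ :=
        div_le_div_of_nonneg_right (by linarith only [hM v ⟨hv.1.le, hv.2.le⟩]) hδ.le
      have h3 : r2 v - (K + 2 * M / δ) ≤ 2 * κ * DR v := by linarith only [h1, h2]
      have h4 : (r2 v - (K + 2 * M / δ)) / (2 * κ) ≤ DR v := by
        rw [div_le_iff₀ (by positivity)]; linarith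
      have e : 1 / (2 * κ) * r2 v - (K + 2 * M / δ) / (2 * κ)
        = (r2 v - (K + 2 * M / δ)) / (2 * κ) := by ring
      linarith only [h4, e]) σ (right_mem_Icc.2 hsσ)
  have h5 : (K + 2 * M / δ) / (2 * κ) * (σ - s) ≤ (K + 2 * M / δ) / (2 * κ) * δ :=
    mul_le_mul_of_nonneg_left hlen (by (clear * - hK hM0 hδ hκ; positivity))
  have h6 : (K + 2 * M / δ) / (2 * κ) * δ = δ / (2 * κ) * K + M / κ := by
    (clear * - hδ hκ; field_simp)
  linarith only [key, h5, h6]

/-- the final Cauchy-Schwarz deficit at level `σ` -/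
theorem final_deficit {J1 cs r2 Jst E1 η z : ℝ} (hJ1 : 0 < J1) (hE0 : 0 ≤ E1) (hη0 : 0 ≤ η)
    (hE1 : E1 ≤ J1 / 100) (hη1 : η ≤ J1 / 100) (hz0 : 0 ≤ z) (hz1 : z ≤ 1 / 1000)
    (hcs : J1 - 2 * (E1 + η) ≤ cs) (hr2 : r2 ≤ exp (-z) * J1 + 2 * E1)
    (hJst : Jst ≤ exp z * J1 + 4 * η) (hJ0 : 0 ≤ Jst) (hCS : cs ^ 2 ≤ r2 * Jst) :
    8 / 10 * J1 ≤ r2 ∧ Jst - cs ^ 2 / r2 ≤ 10 * (E1 + η) ∧ (cs / r2) ^ 2 ≤ 2 := by
  have hey : exp z ≤ 1.002 := (exp_le_one_add_two_mul hz0 (by linarith only [hz1])).trans (by linarith only [hz1])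
  have hee : exp z * exp (-z) = 1 := by rw [← exp_add]; simp
  have hey0 : 0 < exp z := exp_pos z
  have hemy0 : 0 < exp (-z) := exp_pos _
  have hemy : exp (-z) ≤ 1 := exp_le_one_iff.2 (by linarith only [hz0])
  have hcs0 : 96 / 100 * J1 ≤ cs := by linarith only [hE1, hη1, hcs]
  have hJst2 : Jst ≤ 1.05 * J1 := by
    have : exp z * J1 ≤ 1.002 * J1 := mul_le_mul_of_nonneg_right hey hJ1.le
    linarith only [hJ1, hη1, hJst, this]
  have hcs2 : (96 / 100 * J1) ^ 2 ≤ cs ^ 2 := pow_le_pow_left₀ (by positivity) hcs0 2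
  have hr20 : 0 < r2 := by
    by_contra h
    push Not at h
    have h1 : r2 * Jst ≤ 0 := mul_nonpos_of_nonpos_of_nonneg h hJ0
    have h2 : 0 < (96 / 100 * J1) ^ 2 := by positivity
    linarith only [hCS, hcs2, h1, h2]
  have hr2l : 8 / 10 * J1 ≤ r2 := by
    have h1 : (96 / 100 * J1) ^ 2 ≤ r2 * (1.05 * J1) :=
      hcs2.trans (hCS.trans (mul_le_mul_of_nonneg_left hJst2 hr20.le))
    by_contra h
    push Not at h
    have h2 : r2 * (1.05 * J1) < 8 / 10 * J1 * (1.05 * J1) :=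
      mul_lt_mul_of_pos_right h (by positivity)
    nlinarith only [h1, h2]
  have hprod : r2 * Jst ≤ J1 ^ 2 + 1.002 * (2 * E1 * J1) + 4 * η * J1 + 8 * (E1 * η) := by
    calc r2 * Jst ≤ (exp (-z) * J1 + 2 * E1) * (exp z * J1 + 4 * η) :=
          mul_le_mul hr2 hJst hJ0 (by (clear * - hJ1 hE0; positivity))
      _ = (exp z * exp (-z)) * J1 ^ 2 + exp z * (2 * E1 * J1) + exp (-z) * (4 * η * J1)
          + 8 * (E1 * η) := by ring
      _ ≤ 1 * J1 ^ 2 + 1.002 * (2 * E1 * J1) + 1 * (4 * η * J1) + 8 * (E1 * η) := by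
          rw [hee]
          have a1 : exp z * (2 * E1 * J1) ≤ 1.002 * (2 * E1 * J1) :=
            mul_le_mul_of_nonneg_right hey (by (clear * - hE0 hJ1; positivity))
          have a2 : exp (-z) * (4 * η * J1) ≤ 1 * (4 * η * J1) :=
            mul_le_mul_of_nonneg_right hemy (by (clear * - hη0 hJ1; positivity))
          linarith only [a1, a2]
      _ = _ := by ring
  have hdef : r2 * Jst - cs ^ 2 ≤ 8 * J1 * (E1 + η) := by
    have h1 : (J1 - 2 * (E1 + η)) ^ 2 ≤ cs ^ 2 := pow_le_pow_left₀ (by linarith only [hJ1, hE1, hη1]) hcs 2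
    have h2 : J1 ^ 2 - 4 * (E1 * J1) - 4 * (η * J1) ≤ (J1 - 2 * (E1 + η)) ^ 2 := by
      linarith only [sq_nonneg (E1 + η)]
    have h3 : E1 * η ≤ E1 * (J1 / 100) := mul_le_mul_of_nonneg_left hη1 hE0
    have a1 := mul_nonneg hE0 hJ1.le
    have a2 := mul_nonneg hη0 hJ1.le
    have e1 : 8 * J1 * (E1 + η) = 8 * (E1 * J1) + 8 * (η * J1) := by ring
    have e2 : 4 * η * J1 = 4 * (η * J1) := by ring
    have e3 : 2 * E1 * J1 = 2 * (E1 * J1) := by ring
    have e4 : E1 * (J1 / 100) = (E1 * J1) / 100 := by ring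
    rw [e1]; rw [e2, e3] at hprod; rw [e4] at h3
    linarith only [hprod, h1, h2, h3, a1]
  refine ⟨hr2l, ?_, ?_⟩
  · have h1 : Jst - cs ^ 2 / r2 = (r2 * Jst - cs ^ 2) / r2 := by (clear * - hr20; field_simp)
    rw [h1, div_le_iff₀ hr20]
    calc r2 * Jst - cs ^ 2 ≤ 8 * J1 * (E1 + η) := hdef
      _ = 10 * (E1 + η) * (8 / 10 * J1) := by ring
      _ ≤ 10 * (E1 + η) * r2 := mul_le_mul_of_nonneg_left hr2l (by (clear * - hE0 hη0; positivity))
  · rw [div_pow, div_le_iff₀ (by positivity)]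
    calc cs ^ 2 ≤ r2 * Jst := hCS
      _ ≤ r2 * (1.05 * J1) := mul_le_mul_of_nonneg_left hJst2 hr20.le
      _ ≤ r2 * (2 * r2) := mul_le_mul_of_nonneg_left (by linarith only [hr20, hr2l]) hr20.le
      _ = 2 * r2 ^ 2 := by ring

end Vale.Agent.P245.E1
end
end

section

section

open MeasureTheory
open scoped ENNReal

namespace Vale.Agent.P245

variable {Ω : Type*} [MeasurableSpace Ω]

/-- The entropy functional of a function with respect to a measure. -/
noncomputable def ent (μ : Measure Ω) (F : Ω → ℝ) : ℝ :=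
  ∫ x, F x * Real.log (F x) ∂μ - (∫ x, F x ∂μ) * Real.log (∫ x, F x ∂μ)

theorem integrable_of_bdd (μ : Measure Ω) [IsFiniteMeasure μ] {f : Ω → ℝ} (hf : Measurable f)
    {K : ℝ} (hK : ∀ x, |f x| ≤ K) : Integrable f μ :=
  Integrable.of_bound hf.aestronglyMeasurable K (Filter.Eventually.of_forall hK)

theorem exists_bound_mul_log (B : ℝ) :
    ∃ K : ℝ, ∀ t : ℝ, 0 ≤ t → t ≤ B → |t * Real.log t| ≤ K := by
  obtain ⟨K, hK⟩ := (isCompact_Icc (a := (0 : ℝ)) (b := B)).exists_bound_of_continuousOn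
    (f := fun t : ℝ => t * Real.log t) Real.continuous_mul_log.continuousOn
  exact ⟨K, fun t h0 h1 => hK t ⟨h0, h1⟩⟩

theorem integrable_mul_log (μ : Measure Ω) [IsFiniteMeasure μ] {F : Ω → ℝ} (hF : Measurable F)
    (h0 : ∀ x, 0 ≤ F x) {B : ℝ} (hB : ∀ x, F x ≤ B) :
    Integrable (fun x => F x * Real.log (F x)) μ := by
  obtain ⟨K, hK⟩ := exists_bound_mul_log B
  exact integrable_of_bdd μ (hF.mul hF.log) (fun x => hK _ (h0 x) (hB x))

/-- Young inequality for the exponential. -/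
theorem mul_le_mul_log_add_exp {a b : ℝ} (ha : 0 ≤ a) :
    a * b ≤ a * Real.log a - a + Real.exp b := by
  rcases ha.eq_or_lt with h | h
  · subst h
    simpa only [zero_mul, Real.log_zero, mul_zero, sub_self, zero_add] using (Real.exp_pos b).le
  · have h1 : b - Real.log a + 1 ≤ Real.exp (b - Real.log a) := Real.add_one_le_exp _
    have h2 : Real.exp (b - Real.log a) = Real.exp b / a := by
      rw [Real.exp_sub, Real.exp_log h]
    rw [h2] at h1
    have h3 : a * (b - Real.log a + 1) ≤ a * (Real.exp b / a) :=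
      mul_le_mul_of_nonneg_left h1 h.le
    rw [mul_div_cancel₀ _ h.ne'] at h3
    linarith only [h3]

/-- Comparison of the entropy with its linearized version at a level `t`. -/
theorem ent_le_level (μ : Measure Ω) [IsProbabilityMeasure μ] {F : Ω → ℝ}
    (hF : Measurable F) (h0 : ∀ x, 0 ≤ F x) {B : ℝ} (hB : ∀ x, F x ≤ B) {t : ℝ} (ht : 0 < t) :
    ent μ F ≤ ∫ x, (F x * Real.log (F x) - F x * Real.log t - F x + t) ∂μ := by
  have hFi : Integrable F μ := integrable_of_bdd μ hF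
    (fun x => by rw [abs_of_nonneg (h0 x)]; exact hB x)
  have hFl := integrable_mul_log μ hF h0 hB
  rw [integral_add ((hFl.sub' (hFi.mul_const _)).sub' hFi) (integrable_const _),
    integral_sub (hFl.sub' (hFi.mul_const _)) hFi, integral_sub hFl (hFi.mul_const _),
    integral_mul_const, integral_const]
  simp only [probReal_univ, smul_eq_mul, one_mul]
  have hm0 : 0 ≤ ∫ x, F x ∂μ := integral_nonneg h0
  have := mul_le_mul_log_add_exp (a := ∫ x, F x ∂μ) (b := Real.log t) hm0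
  rw [Real.exp_log ht] at this
  rw [ent]
  linarith

theorem kfun_bound (u : ℝ) :
    u ^ 2 * Real.log (u ^ 2) - u ^ 2 + 1
      ≤ 9 * (u - 1) ^ 2 + 4 * (u - 1) ^ 2 * Real.log (1 + (u - 1) ^ 2) := by
  have hlog : 0 ≤ Real.log (1 + (u - 1) ^ 2) := Real.log_nonneg (by nlinarith [sq_nonneg (u - 1)])
  rcases le_or_gt |u| 2 with h | h
  · have h1 : u ^ 2 * Real.log (u ^ 2) ≤ u ^ 2 * (u ^ 2 - 1) := by
      rcases eq_or_ne u 0 with h0 | h0
      · subst h0; simp
      · exact mul_le_mul_of_nonneg_left (Real.log_le_sub_one_of_pos (by (clear * - h0; positivity))) (sq_nonneg u)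
    have h2 : (u ^ 2 - 1) ^ 2 ≤ 9 * (u - 1) ^ 2 := by
      have h3 : (u + 1) ^ 2 ≤ 9 := by
        have := abs_le.1 h
        nlinarith only [this]
      have h4 : (u ^ 2 - 1) ^ 2 = (u + 1) ^ 2 * (u - 1) ^ 2 := by ring
      rw [h4]
      exact mul_le_mul_of_nonneg_right h3 (sq_nonneg _)
    have h5 : 0 ≤ 4 * (u - 1) ^ 2 * Real.log (1 + (u - 1) ^ 2) := by positivity
    linarith
  · have hu : 4 < u ^ 2 := by
      rw [← sq_abs]
      nlinarith only [h]
    have hw : u ^ 2 ≤ 4 * (u - 1) ^ 2 := by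
      rcases lt_abs.1 h with h' | h'
      · nlinarith only [h']
      · linarith
    have hwpos : 0 < (u - 1) ^ 2 := by linarith
    have h1 : Real.log (u ^ 2) ≤ Real.log 4 + Real.log (1 + (u - 1) ^ 2) := by
      rw [← Real.log_mul (by norm_num) (by (clear * - hwpos; positivity))]
      apply Real.log_le_log (by positivity)
      linarith
    have hl4 : Real.log 4 ≤ 2 := by
      have h2 : Real.log 4 = 2 * Real.log 2 := by
        rw [show (4 : ℝ) = 2 ^ 2 by norm_num, Real.log_pow]; norm_num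
      rw [h2]
      have := Real.log_two_lt_d9
      linarith only [this]
    have hlu : 0 ≤ Real.log (u ^ 2) := Real.log_nonneg (by linarith)
    have h3 : u ^ 2 * Real.log (u ^ 2) ≤ 4 * (u - 1) ^ 2 * (Real.log 4 + Real.log (1 + (u - 1) ^ 2)) :=
      mul_le_mul hw h1 hlu (by (clear * - hwpos; positivity))
    linarith only [mul_nonneg (sq_nonneg (u - 1 : ℝ)) (sub_nonneg.2 hl4), h3, hu, sq_nonneg (u - 1 : ℝ)]

theorem mul_log_one_add_le {x : ℝ} (hx : 0 ≤ x) :
    x * Real.log (1 + x) ≤ x * Real.log x + 1 := by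
  rcases hx.eq_or_lt with h | h
  · subst h; simp only [add_zero, Real.log_one, mul_zero, Real.log_zero, zero_add, zero_le_one]
  · have h1 : Real.log ((1 + x) / x) ≤ (1 + x) / x - 1 :=
      Real.log_le_sub_one_of_pos (by (clear * - h; positivity))
    rw [Real.log_div (by positivity) h.ne'] at h1
    have h2 : x * (Real.log (1 + x) - Real.log x) ≤ x * ((1 + x) / x - 1) :=
      mul_le_mul_of_nonneg_left h1 hx
    have h3 : x * ((1 + x) / x - 1) = 1 := by field_simp; ring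
    rw [h3] at h2
    linarith only [h2]

end Vale.Agent.P245
end
end

section

section

open MeasureTheory Real Set
open scoped ENNReal Pointwise

namespace Vale.Agent.P245

theorem bm_compact {K K' C : Set ℝ} (hK : IsCompact K) (hK' : IsCompact K')
    (hKn : K.Nonempty) (hKn' : K'.Nonempty) (h : ∀ a ∈ K, ∀ b ∈ K', a + b ∈ C) :
    volume K + volume K' ≤ volume C := by
  set a := sSup K with hadef
  have ha : a ∈ K := hK.sSup_mem hKn
  set b := sInf K' with hbdef
  have hb : b ∈ K' := hK'.sInf_mem hKn'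
  have h1 : volume ((fun x => x + b) '' K) = volume K := by
    rw [Set.image_add_right, measure_preimage_add_right]
  have h2 : volume ((fun x => a + x) '' K') = volume K' := by
    rw [Set.image_add_left, measure_preimage_add]
  have hc2 : IsCompact ((fun x => a + x) '' K') := hK'.image (by fun_prop)
  have hd : AEDisjoint volume ((fun x => x + b) '' K) ((fun x => a + x) '' K') := by
    have hsub : ((fun x => x + b) '' K) ∩ ((fun x => a + x) '' K') ⊆ {a + b} := by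
      rintro z ⟨⟨x, hx, rfl⟩, ⟨y, hy, hxy⟩⟩
      have hxa : x ≤ a := le_csSup hK.bddAbove hx
      have hby : b ≤ y := csInf_le hK'.bddBelow hy
      have hxy' : a + y = x + b := hxy
      have : x = a := by linarith only [hxy, hby, hxa]
      simp [this]
    exact measure_mono_null hsub (measure_singleton _)
  calc volume K + volume K' = volume ((fun x => x + b) '' K) + volume ((fun x => a + x) '' K') := by
        rw [h1, h2]
    _ = volume (((fun x => x + b) '' K) ∪ ((fun x => a + x) '' K')) := by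
        rw [measure_union₀ hc2.measurableSet.nullMeasurableSet hd]
    _ ≤ volume C := by
        apply measure_mono
        rintro z (⟨x, hx, rfl⟩ | ⟨x, hx, rfl⟩)
        · exact h x hx b hb
        · exact h a ha x hx

theorem bm1 {A B C : Set ℝ} (hA : MeasurableSet A) (hB : MeasurableSet B)
    (hAn : A.Nonempty) (hBn : B.Nonempty) (h : ∀ a ∈ A, ∀ b ∈ B, a + b ∈ C) :
    volume A + volume B ≤ volume C := by
  obtain ⟨a, ha⟩ := hAn
  obtain ⟨b, hb⟩ := hBn
  rw [hA.measure_eq_iSup_isCompact, hB.measure_eq_iSup_isCompact]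
  simp only [iSup_and']
  refine ENNReal.biSup_add_biSup_le' (p := fun K => K ⊆ A ∧ IsCompact K)
    (q := fun K => K ⊆ B ∧ IsCompact K) ⟨∅, by simp⟩ ⟨∅, by simp⟩ ?_
  rintro K ⟨hKA, hK⟩ K' ⟨hKB, hK'⟩
  calc volume K + volume K' ≤ volume (insert a K) + volume (insert b K') := by
        gcongr <;> exact Set.subset_insert _ _
    _ ≤ volume C := by
        apply bm_compact (hK.insert a) (hK'.insert b) (Set.insert_nonempty _ _)
          (Set.insert_nonempty _ _)
        intro x hx y hy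
        exact h x (Set.insert_subset ha hKA hx) y (Set.insert_subset hb hKB hy)

theorem amgm_ennreal {s : ℝ} (hs0 : 0 < s) (hs1 : s < 1) (x y : ℝ≥0∞) :
    x ^ (1 - s) * y ^ s ≤ ENNReal.ofReal (1 - s) * x + ENNReal.ofReal s * y := by
  have h1s : 0 < 1 - s := by linarith only [hs1]
  by_cases hx : x = ∞
  · subst hx
    rw [ENNReal.mul_top (by simpa only [ne_eq, ENNReal.ofReal_eq_zero, tsub_le_iff_right, zero_add, not_le, sub_pos] using h1s)]
    simp only [top_add, le_top]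
  by_cases hy : y = ∞
  · subst hy
    rw [ENNReal.mul_top (by simpa only [ne_eq, ENNReal.ofReal_eq_zero, not_le] using hs0)]
    simp only [add_top, le_top]
  lift x to NNReal using hx
  lift y to NNReal using hy
  have := Real.geom_mean_le_arith_mean2_weighted h1s.le hs0.le x.coe_nonneg y.coe_nonneg (by ring)
  have h2 := ENNReal.ofReal_le_ofReal this
  rw [ENNReal.ofReal_add (by positivity) (by positivity), ENNReal.ofReal_mul (by positivity),
    ENNReal.ofReal_mul h1s.le, ENNReal.ofReal_mul hs0.le, ← ENNReal.ofReal_rpow_of_nonneg x.coe_nonneg h1s.le,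
    ← ENNReal.ofReal_rpow_of_nonneg y.coe_nonneg hs0.le] at h2
  simpa only [ge_iff_le, ENNReal.ofReal_coe_nnreal] using h2

theorem pl1_normalized {s : ℝ} (hs0 : 0 < s) (hs1 : s < 1) {f g : ℝ → ℝ} {w : ℝ → ℝ≥0∞}
    (hf : Measurable f) (hg : Measurable g) (hw : Measurable w)
    (hf0 : ∀ x, 0 ≤ f x) (hg0 : ∀ x, 0 ≤ g x) (hf1 : ∀ x, f x ≤ 1) (hg1 : ∀ x, g x ≤ 1)
    (hfs : ∀ t < 1, ∃ x, t < f x) (hgs : ∀ t < 1, ∃ x, t < g x)
    (h : ∀ x y, ENNReal.ofReal (f x ^ (1 - s) * g y ^ s) ≤ w ((1 - s) * x + s * y)) :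
    ENNReal.ofReal (1 - s) * (∫⁻ x, ENNReal.ofReal (f x))
      + ENNReal.ofReal s * (∫⁻ x, ENNReal.ofReal (g x)) ≤ ∫⁻ x, w x := by
  have h1s : 0 < 1 - s := by linarith only [hs1]
  set k : ℝ → ℝ := fun x => (min (w x) 1).toReal with hk
  have hkm : Measurable k := (hw.min measurable_const).ennreal_toReal
  have hk0 : ∀ x, 0 ≤ k x := fun x => ENNReal.toReal_nonneg
  have hkw : ∫⁻ x, ENNReal.ofReal (k x) ≤ ∫⁻ x, w x := by
    apply lintegral_mono
    intro x
    have : min (w x) 1 ≠ ∞ := (lt_of_le_of_lt (min_le_right _ _) ENNReal.one_lt_top).ne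
    simp only [hk]
    rw [ENNReal.ofReal_toReal this]
    exact min_le_left _ _
  refine le_trans ?_ hkw
  rw [lintegral_eq_lintegral_meas_lt volume (Filter.Eventually.of_forall hf0) hf.aemeasurable,
    lintegral_eq_lintegral_meas_lt volume (Filter.Eventually.of_forall hg0) hg.aemeasurable,
    lintegral_eq_lintegral_meas_lt volume (Filter.Eventually.of_forall hk0) hkm.aemeasurable]
  have mf : Measurable fun t => volume {a | t < f a} := by
    apply Antitone.measurable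
    intro t t' htt'
    exact measure_mono fun a ha => lt_of_le_of_lt htt' ha
  have mg : Measurable fun t => volume {a | t < g a} := by
    apply Antitone.measurable
    intro t t' htt'
    exact measure_mono fun a ha => lt_of_le_of_lt htt' ha
  rw [← lintegral_const_mul _ mf, ← lintegral_const_mul _ mg, ← lintegral_add_left (by (clear * - mf; fun_prop))]
  apply setLIntegral_mono' measurableSet_Ioi
  intro t ht
  have ht0 : 0 < t := ht
  by_cases ht1 : t < 1
  swap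
  · have e1 : {a | t < f a} = ∅ := by
      ext a; simp; linarith [hf1 a]
    have e2 : {a | t < g a} = ∅ := by
      ext a; simp; linarith only [ht1, hg1 a]
    simp [e1, e2]
  have hA : MeasurableSet ((1 - s) • {a | t < f a}) :=
    (measurableSet_lt measurable_const hf).const_smul₀ _
  have hB : MeasurableSet (s • {a | t < g a}) :=
    (measurableSet_lt measurable_const hg).const_smul₀ _
  have vA : volume ((1 - s) • {a | t < f a}) = ENNReal.ofReal (1 - s) * volume {a | t < f a} := by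
    rw [Measure.addHaar_smul]; simp only [Module.finrank_self, pow_one, abs_of_pos h1s]
  have vB : volume (s • {a | t < g a}) = ENNReal.ofReal s * volume {a | t < g a} := by
    rw [Measure.addHaar_smul]; simp only [Module.finrank_self, pow_one, abs_of_pos hs0]
  rw [← vA, ← vB]
  apply bm1 hA hB
  · obtain ⟨x, hx⟩ := hfs t ht1
    exact ⟨(1 - s) • x, Set.smul_mem_smul_set hx⟩
  · obtain ⟨x, hx⟩ := hgs t ht1
    exact ⟨s • x, Set.smul_mem_smul_set hx⟩
  · rintro _ ⟨x, hx, rfl⟩ _ ⟨y, hy, rfl⟩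
    have hx' : t < f x := hx
    have hy' : t < g y := hy
    have h3 : t < f x ^ (1 - s) * g y ^ s := by
      calc t = t ^ (1 - s) * t ^ s := by
            rw [← rpow_add ht0]; simp
        _ < f x ^ (1 - s) * g y ^ s := by
            apply mul_lt_mul'' (rpow_lt_rpow ht0.le hx' h1s) (rpow_lt_rpow ht0.le hy' hs0)
              (by (clear * - ht0; positivity)) (by positivity)
    have h4 : ENNReal.ofReal t < w ((1 - s) * x + s * y) :=
      lt_of_lt_of_le ((ENNReal.ofReal_lt_ofReal_iff_of_nonneg ht0.le).mpr h3) (h x y)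
    have h5 : ENNReal.ofReal t < 1 := by
      rw [← ENNReal.ofReal_one]; exact (ENNReal.ofReal_lt_ofReal_iff_of_nonneg ht0.le).mpr ht1
    have h6 : ENNReal.ofReal t < min (w ((1 - s) * x + s * y)) 1 := lt_min h4 h5
    have : min (w ((1 - s) * x + s * y)) 1 ≠ ∞ :=
      (lt_of_le_of_lt (min_le_right _ _) ENNReal.one_lt_top).ne
    show t < k ((1 - s) • x + s • y)
    simp only [hk, smul_eq_mul]
    exact (ENNReal.ofReal_lt_iff_lt_toReal ht0.le this).mp h6

theorem pl1_bdd {s : ℝ} (hs0 : 0 < s) (hs1 : s < 1) {u v w : ℝ → ℝ≥0∞}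
    (hu : Measurable u) (hv : Measurable v) (hw : Measurable w)
    (hub : ⨆ x, u x ≠ ∞) (hvb : ⨆ x, v x ≠ ∞)
    (h : ∀ x y, u x ^ (1 - s) * v y ^ s ≤ w ((1 - s) * x + s * y)) :
    (∫⁻ x, u x) ^ (1 - s) * (∫⁻ x, v x) ^ s ≤ ∫⁻ x, w x := by
  have h1s : 0 < 1 - s := by linarith
  set Mu := ⨆ x, u x with hMu
  set Mv := ⨆ x, v x with hMv
  by_cases hu0 : Mu = 0
  · have : ∀ x, u x = 0 := fun x => le_antisymm (hu0 ▸ le_iSup u x) bot_le
    simp only [this, lintegral_const, measure_univ_of_isAddLeftInvariant, zero_mul, h1s, ENNReal.zero_rpow_of_pos, zero_le]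
  by_cases hv0 : Mv = 0
  · have : ∀ x, v x = 0 := fun x => le_antisymm (hv0 ▸ le_iSup v x) bot_le
    simp only [this, lintegral_const, measure_univ_of_isAddLeftInvariant, zero_mul, hs0, ENNReal.zero_rpow_of_pos, mul_zero, zero_le]
  set f : ℝ → ℝ := fun x => (u x / Mu).toReal with hf
  set g : ℝ → ℝ := fun x => (v x / Mv).toReal with hg
  have huM : ∀ x, u x / Mu ≤ 1 := fun x => by
    rw [ENNReal.div_le_iff hu0 hub, one_mul]; exact le_iSup u x
  have hvM : ∀ x, v x / Mv ≤ 1 := fun x => by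
    rw [ENNReal.div_le_iff hv0 hvb, one_mul]; exact le_iSup v x
  have huf : ∀ x, u x / Mu ≠ ∞ := fun x => (lt_of_le_of_lt (huM x) ENNReal.one_lt_top).ne
  have hvf : ∀ x, v x / Mv ≠ ∞ := fun x => (lt_of_le_of_lt (hvM x) ENNReal.one_lt_top).ne
  have hfe : ∀ x, u x = Mu * ENNReal.ofReal (f x) := fun x => by
    simp only [hf]; rw [ENNReal.ofReal_toReal (huf x), ENNReal.mul_div_cancel hu0 hub]
  have hge : ∀ x, v x = Mv * ENNReal.ofReal (g x) := fun x => by
    simp only [hg]; rw [ENNReal.ofReal_toReal (hvf x), ENNReal.mul_div_cancel hv0 hvb]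
  set c := Mu ^ (1 - s) * Mv ^ s with hc
  have hc0 : c ≠ 0 := by
    rw [hc]
    apply mul_ne_zero
    · exact (ENNReal.rpow_pos (pos_iff_ne_zero.mpr hu0) hub).ne'
    · exact (ENNReal.rpow_pos (pos_iff_ne_zero.mpr hv0) hvb).ne'
  have hct : c ≠ ∞ := by
    rw [hc]
    exact ENNReal.mul_ne_top (ENNReal.rpow_ne_top_of_nonneg h1s.le hub)
      (ENNReal.rpow_ne_top_of_nonneg hs0.le hvb)
  have hf0 : ∀ x, 0 ≤ f x := fun x => ENNReal.toReal_nonneg
  have hg0 : ∀ x, 0 ≤ g x := fun x => ENNReal.toReal_nonneg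
  have key := pl1_normalized (f := f) (g := g) (w := fun x => c⁻¹ * w x) hs0 hs1
    (hu.div_const _).ennreal_toReal (hv.div_const _).ennreal_toReal (hw.const_mul _)
    hf0 hg0
    (fun x => (ENNReal.toReal_mono ENNReal.one_ne_top (huM x)).trans_eq ENNReal.toReal_one)
    (fun x => (ENNReal.toReal_mono ENNReal.one_ne_top (hvM x)).trans_eq ENNReal.toReal_one)
    (by
      intro t ht
      by_cases ht0 : t < 0
      · exact ⟨0, lt_of_lt_of_le ht0 (hf0 0)⟩
      push Not at ht0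
      have : Mu * ENNReal.ofReal t < ⨆ x, u x := by
        rw [← hMu]
        calc Mu * ENNReal.ofReal t < Mu * 1 := by
              apply ENNReal.mul_lt_mul_right hu0 hub
              rw [← ENNReal.ofReal_one]; exact (ENNReal.ofReal_lt_ofReal_iff_of_nonneg ht0).mpr ht
          _ = Mu := mul_one _
      obtain ⟨x, hx⟩ := lt_iSup_iff.mp this
      refine ⟨x, ?_⟩
      rw [hfe x] at hx
      have h3 := lt_of_mul_lt_mul_left' hx
      exact (ENNReal.ofReal_lt_ofReal_iff_of_nonneg ht0).mp h3)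
    (by
      intro t ht
      by_cases ht0 : t < 0
      · exact ⟨0, lt_of_lt_of_le ht0 (hg0 0)⟩
      push Not at ht0
      have : Mv * ENNReal.ofReal t < ⨆ x, v x := by
        rw [← hMv]
        calc Mv * ENNReal.ofReal t < Mv * 1 := by
              apply ENNReal.mul_lt_mul_right hv0 hvb
              rw [← ENNReal.ofReal_one]; exact (ENNReal.ofReal_lt_ofReal_iff_of_nonneg ht0).mpr ht
          _ = Mv := mul_one _
      obtain ⟨x, hx⟩ := lt_iSup_iff.mp this
      refine ⟨x, ?_⟩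
      rw [hge x] at hx
      have h3 := lt_of_mul_lt_mul_left' hx
      exact (ENNReal.ofReal_lt_ofReal_iff_of_nonneg ht0).mp h3)
    (by
      intro x y
      have h1 := h x y
      rw [hfe x, hge y, ENNReal.mul_rpow_of_nonneg _ _ h1s.le, ENNReal.mul_rpow_of_nonneg _ _ hs0.le,
        mul_mul_mul_comm, ← hc, ENNReal.ofReal_rpow_of_nonneg (hf0 x) h1s.le,
        ENNReal.ofReal_rpow_of_nonneg (hg0 y) hs0.le, ← ENNReal.ofReal_mul (by (clear * -; positivity))] at h1
      calc ENNReal.ofReal (f x ^ (1 - s) * g y ^ s)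
          = c⁻¹ * (c * ENNReal.ofReal (f x ^ (1 - s) * g y ^ s)) := by
            rw [← mul_assoc, ENNReal.inv_mul_cancel hc0 hct, one_mul]
        _ ≤ c⁻¹ * w ((1 - s) * x + s * y) := by (clear * - h1; gcongr))
  have key2 := (amgm_ennreal hs0 hs1 _ _).trans key
  have eu : ∫⁻ x, u x = Mu * ∫⁻ x, ENNReal.ofReal (f x) := by
    rw [← lintegral_const_mul' _ _ hub]
    exact lintegral_congr hfe
  have ev : ∫⁻ x, v x = Mv * ∫⁻ x, ENNReal.ofReal (g x) := by
    rw [← lintegral_const_mul' _ _ hvb]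
    exact lintegral_congr hge
  rw [eu, ev, ENNReal.mul_rpow_of_nonneg _ _ h1s.le, ENNReal.mul_rpow_of_nonneg _ _ hs0.le,
    mul_mul_mul_comm, ← hc]
  calc c * _ ≤ c * ∫⁻ x, c⁻¹ * w x := by (clear * - key2; gcongr)
    _ = ∫⁻ x, w x := by
      rw [lintegral_const_mul _ hw, ← mul_assoc, ENNReal.mul_inv_cancel hc0 hct, one_mul]

theorem pl1 {s : ℝ} (hs0 : 0 < s) (hs1 : s < 1) {u v w : ℝ → ℝ≥0∞}
    (hu : Measurable u) (hv : Measurable v) (hw : Measurable w)
    (h : ∀ x y, u x ^ (1 - s) * v y ^ s ≤ w ((1 - s) * x + s * y)) :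
    (∫⁻ x, u x) ^ (1 - s) * (∫⁻ x, v x) ^ s ≤ ∫⁻ x, w x := by
  have h1s : 0 < 1 - s := by linarith
  have trunc : ∀ {q : ℝ → ℝ≥0∞}, Measurable q →
      ∫⁻ x, q x = ⨆ k : ℕ, ∫⁻ x, min (q x) k := by
    intro q hq
    rw [← lintegral_iSup (fun k => hq.min measurable_const)]
    · apply lintegral_congr
      intro x
      apply le_antisymm
      · by_cases hx : q x = ∞
        · rw [hx]
          simp only [le_top, inf_of_le_right]
          exact ENNReal.iSup_natCast.ge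
        · obtain ⟨k, hk⟩ := ENNReal.exists_nat_gt hx
          calc q x = min (q x) k := (min_eq_left hk.le).symm
            _ ≤ _ := le_iSup (fun k : ℕ => min (q x) (k : ℝ≥0∞)) k
      · exact iSup_le fun k => min_le_left _ _
    · intro i j hij x
      exact min_le_min_left _ (by exact_mod_cast hij)
  have hk : ∀ i j : ℕ, (∫⁻ x, min (u x) i) ^ (1 - s) * (∫⁻ x, min (v x) j) ^ s ≤ ∫⁻ x, w x := by
    intro i j
    apply pl1_bdd hs0 hs1 (hu.min measurable_const) (hv.min measurable_const) hw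
    · exact (lt_of_le_of_lt (iSup_le fun x => min_le_right _ _) (ENNReal.natCast_lt_top i)).ne
    · exact (lt_of_le_of_lt (iSup_le fun x => min_le_right _ _) (ENNReal.natCast_lt_top j)).ne
    · intro x y
      refine le_trans ?_ (h x y)
      gcongr
      · exact min_le_left _ _
      · exact min_le_left _ _
  have e1 : (∫⁻ x, u x) ^ (1 - s) = ⨆ i : ℕ, (∫⁻ x, min (u x) i) ^ (1 - s) := by
    rw [trunc hu]
    exact (ENNReal.orderIsoRpow (1 - s) h1s).map_iSup _
  have e2 : (∫⁻ x, v x) ^ s = ⨆ i : ℕ, (∫⁻ x, min (v x) i) ^ s := by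
    rw [trunc hv]
    exact (ENNReal.orderIsoRpow s hs0).map_iSup _
  rw [e1, e2, ENNReal.iSup_mul]
  apply iSup_le
  intro i
  rw [ENNReal.mul_iSup]
  exact iSup_le fun j => hk i j

theorem measurable_insertNth {n : ℕ} (i : Fin (n + 1)) :
    Measurable fun p : ℝ × (Fin n → ℝ) => (i.insertNth p.1 p.2 : Fin (n + 1) → ℝ) :=
  (MeasurableEquiv.piFinSuccAbove (fun _ : Fin (n + 1) => ℝ) i).symm.measurable

theorem lintegral_insertNth {n : ℕ} (i : Fin (n + 1)) {F : (Fin (n + 1) → ℝ) → ℝ≥0∞}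
    (hF : Measurable F) :
    ∫⁻ x, F x = ∫⁻ a : ℝ, ∫⁻ x : Fin n → ℝ, F (i.insertNth a x) := by
  have hmp := (volume_preserving_piFinSuccAbove (fun _ : Fin (n + 1) => ℝ) i).symm
  rw [← hmp.lintegral_comp hF, Measure.volume_eq_prod, lintegral_prod]
  · rfl
  · exact (hF.comp (MeasurableEquiv.measurable _)).aemeasurable

theorem prekopa_leindler {n : ℕ} {s : ℝ} (hs0 : 0 < s) (hs1 : s < 1)
    {u v w : (Fin n → ℝ) → ℝ≥0∞} (hu : Measurable u) (hv : Measurable v) (hw : Measurable w)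
    (h : ∀ x y, u x ^ (1 - s) * v y ^ s ≤ w ((1 - s) • x + s • y)) :
    (∫⁻ x, u x) ^ (1 - s) * (∫⁻ x, v x) ^ s ≤ ∫⁻ x, w x := by
  induction n with
  | zero =>
    have e : ∀ F : (Fin 0 → ℝ) → ℝ≥0∞, ∫⁻ x, F x = F 0 := by
      intro F
      rw [volume_pi, Measure.pi_of_empty (fun _ : Fin 0 => volume) 0, lintegral_dirac]
    rw [e, e, e]
    have := h 0 0
    simpa using this
  | succ n ih =>
    have mU : ∀ {q : (Fin (n + 1) → ℝ) → ℝ≥0∞}, Measurable q →
        Measurable fun a : ℝ => ∫⁻ x : Fin n → ℝ, q ((0 : Fin (n + 1)).insertNth a x) := by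
      intro q hq
      exact (hq.comp (measurable_insertNth 0)).lintegral_prod_right'
    rw [lintegral_insertNth 0 hu, lintegral_insertNth 0 hv, lintegral_insertNth 0 hw]
    apply pl1 hs0 hs1 (mU hu) (mU hv) (mU hw)
    intro a b
    have mc' : ∀ a : ℝ, Measurable fun x : Fin n → ℝ =>
        ((0 : Fin (n + 1)).insertNth a x : Fin (n + 1) → ℝ) :=
      fun a => (measurable_insertNth 0).comp (measurable_const.prodMk measurable_id)
    apply ih (hu.comp (mc' a)) (hv.comp (mc' b)) (hw.comp (mc' _))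
    intro x y
    have := h ((0 : Fin (n + 1)).insertNth a x) ((0 : Fin (n + 1)).insertNth b y)
    have e : (1 - s) • ((0 : Fin (n + 1)).insertNth a x : Fin (n + 1) → ℝ)
        + s • ((0 : Fin (n + 1)).insertNth b y : Fin (n + 1) → ℝ)
        = (0 : Fin (n + 1)).insertNth ((1 - s) * a + s * b) ((1 - s) • x + s • y) := by
      funext i
      refine Fin.cases ?_ (fun j => ?_) i <;> simp
    rw [e] at this
    exact this

end Vale.Agent.P245
end
end

section

section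

open MeasureTheory Real
open scoped ENNReal

namespace Vale.Agent.P245

theorem entropic_of_PL {n : ℕ} {ω : (Fin n → ℝ) → ℝ≥0∞} (hω : Measurable ω)
    (hfin : ∫⁻ x, ω x ≠ ∞) {B : Set (Fin n → ℝ)} (hB : MeasurableSet B)
    (hB0 : ∫⁻ x in B, ω x ≠ 0) {g Γ : (Fin n → ℝ) → ℝ} (hg : Measurable g) (hΓ : Measurable Γ)
    {G₀ : ℝ} (hgb : ∀ x, |g x| ≤ G₀) (hΓb : ∀ x, |Γ x| ≤ G₀) {K s₀ : ℝ} (hK : 0 ≤ K)
    (hs₀ : 0 < s₀)
    (h : ∀ s, 0 < s → s < s₀ → s < 1 → ∀ x y, y ∈ B →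
      (ENNReal.ofReal (exp (g x)) * ω x) ^ (1 - s) * (ω y) ^ s ≤
        ENNReal.ofReal (exp ((1 - s) * g ((1 - s) • x + s • y) + s * Γ ((1 - s) • x + s • y)
          + s ^ 2 * K)) * ω ((1 - s) • x + s • y)) :
    ∫ x, exp (g x) * g x ∂(volume.withDensity ω)
      - (∫ x, exp (g x) ∂(volume.withDensity ω)) * log (∫ x, exp (g x) ∂(volume.withDensity ω))
      ≤ ∫ x, exp (g x) * Γ x ∂(volume.withDensity ω)
        - (∫ x, exp (g x) ∂(volume.withDensity ω)) * log ((volume.withDensity ω).real B) := by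
  set ν := volume.withDensity ω with hν
  have hνfin : IsFiniteMeasure ν := by
    refine ⟨?_⟩
    rw [hν, withDensity_apply _ MeasurableSet.univ]
    simpa [lt_top_iff_ne_top] using hfin
  have hνB : ν B ≠ 0 := by
    rw [hν, withDensity_apply _ hB]; exact hB0
  have hνBpos : 0 < ν.real B := by
    rw [Measure.real]
    exact ENNReal.toReal_pos hνB (measure_ne_top _ _)
  have hG₀ : 0 ≤ G₀ := le_trans (abs_nonneg _) (hgb 0)
  have hint : ∀ (k : (Fin n → ℝ) → ℝ), Measurable k → (∃ C, ∀ x, |k x| ≤ C) → Integrable k ν := by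
    intro k hk ⟨C, hC⟩
    exact Integrable.of_bound hk.aestronglyMeasurable C (Filter.Eventually.of_forall hC)
  have hexpb : ∀ x, |exp (g x)| ≤ exp G₀ := by
    intro x
    rw [abs_of_pos (exp_pos _)]
    exact exp_le_exp.mpr (le_trans (le_abs_self _) (hgb x))
  have i1 : Integrable (fun x => exp (g x)) ν := hint _ (measurable_exp.comp hg) ⟨_, hexpb⟩
  set Z := ∫ x, exp (g x) ∂ν with hZ
  set m := ν.real B with hm
  have hνuniv : 0 < ν.real Set.univ :=
    lt_of_lt_of_le hνBpos (measureReal_mono (Set.subset_univ _))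
  have hZpos : 0 < Z := by
    have h1 : exp (-G₀) * ν.real Set.univ ≤ Z := by
      have : ∫ _x, exp (-G₀) ∂ν ≤ Z := by
        apply integral_mono (integrable_const _) i1
        intro x
        exact exp_le_exp.mpr (neg_le_of_abs_le (hgb x))
      simpa only [ge_iff_le, integral_const, smul_eq_mul, mul_comm] using this
    exact lt_of_lt_of_le (mul_pos (exp_pos _) hνuniv) h1
  have i2 : Integrable (fun x => exp (g x) * (Γ x - g x)) ν := by
    refine hint (fun x => exp (g x) * (Γ x - g x)) ((measurable_exp.comp hg).mul (hΓ.sub hg))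
      ⟨exp G₀ * (G₀ + G₀), fun x => ?_⟩
    rw [abs_mul]
    apply mul_le_mul (hexpb x) _ (abs_nonneg _) (exp_pos _).le
    calc |Γ x - g x| ≤ |Γ x| + |g x| := abs_sub _ _
      _ ≤ G₀ + G₀ := add_le_add (hΓb x) (hgb x)
  have i3 : Integrable (fun x => exp (g x) * g x) ν := by
    refine hint (fun x => exp (g x) * g x) ((measurable_exp.comp hg).mul hg)
      ⟨exp G₀ * G₀, fun x => ?_⟩
    rw [abs_mul]
    exact mul_le_mul (hexpb x) (hgb x) (abs_nonneg _) (exp_pos _).le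
  have i4 : Integrable (fun x => exp (g x) * Γ x) ν := by
    refine hint (fun x => exp (g x) * Γ x) ((measurable_exp.comp hg).mul hΓ)
      ⟨exp G₀ * G₀, fun x => ?_⟩
    rw [abs_mul]
    exact mul_le_mul (hexpb x) (hΓb x) (abs_nonneg _) (exp_pos _).le
  -- the key inequality for each small s
  set A := ∫ x, exp (g x) * (Γ x - g x) ∂ν with hA
  set D : ℝ := exp G₀ * (K + (2 * G₀ + K) ^ 2) * ν.real Set.univ with hD
  have key : ∀ s, 0 < s → s < s₀ → s < 1 → s * (2 * G₀ + K) ≤ 1 →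
      Z * log (m / Z) ≤ A + s * D := by
    intro s hs0 hss hs1 hsK
    have hPL := prekopa_leindler (n := n) hs0 hs1
      (u := fun x => ENNReal.ofReal (exp (g x)) * ω x)
      (v := B.indicator ω)
      (w := fun x => ENNReal.ofReal (exp ((1 - s) * g x + s * Γ x + s ^ 2 * K)) * ω x)
      (by fun_prop) (hω.indicator hB) (by fun_prop)
      (by
        intro x y
        by_cases hy : y ∈ B
        · rw [Set.indicator_of_mem hy]
          exact h s hs0 hss hs1 x y hy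
        · rw [Set.indicator_of_notMem hy, ENNReal.zero_rpow_of_pos hs0, mul_zero]
          exact bot_le)
    -- rewrite as integrals over ν
    have e1 : ∫⁻ x, ENNReal.ofReal (exp (g x)) * ω x = ENNReal.ofReal Z := by
      rw [hZ, ofReal_integral_eq_lintegral_ofReal i1 (Filter.Eventually.of_forall fun x => (exp_pos _).le),
        hν, lintegral_withDensity_eq_lintegral_mul _ hω (by fun_prop)]
      simp only [Pi.mul_apply, mul_comm]
    have e2 : ∫⁻ x, B.indicator ω x = ENNReal.ofReal m := by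
      rw [lintegral_indicator hB, hm, Measure.real, ENNReal.ofReal_toReal (measure_ne_top _ _), hν,
        withDensity_apply _ hB]
    have mw : Measurable fun x => exp ((1 - s) * g x + s * Γ x + s ^ 2 * K) := by fun_prop
    have bw : ∀ x, |exp ((1 - s) * g x + s * Γ x + s ^ 2 * K)| ≤
        exp (2 * G₀ + K) := by
      intro x
      rw [abs_of_pos (exp_pos _)]
      apply exp_le_exp.mpr
      have h1 := abs_le.mp (hgb x)
      have h2 := abs_le.mp (hΓb x)
      nlinarith only [hs1, h1, hs0, h2, hK, mul_nonneg (mul_nonneg hK hs0.le) (sub_nonneg.mpr hs1.le)]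
    have iw : Integrable (fun x => exp ((1 - s) * g x + s * Γ x + s ^ 2 * K)) ν :=
      hint _ mw ⟨_, bw⟩
    have e3 : ∫⁻ x, ENNReal.ofReal (exp ((1 - s) * g x + s * Γ x + s ^ 2 * K)) * ω x
        = ENNReal.ofReal (∫ x, exp ((1 - s) * g x + s * Γ x + s ^ 2 * K) ∂ν) := by
      rw [ofReal_integral_eq_lintegral_ofReal iw (Filter.Eventually.of_forall fun x => (exp_pos _).le),
        hν, lintegral_withDensity_eq_lintegral_mul _ hω (by fun_prop)]
      simp only [Pi.mul_apply, mul_comm]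
    rw [e1, e2, e3, ENNReal.ofReal_rpow_of_pos hZpos, ENNReal.ofReal_rpow_of_pos hνBpos,
      ← ENNReal.ofReal_mul (by (clear * - hZpos; positivity)), ENNReal.ofReal_le_ofReal_iff (integral_nonneg fun x => (exp_pos _).le)] at hPL
    -- lower bound
    have hl : Z + s * (Z * log (m / Z)) ≤ Z ^ (1 - s) * m ^ s := by
      have : Z ^ (1 - s) * m ^ s = Z * exp (s * log (m / Z)) := by
        rw [rpow_def_of_pos hZpos, rpow_def_of_pos hνBpos, log_div hνBpos.ne' hZpos.ne', ← exp_add]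
        nth_rewrite 2 [← exp_log hZpos]
        rw [← exp_add]
        congr 1; ring
      rw [this]
      have := add_one_le_exp (s * log (m / Z))
      linarith only [mul_nonneg (le_of_lt (sub_pos.2 hZpos)) (sub_nonneg.2 this)]
    -- upper bound
    have hup : ∫ x, exp ((1 - s) * g x + s * Γ x + s ^ 2 * K) ∂ν ≤ Z + s * A + s ^ 2 * D := by
      have hpt : ∀ x, exp ((1 - s) * g x + s * Γ x + s ^ 2 * K) ≤
          exp (g x) + s * (exp (g x) * (Γ x - g x)) + s ^ 2 * (exp G₀ * (K + (2 * G₀ + K) ^ 2)) := by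
        intro x
        have h1 := abs_le.mp (hgb x)
        have h2 := abs_le.mp (hΓb x)
        set y := s * (Γ x - g x) + s ^ 2 * K with hy
        have hyabs : |y| ≤ s * (2 * G₀ + K) := by
          rw [abs_le]
          constructor
          · nlinarith only [hs0, h1, h2, hK, mul_nonneg (mul_nonneg hK hs0.le) hs0.le]
          · nlinarith only [hs0, h1, h2, mul_nonneg (mul_nonneg hK hs0.le) (sub_nonneg.mpr hs1.le)]
        have hy1 : |y| ≤ 1 := hyabs.trans hsK
        have he := (abs_le.mp (Real.abs_exp_sub_one_sub_id_le hy1)).2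
        have hsplit : exp ((1 - s) * g x + s * Γ x + s ^ 2 * K) = exp (g x) * exp y := by
          rw [← exp_add]; congr 1; rw [hy]; ring
        have hy2 : y ^ 2 ≤ s ^ 2 * (2 * G₀ + K) ^ 2 := by
          rw [← mul_pow, ← sq_abs y]
          exact pow_le_pow_left₀ (abs_nonneg _) hyabs 2
        rw [hsplit]
        calc exp (g x) * exp y ≤ exp (g x) * (1 + y + s ^ 2 * (2 * G₀ + K) ^ 2) := by
              apply mul_le_mul_of_nonneg_left _ (exp_pos _).le
              linarith only [he, hy2]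
          _ = exp (g x) + s * (exp (g x) * (Γ x - g x)) + s ^ 2 * (exp (g x) * (K + (2 * G₀ + K) ^ 2)) := by
              rw [hy]; ring
          _ ≤ _ := by
              have : exp (g x) * (K + (2 * G₀ + K) ^ 2) ≤ exp G₀ * (K + (2 * G₀ + K) ^ 2) := by
                apply mul_le_mul_of_nonneg_right _ (by (clear * - hK; positivity))
                exact exp_le_exp.mpr h1.2
              linarith only [mul_nonneg (sq_nonneg (s : ℝ)) (sub_nonneg.2 this)]
      calc ∫ x, exp ((1 - s) * g x + s * Γ x + s ^ 2 * K) ∂ν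
          ≤ ∫ x, (exp (g x) + s * (exp (g x) * (Γ x - g x)) + s ^ 2 * (exp G₀ * (K + (2 * G₀ + K) ^ 2))) ∂ν := by
            apply integral_mono iw _ hpt
            exact (i1.add (i2.const_mul s)).add (integrable_const _)
        _ = Z + s * A + s ^ 2 * D := by
            have j2 : Integrable (fun x => s * (exp (g x) * (Γ x - g x))) ν := i2.const_mul s
            have j1 : Integrable (fun x => exp (g x) + s * (exp (g x) * (Γ x - g x))) ν := i1.add j2
            rw [integral_add j1 (integrable_const _), integral_add i1 j2,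
              integral_const_mul, integral_const, hD]
            simp only [smul_eq_mul]
            ring
    have h5 : s * (Z * log (m / Z)) ≤ s * (A + s * D) := by linarith
    exact le_of_mul_le_mul_left h5 hs0
  have hDn : 0 ≤ D := by (clear * - hK hνuniv; positivity)
  have final : Z * log (m / Z) ≤ A := by
    apply le_of_forall_pos_le_add
    intro ε hε
    set s := min (min (s₀ / 2) (1 / 2)) (min (1 / (2 * G₀ + K + 1)) (ε / (D + 1))) with hs
    have hs0 : 0 < s := by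
      rw [hs]; (clear * - hs₀ hG₀ hK hε hνuniv; positivity)
    have a1 : s ≤ s₀ / 2 := (min_le_left _ _).trans (min_le_left _ _)
    have a2 : s ≤ 1 / 2 := (min_le_left _ _).trans (min_le_right _ _)
    have a3 : s ≤ 1 / (2 * G₀ + K + 1) := (min_le_right _ _).trans (min_le_left _ _)
    have a4 : s ≤ ε / (D + 1) := (min_le_right _ _).trans (min_le_right _ _)
    have b3 : s * (2 * G₀ + K) ≤ 1 := by
      rw [le_div_iff₀ (by (clear * - hG₀ hK; positivity))] at a3
      nlinarith only [hs0, a3]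
    have b4 : s * D ≤ ε := by
      rw [le_div_iff₀ (by (clear * - hK hνuniv; positivity))] at a4
      nlinarith only [hs0, a4]
    have := key s hs0 (by linarith only [hs0, a1]) (by linarith only [a2]) b3
    linarith only [b4, this]
  have hAeq : A = ∫ x, exp (g x) * Γ x ∂ν - ∫ x, exp (g x) * g x ∂ν := by
    rw [hA, ← integral_sub i4 i3]
    congr 1; ext x; ring
  rw [log_div hνBpos.ne' hZpos.ne'] at final
  linarith

end Vale.Agent.P245
end
end

section

section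

open MeasureTheory Real Set
open scoped ENNReal

namespace Vale.Agent.P245

end Vale.Agent.P245
end
end

section

section
open MeasureTheory Real Set
open scoped ENNReal

namespace Vale.Agent.P245

/-- the measure with density rho -/
noncomputable def mu {n : ℕ} (ρ : (Fin n → ℝ) → ℝ) : Measure (Fin n → ℝ) :=
  volume.withDensity fun x => ENNReal.ofReal (ρ x)

end Vale.Agent.P245
end
end

section

section
open MeasureTheory Real Set
open scoped ENNReal

namespace Vale.Agent.P245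

/-- the local cost in square root coordinates -/
noncomputable def gam {n : ℕ} (L : ℝ) (p : Fin n → (Fin n → ℝ) → ℝ) (t : Fin n → ℝ) : ℝ :=
  ∑ i, if t i ^ 2 ≤ L then L / 2 * (p i t) ^ 2 else |p i t| * |t i|

end Vale.Agent.P245
end
end

section

section
open MeasureTheory Real Set
open scoped ENNReal ContDiff

namespace Vale.Agent.P245

/-- partial derivative -/
noncomputable def pd {n : ℕ} (f : (Fin n → ℝ) → ℝ) (i : Fin n) (x : Fin n → ℝ) : ℝ :=
  fderiv ℝ f x (Pi.single i 1)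

theorem fderiv_apply_eq_sum {n : ℕ} (f : (Fin n → ℝ) → ℝ) (x v : Fin n → ℝ) :
    fderiv ℝ f x v = ∑ i, pd f i x * v i := by
  have h : v = ∑ i, v i • (Pi.single i (1 : ℝ) : Fin n → ℝ) := by
    funext j
    simp only [Finset.sum_apply, Pi.smul_apply, Pi.single_apply, smul_eq_mul, mul_ite, mul_one, mul_zero, Finset.sum_ite_eq, Finset.mem_univ, ↓reduceIte]
  conv_lhs => rw [h]
  rw [map_sum]
  apply Finset.sum_congr rfl
  intro i _
  rw [map_smul, smul_eq_mul, mul_comm]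
  rfl

theorem fderiv_eq_zero_of_const_outside {n : ℕ} {g : (Fin n → ℝ) → ℝ} {R c : ℝ}
    (hc : ∀ x, R < ‖x‖ → g x = c) (x : Fin n → ℝ) (hx : R < ‖x‖) : fderiv ℝ g x = 0 := by
  have ho : IsOpen {y : Fin n → ℝ | R < ‖y‖} := isOpen_lt continuous_const continuous_norm
  have : g =ᶠ[nhds x] fun _ => c := by
    filter_upwards [ho.mem_nhds hx] with y hy
    exact hc y hy
  rw [this.fderiv_eq]
  simp

theorem taylor_bound {n : ℕ} {g : (Fin n → ℝ) → ℝ} (hg : ContDiff ℝ 2 g) {R c : ℝ}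
    (hc : ∀ x, R < ‖x‖ → g x = c) :
    ∃ M : ℝ, 0 ≤ M ∧ ∀ x y, g y ≤ g x + ∑ i, pd g i x * (y i - x i) + M * ‖y - x‖ ^ 2 := by
  have hcs : HasCompactSupport (fderiv ℝ g) := by
    apply HasCompactSupport.intro (isCompact_closedBall (0 : Fin n → ℝ) R)
    intro x hx
    apply fderiv_eq_zero_of_const_outside hc
    simpa only [Metric.mem_closedBall, dist_zero_right, not_le] using hx
  obtain ⟨C, hC⟩ := ContDiff.lipschitzWith_of_hasCompactSupport hcs
    (hg.fderiv_right (m := 1) (by norm_num)) one_ne_zero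
  refine ⟨C, C.coe_nonneg, fun x y => ?_⟩
  have hdiff : Differentiable ℝ g := hg.differentiable (by norm_num)
  have hb : ∀ z ∈ Metric.closedBall x ‖y - x‖, ‖fderiv ℝ g z - fderiv ℝ g x‖ ≤ C * ‖y - x‖ := by
    intro z hz
    refine (hC.norm_sub_le z x).trans ?_
    have h3 : ‖z - x‖ ≤ ‖y - x‖ := by
      rw [← dist_eq_norm]; exact hz
    exact mul_le_mul_of_nonneg_left h3 C.coe_nonneg
  have := (convex_closedBall x ‖y - x‖).norm_image_sub_le_of_norm_hasFDerivWithin_le'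
    (f := g) (f' := fderiv ℝ g) (φ := fderiv ℝ g x) (C := C * ‖y - x‖)
    (fun z _ => (hdiff z).hasFDerivAt.hasFDerivWithinAt) hb
    (Metric.mem_closedBall_self (norm_nonneg _)) (by rw [Metric.mem_closedBall, dist_eq_norm])
  rw [fderiv_apply_eq_sum] at this
  have h2 := (abs_le.mp this).2
  simp only [Pi.sub_apply] at h2
  linarith

end Vale.Agent.P245
end
end

section

section
open MeasureTheory Real Set
open scoped ENNReal

namespace Vale.Agent.P245

end Vale.Agent.P245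
end
end

section

section
open MeasureTheory Real Set Filter Topology
open scoped ENNReal

namespace Vale.Agent.P245

theorem continuous_pd {n : ℕ} {f : (Fin n → ℝ) → ℝ} (hf : ContDiff ℝ 1 f) (i : Fin n) :
    Continuous (pd f i) := by
  unfold pd
  exact (hf.continuous_fderiv (by norm_num)).clm_apply continuous_const

theorem bdd_of_const_outside {n : ℕ} {f : (Fin n → ℝ) → ℝ} (hf : Continuous f) {R c : ℝ}
    (hc : ∀ x, R < ‖x‖ → f x = c) : ∃ C, ∀ x, |f x| ≤ C := by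
  obtain ⟨C, hC⟩ := (isCompact_closedBall (0 : Fin n → ℝ) R).exists_bound_of_continuousOn
    hf.continuousOn
  refine ⟨max C |c|, fun x => ?_⟩
  by_cases hx : R < ‖x‖
  · rw [hc x hx]; exact le_max_right _ _
  · push Not at hx
    exact (hC x (by simpa only [Metric.mem_closedBall, dist_zero_right] using hx)).trans (le_max_left _ _)

theorem pd_const_outside {n : ℕ} {f : (Fin n → ℝ) → ℝ} {R c : ℝ}
    (hc : ∀ x, R < ‖x‖ → f x = c) (i : Fin n) : ∀ x, R < ‖x‖ → pd f i x = 0 := by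
  intro x hx
  unfold pd
  rw [fderiv_eq_zero_of_const_outside hc x hx]; simp

theorem tendsto_ent_add {Ω : Type*} [MeasurableSpace Ω] (μ : Measure Ω) [IsProbabilityMeasure μ]
    {F : Ω → ℝ} (hF : Measurable F) (h0 : ∀ x, 0 ≤ F x) {C : ℝ} (hC : ∀ x, F x ≤ C) :
    Tendsto (fun η : ℝ => ent μ (fun x => F x + η)) (𝓝[>] 0) (𝓝 (ent μ F)) := by
  obtain ⟨K, hK⟩ := exists_bound_mul_log (C + 1)
  have hFi : Integrable F μ := integrable_of_bdd μ hF
    (fun x => by rw [abs_of_nonneg (h0 x)]; exact hC x)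
  have h01 : ∀ᶠ η : ℝ in 𝓝[>] 0, 0 < η ∧ η ≤ 1 := by
    have : Ioc (0 : ℝ) 1 ∈ 𝓝[>] (0 : ℝ) := Ioc_mem_nhdsGT one_pos
    exact this
  unfold ent
  apply Tendsto.sub
  · apply tendsto_integral_filter_of_dominated_convergence (fun _ => K)
    · exact Eventually.of_forall fun η => ((hF.add_const η).mul (hF.add_const η).log).aestronglyMeasurable
    · filter_upwards [h01] with η hη
      refine Eventually.of_forall fun x => ?_
      rw [norm_eq_abs]
      exact hK _ (by linarith only [hη, h0 x]) (by linarith only [hη, hC x])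
    · exact integrable_const _
    · refine Eventually.of_forall fun x => ?_
      have h1 : Tendsto (fun η : ℝ => F x + η) (𝓝[>] 0) (𝓝 (F x)) := by
        have : Tendsto (fun η : ℝ => F x + η) (𝓝 0) (𝓝 (F x + 0)) :=
          tendsto_const_nhds.add tendsto_id
        rw [add_zero] at this
        exact this.mono_left nhdsWithin_le_nhds
      exact (continuous_mul_log.tendsto (F x)).comp h1
  · have e : ∀ η : ℝ, ∫ x, (F x + η) ∂μ = ∫ x, F x ∂μ + η := by
      intro η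
      rw [integral_add hFi (integrable_const _)]; simp
    simp_rw [e]
    have h1 : Tendsto (fun η : ℝ => ∫ x, F x ∂μ + η) (𝓝[>] 0) (𝓝 (∫ x, F x ∂μ)) := by
      have : Tendsto (fun η : ℝ => ∫ x, F x ∂μ + η) (𝓝 0) (𝓝 (∫ x, F x ∂μ + 0)) :=
        tendsto_const_nhds.add tendsto_id
      rw [add_zero] at this
      exact this.mono_left nhdsWithin_le_nhds
    exact (continuous_mul_log.tendsto _).comp h1

end Vale.Agent.P245
end
end

section

section
open MeasureTheory Real Set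
open scoped ENNReal

namespace Vale.Agent.P245

end Vale.Agent.P245
end
end

section

section

open MeasureTheory Real Set
open scoped ENNReal

namespace Vale.Agent.P245

end Vale.Agent.P245
end
end

section

section
open MeasureTheory Real Set Filter Topology
open scoped ENNReal

namespace Vale.Agent.P245

theorem measurableSet_coord {n : ℕ} (i : Fin n) (L : ℝ) : MeasurableSet {x : Fin n → ℝ | |x i| ≤ L} :=
  measurableSet_le (by fun_prop) measurable_const

end Vale.Agent.P245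
end
end

section

section

open MeasureTheory ProbabilityTheory
open scoped ENNReal NNReal

namespace Vale.Agent.P245

end Vale.Agent.P245
end
end

section

section
open MeasureTheory Real Set Filter Topology
open scoped ENNReal

namespace Vale.Agent.P245

/-- the cube -/
def cube (n : ℕ) (L : ℝ) : Set (Fin n → ℝ) := {x | ∀ i, |x i| ≤ L}

theorem measurableSet_cube (n : ℕ) (L : ℝ) : MeasurableSet (cube n L) := by
  have : cube n L = ⋂ i, {t : Fin n → ℝ | |t i| ≤ L} := by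
    ext t; simp only [cube, mem_ofPred_eq, mem_iInter]
  rw [this]
  exact MeasurableSet.iInter fun i => measurableSet_coord i L

/-- truncated density -/
noncomputable def trunc {n : ℕ} (ρ : (Fin n → ℝ) → ℝ) (L m : ℝ) : (Fin n → ℝ) → ℝ :=
  (cube n L).indicator fun x => ρ x / m

end Vale.Agent.P245
end
end

section

section

open MeasureTheory Real Set Filter Topology
open scoped ENNReal

namespace Vale.Agent.P245

/-- log-concave functions on `Fin n → ℝ` -/
structure LCd {n : ℕ} (ρ : (Fin n → ℝ) → ℝ) : Prop where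
  meas : Measurable ρ
  nonneg : ∀ x, 0 ≤ ρ x
  lc : ∀ (x y : Fin n → ℝ) (s : ℝ), 0 < s → s < 1 → ρ x ^ (1 - s) * ρ y ^ s ≤ ρ ((1 - s) • x + s • y)

/-- strongly log-concave weight -/
noncomputable def gwt {n : ℕ} (κ : ℝ) (ρ : (Fin n → ℝ) → ℝ) (x : Fin n → ℝ) : ℝ :=
  ρ x * exp (-(κ / 2 * ∑ i, x i ^ 2))

theorem gwt_nonneg {n : ℕ} {κ : ℝ} {ρ : (Fin n → ℝ) → ℝ} (hρ : LCd ρ) (x : Fin n → ℝ) :
    0 ≤ gwt κ ρ x := mul_nonneg (hρ.nonneg x) (exp_pos _).le

theorem measurable_gwt {n : ℕ} {κ : ℝ} {ρ : (Fin n → ℝ) → ℝ} (hρ : LCd ρ) :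
    Measurable (gwt κ ρ) := by
  unfold gwt
  exact hρ.meas.mul (by (clear * -; fun_prop))

theorem gwt_pl {n : ℕ} {κ : ℝ} {ρ : (Fin n → ℝ) → ℝ} (hρ : LCd ρ) (x y : Fin n → ℝ) {s : ℝ}
    (hs0 : 0 < s) (hs1 : s < 1) :
    gwt κ ρ x ^ (1 - s) * gwt κ ρ y ^ s * exp (s * (1 - s) * (κ / 2 * ∑ i, (x i - y i) ^ 2))
      ≤ gwt κ ρ ((1 - s) • x + s • y) := by
  unfold gwt
  rw [mul_rpow (hρ.nonneg _) (exp_pos _).le, mul_rpow (hρ.nonneg _) (exp_pos _).le,
    ← exp_mul, ← exp_mul]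
  have e : ρ x ^ (1 - s) * exp (-(κ / 2 * ∑ i, x i ^ 2) * (1 - s)) *
      (ρ y ^ s * exp (-(κ / 2 * ∑ i, y i ^ 2) * s)) *
      exp (s * (1 - s) * (κ / 2 * ∑ i, (x i - y i) ^ 2))
      = (ρ x ^ (1 - s) * ρ y ^ s) *
        exp (-(κ / 2 * ∑ i, ((1 - s) • x + s • y) i ^ 2)) := by
    have : exp (-(κ / 2 * ∑ i, ((1 - s) • x + s • y) i ^ 2))
        = exp (-(κ / 2 * ∑ i, x i ^ 2) * (1 - s)) * exp (-(κ / 2 * ∑ i, y i ^ 2) * s) *
          exp (s * (1 - s) * (κ / 2 * ∑ i, (x i - y i) ^ 2)) := by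
      rw [← exp_add, ← exp_add]
      congr 1
      have h1 : ∑ i, ((1 - s) • x + s • y) i ^ 2 = (1 - s) * ∑ i, x i ^ 2 + s * ∑ i, y i ^ 2
          - s * (1 - s) * ∑ i, (x i - y i) ^ 2 := by
        rw [Finset.mul_sum, Finset.mul_sum, Finset.mul_sum, ← Finset.sum_add_distrib,
          ← Finset.sum_sub_distrib]
        apply Finset.sum_congr rfl
        intro i _
        simp only [Pi.add_apply, Pi.smul_apply, smul_eq_mul]
        ring
      rw [h1]; ring
    rw [this]; ring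
  rw [e]
  exact mul_le_mul_of_nonneg_right (hρ.lc x y s hs0 hs1) (exp_pos _).le

/-- one-coordinate optimisation -/
theorem coordG {s κ M p P δ : ℝ} (hs0 : 0 < s) (hs1 : s < 1) (hκ : 0 < κ) (hM : 0 ≤ M)
    (hp : |p| ≤ P) (hsM : 2 * M / κ * s ≤ 1 / 2) :
    s * (1 - s) * (p * δ + M * s * δ ^ 2) - s * (1 - s) * (κ / 2 * δ ^ 2)
      ≤ s * (1 / (2 * κ) * p ^ 2) + s ^ 2 * (2 * M / κ ^ 2 * P ^ 2) := by
  have h1s : 0 < 1 - s := by linarith only [hs1]
  set u := 2 * M / κ * s with hu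
  have hu0 : 0 ≤ u := by (clear * - hM hκ hs0; positivity)
  have h1 : p * δ - (1 - u) * (κ / 2 * δ ^ 2) ≤ 1 / (2 * κ) * p ^ 2 * (1 + 2 * u) := by
    have h2 : p * δ - (1 - u) * (κ / 2 * δ ^ 2) ≤ 1 / (2 * κ) * p ^ 2 / (1 - u) := by
      rw [le_div_iff₀ (by linarith only [hsM])]
      have : (p * δ - (1 - u) * (κ / 2 * δ ^ 2)) * (1 - u)
          = 1 / (2 * κ) * p ^ 2 - (p - (1 - u) * κ * δ) ^ 2 / (2 * κ) := by
        field_simp; ring
      rw [this]
      have : 0 ≤ (p - (1 - u) * κ * δ) ^ 2 / (2 * κ) := by (clear * - hκ; positivity)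
      linarith only [this]
    refine h2.trans ?_
    rw [div_le_iff₀ (by linarith only [hsM])]
    have h3 : 1 ≤ (1 + 2 * u) * (1 - u) := by nlinarith only [hsM, hu0]
    have h4 : 0 ≤ 1 / (2 * κ) * p ^ 2 := by (clear * - hκ; positivity)
    nlinarith only [h3, h4]
  have h5 : p * δ + M * s * δ ^ 2 - κ / 2 * δ ^ 2 = p * δ - (1 - u) * (κ / 2 * δ ^ 2) := by
    rw [hu]; field_simp; ring
  have h6 : 0 ≤ 1 / (2 * κ) * p ^ 2 * (1 + 2 * u) := by (clear * - hκ hM hs0; positivity)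
  have h7 : (1 - s) * (p * δ + M * s * δ ^ 2 - κ / 2 * δ ^ 2) ≤ 1 / (2 * κ) * p ^ 2 * (1 + 2 * u) := by
    rw [h5]
    nlinarith only [hs0, h6, hs1, h1]
  have h10 : p ^ 2 ≤ P ^ 2 := by
    rw [← sq_abs p]; exact pow_le_pow_left₀ (abs_nonneg _) hp 2
  have h8 : 1 / (2 * κ) * p ^ 2 * (1 + 2 * u) ≤ 1 / (2 * κ) * p ^ 2 + s * (2 * M / κ ^ 2 * P ^ 2) := by
    have : 1 / (2 * κ) * p ^ 2 * (1 + 2 * u) = 1 / (2 * κ) * p ^ 2 + s * (2 * M / κ ^ 2 * p ^ 2) := by
      rw [hu]; (clear * - hκ hM hs0; field_simp)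
    rw [this]
    have : s * (2 * M / κ ^ 2 * p ^ 2) ≤ s * (2 * M / κ ^ 2 * P ^ 2) := by (clear * - h10 hM hκ hs0; gcongr)
    linarith only [this]
  calc s * (1 - s) * (p * δ + M * s * δ ^ 2) - s * (1 - s) * (κ / 2 * δ ^ 2)
      = s * ((1 - s) * (p * δ + M * s * δ ^ 2 - κ / 2 * δ ^ 2)) := by ring
    _ ≤ s * (1 / (2 * κ) * p ^ 2 + s * (2 * M / κ ^ 2 * P ^ 2)) :=
        mul_le_mul_of_nonneg_left (h7.trans h8) hs0.le
    _ = _ := by ring

/-- exponential form of the log-Sobolev inequality for strongly log-concave measures -/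
theorem lsi_exp {n : ℕ} {κ : ℝ} (hκ : 0 < κ) {ρ : (Fin n → ℝ) → ℝ} (hρ : LCd ρ)
    {ν : Measure (Fin n → ℝ)} [IsProbabilityMeasure ν]
    (hν : ν = volume.withDensity fun x => ENNReal.ofReal (gwt κ ρ x))
    {g : (Fin n → ℝ) → ℝ} {p : Fin n → (Fin n → ℝ) → ℝ} (hg : Measurable g)
    (hp : ∀ i, Measurable (p i)) {M P G : ℝ} (hM : 0 ≤ M)
    (hT : ∀ x y, g y ≤ g x + ∑ i, p i x * (y i - x i) + M * ‖y - x‖ ^ 2)
    (hgb : ∀ x, |g x| ≤ G) (hpb : ∀ i x, |p i x| ≤ P) :
    ent ν (fun x => exp (g x)) ≤ ∫ x, exp (g x) * (1 / (2 * κ) * ∑ i, p i x ^ 2) ∂ν := by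
  set ω : (Fin n → ℝ) → ℝ≥0∞ := fun x => ENNReal.ofReal (gwt κ ρ x) with hω
  have hωm : Measurable ω := (measurable_gwt hρ).ennreal_ofReal
  have hν1 : ∫⁻ x, ω x = 1 := by
    have : ν Set.univ = 1 := measure_univ
    rw [hν, withDensity_apply _ MeasurableSet.univ, Measure.restrict_univ] at this
    exact this
  set K₁ := 2 * M / κ ^ 2 * P ^ 2 with hK₁
  have hK₁0 : 0 ≤ K₁ := by (clear * - hM hκ; positivity)
  set κ' := 2 * M / κ with hκ'
  have hκ'0 : 0 ≤ κ' := by (clear * - hM hκ; positivity)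
  have hpt : ∀ s, 0 < s → s < min (1 / 2) (1 / (2 * κ' + 1)) → s < 1 → ∀ x y, y ∈ (univ : Set (Fin n → ℝ)) →
      (ENNReal.ofReal (exp (g x)) * ω x) ^ (1 - s) * (ω y) ^ s ≤
        ENNReal.ofReal (exp ((1 - s) * g ((1 - s) • x + s • y)
          + s * (1 / (2 * κ) * ∑ i, p i ((1 - s) • x + s • y) ^ 2)
          + s ^ 2 * (n * K₁))) * ω ((1 - s) • x + s • y) := by
    intro s hs0 hss hs1 x y _
    have h1s : 0 < 1 - s := by linarith only [hs1]
    have hsM : κ' * s ≤ 1 / 2 := by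
      have := (hss.trans_le (min_le_right _ _)).le
      rw [le_div_iff₀ (by (clear * - hM hκ; positivity))] at this
      linarith only [this, hs0]
    set τ := (1 - s) • x + s • y with hτ
    have hτi : ∀ i, τ i = (1 - s) * x i + s * y i := fun i => by simp [hτ]
    have hdx : ∀ i, x i - τ i = s * (x i - y i) := fun i => by rw [hτi]; ring
    have hnorm : ‖x - τ‖ ^ 2 ≤ ∑ i, (s * (x i - y i)) ^ 2 := by
      have h0 : ‖x - τ‖ ≤ √(∑ i, (s * (x i - y i)) ^ 2) := by
        rw [pi_norm_le_iff_of_nonneg (sqrt_nonneg _)]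
        intro i
        rw [Pi.sub_apply, hdx, norm_eq_abs]
        apply le_sqrt_of_sq_le
        rw [sq_abs]
        exact Finset.single_le_sum (f := fun i => (s * (x i - y i)) ^ 2)
          (fun j _ => sq_nonneg _) (Finset.mem_univ i)
      calc ‖x - τ‖ ^ 2 ≤ √(∑ i, (s * (x i - y i)) ^ 2) ^ 2 := pow_le_pow_left₀ (norm_nonneg _) h0 2
        _ = _ := sq_sqrt (Finset.sum_nonneg fun i _ => sq_nonneg _)
    have hTx := hT τ x
    have hTx2 : g x ≤ g τ + ∑ i, (p i τ * (s * (x i - y i)) + M * (s * (x i - y i)) ^ 2) := by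
      rw [Finset.sum_add_distrib, ← Finset.mul_sum]
      have : M * ‖x - τ‖ ^ 2 ≤ M * ∑ i, (s * (x i - y i)) ^ 2 := mul_le_mul_of_nonneg_left hnorm hM
      simp_rw [hdx] at hTx
      linarith only [this, hTx]
    have hi : ∀ i, s * (1 - s) * (p i τ * (x i - y i) + M * s * (x i - y i) ^ 2)
        - s * (1 - s) * (κ / 2 * (x i - y i) ^ 2) ≤ s * (1 / (2 * κ) * (p i τ) ^ 2) + s ^ 2 * K₁ :=
      fun i => coordG hs0 hs1 hκ hM (hpb i τ) hsM
    have hsum := Finset.sum_le_sum fun i (_ : i ∈ Finset.univ) => hi i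
    rw [Finset.sum_sub_distrib, Finset.sum_add_distrib, ← Finset.mul_sum, ← Finset.mul_sum,
      ← Finset.mul_sum, ← Finset.mul_sum, ← Finset.mul_sum] at hsum
    have e3 : ∑ _i : Fin n, s ^ 2 * K₁ = s ^ 2 * (n * K₁) := by
      rw [Finset.sum_const, Finset.card_univ, Fintype.card_fin, nsmul_eq_mul]; ring
    rw [e3] at hsum
    have e4 : (1 - s) * ∑ i, (p i τ * (s * (x i - y i)) + M * (s * (x i - y i)) ^ 2)
        = s * (1 - s) * ∑ i, (p i τ * (x i - y i) + M * s * (x i - y i) ^ 2) := by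
      rw [Finset.mul_sum, Finset.mul_sum]
      apply Finset.sum_congr rfl
      intro i _; ring
    have h11 := mul_le_mul_of_nonneg_left hTx2 h1s.le
    rw [mul_add, e4] at h11
    set Gn := s * (1 - s) * (κ / 2 * ∑ i, (x i - y i) ^ 2) with hGn
    have main : (1 - s) * g x - Gn ≤ (1 - s) * g τ + s * (1 / (2 * κ) * ∑ i, p i τ ^ 2)
        + s ^ 2 * (n * K₁) := by
      linarith only [h11, hsum]
    have hw := gwt_pl (κ := κ) hρ x y hs0 hs1
    simp only [hω]
    rw [← ENNReal.ofReal_mul (exp_pos _).le,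
      ENNReal.ofReal_rpow_of_nonneg (mul_nonneg (exp_pos _).le (gwt_nonneg hρ x)) h1s.le,
      ENNReal.ofReal_rpow_of_nonneg (gwt_nonneg hρ y) hs0.le,
      ← ENNReal.ofReal_mul (rpow_nonneg (mul_nonneg (exp_pos _).le (gwt_nonneg hρ x)) _),
      ← ENNReal.ofReal_mul (exp_pos _).le]
    apply ENNReal.ofReal_le_ofReal
    rw [mul_rpow (exp_pos _).le (gwt_nonneg hρ x), ← exp_mul]
    calc exp (g x * (1 - s)) * gwt κ ρ x ^ (1 - s) * gwt κ ρ y ^ s
        = exp ((1 - s) * g x - Gn) * (gwt κ ρ x ^ (1 - s) * gwt κ ρ y ^ s * exp Gn) := by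
          have : exp (g x * (1 - s)) = exp ((1 - s) * g x - Gn) * exp Gn := by
            rw [← exp_add]; congr 1; ring
          rw [this]; ring
      _ ≤ exp ((1 - s) * g x - Gn) * gwt κ ρ τ := mul_le_mul_of_nonneg_left hw (exp_pos _).le
      _ ≤ _ := mul_le_mul_of_nonneg_right (exp_le_exp.mpr main) (gwt_nonneg hρ τ)
  have hΓm : Measurable fun x => 1 / (2 * κ) * ∑ i, p i x ^ 2 :=
    (Finset.measurable_sum _ fun i _ => (hp i).pow_const 2).const_mul _
  have hΓb : ∀ x, |1 / (2 * κ) * ∑ i, p i x ^ 2| ≤ 1 / (2 * κ) * (n * P ^ 2) := by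
    intro x
    have h0 : 0 ≤ ∑ i, p i x ^ 2 := Finset.sum_nonneg fun i _ => sq_nonneg _
    rw [abs_of_nonneg (mul_nonneg (by positivity) h0)]
    apply mul_le_mul_of_nonneg_left _ (by positivity)
    calc ∑ i, p i x ^ 2 ≤ ∑ _i : Fin n, P ^ 2 := by
          apply Finset.sum_le_sum
          intro i _
          rw [← sq_abs]
          exact pow_le_pow_left₀ (abs_nonneg _) (hpb i x) 2
      _ = _ := by rw [Finset.sum_const, Finset.card_univ, Fintype.card_fin, nsmul_eq_mul]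
  have key := entropic_of_PL hωm (by rw [hν1]; exact ENNReal.one_ne_top) MeasurableSet.univ
    (by rw [Measure.restrict_univ, hν1]; exact one_ne_zero) hg hΓm
    (G₀ := max G (1 / (2 * κ) * (n * P ^ 2)))
    (fun x => (hgb x).trans (le_max_left _ _))
    (fun x => (hΓb x).trans (le_max_right _ _))
    (K := n * K₁) (s₀ := min (1 / 2) (1 / (2 * κ' + 1))) (by (clear * - hM hκ; positivity)) (by (clear * - hM hκ; positivity)) hpt
  rw [← hν] at key
  rw [probReal_univ, log_one, mul_zero, sub_zero] at key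
  unfold ent
  simp only [log_exp]
  exact key

/-- **Log-Sobolev inequality** for `κ`-uniformly log-concave measures. -/
theorem lsi_slc {n : ℕ} {κ : ℝ} (hκ : 0 < κ) {ρ : (Fin n → ℝ) → ℝ} (hρ : LCd ρ)
    {ν : Measure (Fin n → ℝ)} [IsProbabilityMeasure ν]
    (hν : ν = volume.withDensity fun x => ENNReal.ofReal (gwt κ ρ x))
    {f : (Fin n → ℝ) → ℝ} (hf : ContDiff ℝ 2 f) {R c : ℝ} (hc : ∀ x, R < ‖x‖ → f x = c) :
    ent ν (fun x => f x ^ 2) ≤ 2 / κ * ∑ i, ∫ x, pd f i x ^ 2 ∂ν := by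
  have hf1 : ContDiff ℝ 1 f := hf.of_le (by norm_num)
  obtain ⟨C₁, hC₁⟩ := bdd_of_const_outside hf.continuous hc
  have hC : ∀ x, f x ^ 2 ≤ C₁ ^ 2 := fun x => by
    rw [← sq_abs]; exact pow_le_pow_left₀ (abs_nonneg _) (hC₁ x) 2
  have hfm : Measurable fun x => f x ^ 2 := hf.continuous.measurable.pow_const 2
  have hP : ∀ i, ∃ P, ∀ x, |pd f i x| ≤ P := fun i =>
    bdd_of_const_outside (continuous_pd hf1 i) (pd_const_outside hc i)
  choose P hP using hP
  have hpdm : ∀ i, Measurable fun x => pd f i x ^ 2 := fun i =>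
    (continuous_pd hf1 i).measurable.pow_const 2
  have hpdi : ∀ i, Integrable (fun x => pd f i x ^ 2) ν := fun i =>
    integrable_of_bdd ν (hpdm i) (K := P i ^ 2) fun x => by
      rw [abs_of_nonneg (sq_nonneg _), ← sq_abs]
      exact pow_le_pow_left₀ (abs_nonneg _) (hP i x) 2
  have key : ∀ η : ℝ, 0 < η → ent ν (fun x => f x ^ 2 + η) ≤ 2 / κ * ∑ i, ∫ x, pd f i x ^ 2 ∂ν := by
    intro η hη
    set g : (Fin n → ℝ) → ℝ := fun x => log (f x ^ 2 + η) with hg
    have hpos : ∀ x, 0 < f x ^ 2 + η := fun x => by (clear * - hη; positivity)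
    have hg2 : ContDiff ℝ 2 g := ((hf.pow 2).add contDiff_const).log fun x => (hpos x).ne'
    have hg1 : ContDiff ℝ 1 g := hg2.of_le (by norm_num)
    have hgc : ∀ x, R < ‖x‖ → g x = log (c ^ 2 + η) := fun x hx => by simp only [hg]; rw [hc x hx]
    obtain ⟨M, hM, hT⟩ := taylor_bound hg2 hgc
    obtain ⟨G, hG⟩ := bdd_of_const_outside hg2.continuous hgc
    have hQ : ∀ i, ∃ P, ∀ x, |pd g i x| ≤ P := fun i =>
      bdd_of_const_outside (continuous_pd hg1 i) (pd_const_outside hgc i)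
    choose Q hQ using hQ
    have hQ' : ∀ i x, |pd g i x| ≤ ∑ j, |Q j| := fun i x =>
      ((hQ i x).trans (le_abs_self _)).trans
        (Finset.single_le_sum (f := fun j => |Q j|) (fun j _ => abs_nonneg _) (Finset.mem_univ i))
    have h1 := lsi_exp hκ hρ hν hg2.continuous.measurable
      (fun i => (continuous_pd hg1 i).measurable) hM hT hG hQ'
    have hexp : ∀ x, exp (g x) = f x ^ 2 + η := fun x => exp_log (hpos x)
    simp only [hexp] at h1
    refine h1.trans ?_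
    have hpdg : ∀ i x, pd g i x = 2 * f x * pd f i x / (f x ^ 2 + η) := by
      intro i x
      unfold pd
      have hfd : HasFDerivAt f (fderiv ℝ f x) x := (hf.differentiable (by norm_num) x).hasFDerivAt
      have h2 : HasFDerivAt g ((f x ^ 2 + η)⁻¹ • ((2 * f x ^ (2 - 1)) • fderiv ℝ f x)) x := by
        have h3 : HasFDerivAt (fun x => f x ^ 2 + η) ((2 * f x ^ (2 - 1)) • fderiv ℝ f x) x := by
          have := (hfd.pow 2).add_const η
          simpa only [Nat.add_one_sub_one, pow_one, hasFDerivAt_add_const_iff, nsmul_eq_mul, Nat.cast_ofNat] using this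
        exact h3.log (hpos x).ne'
      rw [h2.fderiv]
      simp only [_root_.smul_apply, smul_eq_mul]
      norm_num
      ring
    have hpt : ∀ x, (f x ^ 2 + η) * (1 / (2 * κ) * ∑ i, pd g i x ^ 2) ≤ 2 / κ * ∑ i, pd f i x ^ 2 := by
      intro x
      rw [Finset.mul_sum, Finset.mul_sum, Finset.mul_sum]
      apply Finset.sum_le_sum
      intro i _
      rw [hpdg]
      have h3 : (f x ^ 2 + η) * (1 / (2 * κ) * (2 * f x * pd f i x / (f x ^ 2 + η)) ^ 2)
          = 2 / κ * pd f i x ^ 2 * (f x ^ 2 / (f x ^ 2 + η)) := by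
        have := (hpos x).ne'
        (clear * - hκ this; field_simp)
      rw [h3]
      have h4 : f x ^ 2 / (f x ^ 2 + η) ≤ 1 := by
        rw [div_le_one (hpos x)]; linarith only [hη]
      have h5 : 0 ≤ 2 / κ * pd f i x ^ 2 := by (clear * - hκ; positivity)
      linarith only [mul_nonneg (sub_nonneg.2 h4) (sub_nonneg.2 h5)]
    have hI2 : Integrable (fun x => 2 / κ * ∑ i, pd f i x ^ 2) ν :=
      (integrable_finsetSum _ fun i _ => hpdi i).const_mul _
    have hI1 : Integrable (fun x => (f x ^ 2 + η) * (1 / (2 * κ) * ∑ i, pd g i x ^ 2)) ν := by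
      refine Integrable.mono' hI2 ?_ (Eventually.of_forall fun x => ?_)
      · apply Measurable.aestronglyMeasurable
        exact (hfm.add_const η).mul ((Finset.measurable_sum _ fun i _ =>
          (continuous_pd hg1 i).measurable.pow_const 2).const_mul _)
      · rw [norm_eq_abs, abs_of_nonneg]
        · exact hpt x
        · have := hpos x
          have h0 : 0 ≤ ∑ i, pd g i x ^ 2 := Finset.sum_nonneg fun i _ => sq_nonneg _
          (clear * - hη hκ; positivity)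
    calc ∫ x, (f x ^ 2 + η) * (1 / (2 * κ) * ∑ i, pd g i x ^ 2) ∂ν
        ≤ ∫ x, 2 / κ * ∑ i, pd f i x ^ 2 ∂ν := integral_mono hI1 hI2 hpt
      _ = _ := by rw [integral_const_mul, integral_finsetSum _ fun i _ => hpdi i]
  have hlim := tendsto_ent_add ν hfm (fun x => sq_nonneg _) hC
  apply le_of_tendsto hlim
  filter_upwards [self_mem_nhdsWithin] with η hη
  exact key η hη

end Vale.Agent.P245
end
end

section

section

open MeasureTheory Real
open scoped ENNReal Topology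

namespace Vale.Agent.P245

variable {n : ℕ} {μ : Measure (Fin n → ℝ)} [IsProbabilityMeasure μ] {R : ℝ}

/-! ### bounded functions -/

/-- bounded on the slab -/
def Bd (T : ℝ) (F : ℝ × (Fin n → ℝ) → ℝ) : Prop :=
  ∃ C, 0 ≤ C ∧ ∀ p : ℝ × (Fin n → ℝ), 0 ≤ p.1 → p.1 ≤ T → |F p| ≤ C

theorem Bd.const (T c : ℝ) : Bd (n := n) T fun _ => c := ⟨|c|, abs_nonneg _, fun _ _ _ => le_rfl⟩

theorem Bd.add {T : ℝ} {F G : ℝ × (Fin n → ℝ) → ℝ} (hF : Bd T F) (hG : Bd T G) :
    Bd T fun p => F p + G p := by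
  obtain ⟨C, hC0, hC⟩ := hF
  obtain ⟨D, hD0, hD⟩ := hG
  exact ⟨C + D, by positivity, fun p a b => (abs_add_le _ _).trans (add_le_add (hC p a b) (hD p a b))⟩

theorem Bd.mul {T : ℝ} {F G : ℝ × (Fin n → ℝ) → ℝ} (hF : Bd T F) (hG : Bd T G) :
    Bd T fun p => F p * G p := by
  obtain ⟨C, hC0, hC⟩ := hF
  obtain ⟨D, hD0, hD⟩ := hG
  refine ⟨C * D, by positivity, fun p a b => ?_⟩
  rw [abs_mul]
  exact mul_le_mul (hC p a b) (hD p a b) (abs_nonneg _) hC0

theorem Bd.sub {T : ℝ} {F G : ℝ × (Fin n → ℝ) → ℝ} (hF : Bd T F) (hG : Bd T G) :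
    Bd T fun p => F p - G p := by
  have h := hF.add ((Bd.const (n := n) T (-1)).mul hG)
  have e : (fun p => F p + -1 * G p) = fun p => F p - G p := by funext p; ring
  rwa [e] at h

theorem B2.of_Bd {T : ℝ} {F : ℝ × (Fin n → ℝ) → ℝ} (cd : ContDiff ℝ 2 F) (h0 : Bd T F)
    (h1 : Bd T (dS F)) (h2 : ∀ i, Bd T (dI i F)) (h3 : ∀ i, Bd T (dI i (dI i F))) : B2 T F := by
  refine ⟨cd, ?_⟩
  obtain ⟨C0, a0, b0⟩ := h0
  obtain ⟨C1, a1, b1⟩ := h1
  choose C2 a2 b2 using h2
  choose C3 a3 b3 using h3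
  have S2 : ∀ i, C2 i ≤ ∑ i, C2 i := fun i =>
    Finset.single_le_sum (f := C2) (fun j _ => a2 j) (Finset.mem_univ i)
  have S3 : ∀ i, C3 i ≤ ∑ i, C3 i := fun i =>
    Finset.single_le_sum (f := C3) (fun j _ => a3 j) (Finset.mem_univ i)
  have t2 : 0 ≤ ∑ i, C2 i := Finset.sum_nonneg fun i _ => a2 i
  have t3 : 0 ≤ ∑ i, C3 i := Finset.sum_nonneg fun i _ => a3 i
  refine ⟨C0 + C1 + ∑ i, C2 i + ∑ i, C3 i, by (clear * - a0 a1 t2 t3; positivity), fun p x y => ⟨?_, ?_, ?_, ?_⟩⟩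
  · linarith only [a1, t2, t3, b0 p x y]
  · linarith [b1 p x y]
  · intro i; linarith [b2 i p x y, S2 i]
  · intro i; linarith only [a0, a1, t2, b3 i p x y, S3 i]

theorem B2.bd0 {T : ℝ} {F : ℝ × (Fin n → ℝ) → ℝ} (h : B2 T F) : Bd T F := by
  obtain ⟨C, a, b⟩ := h.bd; exact ⟨C, a, fun p x y => (b p x y).1⟩

theorem B2.bd1 {T : ℝ} {F : ℝ × (Fin n → ℝ) → ℝ} (h : B2 T F) : Bd T (dS F) := by
  obtain ⟨C, a, b⟩ := h.bd; exact ⟨C, a, fun p x y => (b p x y).2.1⟩

theorem B2.bd2 {T : ℝ} {F : ℝ × (Fin n → ℝ) → ℝ} (h : B2 T F) (i : Fin n) : Bd T (dI i F) := by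
  obtain ⟨C, a, b⟩ := h.bd; exact ⟨C, a, fun p x y => (b p x y).2.2.1 i⟩

theorem B2.bd3 {T : ℝ} {F : ℝ × (Fin n → ℝ) → ℝ} (h : B2 T F) (i : Fin n) :
    Bd T (dI i (dI i F)) := by
  obtain ⟨C, a, b⟩ := h.bd; exact ⟨C, a, fun p x y => (b p x y).2.2.2 i⟩

theorem Bd_Mf (h : CSupp μ R) {g : (Fin n → ℝ) → ℝ} (hg : Adm μ g) (T : ℝ) :
    Bd T (Mf μ g) := by
  obtain ⟨G, hG0, hG⟩ := hg.bdd
  exact ⟨G, hG0, fun p _ _ => Mf_abs_le h hg hG p⟩

theorem diff_Mf (h : CSupp μ R) {g : (Fin n → ℝ) → ℝ} (hg : Adm μ g) :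
    Differentiable ℝ (Mf μ g) := (contDiff_Mf h hg 1).differentiable (by norm_num)

theorem cd2_Mf (h : CSupp μ R) {g : (Fin n → ℝ) → ℝ} (hg : Adm μ g) :
    ContDiff ℝ 2 (Mf μ g) := by exact_mod_cast contDiff_Mf h hg 2

theorem Bd_dI_Mf (h : CSupp μ R) {g : (Fin n → ℝ) → ℝ} (hg : Adm μ g) (T : ℝ) (i : Fin n) :
    Bd T (dI i (Mf μ g)) := by
  rw [dI_Mf h hg]
  exact (Bd_Mf h (hg.xmul h i) T).sub ((Bd_Mf h hg T).mul (Bd_Mf h (h.adm_coord i) T))

theorem dI_sub {F G : ℝ × (Fin n → ℝ) → ℝ} (hF : Differentiable ℝ F) (hG : Differentiable ℝ G)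
    (i : Fin n) :
    dI i (fun p => F p - G p) = fun p => dI i F p - dI i G p := by
  funext p
  unfold dI
  rw [fderiv_fun_sub (hF p) (hG p)]
  simp only [sub_apply]

theorem dI_dI_Mf (h : CSupp μ R) {g : (Fin n → ℝ) → ℝ} (hg : Adm μ g) (i j : Fin n) :
    dI j (dI i (Mf μ g)) = fun p => dI j (Mf μ (fun x => x i * g x)) p
      - (Mf μ g p * dI j (Mf μ (fun x => x i)) p + Mf μ (fun x => x i) p * dI j (Mf μ g) p) := by
  rw [dI_Mf h hg i, dI_sub (F := Mf μ fun x => x i * g x)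
    (G := fun p => Mf μ g p * Mf μ (fun x => x i) p) (diff_Mf h (hg.xmul h i))
    ((diff_Mf h hg).mul (diff_Mf h (h.adm_coord i))),
    dI_mul (diff_Mf h hg) (diff_Mf h (h.adm_coord i))]

theorem B2_Mf (h : CSupp μ R) {g : (Fin n → ℝ) → ℝ} (hg : Adm μ g) (T : ℝ) :
    B2 T (Mf μ g) := by
  refine B2.of_Bd (cd2_Mf h hg) (Bd_Mf h hg T) ?_ (Bd_dI_Mf h hg T) (fun i => ?_)
  · rw [dS_Mf h hg]
    exact (Bd.const T (1 / 2)).mul (((Bd_Mf h hg T).mul (Bd_Mf h h.adm_sq T)).sub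
      (Bd_Mf h (h.adm_sq.mul hg) T))
  · rw [dI_dI_Mf h hg]
    exact (Bd_dI_Mf h (hg.xmul h i) T i).sub (((Bd_Mf h hg T).mul
      (Bd_dI_Mf h (h.adm_coord i) T i)).add ((Bd_Mf h (h.adm_coord i) T).mul (Bd_dI_Mf h hg T i)))

theorem B2.mul {T : ℝ} {F G : ℝ × (Fin n → ℝ) → ℝ} (hF : B2 T F) (hG : B2 T G) :
    B2 T fun p => F p * G p := by
  have dF : Differentiable ℝ F := hF.cd.differentiable (by norm_num)
  have dG : Differentiable ℝ G := hG.cd.differentiable (by norm_num)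
  refine B2.of_Bd (hF.cd.mul hG.cd) (hF.bd0.mul hG.bd0) ?_ (fun i => ?_) (fun i => ?_)
  · rw [dS_mul dF dG]; exact (hF.bd0.mul hG.bd1).add (hG.bd0.mul hF.bd1)
  · rw [dI_mul dF dG]; exact (hF.bd0.mul (hG.bd2 i)).add (hG.bd0.mul (hF.bd2 i))
  · rw [dI_dI_mul hF.cd hG.cd]
    exact ((hF.bd0.mul (hG.bd3 i)).add (hG.bd0.mul (hF.bd3 i))).add
      ((Bd.const T 2).mul ((hF.bd2 i).mul (hG.bd2 i)))

theorem B2.add {T : ℝ} {F G : ℝ × (Fin n → ℝ) → ℝ} (hF : B2 T F) (hG : B2 T G) :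
    B2 T fun p => F p + G p := by
  have dF : Differentiable ℝ F := hF.cd.differentiable (by norm_num)
  have dG : Differentiable ℝ G := hG.cd.differentiable (by norm_num)
  refine B2.of_Bd (hF.cd.add hG.cd) (hF.bd0.add hG.bd0) ?_ (fun i => ?_) (fun i => ?_)
  · rw [dS_add dF dG]; exact hF.bd1.add hG.bd1
  · rw [dI_add dF dG]; exact (hF.bd2 i).add (hG.bd2 i)
  · rw [dI_add dF dG, dI_add (diff_dI hF.cd i) (diff_dI hG.cd i)]
    exact (hF.bd3 i).add (hG.bd3 i)

theorem B2.const (T c : ℝ) : B2 (n := n) T fun _ => c := by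
  have h1 : dS (fun _ : ℝ × (Fin n → ℝ) => c) = fun _ => 0 := by funext p; simp only [dS, fderiv_fun_const, Pi.zero_apply, zero_apply]
  have h2 : ∀ i, dI i (fun _ : ℝ × (Fin n → ℝ) => c) = fun _ => 0 := fun i => by
    funext p; simp [dI]
  refine B2.of_Bd contDiff_const (Bd.const T c) ?_ (fun i => ?_) (fun i => ?_)
  · rw [h1]; exact Bd.const T 0
  · rw [h2]; exact Bd.const T 0
  · rw [h2]
    have h3 : ∀ i, dI i (fun _ : ℝ × (Fin n → ℝ) => (0 : ℝ)) = fun _ => 0 := fun i => by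
      funext p; simp [dI]
    rw [h3]; exact Bd.const T 0

theorem B2.comp {T : ℝ} {F : ℝ × (Fin n → ℝ) → ℝ} (hF : B2 T F) {φ φ' φ'' : ℝ → ℝ}
    (hφ : ∀ p, HasDerivAt φ (φ' (F p)) (F p)) (hφ' : ∀ p, HasDerivAt φ' (φ'' (F p)) (F p))
    (cd : ContDiff ℝ 2 fun p => φ (F p)) (b0 : Bd T fun p => φ (F p)) (b1 : Bd T fun p => φ' (F p))
    (b2 : Bd T fun p => φ'' (F p)) : B2 T fun p => φ (F p) := by
  have dF : Differentiable ℝ F := hF.cd.differentiable (by norm_num)
  refine B2.of_Bd cd b0 ?_ (fun i => ?_) (fun i => ?_)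
  · rw [dS_comp dF hφ]; exact b1.mul hF.bd1
  · rw [dI_comp dF hφ]; exact b1.mul (hF.bd2 i)
  · rw [dI_dI_comp hF.cd hφ hφ']
    refine (b1.mul (hF.bd3 i)).add (b2.mul ?_)
    simpa [sq] using (hF.bd2 i).mul (hF.bd2 i)

/-! ### the entropy functional along the channel -/

omit [IsProbabilityMeasure μ] in
theorem Adm.log {g : (Fin n → ℝ) → ℝ} (hg : Adm μ g) {ε : ℝ} (hε : 0 < ε)
    (hgε : ∀ᵐ x ∂μ, ε ≤ g x) : Adm μ fun x => log (g x) := by
  obtain ⟨G, hG0, hG⟩ := hg.bdd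
  refine ⟨hg.meas.log, |Real.log ε| + |Real.log G|, by (clear * -; positivity), ?_⟩
  filter_upwards [hG, hgε] with x h1 h2
  have h3 : g x ≤ G := (le_abs_self _).trans h1
  have h4 : Real.log ε ≤ Real.log (g x) := Real.log_le_log hε h2
  have h5 : Real.log (g x) ≤ Real.log G := Real.log_le_log (hε.trans_le h2) h3
  rw [abs_le]
  constructor
  · linarith [neg_abs_le (Real.log ε), abs_nonneg (Real.log G)]
  · linarith only [h5, le_abs_self (Real.log G), abs_nonneg (Real.log ε)]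

theorem Mf_ge (h : CSupp μ R) {g : (Fin n → ℝ) → ℝ} (hg : Adm μ g) {ε : ℝ}
    (hgε : ∀ᵐ x ∂μ, ε ≤ g x) (p : ℝ × (Fin n → ℝ)) : ε ≤ Mf μ g p := by
  have := Mf_mono h (Adm.const μ ε) hg hgε p
  rwa [Mf_const h] at this

theorem B2_MlogM (h : CSupp μ R) {g : (Fin n → ℝ) → ℝ} (hg : Adm μ g) {ε : ℝ} (hε : 0 < ε)
    (hgε : ∀ᵐ x ∂μ, ε ≤ g x) (T : ℝ) : B2 T fun p => Mf μ g p * log (Mf μ g p) := by
  obtain ⟨G, hG0, hG⟩ := hg.bdd
  have hM0 : ∀ p, 0 < Mf μ g p := fun p => hε.trans_le (Mf_ge h hg hgε p)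
  have hMG : ∀ p, Mf μ g p ≤ G := fun p => (le_abs_self _).trans (Mf_abs_le h hg hG p)
  have hlog : Bd T fun p => Real.log (Mf μ g p) := by
    refine ⟨|Real.log ε| + |Real.log G|, by (clear * -; positivity), fun p _ _ => ?_⟩
    have h4 : Real.log ε ≤ Real.log (Mf μ g p) := Real.log_le_log hε (Mf_ge h hg hgε p)
    have h5 : Real.log (Mf μ g p) ≤ Real.log G := Real.log_le_log (hM0 p) (hMG p)
    rw [abs_le]
    constructor
    · linarith only [h4, neg_abs_le (Real.log ε), abs_nonneg (Real.log G)]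
    · linarith only [h5, le_abs_self (Real.log G), abs_nonneg (Real.log ε)]
  have hinv : Bd T fun p => (Mf μ g p)⁻¹ := by
    refine ⟨ε⁻¹, by (clear * - hε; positivity), fun p _ _ => ?_⟩
    rw [abs_of_pos (inv_pos.2 (hM0 p))]
    exact inv_anti₀ hε (Mf_ge h hg hgε p)
  refine (B2_Mf h hg T).comp (φ := fun t => t * Real.log t) (φ' := fun t => Real.log t + 1)
    (φ'' := fun t => t⁻¹) (fun p => ?_) (fun p => ?_) ?_ ((Bd_Mf h hg T).mul hlog)
    (hlog.add (Bd.const T 1)) hinv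
  · exact Real.hasDerivAt_mul_log (hM0 p).ne'
  · simpa using (Real.hasDerivAt_log (hM0 p).ne').add_const 1
  · exact (cd2_Mf h hg).mul ((cd2_Mf h hg).log fun p => (hM0 p).ne')

theorem Lop_MlogM (h : CSupp μ R) {g : (Fin n → ℝ) → ℝ} (hg : Adm μ g) {ε : ℝ} (hε : 0 < ε)
    (hgε : ∀ᵐ x ∂μ, ε ≤ g x) (p : ℝ × (Fin n → ℝ)) :
    Lop μ (fun p => Mf μ g p * log (Mf μ g p)) p
      = 1 / 2 * ((Mf μ g p)⁻¹ * ∑ i, dI i (Mf μ g) p ^ 2) := by
  have hM0 : ∀ p, 0 < Mf μ g p := fun p => hε.trans_le (Mf_ge h hg hgε p)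
  have := Lop_comp (μ := μ) (F := Mf μ g) (φ := fun t => t * Real.log t)
    (φ' := fun t => Real.log t + 1) (φ'' := fun t => t⁻¹) (cd2_Mf h hg)
    (fun p => Real.hasDerivAt_mul_log (hM0 p).ne')
    (fun p => by simpa using (Real.hasDerivAt_log (hM0 p).ne').add_const 1) p
  rw [this, Lop_Mf h hg]
  ring

/-- the entropy of the channel output -/
noncomputable def eC (μ : Measure (Fin n → ℝ)) (g : (Fin n → ℝ) → ℝ) (r : ℝ) : ℝ :=
  ∫ z, Zo μ (r ^ 2, r • z) * (Mf μ g (r ^ 2, r • z) * log (Mf μ g (r ^ 2, r • z))) ∂(gsn n)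

theorem eC_deriv (h : CSupp μ R) {g : (Fin n → ℝ) → ℝ} (hg : Adm μ g) {ε : ℝ} (hε : 0 < ε)
    (hgε : ∀ᵐ x ∂μ, ε ≤ g x) (r : ℝ) :
    HasDerivAt (eC μ g) (r * ∫ z, Zo μ (r ^ 2, r • z) *
      ((Mf μ g (r ^ 2, r • z))⁻¹ * ∑ i, dI i (Mf μ g) (r ^ 2, r • z) ^ 2) ∂(gsn n)) r := by
  have := chan_deriv h (B2_MlogM h hg hε hgε (r ^ 2 + 1)) (r := r) (by linarith only [])
  refine this.congr_deriv ?_
  simp_rw [Lop_MlogM h hg hε hgε]
  have e : ∀ z : Fin n → ℝ, Zo μ (r ^ 2, r • z) * (1 / 2 * ((Mf μ g (r ^ 2, r • z))⁻¹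
      * ∑ i, dI i (Mf μ g) (r ^ 2, r • z) ^ 2)) = 1 / 2 * (Zo μ (r ^ 2, r • z) *
      ((Mf μ g (r ^ 2, r • z))⁻¹ * ∑ i, dI i (Mf μ g) (r ^ 2, r • z) ^ 2)) := by
    intro z; ring
  simp_rw [e]
  rw [integral_const_mul]
  ring

/-! ### Gibbs inequality for the posteriors -/

theorem lx_sum (x : Fin n → ℝ) (p : ℝ × (Fin n → ℝ)) (c : ℝ) :
    c * lx x p = ∑ i, p.2 i * (x i * c) - p.1 / 2 * ((∑ i, x i ^ 2) * c) := by
  unfold lx
  rw [mul_sub, Finset.mul_sum]
  congr 1
  · apply Finset.sum_congr rfl; intro i _; ring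
  · ring

theorem gibbs_Z (h : CSupp μ R) {g : (Fin n → ℝ) → ℝ} (hg : Adm μ g) {ε : ℝ} (hε : 0 < ε)
    (hgε : ∀ᵐ x ∂μ, ε ≤ g x) (p : ℝ × (Fin n → ℝ)) (b : Fin n → ℝ) {K : ℝ}
    (hK : ∫ x, exp (∑ i, b i * x i) ∂μ ≤ K) :
    ∑ i, b i * Zf μ (fun x => x i * g x) p ≤ Zf μ (fun x => g x * log (g x)) p
      + (∑ i, p.2 i * Zf μ (fun x => x i * g x) p
        - p.1 / 2 * Zf μ (fun x => (∑ i, x i ^ 2) * g x) p)
      - Zf μ g p * log (Zf μ g p) + Zf μ g p * log K := by
  have hlg := hg.log hε hgε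
  have hE := h.adm_exp_lx p
  have hV : Adm μ fun x => exp (∑ i, b i * x i) := Adm.of_continuous h (by fun_prop)
  set K0 := ∫ x, exp (∑ i, b i * x i) ∂μ with hK0
  have hK0p : 0 < K0 := integral_exp_pos hV.integrable
  have hzg : 0 < Zf μ g p := by
    rw [Zf_eq_mul h]
    exact mul_pos (Zo_pos h p) (hε.trans_le (Mf_ge h hg hgε p))
  set c := - log K0 + log (Zf μ g p) with hc
  have hpt : ∀ᵐ x ∂μ, (g x * exp (lx x p)) * (∑ i, b i * x i + c)
      ≤ (g x * exp (lx x p)) * (log (g x) + lx x p) - g x * exp (lx x p)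
        + exp (∑ i, b i * x i) * (Zf μ g p / K0) := by
    filter_upwards [hgε] with x hx
    have hgx : 0 < g x := hε.trans_le hx
    have h1 := mul_le_mul_log_add_exp (a := g x * exp (lx x p)) (b := ∑ i, b i * x i + c)
      (by (clear * - hgx; positivity))
    rw [log_mul hgx.ne' (exp_pos _).ne', log_exp] at h1
    have h2 : exp (∑ i, b i * x i + c) = exp (∑ i, b i * x i) * (Zf μ g p / K0) := by
      rw [hc, exp_add, exp_add, exp_neg, exp_log hK0p, exp_log hzg]
      rw [div_eq_inv_mul]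
    rw [h2] at h1
    exact h1
  have hbx : Adm μ fun x => ∑ i, b i * x i := Adm.sum _ fun i _ => (h.adm_coord i).const_mul _
  have hlx : Adm μ fun x => lx x p := Adm.of_continuous h (by unfold lx; fun_prop)
  have i1 := ((hg.mul hE).mul (hbx.add (Adm.const μ c))).integrable
  have i2 := ((hg.mul hE).mul (hlg.add hlx)).integrable
  have i3 := (hg.mul hE).integrable
  have i4 := (hV.mul (Adm.const μ (Zf μ g p / K0))).integrable
  have key := integral_mono_ae i1 ((i2.sub i3).add i4) hpt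
  have e4 : ∫ x, ((g x * exp (lx x p)) * (log (g x) + lx x p) - g x * exp (lx x p)
        + exp (∑ i, b i * x i) * (Zf μ g p / K0)) ∂μ
      = ∫ x, (g x * exp (lx x p)) * (log (g x) + lx x p) ∂μ := by
    have a1 : ∫ x, ((g x * exp (lx x p)) * (log (g x) + lx x p) - g x * exp (lx x p)
        + exp (∑ i, b i * x i) * (Zf μ g p / K0)) ∂μ
        = ∫ x, ((g x * exp (lx x p)) * (log (g x) + lx x p) - g x * exp (lx x p)) ∂μ
          + ∫ x, exp (∑ i, b i * x i) * (Zf μ g p / K0) ∂μ := integral_add (i2.sub i3) i4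
    rw [a1, integral_sub i2 i3, integral_mul_const, ← hK0]
    have : ∫ x, g x * exp (lx x p) ∂μ = Zf μ g p := rfl
    rw [this]
    field_simp
    ring
  have e5 : ∫ x, (g x * exp (lx x p)) * (∑ i, b i * x i + c) ∂μ
      = ∑ i, b i * Zf μ (fun x => x i * g x) p + Zf μ g p * c := by
    have a1 : ∀ x, (g x * exp (lx x p)) * (∑ i, b i * x i + c)
        = ∑ i, b i * (x i * g x * exp (lx x p)) + g x * exp (lx x p) * c := by
      intro x
      rw [mul_add, Finset.mul_sum]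
      congr 1
      apply Finset.sum_congr rfl; intro i _; ring
    simp_rw [a1]
    have j1 : ∀ i, Integrable (fun x => b i * (x i * g x * exp (lx x p))) μ := fun i =>
      (((hg.xmul h i).mul hE).const_mul _).integrable
    rw [integral_add (integrable_finsetSum _ fun i _ => j1 i) (i3.mul_const _),
      integral_finsetSum _ fun i _ => j1 i, integral_mul_const]
    congr 1
    apply Finset.sum_congr rfl
    intro i _
    rw [integral_const_mul]
    rfl
  have e6 : ∫ x, (g x * exp (lx x p)) * (log (g x) + lx x p) ∂μ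
      = Zf μ (fun x => g x * log (g x)) p
      + (∑ i, p.2 i * Zf μ (fun x => x i * g x) p
        - p.1 / 2 * Zf μ (fun x => (∑ i, x i ^ 2) * g x) p) := by
    have a1 : ∀ x, (g x * exp (lx x p)) * (log (g x) + lx x p)
        = g x * log (g x) * exp (lx x p) + (∑ i, p.2 i * (x i * g x * exp (lx x p))
          - p.1 / 2 * ((∑ i, x i ^ 2) * g x * exp (lx x p))) := by
      intro x
      rw [mul_add]
      congr 1
      · ring
      · rw [lx_sum x p (g x * exp (lx x p))]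
        congr 1
        · apply Finset.sum_congr rfl; intro i _; ring
        · ring
    simp_rw [a1]
    have j1 : ∀ i, Integrable (fun x => p.2 i * (x i * g x * exp (lx x p))) μ := fun i =>
      (((hg.xmul h i).mul hE).const_mul _).integrable
    have j2 : Integrable (fun x => p.1 / 2 * ((∑ i, x i ^ 2) * g x * exp (lx x p))) μ :=
      (((h.adm_sq.mul hg).mul hE).const_mul _).integrable
    have j3 : Integrable (fun x => g x * log (g x) * exp (lx x p)) μ :=
      ((hg.mul hlg).mul hE).integrable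
    have j4 : Integrable (fun x => ∑ i, p.2 i * (x i * g x * exp (lx x p))) μ :=
      integrable_finsetSum _ fun i _ => j1 i
    have j5 : Integrable (fun x => ∑ i, p.2 i * (x i * g x * exp (lx x p))
        - p.1 / 2 * ((∑ i, x i ^ 2) * g x * exp (lx x p))) μ := j4.sub j2
    rw [integral_add j3 j5, integral_sub j4 j2, integral_finsetSum _ fun i _ => j1 i,
      integral_const_mul]
    congr 2
    apply Finset.sum_congr rfl
    intro i _
    rw [integral_const_mul]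
    rfl
  have key2 : ∑ i, b i * Zf μ (fun x => x i * g x) p + Zf μ g p * c
      ≤ Zf μ (fun x => g x * log (g x)) p
      + (∑ i, p.2 i * Zf μ (fun x => x i * g x) p
        - p.1 / 2 * Zf μ (fun x => (∑ i, x i ^ 2) * g x) p) := by
    rw [← e5, ← e6, ← e4]; exact key
  have hlogK : log K0 ≤ log K := Real.log_le_log hK0p hK
  have : Zf μ g p * log K0 ≤ Zf μ g p * log K := mul_le_mul_of_nonneg_left hlogK hzg.le
  rw [hc] at key2
  linarith only [this, key2]

end Vale.Agent.P245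
end
end

section

section

open MeasureTheory Real
open scoped ENNReal Topology

namespace Vale.Agent.P245

variable {n : ℕ} {μ : Measure (Fin n → ℝ)} [IsProbabilityMeasure μ] {R : ℝ}

/-! ### closure properties of `EG1` -/

theorem EG1.mul {φ ψ : (Fin n → ℝ) → ℝ} (h : EG1 φ) (h' : EG1 ψ) : EG1 fun z => φ z * ψ z := by
  obtain ⟨C, hC0, hC⟩ := h
  obtain ⟨D, hD0, hD⟩ := h'
  refine ⟨C * D + C + D, by (clear * - hC0 hD0; positivity), fun z => ?_⟩
  have hS0 : 0 ≤ ∑ i, |z i| := Finset.sum_nonneg fun j _ => abs_nonneg _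
  rw [abs_mul]
  calc |φ z| * |ψ z| ≤ (C * exp (C * ∑ i, |z i|)) * (D * exp (D * ∑ i, |z i|)) :=
        mul_le_mul (hC z) (hD z) (abs_nonneg _) (by (clear * - hC0; positivity))
    _ = (C * D) * exp ((C + D) * ∑ i, |z i|) := by
        rw [add_mul, exp_add]; ring
    _ ≤ (C * D + C + D) * exp ((C * D + C + D) * ∑ i, |z i|) := by
        apply mul_le_mul (by linarith only [hC0, hD0]) _ (exp_pos _).le (by (clear * - hC0 hD0; positivity))
        apply exp_le_exp.2
        apply mul_le_mul_of_nonneg_right _ hS0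
        linarith [mul_nonneg (sub_nonneg.2 hC0) (sub_nonneg.2 hD0)]

theorem EG1.add {φ ψ : (Fin n → ℝ) → ℝ} (h : EG1 φ) (h' : EG1 ψ) : EG1 fun z => φ z + ψ z := by
  obtain ⟨C, hC0, hC⟩ := h
  obtain ⟨D, hD0, hD⟩ := h'
  refine ⟨C + D, by (clear * - hC0 hD0; positivity), fun z => ?_⟩
  have hS0 : 0 ≤ ∑ i, |z i| := Finset.sum_nonneg fun j _ => abs_nonneg _
  have e1 : exp (C * ∑ i, |z i|) ≤ exp ((C + D) * ∑ i, |z i|) :=
    exp_le_exp.2 (mul_le_mul_of_nonneg_right (by linarith only [hD0]) hS0)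
  have e2 : exp (D * ∑ i, |z i|) ≤ exp ((C + D) * ∑ i, |z i|) :=
    exp_le_exp.2 (mul_le_mul_of_nonneg_right (by linarith only [hC0]) hS0)
  calc |φ z + ψ z| ≤ |φ z| + |ψ z| := abs_add_le _ _
    _ ≤ C * exp (C * ∑ i, |z i|) + D * exp (D * ∑ i, |z i|) := add_le_add (hC z) (hD z)
    _ ≤ C * exp ((C + D) * ∑ i, |z i|) + D * exp ((C + D) * ∑ i, |z i|) :=
        add_le_add (mul_le_mul_of_nonneg_left e1 hC0) (mul_le_mul_of_nonneg_left e2 hD0)
    _ = _ := by ring

theorem EG1.const_mul {φ : (Fin n → ℝ) → ℝ} (h : EG1 φ) (c : ℝ) : EG1 fun z => c * φ z :=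
  (EG1.const c).mul h

theorem EG1.sum {ι : Type*} (s : Finset ι) {φ : ι → (Fin n → ℝ) → ℝ} (h : ∀ i ∈ s, EG1 (φ i)) :
    EG1 fun z => ∑ i ∈ s, φ i z := by
  classical
  induction s using Finset.induction_on with
  | empty => simpa using EG1.const 0
  | insert i s hi ih =>
    simp only [Finset.sum_insert hi]
    exact (h i (Finset.mem_insert_self _ _)).add
      (ih fun j hj => h j (Finset.mem_insert_of_mem hj))

theorem eg1_Zf (h : CSupp μ R) {g : (Fin n → ℝ) → ℝ} (hg : Adm μ g) (r : ℝ) :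
    EG1 fun z => Zf μ g (r ^ 2, r • z) := by
  obtain ⟨C, hC0, hC⟩ := GB_Zf h hg (r ^ 2)
  exact hC.eg1 hC0 le_rfl

theorem eg1_of_Bd {F : ℝ × (Fin n → ℝ) → ℝ} {r : ℝ} (h : Bd (r ^ 2) F) :
    EG1 fun z => F (r ^ 2, r • z) := by
  obtain ⟨C, hC0, hC⟩ := h
  obtain ⟨D, hD0, hD⟩ := EG1.const (n := n) C
  refine ⟨D, hD0, fun z => ?_⟩
  exact ((hC (r ^ 2, r • z) (sq_nonneg _) le_rfl).trans (le_abs_self C)).trans (hD z)

theorem cpath (r : ℝ) : Continuous fun z : Fin n → ℝ => ((r ^ 2, r • z) : ℝ × (Fin n → ℝ)) := by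
  fun_prop

theorem cont_Zf (h : CSupp μ R) {g : (Fin n → ℝ) → ℝ} (hg : Adm μ g) : Continuous (Zf μ g) :=
  (contDiff_Zf h hg 1).continuous

theorem cont_Mf (h : CSupp μ R) {g : (Fin n → ℝ) → ℝ} (hg : Adm μ g) : Continuous (Mf μ g) :=
  (contDiff_Mf h hg 1).continuous

theorem EG1.int {φ : (Fin n → ℝ) → ℝ} (h : EG1 φ) (hc : Continuous φ) : Integrable φ (gsn n) :=
  h.integrable hc.aestronglyMeasurable

/-! ### the two Gibbs bounds -/

/-- exponential moment assumption (normalised, `a = 1`) -/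
def ExpM (μ : Measure (Fin n → ℝ)) (A : ℝ) : Prop :=
  ∀ b : Fin n → ℝ, ∫ x, exp (∑ i, b i * x i) ∂μ ≤ A * exp ((∑ i, b i ^ 2) / 4)

theorem claimA (h : CSupp μ R) {A : ℝ} (hA : 1 ≤ A) (hexp : ExpM μ A)
    {g : (Fin n → ℝ) → ℝ} (hg : Adm μ g) {ε : ℝ} (hε : 0 < ε)
    (hgε : ∀ᵐ x ∂μ, ε ≤ g x) (p : ℝ × (Fin n → ℝ)) :
    ∑ i, Zf μ (fun x => x i * g x) p ^ 2 / Zf μ g p ≤ Zf μ (fun x => g x * log (g x)) p
      + (∑ i, p.2 i * Zf μ (fun x => x i * g x) p
        - p.1 / 2 * Zf μ (fun x => (∑ i, x i ^ 2) * g x) p)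
      - Zf μ g p * log (Zf μ g p) + Zf μ g p * log A := by
  have hzg : 0 < Zf μ g p := by
    rw [Zf_eq_mul h]
    exact mul_pos (Zo_pos h p) (hε.trans_le (Mf_ge h hg hgε p))
  have key := gibbs_Z h hg hε hgε p (fun i => 2 * (Zf μ (fun x => x i * g x) p / Zf μ g p))
    (hexp _)
  rw [log_mul (by (clear * - hA; positivity)) (exp_pos _).ne', log_exp] at key
  have e1 : ∑ i, 2 * (Zf μ (fun x => x i * g x) p / Zf μ g p) * Zf μ (fun x => x i * g x) p
      = 2 * ∑ i, Zf μ (fun x => x i * g x) p ^ 2 / Zf μ g p := by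
    rw [Finset.mul_sum]; apply Finset.sum_congr rfl; intro i _; ring
  have e2 : Zf μ g p * ((∑ i, (2 * (Zf μ (fun x => x i * g x) p / Zf μ g p)) ^ 2) / 4)
      = ∑ i, Zf μ (fun x => x i * g x) p ^ 2 / Zf μ g p := by
    rw [Finset.sum_div, Finset.mul_sum]
    apply Finset.sum_congr rfl; intro i _
    field_simp
    ring
  rw [e1, mul_add, e2] at key
  linarith only [key]

theorem log_Zo_ge (h : CSupp μ R) (p : ℝ × (Fin n → ℝ)) :
    ∑ i, p.2 i * ∫ x, x i ∂μ - p.1 / 2 * ∫ x, ∑ i, x i ^ 2 ∂μ ≤ log (Zo μ p) := by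
  have hlx : Adm μ fun x => lx x p := Adm.of_continuous h (by unfold lx; fun_prop)
  have e0 : ∫ x, lx x p ∂μ = ∑ i, p.2 i * ∫ x, x i ∂μ - p.1 / 2 * ∫ x, ∑ i, x i ^ 2 ∂μ := by
    unfold lx
    have j1 : ∀ i, Integrable (fun x : Fin n → ℝ => p.2 i * x i) μ := fun i =>
      ((h.adm_coord i).const_mul _).integrable
    rw [integral_sub (integrable_finsetSum _ fun i _ => j1 i) (h.adm_sq.const_mul _).integrable,
      integral_finsetSum _ fun i _ => j1 i, integral_const_mul]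
    congr 1
    apply Finset.sum_congr rfl
    intro i _
    rw [integral_const_mul]
  rw [← e0, Real.le_log_iff_exp_le (Zo_pos h p)]
  set c := ∫ x, lx x p ∂μ with hc
  have h1 : ∫ x, (exp c * (1 + (lx x p - c))) ∂μ ≤ ∫ x, exp (lx x p) ∂μ := by
    apply integral_mono_ae
    · exact (((Adm.const μ 1).add (hlx.sub (Adm.const μ c))).const_mul _).integrable
    · exact (h.adm_exp_lx p).integrable
    · filter_upwards with x
      have := add_one_le_exp (lx x p - c)
      calc exp c * (1 + (lx x p - c)) ≤ exp c * exp (lx x p - c) := by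
            apply mul_le_mul_of_nonneg_left _ (exp_pos _).le; linarith only [this]
        _ = exp (lx x p) := by rw [← exp_add]; congr 1; ring
  have h2 : ∫ x, (exp c * (1 + (lx x p - c))) ∂μ = exp c := by
    rw [integral_const_mul, integral_add (integrable_const _)
      ((hlx.sub (Adm.const μ c)).integrable), integral_sub hlx.integrable (integrable_const _)]
    simp [← hc]
  have h3 : ∫ x, exp (lx x p) ∂μ = Zo μ p := by
    unfold Zo Zf; simp
  rw [← h3, ← h2]
  exact h1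

theorem Zo_zero : Zo μ (0, 0) = 1 := by
  unfold Zo Zf lx; simp only [Pi.zero_apply, zero_mul, Finset.sum_const_zero, zero_div, sub_self, exp_zero, mul_one, integral_const, probReal_univ, smul_eq_mul]

theorem claimB0 (h : CSupp μ R) {A : ℝ} (hA : 1 ≤ A) (hexp : ExpM μ A) :
    ∑ i, (∫ x, x i ∂μ) ^ 2 ≤ log A := by
  have key := claimA h hA hexp (Adm.const μ 1) one_pos (Filter.Eventually.of_forall fun _ => le_rfl)
    (0, 0)
  have e1 : Zf μ (fun _ => (1 : ℝ)) (0, 0) = 1 := Zo_zero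
  have e2 : ∀ i, Zf μ (fun x => x i * 1) (0, 0) = ∫ x, x i ∂μ := by
    intro i; unfold Zf lx; simp only [mul_one, Pi.zero_apply, zero_mul, Finset.sum_const_zero, zero_div, sub_self, exp_zero]
  have e3 : Zf μ (fun _ : Fin n → ℝ => (1 : ℝ) * log 1) (0, 0) = 0 := by
    unfold Zf; simp
  simp only [e1, e2, e3] at key
  simpa only [ge_iff_le, div_one, Pi.zero_apply, zero_mul, Finset.sum_const_zero, zero_div, mul_one, sub_self,     add_zero, log_one, mul_zero, one_mul, zero_add] using key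

theorem claimB (h : CSupp μ R) {A : ℝ} (hA : 1 ≤ A) (hexp : ExpM μ A)
    (p : ℝ × (Fin n → ℝ)) (hp : 0 ≤ p.1) :
    ∑ i, Mf μ (fun x => x i) p ^ 2
      ≤ 2 * ∑ i, p.2 i ^ 2 + p.1 * ∫ x, ∑ i, x i ^ 2 ∂μ + 3 * log A := by
  have hz := Zo_pos h p
  have key := claimA h hA hexp (Adm.const μ 1) one_pos (Filter.Eventually.of_forall fun _ => le_rfl)
    p
  have e1 : ∀ i, Zf μ (fun x => x i * 1) p = Zo μ p * Mf μ (fun x => x i) p := by
    intro i
    rw [← Zf_eq_mul h]; simp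
  have e2 : Zf μ (fun _ => (1 : ℝ)) p = Zo μ p := rfl
  have e3 : Zf μ (fun _ : Fin n → ℝ => (1 : ℝ) * log 1) p = 0 := by
    unfold Zf; simp
  have e4 : Zf μ (fun x : Fin n → ℝ => (∑ i, x i ^ 2) * 1) p
      = Zo μ p * Mf μ (fun x => ∑ i, x i ^ 2) p := by
    rw [← Zf_eq_mul h]; simp only [mul_one]
  simp only [e1, e2, e3, e4] at key
  have hM0 : 0 ≤ Mf μ (fun x => ∑ i, x i ^ 2) p := by
    have := Mf_mono h (Adm.const μ 0) h.adm_sq
      (Filter.Eventually.of_forall fun x => Finset.sum_nonneg fun i _ => sq_nonneg (x i)) p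
    rwa [Mf_const h] at this
  have e5 : ∑ i, (Zo μ p * Mf μ (fun x => x i) p) ^ 2 / Zo μ p
      = Zo μ p * ∑ i, Mf μ (fun x => x i) p ^ 2 := by
    rw [Finset.mul_sum]; apply Finset.sum_congr rfl; intro i _; field_simp
  have e6 : ∑ i, p.2 i * (Zo μ p * Mf μ (fun x => x i) p)
      = Zo μ p * ∑ i, p.2 i * Mf μ (fun x => x i) p := by
    rw [Finset.mul_sum]; apply Finset.sum_congr rfl; intro i _; ring
  rw [e5, e6] at key
  have key2 : ∑ i, Mf μ (fun x => x i) p ^ 2 ≤ ∑ i, p.2 i * Mf μ (fun x => x i) p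
      - p.1 / 2 * Mf μ (fun x => ∑ i, x i ^ 2) p - log (Zo μ p) + log A := by
    have : Zo μ p * ∑ i, Mf μ (fun x => x i) p ^ 2 ≤ Zo μ p *
      (∑ i, p.2 i * Mf μ (fun x => x i) p
      - p.1 / 2 * Mf μ (fun x => ∑ i, x i ^ 2) p - log (Zo μ p) + log A) := by linarith only [key]
    exact le_of_mul_le_mul_left this hz
  have h1 := log_Zo_ge h p
  have h2 := claimB0 h hA hexp
  have h3 : 0 ≤ p.1 / 2 * Mf μ (fun x => ∑ i, x i ^ 2) p := by (clear * - hp hM0; positivity)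
  have h4 : ∑ i, p.2 i * Mf μ (fun x => x i) p ≤
      1 / 2 * ∑ i, p.2 i ^ 2 + 1 / 2 * ∑ i, Mf μ (fun x => x i) p ^ 2 := by
    rw [Finset.mul_sum, Finset.mul_sum, ← Finset.sum_add_distrib]
    apply Finset.sum_le_sum; intro i _
    linarith only [sq_nonneg (p.2 i - Mf μ (fun x => x i) p)]
  have h5 : -(∑ i, p.2 i * ∫ x, x i ∂μ) ≤
      1 / 2 * ∑ i, p.2 i ^ 2 + 1 / 2 * ∑ i, (∫ x, x i ∂μ) ^ 2 := by
    rw [Finset.mul_sum, Finset.mul_sum, ← Finset.sum_add_distrib, ← Finset.sum_neg_distrib]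
    apply Finset.sum_le_sum; intro i _
    linarith only [sq_nonneg (p.2 i + ∫ x, x i ∂μ)]
  (clear * - key2 h1 h2 h3 h4 h5; linarith)

/-! ### the pointwise bound for the Fisher information of the channel -/

theorem post_pointwise (h : CSupp μ R) {A : ℝ} (hA : 1 ≤ A) (hexp : ExpM μ A)
    {g : (Fin n → ℝ) → ℝ} (hg : Adm μ g) {ε : ℝ} (hε : 0 < ε)
    (hgε : ∀ᵐ x ∂μ, ε ≤ g x) (p : ℝ × (Fin n → ℝ)) (hp : 0 ≤ p.1) :
    Zo μ p * ((Mf μ g p)⁻¹ * ∑ i, dI i (Mf μ g) p ^ 2)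
      ≤ 2 * (Zf μ (fun x => g x * log (g x)) p
          + (∑ i, Zf μ (fun x => x i * g x) p * p.2 i
            - p.1 / 2 * Zf μ (fun x => (∑ i, x i ^ 2) * g x) p)
          - Zo μ p * (Mf μ g p * log (Mf μ g p))
          - ∑ i, (∫ x, x i ∂μ) * (Zf μ g p * p.2 i)
          + p.1 / 2 * (∫ x, ∑ i, x i ^ 2 ∂μ) * Zf μ g p + log A * Zf μ g p)
        + 2 * (2 * (Zf μ g p * ∑ i, p.2 i ^ 2) + (p.1 * ∫ x, ∑ i, x i ^ 2 ∂μ) * Zf μ g p
          + 3 * log A * Zf μ g p) := by
  have hz := Zo_pos h p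
  have hM : 0 < Mf μ g p := hε.trans_le (Mf_ge h hg hgε p)
  have hzg : 0 < Zf μ g p := by rw [Zf_eq_mul h]; exact mul_pos hz hM
  have hA1 := claimA h hA hexp hg hε hgε p
  have hB1 := claimB h hA hexp p hp
  have hlogZ := log_Zo_ge h p
  have e0 : Zf μ g p * log (Zf μ g p) = Zo μ p * (Mf μ g p * log (Mf μ g p))
      + Zf μ g p * log (Zo μ p) := by
    rw [Zf_eq_mul h g p, log_mul hz.ne' hM.ne']; ring
  -- Fisher information
  have e1 : ∀ i, dI i (Mf μ g) p
      = Zf μ (fun x => x i * g x) p / Zo μ p - Mf μ g p * Mf μ (fun x => x i) p := by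
    intro i
    rw [dI_Mf h hg]
    simp only
    congr 1
  have e2 : ∀ i, Zo μ p * ((Mf μ g p)⁻¹ * dI i (Mf μ g) p ^ 2)
      ≤ 2 * (Zf μ (fun x => x i * g x) p ^ 2 / Zf μ g p)
        + 2 * (Zf μ g p * Mf μ (fun x => x i) p ^ 2) := by
    intro i
    rw [e1 i]
    set a := Zf μ (fun x => x i * g x) p with ha
    set b := Mf μ (fun x => x i) p with hb
    have e3 : Zo μ p * ((Mf μ g p)⁻¹ * (a / Zo μ p - Mf μ g p * b) ^ 2)
        = (a - Zf μ g p * b) ^ 2 / Zf μ g p := by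
      rw [Zf_eq_mul h g p]
      (clear * - hz hM; field_simp)
    have e4 : (a - Zf μ g p * b) ^ 2 ≤ 2 * a ^ 2 + 2 * (Zf μ g p * b) ^ 2 := by
      linarith only [sq_nonneg (a + Zf μ g p * b)]
    rw [e3]
    calc (a - Zf μ g p * b) ^ 2 / Zf μ g p ≤ (2 * a ^ 2 + 2 * (Zf μ g p * b) ^ 2) / Zf μ g p :=
          div_le_div_of_nonneg_right e4 hzg.le
      _ = _ := by (clear * - hzg; field_simp)
  have e5 : Zo μ p * ((Mf μ g p)⁻¹ * ∑ i, dI i (Mf μ g) p ^ 2)
      ≤ 2 * (∑ i, Zf μ (fun x => x i * g x) p ^ 2 / Zf μ g p)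
        + 2 * (Zf μ g p * ∑ i, Mf μ (fun x => x i) p ^ 2) := by
    rw [Finset.mul_sum, Finset.mul_sum, Finset.mul_sum, Finset.mul_sum, Finset.mul_sum,
      ← Finset.sum_add_distrib]
    exact Finset.sum_le_sum fun i _ => e2 i
  have e6 : Zf μ g p * ∑ i, Mf μ (fun x => x i) p ^ 2 ≤ Zf μ g p *
      (2 * ∑ i, p.2 i ^ 2 + p.1 * ∫ x, ∑ i, x i ^ 2 ∂μ + 3 * log A) :=
    mul_le_mul_of_nonneg_left hB1 hzg.le
  have e7 : Zf μ g p * (∑ i, p.2 i * ∫ x, x i ∂μ - p.1 / 2 * ∫ x, ∑ i, x i ^ 2 ∂μ)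
      ≤ Zf μ g p * log (Zo μ p) := mul_le_mul_of_nonneg_left hlogZ hzg.le
  have e8 : ∑ i, p.2 i * Zf μ (fun x => x i * g x) p = ∑ i, Zf μ (fun x => x i * g x) p * p.2 i :=
    Finset.sum_congr rfl fun i _ => mul_comm _ _
  have e9 : Zf μ g p * ∑ i, p.2 i * ∫ x, x i ∂μ = ∑ i, (∫ x, x i ∂μ) * (Zf μ g p * p.2 i) := by
    rw [Finset.mul_sum]; apply Finset.sum_congr rfl; intro i _; ring
  rw [e8] at hA1
  rw [mul_sub, e9] at e7
  linarith only [e7, e6, e5, e0, hA1]

end Vale.Agent.P245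
end
end

section

section

open MeasureTheory Real
open scoped ENNReal Topology

namespace Vale.Agent.P245

variable {n : ℕ} {μ : Measure (Fin n → ℝ)} [IsProbabilityMeasure μ] {R : ℝ}

theorem int_add {α : Type*} [MeasurableSpace α] {ν : Measure α} {f g : α → ℝ}
    (hf : Integrable f ν) (hg : Integrable g ν) : Integrable (fun z => f z + g z) ν := hf.add hg

theorem eC_zero {g : (Fin n → ℝ) → ℝ} (hg1 : ∫ x, g x ∂μ = 1) : eC μ g 0 = 0 := by
  unfold eC
  have h1 : Mf μ g (0, 0) = 1 := by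
    unfold Mf
    rw [Zo_zero, div_one]
    unfold Zf lx
    simpa only [Pi.zero_apply, zero_mul, Finset.sum_const_zero, zero_div, sub_self, exp_zero, mul_one] using hg1
  have : ∀ z : Fin n → ℝ, (((0 : ℝ) ^ 2, (0 : ℝ) • z) : ℝ × (Fin n → ℝ)) = (0, 0) := by
    intro z; simp
  simp_rw [this]
  rw [h1]; simp

/-- the differentiated bound -/
theorem J_bound (h : CSupp μ R) {A : ℝ} (hA : 1 ≤ A) (hexp : ExpM μ A)
    {g : (Fin n → ℝ) → ℝ} (hg : Adm μ g) {ε : ℝ} (hε : 0 < ε)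
    (hgε : ∀ᵐ x ∂μ, ε ≤ g x) (hg1 : ∫ x, g x ∂μ = 1) (r : ℝ) :
    ∫ z, Zo μ (r ^ 2, r • z) *
      ((Mf μ g (r ^ 2, r • z))⁻¹ * ∑ i, dI i (Mf μ g) (r ^ 2, r • z) ^ 2) ∂(gsn n)
    ≤ 2 * (∫ x, g x * log (g x) ∂μ + 4 * log A
        + r ^ 2 * ((∫ x, g x * ∑ i, x i ^ 2 ∂μ) + 2 * (∫ x, ∑ i, x i ^ 2 ∂μ) + 2 * n)
        + 2 * r ^ 4 * (∫ x, g x * ∑ i, x i ^ 2 ∂μ)) := by
  have hM0 : ∀ p, 0 < Mf μ g p := fun p => hε.trans_le (Mf_ge h hg hgε p)
  have hlg := hg.log hε hgε
  have hglg : Adm μ fun x => g x * log (g x) := hg.mul hlg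
  have hsg : Adm μ fun x => (∑ i, x i ^ 2) * g x := h.adm_sq.mul hg
  set q := ∫ x, g x * log (g x) ∂μ with hq
  set G2 := ∫ x, g x * ∑ i, x i ^ 2 ∂μ with hG2
  set m2 := ∫ x, ∑ i, x i ^ 2 ∂μ with hm2
  set L := log A with hL
  -- integrands
  have c0 := cpath (n := n) r
  have cZo : Continuous fun z : Fin n → ℝ => Zo μ (r ^ 2, r • z) :=
    (cont_Zf h (Adm.const μ 1)).comp c0
  have cZg : Continuous fun z : Fin n → ℝ => Zf μ g (r ^ 2, r • z) := (cont_Zf h hg).comp c0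
  have gZo : EG1 fun z : Fin n → ℝ => Zo μ (r ^ 2, r • z) := eg1_Zf h (Adm.const μ 1) r
  have gZg : EG1 fun z : Fin n → ℝ => Zf μ g (r ^ 2, r • z) := eg1_Zf h hg r
  -- left-hand side integrable
  have hB := B2_Mf h hg (r ^ 2)
  have hinv : Bd (r ^ 2) fun p => (Mf μ g p)⁻¹ := by
    refine ⟨ε⁻¹, by positivity, fun p _ _ => ?_⟩
    rw [abs_of_pos (inv_pos.2 (hM0 p))]
    exact inv_anti₀ hε (Mf_ge h hg hgε p)
  have cdI : ∀ i, Continuous (dI i (Mf μ g)) := fun i => (diff_dI hB.cd i).continuous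
  have hint : Integrable (fun z : Fin n → ℝ => Zo μ (r ^ 2, r • z) *
      ((Mf μ g (r ^ 2, r • z))⁻¹ * ∑ i, dI i (Mf μ g) (r ^ 2, r • z) ^ 2)) (gsn n) := by
    apply EG1.int
    · refine gZo.mul ((eg1_of_Bd hinv).mul (EG1.sum _ fun i _ => ?_))
      simpa [sq] using (eg1_of_Bd (hB.bd2 i)).mul (eg1_of_Bd (hB.bd2 i))
    · refine cZo.mul (Continuous.mul ?_ ?_)
      · exact ((cont_Mf h hg).comp c0).inv₀ fun z => (hM0 _).ne'
      · exact continuous_finsetSum _ fun i _ => ((cdI i).comp c0).pow 2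
  -- pointwise bound
  have hpt : ∀ z : Fin n → ℝ, Zo μ (r ^ 2, r • z) *
      ((Mf μ g (r ^ 2, r • z))⁻¹ * ∑ i, dI i (Mf μ g) (r ^ 2, r • z) ^ 2)
      ≤ 2 * (Zf μ (fun x => g x * log (g x)) (r ^ 2, r • z)
          + (∑ i, Zf μ (fun x => x i * g x) (r ^ 2, r • z) * (r * z i)
            - r ^ 2 / 2 * Zf μ (fun x => (∑ i, x i ^ 2) * g x) (r ^ 2, r • z))
          - Zo μ (r ^ 2, r • z) * (Mf μ g (r ^ 2, r • z) * log (Mf μ g (r ^ 2, r • z)))
          - ∑ i, (∫ x, x i ∂μ) * (Zf μ g (r ^ 2, r • z) * (r * z i))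
          + r ^ 2 / 2 * m2 * Zf μ g (r ^ 2, r • z) + L * Zf μ g (r ^ 2, r • z))
        + 2 * (2 * (Zf μ g (r ^ 2, r • z) * ∑ i, (r * z i) ^ 2)
          + (r ^ 2 * m2) * Zf μ g (r ^ 2, r • z)
          + 3 * L * Zf μ g (r ^ 2, r • z)) := by
    intro z
    exact post_pointwise h hA hexp hg hε hgε (r ^ 2, r • z) (sq_nonneg r)
  -- integrability of the pieces
  have I1 : Integrable (fun z : Fin n → ℝ => Zf μ (fun x => g x * log (g x)) (r ^ 2, r • z))
      (gsn n) := (eg1_Zf h hglg r).int ((cont_Zf h hglg).comp c0)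
  have I2 : ∀ i, Integrable (fun z : Fin n → ℝ => Zf μ (fun x => x i * g x) (r ^ 2, r • z)
      * (r * z i)) (gsn n) := fun i =>
    ((eg1_Zf h (hg.xmul h i) r).mul ((EG1.coord i).const_mul r)).int
      (((cont_Zf h (hg.xmul h i)).comp c0).mul (continuous_const.mul (continuous_apply i)))
  have I3 : Integrable (fun z : Fin n → ℝ => Zf μ (fun x => (∑ i, x i ^ 2) * g x) (r ^ 2, r • z))
      (gsn n) := (eg1_Zf h hsg r).int ((cont_Zf h hsg).comp c0)
  have hBl := B2_MlogM h hg hε hgε (r ^ 2)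
  have I4 : Integrable (fun z : Fin n → ℝ => Zo μ (r ^ 2, r • z) *
      (Mf μ g (r ^ 2, r • z) * log (Mf μ g (r ^ 2, r • z)))) (gsn n) :=
    (gZo.mul (eg1_of_Bd hBl.bd0)).int (cZo.mul (hBl.cd.continuous.comp c0))
  have I5 : ∀ i, Integrable (fun z : Fin n → ℝ => (∫ x, x i ∂μ) *
      (Zf μ g (r ^ 2, r • z) * (r * z i))) (gsn n) := fun i =>
    ((gZg.mul ((EG1.coord i).const_mul r)).int
      (cZg.mul (continuous_const.mul (continuous_apply i)))).const_mul _
  have I6 : Integrable (fun z : Fin n → ℝ => Zf μ g (r ^ 2, r • z)) (gsn n) := gZg.int cZg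
  have I7 : Integrable (fun z : Fin n → ℝ => Zf μ g (r ^ 2, r • z) * ∑ i, (r * z i) ^ 2)
      (gsn n) := by
    apply EG1.int
    · refine gZg.mul (EG1.sum _ fun i _ => ?_)
      simpa [sq] using ((EG1.coord i).const_mul r).mul ((EG1.coord i).const_mul r)
    · fun_prop
  have S2 : Integrable (fun z : Fin n → ℝ => ∑ i, Zf μ (fun x => x i * g x) (r ^ 2, r • z)
      * (r * z i)) (gsn n) := integrable_finsetSum _ fun i _ => I2 i
  have S5 : Integrable (fun z : Fin n → ℝ => ∑ i, (∫ x, x i ∂μ) *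
      (Zf μ g (r ^ 2, r • z) * (r * z i))) (gsn n) := integrable_finsetSum _ fun i _ => I5 i
  have I3' := I3.const_mul (r ^ 2 / 2)
  have I6a := I6.const_mul (r ^ 2 / 2 * m2)
  have I6b := I6.const_mul L
  have I7' := I7.const_mul 2
  have I6c := I6.const_mul (r ^ 2 * m2)
  have I6d := I6.const_mul (3 * L)
  have T1 := S2.sub' I3'
  have T2 := int_add I1 T1
  have T3 := T2.sub' I4
  have T4 := T3.sub' S5
  have T5 := int_add T4 I6a
  have T6 := int_add T5 I6b
  have T7 := int_add I7' I6c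
  have T8 := int_add T7 I6d
  have T9 := T6.const_mul 2
  have T10 := T8.const_mul 2
  have T11 := int_add T9 T10
  have key := integral_mono hint T11 hpt
  refine key.trans ?_
  rw [integral_add T9 T10, integral_const_mul, integral_const_mul, integral_add T5 I6b,
    integral_add T4 I6a, integral_sub T3 S5, integral_sub T2 I4, integral_add I1 T1,
    integral_sub S2 I3', integral_add T7 I6d, integral_add I7' I6c,
    integral_const_mul, integral_const_mul, integral_const_mul, integral_const_mul,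
    integral_const_mul, integral_const_mul, integral_finsetSum _ fun i _ => I2 i,
    integral_finsetSum _ fun i _ => I5 i, tower_one h hglg, tower_one h hsg, tower_one h hg,
    tower_sq h hg, hg1]
  simp_rw [integral_const_mul]
  simp_rw [tower_coord h hg, fun i => tower_coord h (hg.xmul h i) i r]
  -- evaluate
  have E1 : ∑ i, r ^ 2 * ∫ x, x i * g x * x i ∂μ = r ^ 2 * G2 := by
    rw [← Finset.mul_sum, hG2, ← integral_finsetSum]
    · congr 2
      funext x
      rw [Finset.mul_sum]; apply Finset.sum_congr rfl; intro i _; ring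
    · intro i _; exact ((hg.xmul h i).mul (h.adm_coord i)).integrable
  have E2 : ∫ x, (∑ i, x i ^ 2) * g x ∂μ = G2 := by
    rw [hG2]; congr 1; funext x; ring
  have E3 : 0 ≤ ∫ z, Zo μ (r ^ 2, r • z) *
      (Mf μ g (r ^ 2, r • z) * log (Mf μ g (r ^ 2, r • z))) ∂(gsn n) := by
    have I0 : Integrable (fun z : Fin n → ℝ => Zo μ (r ^ 2, r • z)) (gsn n) := gZo.int cZo
    have : ∫ z, (Zf μ g (r ^ 2, r • z) - Zo μ (r ^ 2, r • z)) ∂(gsn n)
        ≤ ∫ z, Zo μ (r ^ 2, r • z) *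
      (Mf μ g (r ^ 2, r • z) * log (Mf μ g (r ^ 2, r • z))) ∂(gsn n) := by
      apply integral_mono (I6.sub' I0) I4
      intro z
      simp only
      rw [Zf_eq_mul h g]
      have hz := Zo_pos h (r ^ 2, r • z)
      have hm := hM0 (r ^ 2, r • z)
      have h1 := one_sub_inv_le_log_of_pos hm
      have h2 : Mf μ g (r ^ 2, r • z) - 1
          ≤ Mf μ g (r ^ 2, r • z) * log (Mf μ g (r ^ 2, r • z)) := by
        have := mul_le_mul_of_nonneg_left h1 hm.le
        rw [mul_sub, mul_inv_cancel₀ hm.ne', mul_one] at this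
        exact this
      have := mul_le_mul_of_nonneg_left h2 hz.le
      linarith only [this]
    have e : ∫ z, (Zf μ g (r ^ 2, r • z) - Zo μ (r ^ 2, r • z)) ∂(gsn n) = 0 := by
      rw [integral_sub I6 I0, tower_one h hg, hg1]
      have : ∫ z, Zo μ (r ^ 2, r • z) ∂(gsn n) = ∫ x, (1 : ℝ) ∂μ := tower_one h (Adm.const μ 1) r
      rw [this]; simp
    rw [e] at this; exact this
  have E4 : -(∑ i, (∫ x, x i ∂μ) * (r ^ 2 * ∫ x, g x * x i ∂μ)) ≤ r ^ 2 / 2 * (m2 + G2) := by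
    have b1 : ∀ i, -((∫ x, x i ∂μ) * (∫ x, g x * x i ∂μ))
        ≤ 1 / 2 * ∫ x, x i ^ 2 ∂μ + 1 / 2 * ∫ x, g x * x i ^ 2 ∂μ := by
      intro i
      set b := ∫ x, x i ∂μ with hb
      have hx := (h.adm_coord i)
      have hx2 : Adm μ fun x => x i ^ 2 := by simpa [sq] using hx.mul hx
      have c1 : b ^ 2 ≤ ∫ x, x i ^ 2 ∂μ := by
        have : 0 ≤ ∫ x, (x i - b) ^ 2 ∂μ := integral_nonneg fun x => sq_nonneg _
        have e : ∀ x : Fin n → ℝ, (x i - b) ^ 2 = x i ^ 2 - 2 * b * x i + b ^ 2 := by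
          intro x; ring
        simp_rw [e] at this
        rw [integral_add ((hx2.integrable).sub' (hx.integrable.const_mul _)) (integrable_const _),
          integral_sub hx2.integrable (hx.integrable.const_mul _), integral_const_mul,
          ← hb] at this
        simp only [integral_const, probReal_univ, smul_eq_mul, one_mul] at this
        nlinarith only [this]
      have c2 : -(b * ∫ x, g x * x i ∂μ) ≤ 1 / 2 * b ^ 2 + 1 / 2 * ∫ x, g x * x i ^ 2 ∂μ := by
        have i1 := (hg.mul hx2).integrable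
        have i2 := (hg.mul hx).integrable
        have i3 := hg.integrable
        have : 0 ≤ ∫ x, g x * (x i + b) ^ 2 ∂μ := by
          apply integral_nonneg_of_ae
          filter_upwards [hgε] with x hx
          exact mul_nonneg (hε.le.trans hx) (sq_nonneg _)
        have e : ∀ x : Fin n → ℝ, g x * (x i + b) ^ 2
            = g x * x i ^ 2 + 2 * b * (g x * x i) + b ^ 2 * g x := by
          intro x; ring
        simp_rw [e] at this
        rw [integral_add (int_add i1 (i2.const_mul _)) (i3.const_mul _),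
          integral_add i1 (i2.const_mul _), integral_const_mul, integral_const_mul, hg1] at this
        linarith only [this]
      linarith only [c1, c2]
    have b2 : m2 = ∑ i, ∫ x, x i ^ 2 ∂μ := by
      rw [hm2, integral_finsetSum]
      intro i _
      have := ((h.adm_coord i).mul (h.adm_coord i)).integrable
      simpa only [sq] using this
    have b3 : G2 = ∑ i, ∫ x, g x * x i ^ 2 ∂μ := by
      rw [hG2, ← integral_finsetSum]
      · congr 1; funext x; rw [Finset.mul_sum]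
      · intro i _
        have := (hg.mul ((h.adm_coord i).mul (h.adm_coord i))).integrable
        simpa only [sq] using this
    rw [b2, b3, ← Finset.sum_add_distrib, Finset.mul_sum, ← Finset.sum_neg_distrib]
    apply Finset.sum_le_sum
    intro i _
    have := mul_le_mul_of_nonneg_left (b1 i) (sq_nonneg r)
    nlinarith only [this]
  rw [E1, E2, ← hG2]
  linarith only [E4, E3]

/-- the main bound for the channel entropy -/
theorem eC_bound (h : CSupp μ R) {A : ℝ} (hA : 1 ≤ A) (hexp : ExpM μ A)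
    {g : (Fin n → ℝ) → ℝ} (hg : Adm μ g) {ε : ℝ} (hε : 0 < ε)
    (hgε : ∀ᵐ x ∂μ, ε ≤ g x) (hg1 : ∫ x, g x ∂μ = 1) {ρ : ℝ} (hρ : 0 ≤ ρ) :
    eC μ g ρ ≤ ρ ^ 2 * (∫ x, g x * log (g x) ∂μ + 4 * log A)
        + ρ ^ 4 / 2 * ((∫ x, g x * ∑ i, x i ^ 2 ∂μ) + 2 * (∫ x, ∑ i, x i ^ 2 ∂μ) + 2 * n)
        + 2 / 3 * ρ ^ 6 * (∫ x, g x * ∑ i, x i ^ 2 ∂μ) := by
  set q := ∫ x, g x * log (g x) ∂μ with hq
  set G2 := ∫ x, g x * ∑ i, x i ^ 2 ∂μ with hG2
  set m2 := ∫ x, ∑ i, x i ^ 2 ∂μ with hm2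
  set ψ : ℝ → ℝ := fun r => r ^ 2 * (q + 4 * log A) + r ^ 4 / 2 * (G2 + 2 * m2 + 2 * n)
    + 2 / 3 * r ^ 6 * G2 - eC μ g r with hψ
  have hder : ∀ r : ℝ, HasDerivAt ψ (2 * r * (q + 4 * log A) + 2 * r ^ 3 * (G2 + 2 * m2 + 2 * n)
      + 4 * r ^ 5 * G2 - r * ∫ z, Zo μ (r ^ 2, r • z) *
      ((Mf μ g (r ^ 2, r • z))⁻¹ * ∑ i, dI i (Mf μ g) (r ^ 2, r • z) ^ 2) ∂(gsn n)) r := by
    intro r
    have d1 : HasDerivAt (fun r : ℝ => r ^ 2 * (q + 4 * log A)) (2 * r * (q + 4 * log A)) r := by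
      simpa only [Nat.cast_ofNat, Nat.add_one_sub_one, pow_one] using (hasDerivAt_pow 2 r).mul_const (q + 4 * log A)
    have d2 : HasDerivAt (fun r : ℝ => r ^ 4 / 2 * (G2 + 2 * m2 + 2 * n))
        (2 * r ^ 3 * (G2 + 2 * m2 + 2 * n)) r := by
      have := ((hasDerivAt_pow 4 r).div_const 2).mul_const (G2 + 2 * m2 + 2 * n)
      refine this.congr_deriv ?_
      simp only [Nat.cast_ofNat, Nat.add_one_sub_one]; ring
    have d3 : HasDerivAt (fun r : ℝ => 2 / 3 * r ^ 6 * G2) (4 * r ^ 5 * G2) r := by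
      have := ((hasDerivAt_pow 6 r).const_mul (2 / 3 : ℝ)).mul_const G2
      refine this.congr_deriv ?_
      simp only [Nat.cast_ofNat, Nat.add_one_sub_one]; ring
    exact ((d1.add d2).add d3).sub (eC_deriv h hg hε hgε r)
  have hmono : MonotoneOn ψ (Set.Ici 0) := by
    apply monotoneOn_of_deriv_nonneg (convex_Ici 0)
    · exact fun r _ => (hder r).continuousAt.continuousWithinAt
    · exact fun r _ => (hder r).differentiableAt.differentiableWithinAt
    · intro r hr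
      rw [interior_Ici] at hr
      rw [(hder r).deriv]
      have hJ := J_bound h hA hexp hg hε hgε hg1 r
      have := mul_le_mul_of_nonneg_left hJ (le_of_lt hr)
      linarith only [this]
  have h0 : ψ 0 = 0 := by
    simp only [hψ]
    rw [eC_zero hg1]; ring
  have := hmono (Set.mem_Ici.2 le_rfl) (Set.mem_Ici.2 hρ) hρ
  rw [h0] at this
  simp only [hψ] at this
  linarith only [this]

end Vale.Agent.P245
end
end

section

section

open MeasureTheory Real
open scoped ENNReal Topology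

namespace Vale.Agent.P245

variable {n : ℕ} {μ : Measure (Fin n → ℝ)} [IsProbabilityMeasure μ] {R : ℝ}

theorem gauss_quarter_one : ∫ x : ℝ, (√(2 * π))⁻¹ * exp (-x ^ 2 / 2) * exp (x ^ 2 / 4) = √2 := by
  have e : (fun x : ℝ => (√(2 * π))⁻¹ * exp (-x ^ 2 / 2) * exp (x ^ 2 / 4))
      = fun x => (√(2 * π))⁻¹ * exp (-(1 / 4) * x ^ 2) := by
    funext x; rw [mul_assoc, ← exp_add]; congr 2; ring
  rw [e, integral_const_mul, integral_gaussian]
  have : π / (1 / 4) = 2 * (2 * π) := by ring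
  have h2 : √(2 * (2 * π)) = √2 * √(2 * π) := Real.sqrt_mul (by norm_num) _
  have h3 : √(2 * π) ≠ 0 := by positivity
  rw [this, h2, mul_comm, mul_assoc, mul_inv_cancel₀ h3, mul_one]

theorem gauss_quarter : ∫ z, exp ((∑ i, z i ^ 2) / 4) ∂(gsn n) = √2 ^ n := by
  rw [integral_gam]
  have : (fun z : Fin n → ℝ => gd z * exp ((∑ i, z i ^ 2) / 4))
      = fun z : Fin n → ℝ => ∏ i, ((√(2 * π))⁻¹ * exp (-(z i) ^ 2 / 2) * exp ((z i) ^ 2 / 4)) := by
    funext z
    rw [Finset.prod_mul_distrib, ← exp_sum, gd, Finset.sum_div]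
  rw [this, integral_fintype_prod_volume_eq_prod
    (fun _ x => (√(2 * π))⁻¹ * exp (-x ^ 2 / 2) * exp (x ^ 2 / 4)), gauss_quarter_one]
  simp only [Finset.prod_const, Finset.card_univ, Fintype.card_fin]

theorem integrable_gauss_quarter : Integrable (fun z : Fin n → ℝ => exp ((∑ i, z i ^ 2) / 4)) (gsn n) := by
  by_contra h
  have := integral_undef h
  rw [gauss_quarter] at this
  have h2 : (0 : ℝ) < √2 ^ n := by positivity
  linarith

theorem exp_half_sq (x : Fin n → ℝ) :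
    exp ((∑ i, x i ^ 2) / 2) = ∫ z, exp (∑ i, z i * x i) ∂(gsn n) := by
  rw [← integral_gam_exp]
  congr 1; funext z; congr 1
  apply Finset.sum_congr rfl; intro i _; ring

theorem int_exp_half_sq (h : CSupp μ R) {A : ℝ} (hexp : ExpM μ A) :
    ∫ x, exp ((∑ i, x i ^ 2) / 2) ∂μ ≤ A * √2 ^ n := by
  have hint : Integrable (Function.uncurry fun (x z : Fin n → ℝ) => exp (∑ i, z i * x i))
      (μ.prod (gsn n)) := by
    have hc : Continuous (Function.uncurry fun (x z : Fin n → ℝ) => exp (∑ i, z i * x i)) := by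
      unfold Function.uncurry; fun_prop
    refine Integrable.mono' (g := fun p : (Fin n → ℝ) × (Fin n → ℝ) => 1 * exp (R * ∑ i, |p.2 i|))
      ?_ hc.aestronglyMeasurable ?_
    · exact (integrable_const (1 : ℝ)).mul_prod (integrable_exp_abs R)
    · have : ∀ᵐ p ∂(μ.prod (gsn n)), ∀ i, |p.1 i| ≤ R :=
        Measure.quasiMeasurePreserving_fst.ae h.supp
      filter_upwards [this] with p hp
      unfold Function.uncurry
      rw [Real.norm_of_nonneg (exp_pos _).le, one_mul]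
      apply exp_le_exp.2
      rw [Finset.mul_sum]
      apply Finset.sum_le_sum
      intro i _
      calc p.2 i * p.1 i ≤ |p.2 i * p.1 i| := le_abs_self _
        _ = |p.1 i| * |p.2 i| := by rw [abs_mul, mul_comm]
        _ ≤ R * |p.2 i| := mul_le_mul_of_nonneg_right (hp i) (abs_nonneg _)
  calc ∫ x, exp ((∑ i, x i ^ 2) / 2) ∂μ
      = ∫ x, ∫ z, exp (∑ i, z i * x i) ∂(gsn n) ∂μ := by simp_rw [exp_half_sq]
    _ = ∫ z, ∫ x, exp (∑ i, z i * x i) ∂μ ∂(gsn n) := integral_integral_swap hint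
    _ ≤ ∫ z, A * exp ((∑ i, z i ^ 2) / 4) ∂(gsn n) := by
        apply integral_mono hint.integral_prod_right (integrable_gauss_quarter.const_mul A)
        intro z
        exact hexp z
    _ = A * √2 ^ n := by rw [integral_const_mul, gauss_quarter]

theorem log_bound (A : ℝ) (hA : 1 ≤ A) : log (A * √2 ^ n) = log A + n * (log 2 / 2) := by
  rw [log_mul (by positivity) (by positivity), log_pow, log_sqrt (by norm_num)]

/-- second moment bound by entropy -/
theorem G2_le (h : CSupp μ R) {A : ℝ} (hA : 1 ≤ A) (hexp : ExpM μ A)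
    {g : (Fin n → ℝ) → ℝ} (hg : Adm μ g) {ε : ℝ} (hε : 0 < ε)
    (hgε : ∀ᵐ x ∂μ, ε ≤ g x) (hg1 : ∫ x, g x ∂μ = 1) :
    ∫ x, g x * ∑ i, x i ^ 2 ∂μ ≤ 2 * (∫ x, g x * log (g x) ∂μ) + 2 * log A + n * log 2 := by
  have hlg := hg.log hε hgε
  have hV : Adm μ fun x => exp ((∑ i, x i ^ 2) / 2) := Adm.of_continuous h (by fun_prop)
  have hS : Adm μ fun x => (∑ i, x i ^ 2) / 2 := Adm.of_continuous h (by (clear * -; fun_prop))
  set Z := ∫ x, exp ((∑ i, x i ^ 2) / 2) ∂μ with hZ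
  have hZp : 0 < Z := integral_exp_pos hV.integrable
  have hZle : log Z ≤ log A + n * (log 2 / 2) := by
    rw [← log_bound A hA]
    exact log_le_log hZp (int_exp_half_sq h hexp)
  have hpt : ∀ᵐ x ∂μ, g x * ((∑ i, x i ^ 2) / 2 - log Z)
      ≤ g x * log (g x) - g x + exp ((∑ i, x i ^ 2) / 2) * (1 / Z) := by
    filter_upwards [hgε] with x hx
    have h1 := mul_le_mul_log_add_exp (a := g x) (b := (∑ i, x i ^ 2) / 2 - log Z)
      (hε.le.trans hx)
    rw [exp_sub, exp_log hZp] at h1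
    rw [mul_one_div]; exact h1
  have i1 := (hg.mul (hS.sub (Adm.const μ (log Z)))).integrable
  have i2 := (hg.mul hlg).integrable
  have i3 := hg.integrable
  have i4 := (hV.mul (Adm.const μ (1 / Z))).integrable
  have key := integral_mono_ae i1 (int_add (i2.sub' i3) i4) hpt
  rw [integral_add (i2.sub' i3) i4, integral_sub i2 i3, integral_mul_const, ← hZ, hg1] at key
  have e1 : ∫ x, g x * ((∑ i, x i ^ 2) / 2 - log Z) ∂μ
      = 1 / 2 * (∫ x, g x * ∑ i, x i ^ 2 ∂μ) - log Z := by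
    have : ∀ x : Fin n → ℝ, g x * ((∑ i, x i ^ 2) / 2 - log Z)
        = 1 / 2 * (g x * ∑ i, x i ^ 2) - log Z * g x := by intro x; ring
    simp_rw [this]
    rw [integral_sub ((hg.mul h.adm_sq).integrable.const_mul _) (i3.const_mul _),
      integral_const_mul, integral_const_mul, hg1, mul_one]
  rw [e1, mul_one_div_cancel hZp.ne'] at key
  linarith only [hZle, key]

theorem m2_le (h : CSupp μ R) {A : ℝ} (hA : 1 ≤ A) (hexp : ExpM μ A) :
    ∫ x, ∑ i, x i ^ 2 ∂μ ≤ 2 * log A + n * log 2 := by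
  have := G2_le h hA hexp (Adm.const μ 1) one_pos (Filter.Eventually.of_forall fun _ => le_rfl)
    (by simp)
  simpa only [ge_iff_le, one_mul, log_one, mul_zero, integral_zero, zero_add] using this

/-- the entropy bound in closed form, `ρ² = t` -/
theorem eC_bound' (h : CSupp μ R) {A : ℝ} (hA : 1 ≤ A) (hexp : ExpM μ A)
    {g : (Fin n → ℝ) → ℝ} (hg : Adm μ g) {ε : ℝ} (hε : 0 < ε)
    (hgε : ∀ᵐ x ∂μ, ε ≤ g x) (hg1 : ∫ x, g x ∂μ = 1) {ρ : ℝ} (hρ : 0 ≤ ρ) :
    eC μ g ρ ≤ ρ ^ 2 * (∫ x, g x * log (g x) ∂μ + 4 * log A)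
        + ρ ^ 4 / 2 * (2 * (∫ x, g x * log (g x) ∂μ) + 6 * log A + 3 * n * log 2 + 2 * n)
        + 2 / 3 * ρ ^ 6 * (2 * (∫ x, g x * log (g x) ∂μ) + 2 * log A + n * log 2) := by
  have h1 := eC_bound h hA hexp hg hε hgε hg1 hρ
  have h2 := G2_le h hA hexp hg hε hgε hg1
  have h3 := m2_le h hA hexp
  have r4 : 0 ≤ ρ ^ 4 / 2 := by (clear * -; positivity)
  have r6 : 0 ≤ 2 / 3 * ρ ^ 6 := by (clear * -; positivity)
  have h4 := mul_le_mul_of_nonneg_left h2 r4
  have h5 := mul_le_mul_of_nonneg_left h3 r4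
  have h6 := mul_le_mul_of_nonneg_left h2 r6
  refine h1.trans ?_
  linarith only [h4, h5, h6]

end Vale.Agent.P245
end
end

section

section

open MeasureTheory Real
open scoped ENNReal Topology

namespace Vale.Agent.P245

variable {n : ℕ} {μ : Measure (Fin n → ℝ)} [IsProbabilityMeasure μ] {R : ℝ}

theorem log_three_le : log 3 ≤ 1.11 := by
  have h1 : 5 * log 3 ≤ 8 * log 2 := by
    have e1 : 5 * log 3 = log (3 ^ 5) := by rw [log_pow]; norm_num
    have e2 : 8 * log 2 = log (2 ^ 8) := by rw [log_pow]; norm_num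
    rw [e1, e2]
    exact log_le_log (by norm_num) (by norm_num)
  have := Real.log_two_lt_d9
  linarith

theorem defective_algebra {N t q L l2 β B : ℝ} (hN : 0 ≤ N) (ht0 : 0 < t) (ht : t ≤ 1 / 4)
    (hβ : 1 ≤ β) (hNt : N * t ^ 2 ≤ β) (hL : L ≤ 1.11) (hl0 : 0 ≤ l2)
    (hl : l2 ≤ 0.6932) (hB : 0 ≤ B)
    (h : q ≤ t * (q + 4 * L) + t ^ 2 / 2 * (2 * q + 6 * L + 3 * N * l2 + 2 * N)
      + 2 / 3 * t ^ 3 * (2 * q + 2 * L + N * l2) + 2 / t * B) :
    q ≤ 3 / t * B + 6 * β := by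
  have hB' : 0 ≤ 2 / t * B := by (clear * - ht0 hB; positivity)
  rcases le_or_gt q 0 with hq | hq
  · have : 0 ≤ 3 / t * B := by (clear * - ht0 hB; positivity)
    linarith only [hβ, hq, this]
  have t2 : t ^ 2 ≤ 1 / 16 := by nlinarith only [ht, ht0]
  have t2' : 0 ≤ t ^ 2 := sq_nonneg t
  have t3 : t ^ 3 ≤ 1 / 64 := by
    have : t ^ 3 = t * t ^ 2 := by ring
    rw [this]; nlinarith only [t2, ht]
  have t3' : 0 ≤ t ^ 3 := by positivity
  -- q terms
  have a1 : q * t ≤ q * (1 / 4) := mul_le_mul_of_nonneg_left ht hq.le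
  have a2 : q * t ^ 2 ≤ q * (1 / 16) := mul_le_mul_of_nonneg_left t2 hq.le
  have a3 : q * t ^ 3 ≤ q * (1 / 64) := mul_le_mul_of_nonneg_left t3 hq.le
  -- L terms
  have b1 : L * t ≤ 1.11 * (1 / 4) := mul_le_mul hL ht ht0.le (by norm_num)
  have b2 : L * t ^ 2 ≤ 1.11 * (1 / 16) := mul_le_mul hL t2 t2' (by norm_num)
  have b3 : L * t ^ 3 ≤ 1.11 * (1 / 64) := mul_le_mul hL t3 t3' (by norm_num)
  -- N terms
  have c1 : (N * t ^ 2) * l2 ≤ β * 0.6932 := mul_le_mul hNt hl hl0 (by linarith only [hβ])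
  have c0 : 0 ≤ N * t ^ 2 := by positivity
  have c2 : N * t ^ 3 * l2 ≤ β * (1 / 4) * 0.6932 := by
    have : N * t ^ 3 = (N * t ^ 2) * t := by ring
    rw [this]
    exact mul_le_mul (mul_le_mul hNt ht ht0.le (by linarith only [hβ])) hl hl0 (by positivity)
  have e : 3 / t * B = 3 / 2 * (2 / t * B) := by ring
  rw [e]
  linarith only [c2, c1, b3, b2, b1, a3, a2, a1, h, hNt, hβ, ht, ht0]

theorem defective_cs (hn : 1 ≤ n) (h : CSupp μ R) (hexp : ExpM μ 3)
    {F : (Fin n → ℝ) → ℝ} (hF : Adm μ F) {ε : ℝ} (hε : 0 < ε) (hFε : ∀ x, ε ≤ F x)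
    {E : (Fin n → ℝ) → ℝ} (hE : Adm μ E) (hE0 : ∀ x, 0 ≤ E x)
    (hLSI : ∀ p : ℝ × (Fin n → ℝ), 0 < p.1 →
      Zf μ (fun x => F x ^ 2 * log (F x ^ 2)) p
        - Zf μ (fun x => F x ^ 2) p * log (Mf μ (fun x => F x ^ 2) p) ≤ 2 / p.1 * Zf μ E p)
    {β : ℝ} (hβ : 1 ≤ β) :
    ent μ (fun x => F x ^ 2) ≤ (12 + 3 * √(n / β)) * ∫ x, E x ∂μ
      + 6 * β * ∫ x, F x ^ 2 ∂μ := by
  have hF2 : Adm μ fun x => F x ^ 2 := by simpa [sq] using hF.mul hF
  set m := ∫ x, F x ^ 2 ∂μ with hm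
  have hε2 : 0 < ε ^ 2 := by positivity
  have hF2ε : ∀ x, ε ^ 2 ≤ F x ^ 2 := fun x => pow_le_pow_left₀ hε.le (hFε x) 2
  have hmε : ε ^ 2 ≤ m := by
    have := integral_mono (integrable_const (ε ^ 2)) hF2.integrable hF2ε
    simpa only [ge_iff_le, integral_const, probReal_univ, smul_eq_mul, one_mul] using this
  have hm0 : 0 < m := hε2.trans_le hmε
  set g : (Fin n → ℝ) → ℝ := fun x => m⁻¹ * F x ^ 2 with hg
  have hgA : Adm μ g := hF2.const_mul _
  have hεg : 0 < m⁻¹ * ε ^ 2 := by (clear * - hm0 hε; positivity)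
  have hgε' : ∀ x, m⁻¹ * ε ^ 2 ≤ g x := fun x =>
    mul_le_mul_of_nonneg_left (hF2ε x) (by positivity)
  have hgε : ∀ᵐ x ∂μ, m⁻¹ * ε ^ 2 ≤ g x := Filter.Eventually.of_forall hgε'
  have hg1 : ∫ x, g x ∂μ = 1 := by
    simp only [hg]; rw [integral_const_mul, ← hm, inv_mul_cancel₀ hm0.ne']
  have hl := hgA.log hεg hgε
  have hglg : Adm μ fun x => g x * log (g x) := hgA.mul hl
  have hlF : Adm μ fun x => log (F x ^ 2) := hF2.log hε2 (Filter.Eventually.of_forall hF2ε)
  have hFlF : Adm μ fun x => F x ^ 2 * log (F x ^ 2) := hF2.mul hlF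
  set q := ∫ x, g x * log (g x) ∂μ with hq
  have hglgx : ∀ x, g x * log (g x) = m⁻¹ * (F x ^ 2 * log (F x ^ 2)) + (-(m⁻¹ * log m)) * F x ^ 2 := by
    intro x
    have hx : 0 < F x ^ 2 := hε2.trans_le (hF2ε x)
    simp only [hg]
    rw [log_mul (by (clear * - hm0; positivity)) hx.ne', log_inv]; ring
  have hqe : q = m⁻¹ * ent μ (fun x => F x ^ 2) := by
    rw [hq]
    simp_rw [hglgx]
    rw [integral_add (hFlF.const_mul _).integrable (hF2.const_mul _).integrable,
      integral_const_mul, integral_const_mul, ← hm, ent, ← hm]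
    ring
  -- choice of time
  set t := min (1 / 4) (√(β / n)) with ht
  have hn0 : (0 : ℝ) < n := by exact_mod_cast hn
  have hs0 : 0 < √(β / n) := by positivity
  have ht0 : 0 < t := lt_min (by norm_num) hs0
  have ht4 : t ≤ 1 / 4 := min_le_left _ _
  have htn : n * t ^ 2 ≤ β := by
    have h1 : t ^ 2 ≤ √(β / n) ^ 2 := pow_le_pow_left₀ ht0.le (min_le_right _ _) 2
    rw [sq_sqrt (by positivity)] at h1
    calc n * t ^ 2 ≤ n * (β / n) := mul_le_mul_of_nonneg_left h1 hn0.le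
      _ = β := by field_simp
  set r := √t with hr
  have hr2 : r ^ 2 = t := sq_sqrt ht0.le
  have hr4 : r ^ 4 = t ^ 2 := by rw [← hr2]; ring
  have hr6 : r ^ 6 = t ^ 3 := by rw [← hr2]; ring
  -- posterior LSI averaged
  have hM0 : ∀ p, 0 < Mf μ g p := fun p => hεg.trans_le (Mf_ge h hgA hgε p)
  have c0 := cpath (n := n) r
  have hpt : ∀ z : Fin n → ℝ, Zf μ (fun x => g x * log (g x)) (r ^ 2, r • z)
      - Zo μ (r ^ 2, r • z) * (Mf μ g (r ^ 2, r • z) * log (Mf μ g (r ^ 2, r • z)))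
      ≤ 2 / t * m⁻¹ * Zf μ E (r ^ 2, r • z) := by
    intro z
    set p : ℝ × (Fin n → ℝ) := (r ^ 2, r • z) with hp
    have hp1 : p.1 = t := by rw [hp]; exact hr2
    have h1 := hLSI p (by rw [hp1]; exact ht0)
    rw [hp1] at h1
    have e1 : Zf μ (fun x => g x * log (g x)) p
        = m⁻¹ * Zf μ (fun x => F x ^ 2 * log (F x ^ 2)) p
          + (-(m⁻¹ * log m)) * Zf μ (fun x => F x ^ 2) p := by
      rw [Zf_congr hglgx, Zf_add h (hFlF.const_mul _) (hF2.const_mul _), Zf_const_mul, Zf_const_mul]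
    have e2 : Zo μ p * (Mf μ g p * log (Mf μ g p)) = Zf μ g p * log (Mf μ g p) := by
      rw [Zf_eq_mul h g]; ring
    have hMF : 0 < Mf μ (fun x => F x ^ 2) p :=
      hε2.trans_le (Mf_ge h hF2 (Filter.Eventually.of_forall hF2ε) p)
    have e3 : log (Mf μ g p) = -log m + log (Mf μ (fun x => F x ^ 2) p) := by
      have : Mf μ g p = m⁻¹ * Mf μ (fun x => F x ^ 2) p := Mf_const_mul _ _ _
      rw [this, log_mul (by (clear * - hm0; positivity)) hMF.ne', log_inv]
    have e4 : Zf μ g p = m⁻¹ * Zf μ (fun x => F x ^ 2) p := Zf_const_mul _ _ _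
    rw [e1, e2, e3, e4]
    have h2 := mul_le_mul_of_nonneg_left h1 (inv_pos.2 hm0).le
    calc m⁻¹ * Zf μ (fun x => F x ^ 2 * log (F x ^ 2)) p
          + (-(m⁻¹ * log m)) * Zf μ (fun x => F x ^ 2) p
          - m⁻¹ * Zf μ (fun x => F x ^ 2) p * (-log m + log (Mf μ (fun x => F x ^ 2) p))
        = m⁻¹ * (Zf μ (fun x => F x ^ 2 * log (F x ^ 2)) p
          - Zf μ (fun x => F x ^ 2) p * log (Mf μ (fun x => F x ^ 2) p)) := by ring
      _ ≤ m⁻¹ * (2 / t * Zf μ E p) := h2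
      _ = 2 / t * m⁻¹ * Zf μ E p := by ring
  have I1 : Integrable (fun z : Fin n → ℝ => Zf μ (fun x => g x * log (g x)) (r ^ 2, r • z))
      (gsn n) := (eg1_Zf h hglg r).int ((cont_Zf h hglg).comp c0)
  have hBl := B2_MlogM h hgA hεg hgε (r ^ 2)
  have I4 : Integrable (fun z : Fin n → ℝ => Zo μ (r ^ 2, r • z) *
      (Mf μ g (r ^ 2, r • z) * log (Mf μ g (r ^ 2, r • z)))) (gsn n) :=
    ((eg1_Zf h (Adm.const μ 1) r).mul (eg1_of_Bd hBl.bd0)).int
      (((cont_Zf h (Adm.const μ 1)).comp c0).mul (hBl.cd.continuous.comp c0))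
  have I5 : Integrable (fun z : Fin n → ℝ => 2 / t * m⁻¹ * Zf μ E (r ^ 2, r • z)) (gsn n) :=
    ((eg1_Zf h hE r).int ((cont_Zf h hE).comp c0)).const_mul _
  have key := integral_mono (I1.sub' I4) I5 hpt
  rw [integral_sub I1 I4, integral_const_mul, tower_one h hglg, tower_one h hE] at key
  have keyB := eC_bound' h (by norm_num : (1 : ℝ) ≤ 3) hexp hgA hεg hgε hg1 (sqrt_nonneg t)
  rw [← hr, hr2, hr4, hr6] at keyB
  have hkey : q ≤ eC μ g r + 2 / t * (m⁻¹ * ∫ x, E x ∂μ) := by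
    have : eC μ g r = ∫ z, Zo μ (r ^ 2, r • z) *
      (Mf μ g (r ^ 2, r • z) * log (Mf μ g (r ^ 2, r • z))) ∂(gsn n) := rfl
    rw [this]; linarith only [key]
  have hIE : 0 ≤ ∫ x, E x ∂μ := integral_nonneg hE0
  have hB : 0 ≤ m⁻¹ * ∫ x, E x ∂μ := by (clear * - hm0 hIE; positivity)
  have halg := defective_algebra (N := n) (t := t) (q := q) (L := log 3) (l2 := log 2) (β := β)
    (B := m⁻¹ * ∫ x, E x ∂μ) hn0.le ht0 ht4 hβ htn log_three_le
    (log_nonneg (by norm_num)) (by have := Real.log_two_lt_d9; linarith only [this]) hB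
    (hkey.trans (by linarith only [keyB]))
  have hinv : 1 / t ≤ 4 + √(n / β) := by
    have hsn : √(n / β) = (√(β / n))⁻¹ := by rw [← sqrt_inv, inv_div]
    have hsn0 : 0 ≤ √(n / β) := sqrt_nonneg _
    rcases min_cases (1 / 4 : ℝ) (√(β / n)) with ⟨h1, _⟩ | ⟨h1, _⟩
    · have : 1 / t = 4 := by rw [ht, h1]; norm_num
      rw [this]; linarith only [hsn0]
    · rw [ht, h1, hsn, one_div]
      linarith only []
  rw [hqe] at halg
  have h3 := mul_le_mul_of_nonneg_left halg hm0.le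
  rw [← mul_assoc, mul_inv_cancel₀ hm0.ne', one_mul] at h3
  have h4 : m * (3 / t * (m⁻¹ * ∫ x, E x ∂μ) + 6 * β)
      = 3 * (1 / t) * (∫ x, E x ∂μ) + 6 * β * m := by
    (clear * - ht0 hm0 hIE hβ; field_simp)
  rw [h4] at h3
  have h5 : 3 * (1 / t) * (∫ x, E x ∂μ) ≤ (12 + 3 * √(n / β)) * ∫ x, E x ∂μ :=
    mul_le_mul_of_nonneg_right (by linarith only [hinv]) hIE
  linarith only [h3, h5]

end Vale.Agent.P245
end
end

section

section

open MeasureTheory Real Set Filter Topology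
open scoped ENNReal

namespace Vale.Agent.P245

variable {n : ℕ} {ρ : (Fin n → ℝ) → ℝ}

theorem LCd.mul_expL (hρ : LCd ρ) (θ : Fin n → ℝ) {c : ℝ} (hc : 0 < c) :
    LCd fun x => ρ x * (exp (∑ i, θ i * x i) * c) where
  meas := hρ.meas.mul (by fun_prop)
  nonneg := fun x => mul_nonneg (hρ.nonneg x) (by positivity)
  lc := by
    intro x y s hs0 hs1
    have hE : ∀ z : Fin n → ℝ, 0 ≤ exp (∑ i, θ i * z i) * c := fun z => by positivity
    rw [mul_rpow (hρ.nonneg _) (hE _), mul_rpow (hρ.nonneg _) (hE _)]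
    have e : (exp (∑ i, θ i * x i) * c) ^ (1 - s) * (exp (∑ i, θ i * y i) * c) ^ s
        = exp (∑ i, θ i * ((1 - s) • x + s • y) i) * c := by
      rw [mul_rpow (exp_pos _).le hc.le, mul_rpow (exp_pos _).le hc.le, ← exp_mul, ← exp_mul]
      have h1 : exp ((∑ i, θ i * x i) * (1 - s)) * c ^ (1 - s) *
          (exp ((∑ i, θ i * y i) * s) * c ^ s)
          = (exp ((∑ i, θ i * x i) * (1 - s)) * exp ((∑ i, θ i * y i) * s)) *
            (c ^ (1 - s) * c ^ s) := by ring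
      rw [h1, ← exp_add, ← rpow_add hc]
      have h2 : 1 - s + s = 1 := by ring
      rw [h2, rpow_one]
      congr 2
      rw [Finset.sum_mul, Finset.sum_mul, ← Finset.sum_add_distrib]
      apply Finset.sum_congr rfl
      intro i _
      simp only [Pi.add_apply, Pi.smul_apply, smul_eq_mul]
      ring
    calc ρ x ^ (1 - s) * (exp (∑ i, θ i * x i) * c) ^ (1 - s)
          * (ρ y ^ s * (exp (∑ i, θ i * y i) * c) ^ s)
        = (ρ x ^ (1 - s) * ρ y ^ s) * ((exp (∑ i, θ i * x i) * c) ^ (1 - s) *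
          (exp (∑ i, θ i * y i) * c) ^ s) := by ring
      _ = (ρ x ^ (1 - s) * ρ y ^ s) * (exp (∑ i, θ i * ((1 - s) • x + s • y) i) * c) := by rw [e]
      _ ≤ _ := mul_le_mul_of_nonneg_right (hρ.lc x y s hs0 hs1) (hE _)

/-- the posterior measure -/
noncomputable def post (ρ : (Fin n → ℝ) → ℝ) (p : ℝ × (Fin n → ℝ)) : Measure (Fin n → ℝ) :=
  volume.withDensity fun x => ENNReal.ofReal
    (gwt p.1 (fun x => ρ x * (exp (∑ i, p.2 i * x i) * (Zo (mu ρ) p)⁻¹)) x)

theorem post_eq (hρ : LCd ρ) (p : ℝ × (Fin n → ℝ)) :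
    post ρ p = (mu ρ).withDensity fun x => ENNReal.ofReal (exp (lx x p) * (Zo (mu ρ) p)⁻¹) := by
  unfold post mu
  rw [← withDensity_mul _ hρ.meas.ennreal_ofReal]
  · congr 1
    funext x
    simp only [Pi.mul_apply]
    rw [← ENNReal.ofReal_mul (hρ.nonneg x)]
    congr 1
    unfold gwt lx
    have : exp (∑ i, p.2 i * x i - p.1 / 2 * ∑ i, x i ^ 2)
        = exp (∑ i, p.2 i * x i) * exp (-(p.1 / 2 * ∑ i, x i ^ 2)) := by
      rw [← exp_add, sub_eq_add_neg]
    rw [this]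
    ring
  · exact ((measurable_lx p).exp.mul_const _).ennreal_ofReal

theorem integral_post (hρ : LCd ρ) [IsProbabilityMeasure (mu ρ)] {R : ℝ} (h : CSupp (mu ρ) R)
    (p : ℝ × (Fin n → ℝ)) (φ : (Fin n → ℝ) → ℝ) :
    ∫ x, φ x ∂(post ρ p) = Mf (mu ρ) φ p := by
  have hZ := Zo_pos h p
  rw [post_eq hρ p, integral_withDensity_eq_integral_toReal_smul
    (((measurable_lx p).exp.mul_const _).ennreal_ofReal)
    (Eventually.of_forall fun z => ENNReal.ofReal_lt_top)]
  unfold Mf Zf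
  rw [← integral_div]
  congr 1
  funext x
  rw [ENNReal.toReal_ofReal (by positivity), smul_eq_mul]
  ring

theorem isProb_post (hρ : LCd ρ) [IsProbabilityMeasure (mu ρ)] {R : ℝ} (h : CSupp (mu ρ) R)
    (p : ℝ × (Fin n → ℝ)) : IsProbabilityMeasure (post ρ p) := by
  have hZ := Zo_pos h p
  have hE := h.adm_exp_lx p
  constructor
  rw [post_eq hρ p, withDensity_apply _ MeasurableSet.univ, Measure.restrict_univ,
    ← ofReal_integral_eq_lintegral_ofReal (hE.integrable.mul_const _)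
      (Eventually.of_forall fun z => by positivity), integral_mul_const]
  have : ∫ x, exp (lx x p) ∂(mu ρ) = Zo (mu ρ) p := by
    unfold Zo Zf; simp
  rw [this, mul_inv_cancel₀ hZ.ne', ENNReal.ofReal_one]

/-- LSI for the posteriors -/
theorem lsi_post (hρ : LCd ρ) [IsProbabilityMeasure (mu ρ)] {R : ℝ} (h : CSupp (mu ρ) R)
    {F : (Fin n → ℝ) → ℝ} (hF : ContDiff ℝ 2 F) {R' c : ℝ} (hc : ∀ x, R' < ‖x‖ → F x = c)
    (p : ℝ × (Fin n → ℝ)) (hp : 0 < p.1) :
    Zf (mu ρ) (fun x => F x ^ 2 * log (F x ^ 2)) p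
        - Zf (mu ρ) (fun x => F x ^ 2) p * log (Mf (mu ρ) (fun x => F x ^ 2) p)
      ≤ 2 / p.1 * Zf (mu ρ) (fun x => ∑ i, pd F i x ^ 2) p := by
  have hZ := Zo_pos h p
  have := isProb_post hρ h p
  have hF1 : ContDiff ℝ 1 F := hF.of_le (by norm_num)
  have key := lsi_slc hp (hρ.mul_expL p.2 (inv_pos.2 hZ)) (ν := post ρ p) rfl hF hc
  rw [← integral_finsetSum] at key
  · rw [ent, integral_post hρ h, integral_post hρ h, integral_post hρ h] at key
    have h2 := mul_le_mul_of_nonneg_left key hZ.le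
    rw [mul_sub, ← mul_assoc, ← Zf_eq_mul h, ← Zf_eq_mul h] at h2
    refine h2.trans (le_of_eq ?_)
    rw [Zf_eq_mul h (fun x => ∑ i, pd F i x ^ 2)]
    ring
  · intro i _
    obtain ⟨P, hP⟩ := bdd_of_const_outside (continuous_pd hF1 i) (pd_const_outside hc i)
    exact integrable_of_bdd _ ((continuous_pd hF1 i).measurable.pow_const 2) (K := P ^ 2) fun x => by
        rw [abs_of_nonneg (sq_nonneg _), ← sq_abs]; exact pow_le_pow_left₀ (abs_nonneg _) (hP x) 2

end Vale.Agent.P245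
end
end

section

section

open MeasureTheory Real Set Filter Topology
open scoped ENNReal ContDiff

namespace Vale.Agent.P245.LS

variable {n : ℕ}

/-- all partial derivatives of order `≤ k` exist and are bounded -/
def SBk : ℕ → ((Fin n → ℝ) → ℝ) → Prop
  | 0, N => Continuous N ∧ ∃ C, ∀ y, |N y| ≤ C
  | k + 1, N => (Differentiable ℝ N ∧ ∃ C, ∀ y, |N y| ≤ C) ∧ ∀ i, SBk k (pd N i)

/-- smooth with all partial derivatives bounded -/
def SB (N : (Fin n → ℝ) → ℝ) : Prop := ∀ k, SBk k N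

/-- smooth, all derivatives bounded, and bounded below by a positive constant -/
structure Pos (N : (Fin n → ℝ) → ℝ) : Prop where
  sb : SB N
  lb : ∃ ε, 0 < ε ∧ ∀ y, ε ≤ N y

/-- test densities: `C²` and bounded below by a positive constant -/
structure P2 (f : (Fin n → ℝ) → ℝ) : Prop where
  cd : ContDiff ℝ 2 f
  lb : ∃ ε, 0 < ε ∧ ∀ y, ε ≤ f y

/-- heat semigroup: `PH u N y = E N(y + √u G)` -/
noncomputable def PH (u : ℝ) (N : (Fin n → ℝ) → ℝ) (y : Fin n → ℝ) : ℝ :=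
  ∫ z, N (y + √u • z) ∂(gsn n)

/-- expectation at level `σ`: `E Φ(X + √σ G)`, `X ∼ μ` -/
noncomputable def EY (μ : Measure (Fin n → ℝ)) (σ : ℝ) (Φ : (Fin n → ℝ) → ℝ) : ℝ :=
  ∫ x, PH σ Φ x ∂μ

/-- entropy at level `σ` -/
noncomputable def HE (μ : Measure (Fin n → ℝ)) (σ : ℝ) (N : (Fin n → ℝ) → ℝ) : ℝ :=
  EY μ σ fun y => N y * log (N y)

/-- Fisher information at level `σ` -/
noncomputable def FI (μ : Measure (Fin n → ℝ)) (σ : ℝ) (N : (Fin n → ℝ) → ℝ) : ℝ :=
  EY μ σ fun y => (∑ i, pd N i y ^ 2) / N y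

/-- second order quantity at level `σ`: `E N |D² log N|²` -/
noncomputable def GA (μ : Measure (Fin n → ℝ)) (σ : ℝ) (N : (Fin n → ℝ) → ℝ) : ℝ :=
  EY μ σ fun y => N y * ∑ i, ∑ j, pd (pd (fun y => log (N y)) i) j y ^ 2

/-- conditional expectation of `f(X)` given `X + √s G = y` -/
noncomputable def UP (μ : Measure (Fin n → ℝ)) (s : ℝ) (f : (Fin n → ℝ) → ℝ)
    (y : Fin n → ℝ) : ℝ := Mf μ f (1 / s, (1 / s) • y)

/-- `H ≤ κ I + D` for all test densities -/
def DB (μ : Measure (Fin n → ℝ)) (κ D : ℝ) : Prop :=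
  ∀ f : (Fin n → ℝ) → ℝ, P2 f → EY μ 0 f = 1 → HE μ 0 f ≤ κ * FI μ 0 f + D

/-- the likelihood ratio of the extra channel `W = ∇ log N (Y) + √(1/t) G`, in the variable
`w = z / √t` : `exp(√t ⟨z, v⟩ - t |v|²/2)`, `v = ∇ log N (y)` -/
noncomputable def LR (N : (Fin n → ℝ) → ℝ) (t : ℝ) (z y : Fin n → ℝ) : ℝ :=
  exp (√t * ∑ i, z i * (pd N i y / N y) - t / 2 * ∑ i, (pd N i y / N y) ^ 2)

/-- `C²` and constant outside a ball -/
def CB (f : (Fin n → ℝ) → ℝ) : Prop :=
  ContDiff ℝ 2 f ∧ ∃ R c : ℝ, ∀ x, R < ‖x‖ → f x = c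

/-- defective log-Sobolev inequality `Ent(g²) ≤ C ∫|∇g|² + D ∫ g²` on `C²` functions which are
constant outside a ball -/
def DL (μ : Measure (Fin n → ℝ)) (C D : ℝ) : Prop :=
  ∀ g : (Fin n → ℝ) → ℝ, CB g →
    ent μ (fun x => g x ^ 2) ≤ C * ∑ i, ∫ x, pd g i x ^ 2 ∂μ + D * ∫ x, g x ^ 2 ∂μ

end Vale.Agent.P245.LS
end
end

section

section

open MeasureTheory Real Set Filter Topology
open scoped ENNReal ContDiff

/-! Definitions for the bound `K_n ≤ C (1 + log n)` (paper proof: note 5727). -/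

namespace Vale.Agent.P245.E1

open LS

variable {n : ℕ}

/-- bounded measurable functions -/
def BM (h : (Fin n → ℝ) → ℝ) : Prop := Measurable h ∧ ∃ C, ∀ y, |h y| ≤ C

/-- `p_r`-reference kernel, `0 < s ≤ r` : `UL μ s r h y = E[h(Y_s) | Y_r = y]`, where `X ∼ μ`,
`Y_s = X + √s G`, `Y_r = Y_s + √(r-s) G'`.  (Given `X = x`, `Y_r = y` the law of `Y_s` is
`N((1 - s/r) x + (s/r) y, s (r - s)/r)`.) -/
noncomputable def UL (μ : Measure (Fin n → ℝ)) (s r : ℝ) (h : (Fin n → ℝ) → ℝ)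
    (y : Fin n → ℝ) : ℝ :=
  Mf μ (fun x => PH (s * (r - s) / r) h ((1 - s / r) • x + (s / r) • y)) (1 / r, (1 / r) • y)

/-- posterior mean of `X_i` given `X + √r G = y` -/
noncomputable def XB (μ : Measure (Fin n → ℝ)) (r : ℝ) (i : Fin n) (y : Fin n → ℝ) : ℝ :=
  Mf μ (fun x => x i) (1 / r, (1 / r) • y)

/-- `∂_i V_r`, `V_r = - log` of the density of `μ * γ_r` -/
noncomputable def DV (μ : Measure (Fin n → ℝ)) (r : ℝ) (i : Fin n) (y : Fin n → ℝ) : ℝ :=
  (y i - XB μ r i y) / r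

/-- Hessian of `V_r` -/
noncomputable def PV (μ : Measure (Fin n → ℝ)) (r : ℝ) (i j : Fin n) (y : Fin n → ℝ) : ℝ :=
  pd (DV μ r i) j y

/-- the score `∇ log N` -/
noncomputable def sN (N : (Fin n → ℝ) → ℝ) (i : Fin n) (y : Fin n → ℝ) : ℝ := pd N i y / N y

/-- `E_q ⟨φ, ψ⟩`, `q = N p_r` -/
noncomputable def IP (μ : Measure (Fin n → ℝ)) (r : ℝ) (N : (Fin n → ℝ) → ℝ)
    (φ ψ : Fin n → (Fin n → ℝ) → ℝ) : ℝ := EY μ r fun y => N y * ∑ i, φ i y * ψ i y

/-- `E_q |Dφ|²` -/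
noncomputable def DE (μ : Measure (Fin n → ℝ)) (r : ℝ) (N : (Fin n → ℝ) → ℝ)
    (φ : Fin n → (Fin n → ℝ) → ℝ) : ℝ := EY μ r fun y => N y * ∑ i, ∑ j, pd (φ i) j y ^ 2

/-- `E_q ⟨φ, D²V_r ψ⟩` -/
noncomputable def BI (μ : Measure (Fin n → ℝ)) (r : ℝ) (N : (Fin n → ℝ) → ℝ)
    (φ ψ : Fin n → (Fin n → ℝ) → ℝ) : ℝ :=
  EY μ r fun y => N y * ∑ i, ∑ j, PV μ r i j y * φ i y * ψ j y

/-- defective log-Sobolev inequality `H ≤ κ F + D` at level `r` -/
def DBL (μ : Measure (Fin n → ℝ)) (r κ D : ℝ) : Prop :=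
  ∀ N : (Fin n → ℝ) → ℝ, Pos N → EY μ r N = 1 → HE μ r N ≤ κ * FI μ r N + D

/-- channels with output space `(ℝⁿ, gsn n)`: likelihood `l w y` -/
structure Ch (l : (Fin n → ℝ) → (Fin n → ℝ) → ℝ) : Prop where
  meas : Measurable (Function.uncurry l)
  bd : ∃ K, 0 ≤ K ∧ ∀ w y, exp (-(K * (1 + ∑ i, |w i|))) ≤ l w y ∧
    l w y ≤ exp (K * (1 + ∑ i, |w i|))
  one : ∀ y, ∫ w, l w y ∂(gsn n) = 1

/-- mass of the output `w` when `Y ∼ N p_r` -/
noncomputable def ms (μ : Measure (Fin n → ℝ)) (r : ℝ) (N : (Fin n → ℝ) → ℝ)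
    (l : (Fin n → ℝ) → (Fin n → ℝ) → ℝ) (w : Fin n → ℝ) : ℝ := EY μ r fun y => N y * l w y

/-- mutual information -/
noncomputable def Inf (μ : Measure (Fin n → ℝ)) (r : ℝ) (N : (Fin n → ℝ) → ℝ)
    (l : (Fin n → ℝ) → (Fin n → ℝ) → ℝ) : ℝ :=
  ∫ w, ((EY μ r fun y => N y * (l w y * log (l w y))) - ms μ r N l w * log (ms μ r N l w))
    ∂(gsn n)

/-- second moment of the posterior mean of `φ(Y)` -/
noncomputable def Co (μ : Measure (Fin n → ℝ)) (r : ℝ) (N : (Fin n → ℝ) → ℝ)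
    (φ : Fin n → (Fin n → ℝ) → ℝ) (l : (Fin n → ℝ) → (Fin n → ℝ) → ℝ) : ℝ :=
  ∫ w, (∑ i, (EY μ r fun y => N y * φ i y * l w y) ^ 2) / ms μ r N l w ∂(gsn n)

/-- all channels with information `≤ x` predict `φ` with second moment `≤ X` -/
def Pred (μ : Measure (Fin n → ℝ)) (r : ℝ) (N : (Fin n → ℝ) → ℝ)
    (φ : Fin n → (Fin n → ℝ) → ℝ) (x X : ℝ) : Prop :=
  ∀ l, Ch l → Inf μ r N l ≤ x → Co μ r N φ l ≤ X

/-- the channel `W = √t φ(Y) + G` -/
noncomputable def RL (t : ℝ) (φ : Fin n → (Fin n → ℝ) → ℝ) (w y : Fin n → ℝ) : ℝ :=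
  exp (√t * ∑ i, w i * φ i y - t / 2 * ∑ i, φ i y ^ 2)

/-- `E_q[score at level s | Y_r]` for `q = N p_s` -/
noncomputable def us (μ : Measure (Fin n → ℝ)) (s r : ℝ) (N : (Fin n → ℝ) → ℝ) (i : Fin n)
    (y : Fin n → ℝ) : ℝ := UL μ s r (pd N i) y / UL μ s r N y

/-- the mismatch `m = u - g` -/
noncomputable def mm (μ : Measure (Fin n → ℝ)) (s r : ℝ) (N : (Fin n → ℝ) → ℝ) (i : Fin n)
    (y : Fin n → ℝ) : ℝ := us μ s r N i y - sN (UL μ s r N) i y

/-- difference of posterior means of the level-0 variable -/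
noncomputable def dx (μ : Measure (Fin n → ℝ)) (s r : ℝ) (N : (Fin n → ℝ) → ℝ) (i : Fin n)
    (y : Fin n → ℝ) : ℝ :=
  UL μ s r (fun y' => N y' * XB μ s i y') y / UL μ s r N y - XB μ r i y

/-- `H ≤ κ F + D` at all levels of the window `[r, r + δ]` -/
def DBS (μ : Measure (Fin n → ℝ)) (r δ κ D : ℝ) : Prop := ∀ ρ ∈ Icc r (r + δ), DBL μ ρ κ D

end Vale.Agent.P245.E1
end
end

section

section

open MeasureTheory Real Set Filter Topology
open scoped ENNReal ContDiff

/-! Exact statements of the modules of E1 (paper proof: note 5727).  Module X proves `StX n` for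
all `n`. -/

namespace Vale.Agent.P245.E1

open LS

/-- K: the kernel `UL` on bounded measurable functions -/
def StK (n : ℕ) : Prop :=
  ∀ (μ : Measure (Fin n → ℝ)) [IsProbabilityMeasure μ] (R : ℝ), CSupp μ R →
    (∀ s r : ℝ, 0 < s → s ≤ r →
      (∀ h : (Fin n → ℝ) → ℝ, BM h → BM (UL μ s r h) ∧ BM (PH (r - s) h)) ∧
      (∀ h g : (Fin n → ℝ) → ℝ, BM h → BM g →
        UL μ s r (fun y => h y + g y) = fun y => UL μ s r h y + UL μ s r g y) ∧
      (∀ (c : ℝ) (h : (Fin n → ℝ) → ℝ), BM h →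
        UL μ s r (fun y => c * h y) = fun y => c * UL μ s r h y) ∧
      (∀ c : ℝ, UL μ s r (fun _ => c) = fun _ => c) ∧
      (∀ h g : (Fin n → ℝ) → ℝ, BM h → BM g → (∀ y, h y ≤ g y) →
        ∀ y, UL μ s r h y ≤ UL μ s r g y) ∧
      (∀ h Φ : (Fin n → ℝ) → ℝ, BM h → BM Φ →
        EY μ r (fun y => UL μ s r h y * Φ y) = EY μ s (fun y => h y * PH (r - s) Φ y))) ∧
    (∀ (r : ℝ) (h : (Fin n → ℝ) → ℝ), 0 < r → UL μ r r h = h) ∧
    (∀ (a s r : ℝ) (h : (Fin n → ℝ) → ℝ), 0 < a → a ≤ s → s ≤ r → BM h →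
      UL μ s r (UL μ a s h) = UL μ a r h)

/-- R: regularity of `UL`, `XB`, and the score identity -/
def StR (n : ℕ) : Prop :=
  ∀ (μ : Measure (Fin n → ℝ)) [IsProbabilityMeasure μ] (R : ℝ), CSupp μ R →
    (∀ (r : ℝ) (i : Fin n), 0 < r → SB (XB μ r i)) ∧
    (∀ (r : ℝ) (i j : Fin n), 0 < r → SB (PV μ r i j) ∧ PV μ r i j = PV μ r j i) ∧
    ∀ s r : ℝ, 0 < s → s ≤ r →
      (∀ h : (Fin n → ℝ) → ℝ, SB h → SB (UL μ s r h)) ∧
      (∀ N : (Fin n → ℝ) → ℝ, Pos N → Pos (UL μ s r N) ∧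
        (∀ i, SB (sN N i) ∧ SB (us μ s r N i) ∧ SB (mm μ s r N i) ∧ SB (dx μ s r N i)) ∧
        ∀ i y, (r - s) * sN (UL μ s r N) i y = dx μ s r N i y + s * mm μ s r N i y)

/-- Co: elementary facts on the quadratic functionals and on channels -/
def StCo (n : ℕ) : Prop :=
  ∀ (μ : Measure (Fin n → ℝ)) [IsProbabilityMeasure μ] (r : ℝ) (N : (Fin n → ℝ) → ℝ), Pos N →
    (FI μ r N = IP μ r N (sN N) (sN N) ∧ GA μ r N = DE μ r N (sN N)) ∧
    (∀ φ ψ : Fin n → (Fin n → ℝ) → ℝ, (∀ i, SB (φ i)) → (∀ i, SB (ψ i)) →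
      0 ≤ IP μ r N φ φ ∧ 0 ≤ DE μ r N φ ∧ IP μ r N φ ψ = IP μ r N ψ φ ∧
      IP μ r N φ ψ ^ 2 ≤ IP μ r N φ φ * IP μ r N ψ ψ ∧
      ∀ a b : ℝ, IP μ r N (fun i y => a * φ i y + b * ψ i y) (fun i y => a * φ i y + b * ψ i y)
        = a ^ 2 * IP μ r N φ φ + 2 * a * b * IP μ r N φ ψ + b ^ 2 * IP μ r N ψ ψ) ∧
    (EY μ r N = 1 → ∀ l, Ch l → 0 ≤ Inf μ r N l ∧
      ∀ φ : Fin n → (Fin n → ℝ) → ℝ, (∀ i, SB (φ i)) →
        0 ≤ Co μ r N φ l ∧ Co μ r N φ l ≤ IP μ r N φ φ ∧
        ∀ ψ : Fin n → (Fin n → ℝ) → ℝ, (∀ i, SB (ψ i)) → ∀ a b : ℝ,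
          Co μ r N (fun i y => a * φ i y + b * ψ i y) l
            ≤ 2 * a ^ 2 * Co μ r N φ l + 2 * b ^ 2 * Co μ r N ψ l)

/-- T: transport of predictability along the flows -/
def StT (n : ℕ) : Prop :=
  ∀ (μ : Measure (Fin n → ℝ)) [IsProbabilityMeasure μ] (R : ℝ), CSupp μ R →
    ∀ (N : (Fin n → ℝ) → ℝ) (s r x X : ℝ), Pos N → 0 < s → s ≤ r →
      (EY μ r N = 1 → Pred μ r N (sN N) x X → Pred μ s (PH (r - s) N) (sN (PH (r - s) N)) x X) ∧
      (EY μ s N = 1 → Pred μ s N (sN N) x X → Pred μ r (UL μ s r N) (us μ s r N) x X) ∧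
      (EY μ s N = 1 → ∀ φ : Fin n → (Fin n → ℝ) → ℝ, (∀ i, SB (φ i)) →
        Pred μ r (UL μ s r N) φ x X → Pred μ s N (fun i => PH (r - s) (φ i)) x X) ∧
      (EY μ r N = 1 → ∀ φ : Fin n → (Fin n → ℝ) → ℝ, (∀ i, SB (φ i)) →
        Pred μ s (PH (r - s) N) φ x X → Pred μ r N (fun i => UL μ s r (φ i)) x X)

/-- Rv: the reveal channel for a general vector field -/
def StRv (n : ℕ) : Prop :=
  ∀ (μ : Measure (Fin n → ℝ)) [IsProbabilityMeasure μ] (r t κ D : ℝ) (N : (Fin n → ℝ) → ℝ)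
    (φ : Fin n → (Fin n → ℝ) → ℝ), 0 ≤ r → 0 < t → Pos N → EY μ r N = 1 → (∀ i, SB (φ i)) →
    Ch (RL t φ) ∧ Inf μ r N (RL t φ) ≤ t / 2 * IP μ r N φ φ ∧
    t / 2 * (IP μ r N φ φ - Co μ r N φ (RL t φ)) ≤ Inf μ r N (RL t φ) ∧
    (DBL μ r κ D →
      HE μ r N + Inf μ r N (RL t φ) - κ * (FI μ r N + t * DE μ r N φ) ≤ D)

/-- G0: Gibbs bound for an arbitrary channel -/
def StG0 (n : ℕ) : Prop :=
  ∀ (μ : Measure (Fin n → ℝ)) [IsProbabilityMeasure μ] (R A : ℝ), CSupp μ R → 1 ≤ A →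
    ExpM μ A → ∀ (s r : ℝ) (N : (Fin n → ℝ) → ℝ), 0 < s → s ≤ r → Pos N → EY μ s N = 1 →
      ∀ l, Ch l → Co μ r (UL μ s r N) (dx μ s r N) l
        ≤ 8 * (HE μ s N + Inf μ r (UL μ s r N) l + log A)

/-- U: calculus on the path up from the positive level `s` (`U_ρ = UL μ s ρ N`) -/
def StU (n : ℕ) : Prop :=
  ∀ (μ : Measure (Fin n → ℝ)) [IsProbabilityMeasure μ] (R : ℝ), CSupp μ R →
    ∀ (N : (Fin n → ℝ) → ℝ) (s T : ℝ), Pos N → 0 < s → s ≤ T →
      ContinuousOn (fun ρ => HE μ ρ (UL μ s ρ N)) (Icc s T) ∧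
      ContinuousOn (fun ρ => FI μ ρ (UL μ s ρ N)) (Icc s T) ∧
      (∀ ρ ∈ Ioo s T, HasDerivAt (fun ρ => HE μ ρ (UL μ s ρ N))
        (-(1 / 2) * FI μ ρ (UL μ s ρ N)) ρ) ∧
      (∀ ρ ∈ Ioo s T, HasDerivAt (fun ρ => FI μ ρ (UL μ s ρ N))
        (-(GA μ ρ (UL μ s ρ N)
          + 2 * BI μ ρ (UL μ s ρ N) (sN (UL μ s ρ N)) (sN (UL μ s ρ N)))) ρ) ∧
      ∀ φ : Fin n → (Fin n → ℝ) → ℝ, (∀ i, SB (φ i)) →
        ContinuousOn (fun ρ => IP μ ρ (UL μ s ρ N) (fun i => PH (T - ρ) (φ i))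
          (fun i => PH (T - ρ) (φ i))) (Icc s T) ∧
        ContinuousOn (fun ρ => IP μ ρ (UL μ s ρ N) (fun i => PH (T - ρ) (φ i))
          (sN (UL μ s ρ N))) (Icc s T) ∧
        (∀ ρ ∈ Ioo s T, HasDerivAt (fun ρ => IP μ ρ (UL μ s ρ N) (fun i => PH (T - ρ) (φ i))
          (fun i => PH (T - ρ) (φ i)))
          (DE μ ρ (UL μ s ρ N) (fun i => PH (T - ρ) (φ i))) ρ) ∧
        (∀ ρ ∈ Ioo s T, HasDerivAt (fun ρ => IP μ ρ (UL μ s ρ N) (fun i => PH (T - ρ) (φ i))
          (sN (UL μ s ρ N)))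
          (-(BI μ ρ (UL μ s ρ N) (fun i => PH (T - ρ) (φ i)) (sN (UL μ s ρ N)))) ρ)

/-- Dn: calculus on the path down from the level `T` (`V_ρ = PH (T - ρ) N`) -/
def StDn (n : ℕ) : Prop :=
  ∀ (μ : Measure (Fin n → ℝ)) [IsProbabilityMeasure μ] (R : ℝ), CSupp μ R →
    ∀ (N : (Fin n → ℝ) → ℝ) (s T : ℝ), Pos N → 0 < s → s ≤ T →
      ContinuousOn (fun ρ => HE μ ρ (PH (T - ρ) N)) (Icc s T) ∧
      ContinuousOn (fun ρ => FI μ ρ (PH (T - ρ) N)) (Icc s T) ∧
      (∀ ρ ∈ Ioo s T, HasDerivAt (fun ρ => HE μ ρ (PH (T - ρ) N))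
        (1 / 2 * FI μ ρ (PH (T - ρ) N)) ρ) ∧
      (∀ ρ ∈ Ioo s T, HasDerivAt (fun ρ => FI μ ρ (PH (T - ρ) N)) (GA μ ρ (PH (T - ρ) N)) ρ) ∧
      ∀ φ : Fin n → (Fin n → ℝ) → ℝ, (∀ i, SB (φ i)) →
        ContinuousOn (fun ρ => IP μ ρ (PH (T - ρ) N) (fun i => UL μ s ρ (φ i))
          (fun i => UL μ s ρ (φ i))) (Icc s T) ∧
        (∀ ρ ∈ Ioo s T, HasDerivAt (fun ρ => IP μ ρ (PH (T - ρ) N) (fun i => UL μ s ρ (φ i))
          (fun i => UL μ s ρ (φ i)))
          (-(DE μ ρ (PH (T - ρ) N) (fun i => UL μ s ρ (φ i)))) ρ) ∧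
        (∀ ρ ∈ Icc s T, IP μ ρ (PH (T - ρ) N) (fun i => UL μ s ρ (φ i)) (sN (PH (T - ρ) N))
          = IP μ s (PH (T - s) N) φ (sN (PH (T - s) N)))

/-- Pr: pairing of a field at level `r` with the averaged score -/
def StPr (n : ℕ) : Prop :=
  ∀ (μ : Measure (Fin n → ℝ)) [IsProbabilityMeasure μ] (R : ℝ), CSupp μ R →
    ∀ (N : (Fin n → ℝ) → ℝ) (s r : ℝ), Pos N → 0 < s → s ≤ r →
      EY μ r (UL μ s r N) = EY μ s N ∧ EY μ s (PH (r - s) N) = EY μ r N ∧
      ∀ φ : Fin n → (Fin n → ℝ) → ℝ, (∀ i, SB (φ i)) →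
        IP μ r (UL μ s r N) φ (us μ s r N) = IP μ s N (fun i => PH (r - s) (φ i)) (sN N)

/-- P: log-concavity: `0 ≤ D²V_r ≤ 1/r` -/
def StP (n : ℕ) : Prop :=
  ∀ (ρ0 : (Fin n → ℝ) → ℝ) (R : ℝ), LCd ρ0 → IsProbabilityMeasure (mu ρ0) →
    CSupp (mu ρ0) R → ∀ (r : ℝ) (N : (Fin n → ℝ) → ℝ) (φ ψ : Fin n → (Fin n → ℝ) → ℝ),
      0 < r → Pos N → (∀ i, SB (φ i)) → (∀ i, SB (ψ i)) →
      0 ≤ BI (mu ρ0) r N φ φ ∧ BI (mu ρ0) r N φ ψ = BI (mu ρ0) r N ψ φ ∧
      BI (mu ρ0) r N φ ψ ^ 2 ≤ 1 / r * IP (mu ρ0) r N φ φ * BI (mu ρ0) r N ψ ψ ∧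
      ∀ (θ : Fin n → (Fin n → ℝ) → ℝ) (a b : ℝ), (∀ i, SB (θ i)) →
        BI (mu ρ0) r N (fun i y => a * φ i y + b * ψ i y) θ
          = a * BI (mu ρ0) r N φ θ + b * BI (mu ρ0) r N ψ θ

/-- Lv: change of level -/
def StLv (n : ℕ) : Prop :=
  ∀ (ρ0 : (Fin n → ℝ) → ℝ) (R : ℝ), LCd ρ0 → IsProbabilityMeasure (mu ρ0) →
    CSupp (mu ρ0) R → ∀ r κ D : ℝ, 0 < r → 0 ≤ κ →
      (DB (mu ρ0) κ D → DBL (mu ρ0) r (κ + r / 2) D) ∧
      (DBL (mu ρ0) r κ D → DB (mu ρ0) (κ + r / 2) D)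

/-- Boot: the bootstrap for the coherence of the score of a near-maximiser -/
def StBoot (n : ℕ) : Prop :=
  ∀ (ρ0 : (Fin n → ℝ) → ℝ) (R A : ℝ), LCd ρ0 → IsProbabilityMeasure (mu ρ0) →
    CSupp (mu ρ0) R → 1 ≤ A → ExpM (mu ρ0) A →
    ∀ (N : (Fin n → ℝ) → ℝ) (δ κ σ α x X D : ℝ), 0 < δ → 2000 * δ ≤ κ →
      DBS (mu ρ0) (2 * δ) δ κ D → σ ∈ Icc (2 * δ) (3 * δ) → Pos N → EY (mu ρ0) σ N = 1 →
      0 ≤ α → 10 ^ 4 * α ≤ κ * FI (mu ρ0) σ N →
      D - α ≤ HE (mu ρ0) σ N - κ * FI (mu ρ0) σ N →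
      2 * δ * FI (mu ρ0) σ N ≤ x → 0 ≤ X → X ≤ FI (mu ρ0) σ N →
      Pred (mu ρ0) σ N (sN N) x X →
      Pred (mu ρ0) σ N (sN N) x
        (400 / δ ^ 2 * (HE (mu ρ0) σ N + x + log A) + 2000 * α / κ + X / 2)

/-- Path: a good law near a near-maximiser -/
def StPath (n : ℕ) : Prop :=
  ∀ (ρ0 : (Fin n → ℝ) → ℝ) (R : ℝ), LCd ρ0 → IsProbabilityMeasure (mu ρ0) →
    CSupp (mu ρ0) R →
    ∀ (N : (Fin n → ℝ) → ℝ) (δ κ σ α x X D : ℝ), 0 < δ → 2000 * δ ≤ κ →
      DBS (mu ρ0) (2 * δ) δ κ D → σ ∈ Icc (2 * δ) (3 * δ) → Pos N → EY (mu ρ0) σ N = 1 →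
      0 ≤ α → 10 ^ 4 * α ≤ κ * FI (mu ρ0) σ N →
      D - α ≤ HE (mu ρ0) σ N - κ * FI (mu ρ0) σ N →
      2 * δ * FI (mu ρ0) σ N ≤ x → 0 ≤ X → X ≤ FI (mu ρ0) σ N →
      Pred (mu ρ0) σ N (sN N) x X →
      ∃ (ρ : ℝ) (M : (Fin n → ℝ) → ℝ), ρ ∈ Icc (2 * δ) (3 * δ) ∧ Pos M ∧ EY (mu ρ0) ρ M = 1 ∧
        D - (10 * α + 8 * δ * X) ≤ HE (mu ρ0) ρ M - κ * FI (mu ρ0) ρ M ∧
        9 / 10 * FI (mu ρ0) σ N ≤ FI (mu ρ0) ρ M ∧ FI (mu ρ0) ρ M ≤ FI (mu ρ0) σ N ∧
        κ * GA (mu ρ0) ρ M ≤ 1 / 2 * FI (mu ρ0) ρ M + (10 * α + 8 * δ * X) / δ ∧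
        Pred (mu ρ0) ρ M (sN M) x (2 * X + 2 * (10 * α + 8 * δ * X) / κ)

/-- Amp: amplification by revealing the score of a good law -/
def StAmp (n : ℕ) : Prop :=
  ∀ (μ : Measure (Fin n → ℝ)) [IsProbabilityMeasure μ] (M : (Fin n → ℝ) → ℝ)
    (ρ κ C2 β γ x X D D' : ℝ), 0 ≤ ρ → 0 < C2 → C2 ≤ κ → Pos M → EY μ ρ M = 1 →
      0 ≤ β → 0 ≤ γ → D - β ≤ HE μ ρ M - κ * FI μ ρ M →
      κ * GA μ ρ M ≤ 1 / 2 * FI μ ρ M + γ → κ * FI μ ρ M ≤ x → Pred μ ρ M (sN M) x X →
      DBL μ ρ (κ - C2) D' →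
      D + 2 * C2 * FI μ ρ M - κ * X - β - 2 * κ * γ ≤ D'

/-- Step: one step of the iteration (`∀ Λ ≥ 1, ∃ C2 K0 η`) -/
def StStep (Λ C2 K0 η : ℝ) (n : ℕ) : Prop :=
  ∀ (ρ0 : (Fin n → ℝ) → ℝ) (R : ℝ), LCd ρ0 → IsProbabilityMeasure (mu ρ0) →
    CSupp (mu ρ0) R → ExpM (mu ρ0) 3 →
    ∀ (N : (Fin n → ℝ) → ℝ) (δ κ σ α D D' : ℝ), K0 ≤ κ → κ / 4000 ≤ δ → 2000 * δ ≤ κ →
      DBS (mu ρ0) (2 * δ) δ κ D → DBS (mu ρ0) (2 * δ) δ (κ - C2) D' →
      σ ∈ Icc (2 * δ) (3 * δ) → Pos N → EY (mu ρ0) σ N = 1 →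
      0 ≤ α → α ≤ η * FI (mu ρ0) σ N →
      D - α ≤ HE (mu ρ0) σ N - κ * FI (mu ρ0) σ N →
      HE (mu ρ0) σ N ≤ Λ * κ * FI (mu ρ0) σ N → log 3 ≤ Λ * κ * FI (mu ρ0) σ N →
      D + 3 / 2 * C2 * FI (mu ρ0) σ N ≤ D'

/-- the final inequality for compactly supported log-concave measures -/
def StG (n : ℕ) (C : ℝ) : Prop :=
  ∀ (ρ : (Fin n → ℝ) → ℝ) (R : ℝ), 1 ≤ n → LCd ρ → IsProbabilityMeasure (mu ρ) →
    CSupp (mu ρ) R → ExpM (mu ρ) 3 → DL (mu ρ) (C * (1 + log n)) 0

end Vale.Agent.P245.E1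
end
end

section

section

open MeasureTheory Real Set Filter Topology
open scoped ENNReal ContDiff

/-! Exact statements of the modules (interfaces).  Module X proves `StX` (for all `n`). -/

namespace Vale.Agent.P245.LS

/-- A2: the lift `UP` -/
def StA2 (n : ℕ) : Prop :=
  ∀ (μ : Measure (Fin n → ℝ)) [IsProbabilityMeasure μ] (R : ℝ), CSupp μ R →
    ∀ (f : (Fin n → ℝ) → ℝ) (s : ℝ), P2 f → 0 < s →
      Pos (UP μ s f) ∧ EY μ s (UP μ s f) = EY μ 0 f

/-- B: the path down (pure Gaussian calculus, `μ` an arbitrary probability measure) -/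
def StB (n : ℕ) : Prop :=
  ∀ (μ : Measure (Fin n → ℝ)) [IsProbabilityMeasure μ] (N : (Fin n → ℝ) → ℝ) (s : ℝ),
    Pos N → 0 < s →
    (∀ σ, 0 ≤ σ → σ ≤ s →
      FI μ 0 (PH s N) ≤ FI μ σ (PH (s - σ) N) ∧ FI μ σ (PH (s - σ) N) ≤ FI μ s N ∧
      HE μ 0 (PH s N) + σ / 2 * FI μ 0 (PH s N) ≤ HE μ σ (PH (s - σ) N)) ∧
    HE μ s N - s / 2 * FI μ s N ≤ HE μ 0 (PH s N) ∧
    (∀ b, (∀ σ, 0 < σ → σ < s → b ≤ GA μ σ (PH (s - σ) N)) →
      b * s ≤ FI μ s N - FI μ 0 (PH s N))

/-- C: the path up (`μ` log-concave, compactly supported) -/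
def StC (n : ℕ) : Prop :=
  ∀ (ρ : (Fin n → ℝ) → ℝ) (R : ℝ), LCd ρ → IsProbabilityMeasure (mu ρ) → CSupp (mu ρ) R →
    ∀ f : (Fin n → ℝ) → ℝ, P2 f → EY (mu ρ) 0 f = 1 →
    (∀ s, 0 < s → HE (mu ρ) 0 f - s / 2 * FI (mu ρ) 0 f ≤ HE (mu ρ) s (UP (mu ρ) s f)) ∧
    (∀ s, 0 < s → HE (mu ρ) s (UP (mu ρ) s f) ≤ HE (mu ρ) 0 f) ∧
    (∀ s, 0 < s → FI (mu ρ) s (UP (mu ρ) s f) ≤ FI (mu ρ) 0 f) ∧
    (∀ a b c, 0 < a → a < b → (∀ σ, a < σ → σ < b → c ≤ GA (mu ρ) σ (UP (mu ρ) σ f)) →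
      c * (b - a) ≤ FI (mu ρ) a (UP (mu ρ) a f) - FI (mu ρ) b (UP (mu ρ) b f))

/-- F: one step of the iteration -/
def StF (n : ℕ) : Prop :=
  ∀ (ρ : (Fin n → ℝ) → ℝ) (R : ℝ), LCd ρ → IsProbabilityMeasure (mu ρ) → CSupp (mu ρ) R →
    ExpM (mu ρ) 3 → ∀ (f : (Fin n → ℝ) → ℝ) (ε Λ κ δ D D' : ℝ), P2 f → EY (mu ρ) 0 f = 1 →
      0 < ε → ε ≤ 1 / 12 → 0 < Λ → 0 ≤ δ → 12 * Λ / ε ^ 5 ≤ κ →
      DB (mu ρ) κ D → D - δ ≤ HE (mu ρ) 0 f - κ * FI (mu ρ) 0 f →
      δ < ε ^ 2 * κ * FI (mu ρ) 0 f / 4 →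
      HE (mu ρ) 0 f ≤ Λ * κ * FI (mu ρ) 0 f → log 3 ≤ Λ * κ * FI (mu ρ) 0 f →
      DB (mu ρ) ((1 - 6 * ε) * κ) D' →
      D + 2 * ε * Λ * κ * FI (mu ρ) 0 f ≤ D'

/-- H1: top level -/
def StH1 (n : ℕ) : Prop :=
  ∀ (ρ : (Fin n → ℝ) → ℝ) (R : ℝ), 1 ≤ n → LCd ρ → IsProbabilityMeasure (mu ρ) →
    CSupp (mu ρ) R → ExpM (mu ρ) 3 → DB (mu ρ) 4 (6 * n)

/-- H2: `DB` gives the defective log-Sobolev inequality and conversely -/
def StH2 (n : ℕ) : Prop :=
  ∀ (μ : Measure (Fin n → ℝ)) [IsProbabilityMeasure μ] (R κ D : ℝ), CSupp μ R → 0 ≤ κ → 0 ≤ D →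
    (DB μ κ D → DL μ (4 * κ) D) ∧ (DL μ (4 * κ) D → DB μ κ D)

/-- H3: finite constant, qualitatively -/
def StH3 (n : ℕ) : Prop :=
  ∀ (ρ : (Fin n → ℝ) → ℝ) (R : ℝ), 1 ≤ n → LCd ρ → IsProbabilityMeasure (mu ρ) →
    CSupp (mu ρ) R → ExpM (mu ρ) 3 → ∃ κ, 0 < κ ∧ DB (mu ρ) κ 0

/-- H4 (helper145): small defect gives the tight inequality with a comparable constant -/
def StH4 (n : ℕ) (C : ℝ) : Prop :=
  ∀ (μ : Measure (Fin n → ℝ)) [IsProbabilityMeasure μ] (κ : ℝ), 0 ≤ κ →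
    DL μ (4 * κ) (log 2 / 2) → DL μ (C * κ) 0

end Vale.Agent.P245.LS
end
end

section

section

/-! # Calculus of smooth functions with bounded derivatives, heat semigroup, lift (base file for modules A1, A2)

Public names: `SBk.*`, `SB.*`, `Pos.*`, `PH_*`, `UP_*`. -/

open MeasureTheory Real Set Filter Topology
open scoped ENNReal ContDiff

namespace Vale.Agent.P245.LS

variable {n : ℕ}

/-! ### basic facts on `SBk` -/

theorem SBk.pred : ∀ {k : ℕ} {N : (Fin n → ℝ) → ℝ}, SBk (k + 1) N → SBk k N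
  | 0, _, h => ⟨h.1.1.continuous, h.1.2⟩
  | _ + 1, _, h => ⟨h.1, fun i => (h.2 i).pred⟩

theorem SBk.bdd : ∀ {k : ℕ} {N : (Fin n → ℝ) → ℝ}, SBk k N → ∃ C, ∀ y, |N y| ≤ C
  | 0, _, h => h.2
  | _ + 1, _, h => h.1.2

theorem SBk.continuous : ∀ {k : ℕ} {N : (Fin n → ℝ) → ℝ}, SBk k N → Continuous N
  | 0, _, h => h.1
  | _ + 1, _, h => h.1.1.continuous

theorem SBk.const : ∀ (k : ℕ) (c : ℝ), SBk k (fun _ : Fin n → ℝ => c)
  | 0, c => ⟨continuous_const, |c|, fun _ => le_rfl⟩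
  | k + 1, c => ⟨⟨differentiable_const c, |c|, fun _ => le_rfl⟩, fun i => by
      have h : pd (fun _ : Fin n → ℝ => c) i = fun _ => 0 := by
        funext y
        unfold pd
        rw [fderiv_const_apply]
        rfl
      rw [h]
      exact SBk.const k 0⟩

theorem pd_add {N M : (Fin n → ℝ) → ℝ} (hN : Differentiable ℝ N) (hM : Differentiable ℝ M)
    (i : Fin n) : pd (fun y => N y + M y) i = fun y => pd N i y + pd M i y := by
  funext y
  unfold pd
  rw [fderiv_fun_add (hN y) (hM y)]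
  rfl

theorem pd_mul {N M : (Fin n → ℝ) → ℝ} (hN : Differentiable ℝ N) (hM : Differentiable ℝ M)
    (i : Fin n) : pd (fun y => N y * M y) i = fun y => N y * pd M i y + pd N i y * M y := by
  funext y
  unfold pd
  rw [fderiv_fun_mul (hN y) (hM y)]
  simp only [_root_.add_apply, _root_.smul_apply, smul_eq_mul]
  ring

theorem pd_comp {φ φ' : ℝ → ℝ} {N : (Fin n → ℝ) → ℝ} (hN : Differentiable ℝ N)
    (hφ : ∀ y, HasDerivAt φ (φ' (N y)) (N y)) (i : Fin n) :
    pd (fun y => φ (N y)) i = fun y => φ' (N y) * pd N i y := by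
  funext y
  have h := ((hφ y).comp_hasFDerivAt y (hN y).hasFDerivAt).fderiv
  unfold pd
  change fderiv ℝ (φ ∘ N) y _ = _
  rw [h]
  rfl

theorem SBk.add : ∀ {k : ℕ} {N M : (Fin n → ℝ) → ℝ}, SBk k N → SBk k M →
    SBk k (fun y => N y + M y)
  | 0, _, _, hN, hM => by
    obtain ⟨C, hC⟩ := hN.2
    obtain ⟨D, hD⟩ := hM.2
    exact ⟨hN.1.add hM.1, C + D, fun y => (abs_add_le _ _).trans (add_le_add (hC y) (hD y))⟩
  | k + 1, N, M, hN, hM => by
    obtain ⟨C, hC⟩ := hN.1.2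
    obtain ⟨D, hD⟩ := hM.1.2
    refine ⟨⟨hN.1.1.add hM.1.1, C + D,
      fun y => (abs_add_le _ _).trans (add_le_add (hC y) (hD y))⟩, fun i => ?_⟩
    rw [pd_add hN.1.1 hM.1.1]
    exact (hN.2 i).add (hM.2 i)

theorem abs_mul_le_of {a b C D : ℝ} (h1 : |a| ≤ C) (h2 : |b| ≤ D) : |a * b| ≤ C * D := by
  rw [abs_mul]
  exact mul_le_mul h1 h2 (abs_nonneg _) ((abs_nonneg _).trans h1)

theorem SBk.mul : ∀ {k : ℕ} {N M : (Fin n → ℝ) → ℝ}, SBk k N → SBk k M →
    SBk k (fun y => N y * M y)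
  | 0, _, _, hN, hM => by
    obtain ⟨C, hC⟩ := hN.2
    obtain ⟨D, hD⟩ := hM.2
    exact ⟨hN.1.mul hM.1, C * D, fun y => abs_mul_le_of (hC y) (hD y)⟩
  | k + 1, N, M, hN, hM => by
    obtain ⟨C, hC⟩ := hN.1.2
    obtain ⟨D, hD⟩ := hM.1.2
    refine ⟨⟨hN.1.1.mul hM.1.1, C * D, fun y => abs_mul_le_of (hC y) (hD y)⟩, fun i => ?_⟩
    rw [pd_mul hN.1.1 hM.1.1]
    exact (hN.pred.mul (hM.2 i)).add ((hN.2 i).mul hM.pred)

theorem SBk.const_mul {k : ℕ} {N : (Fin n → ℝ) → ℝ} (c : ℝ) (h : SBk k N) :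
    SBk k (fun y => c * N y) := (SBk.const k c).mul h

theorem SBk.sum {k : ℕ} {ι : Type*} (s : Finset ι) {N : ι → (Fin n → ℝ) → ℝ}
    (h : ∀ i ∈ s, SBk k (N i)) : SBk k (fun y => ∑ i ∈ s, N i y) := by
  classical
  induction s using Finset.induction_on with
  | empty => simpa using SBk.const k 0
  | insert i s hi ih =>
    simp only [Finset.sum_insert hi]
    exact (h i (Finset.mem_insert_self _ _)).add (ih fun j hj => h j (Finset.mem_insert_of_mem hj))

/-- composition with a function which is smooth near the (relatively compact) range of `N` -/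
theorem SBk.comp {U K : Set ℝ} (hU : IsOpen U) (hK : IsCompact K) (hKU : K ⊆ U) :
    ∀ {k : ℕ} {φ : ℝ → ℝ}, ContDiffOn ℝ ∞ φ U → ∀ {N : (Fin n → ℝ) → ℝ}, SBk k N →
      (∀ y, N y ∈ K) → SBk k (fun y => φ (N y))
  | 0, φ, hφ, N, hN, hNK => by
    obtain ⟨C, hC⟩ := hK.exists_bound_of_continuousOn (hφ.continuousOn.mono hKU)
    refine ⟨?_, C, fun y => hC _ (hNK y)⟩
    exact hφ.continuousOn.comp_continuous hN.1 fun y => hKU (hNK y)
  | k + 1, φ, hφ, N, hN, hNK => by
    obtain ⟨C, hC⟩ := hK.exists_bound_of_continuousOn (hφ.continuousOn.mono hKU)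
    have hd : ∀ x ∈ U, HasDerivAt φ (deriv φ x) x := fun x hx =>
      ((hφ.differentiableOn (by simp)).differentiableAt (hU.mem_nhds hx)).hasDerivAt
    have hd' : ∀ y, HasDerivAt φ (deriv φ (N y)) (N y) := fun y => hd _ (hKU (hNK y))
    have hφ' : ContDiffOn ℝ ∞ (deriv φ) U := ((contDiffOn_infty_iff_deriv_of_isOpen hU).1 hφ).2
    refine ⟨⟨fun y => ?_, C, fun y => hC _ (hNK y)⟩, fun i => ?_⟩
    · exact ((hd' y).comp_hasFDerivAt y (hN.1.1 y).hasFDerivAt).differentiableAt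
    · rw [pd_comp hN.1.1 hd']
      exact (SBk.comp hU hK hKU hφ' hN.pred hNK).mul (hN.2 i)

/-! ### `SB` -/

theorem SB.continuous {N : (Fin n → ℝ) → ℝ} (h : SB N) : Continuous N := (h 0).continuous

theorem SB.measurable {N : (Fin n → ℝ) → ℝ} (h : SB N) : Measurable N := h.continuous.measurable

theorem SB.differentiable {N : (Fin n → ℝ) → ℝ} (h : SB N) : Differentiable ℝ N := (h 1).1.1

theorem SB.bdd {N : (Fin n → ℝ) → ℝ} (h : SB N) : ∃ C, ∀ y, |N y| ≤ C := (h 0).bdd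

theorem SB.bdd' {N : (Fin n → ℝ) → ℝ} (h : SB N) : ∃ C, 0 ≤ C ∧ ∀ y, |N y| ≤ C := by
  obtain ⟨C, hC⟩ := h.bdd
  exact ⟨C, (abs_nonneg _).trans (hC 0), hC⟩

theorem SB.pd {N : (Fin n → ℝ) → ℝ} (h : SB N) (i : Fin n) : SB (pd N i) := fun k => (h (k + 1)).2 i

theorem SB.const (c : ℝ) : SB (fun _ : Fin n → ℝ => c) := fun k => SBk.const k c

theorem SB.add {N M : (Fin n → ℝ) → ℝ} (hN : SB N) (hM : SB M) : SB (fun y => N y + M y) :=
  fun k => (hN k).add (hM k)

theorem SB.mul {N M : (Fin n → ℝ) → ℝ} (hN : SB N) (hM : SB M) : SB (fun y => N y * M y) :=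
  fun k => (hN k).mul (hM k)

theorem SB.const_mul {N : (Fin n → ℝ) → ℝ} (c : ℝ) (hN : SB N) : SB (fun y => c * N y) :=
  fun k => (hN k).const_mul c

theorem SB.neg {N : (Fin n → ℝ) → ℝ} (hN : SB N) : SB (fun y => - N y) := by
  simpa only [neg_mul, one_mul] using hN.const_mul (-1)

theorem SB.sub {N M : (Fin n → ℝ) → ℝ} (hN : SB N) (hM : SB M) : SB (fun y => N y - M y) := by
  simpa only [sub_eq_add_neg] using hN.add hM.neg

theorem SB.sum {ι : Type*} (s : Finset ι) {N : ι → (Fin n → ℝ) → ℝ}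
    (h : ∀ i ∈ s, SB (N i)) : SB (fun y => ∑ i ∈ s, N i y) :=
  fun k => SBk.sum s fun i hi => h i hi k

theorem SB.pow {N : (Fin n → ℝ) → ℝ} (hN : SB N) : ∀ m : ℕ, SB (fun y => N y ^ m)
  | 0 => by simpa using SB.const (n := n) 1
  | m + 1 => by simpa only [pow_succ] using (hN.pow m).mul hN

theorem SB.comp {U K : Set ℝ} (hU : IsOpen U) (hK : IsCompact K) (hKU : K ⊆ U) {φ : ℝ → ℝ}
    (hφ : ContDiffOn ℝ ∞ φ U) {N : (Fin n → ℝ) → ℝ} (hN : SB N) (hNK : ∀ y, N y ∈ K) :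
    SB (fun y => φ (N y)) := fun k => (hN k).comp hU hK hKU hφ hNK

theorem SB.comp_smooth {φ : ℝ → ℝ} (hφ : ContDiff ℝ ∞ φ) {N : (Fin n → ℝ) → ℝ} (hN : SB N) :
    SB (fun y => φ (N y)) := by
  obtain ⟨C, hC⟩ := hN.bdd
  exact hN.comp isOpen_univ (isCompact_Icc (a := -C) (b := C)) (subset_univ _) hφ.contDiffOn
    fun y => abs_le.1 (hC y)

theorem SB.exp {N : (Fin n → ℝ) → ℝ} (hN : SB N) : SB (fun y => Real.exp (N y)) :=
  hN.comp_smooth Real.contDiff_exp

theorem SB.norm_fderiv_le {N : (Fin n → ℝ) → ℝ} (hN : SB N) :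
    ∃ C, 0 ≤ C ∧ ∀ y, ‖fderiv ℝ N y‖ ≤ C := by
  have h : ∀ i, ∃ C, 0 ≤ C ∧ ∀ y, |Vale.Agent.P245.pd N i y| ≤ C := fun i => (hN.pd i).bdd'
  choose C hC0 hC using h
  refine ⟨∑ i, C i, Finset.sum_nonneg fun i _ => hC0 i, fun y => ?_⟩
  refine ContinuousLinearMap.opNorm_le_bound _ (Finset.sum_nonneg fun i _ => hC0 i) fun v => ?_
  rw [fderiv_apply_eq_sum, Real.norm_eq_abs, Finset.sum_mul]
  refine (Finset.abs_sum_le_sum_abs _ _).trans (Finset.sum_le_sum fun i _ => ?_)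
  rw [abs_mul]
  exact mul_le_mul (hC i y) (norm_le_pi_norm v i) (abs_nonneg _) (hC0 i)

theorem SB.contDiff_nat : ∀ (m : ℕ) {N : (Fin n → ℝ) → ℝ}, SB N → ContDiff ℝ m N
  | 0, N, h => by exact_mod_cast contDiff_zero.2 h.continuous
  | m + 1, N, h => by
    rw [show ((m + 1 : ℕ) : WithTop ℕ∞) = (m : WithTop ℕ∞) + 1 by push_cast; rfl]
    rw [contDiff_succ_iff_fderiv]
    refine ⟨h.differentiable, by simp only [WithTop.natCast_ne_top, IsEmpty.forall_iff], ?_⟩
    have e : fderiv ℝ N = fun y => ∑ i, Vale.Agent.P245.pd N i y •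
        (ContinuousLinearMap.proj (R := ℝ) i : (Fin n → ℝ) →L[ℝ] ℝ) := by
      funext y
      ext v
      rw [fderiv_apply_eq_sum]
      simp only [sum_apply, smul_apply, ContinuousLinearMap.proj_apply, smul_eq_mul]
    rw [e]
    exact ContDiff.sum fun i _ => (SB.contDiff_nat m (h.pd i)).smul contDiff_const

theorem SB.integrable {N : (Fin n → ℝ) → ℝ} (h : SB N) (μ : Measure (Fin n → ℝ))
    [IsFiniteMeasure μ] : Integrable N μ := by
  obtain ⟨C, hC⟩ := h.bdd
  exact integrable_of_bdd μ h.measurable hC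

/-! ### `Pos` -/

theorem Pos.pos {N : (Fin n → ℝ) → ℝ} (h : Pos N) (y : Fin n → ℝ) : 0 < N y := by
  obtain ⟨ε, hε, h1⟩ := h.lb
  exact hε.trans_le (h1 y)

/-- functions smooth on `(0, ∞)` can be composed with `N` -/
theorem Pos.comp {φ : ℝ → ℝ} (hφ : ContDiffOn ℝ ∞ φ (Ioi 0)) {N : (Fin n → ℝ) → ℝ} (hN : Pos N) :
    SB (fun y => φ (N y)) := by
  obtain ⟨C, hC⟩ := hN.sb.bdd
  obtain ⟨ε, hε, h1⟩ := hN.lb
  exact hN.sb.comp isOpen_Ioi (isCompact_Icc (a := ε) (b := C)) (fun x hx => hε.trans_le hx.1) hφ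
    fun y => ⟨h1 y, (le_abs_self _).trans (hC y)⟩

theorem Pos.inv {N : (Fin n → ℝ) → ℝ} (hN : Pos N) : Pos (fun y => (N y)⁻¹) := by
  refine ⟨hN.comp (contDiffOn_inv ℝ |>.mono fun _ hx => ne_of_gt hx), ?_⟩
  obtain ⟨C, hC⟩ := hN.sb.bdd
  have hC0 : 0 < C := (abs_pos.2 (hN.pos 0).ne').trans_le (hC 0)
  exact ⟨C⁻¹, inv_pos.2 hC0, fun y =>
    inv_anti₀ (hN.pos y) ((le_abs_self _).trans (hC y))⟩

theorem Pos.log {N : (Fin n → ℝ) → ℝ} (hN : Pos N) : SB (fun y => Real.log (N y)) :=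
  hN.comp (Real.contDiffOn_log.mono fun _ hx => ne_of_gt hx)

theorem Pos.div {N M : (Fin n → ℝ) → ℝ} (hN : Pos N) (hM : SB M) : SB (fun y => M y / N y) := by
  simpa only [div_eq_mul_inv] using hM.mul hN.inv.sb

theorem Pos.mul {N M : (Fin n → ℝ) → ℝ} (hN : Pos N) (hM : Pos M) : Pos (fun y => N y * M y) := by
  refine ⟨hN.sb.mul hM.sb, ?_⟩
  obtain ⟨ε, hε, h1⟩ := hN.lb
  obtain ⟨δ, hδ, h2⟩ := hM.lb
  exact ⟨ε * δ, mul_pos hε hδ, fun y => mul_le_mul (h1 y) (h2 y) hδ.le (hN.pos y).le⟩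

theorem Pos.const_mul {N : (Fin n → ℝ) → ℝ} {c : ℝ} (hc : 0 < c) (hN : Pos N) :
    Pos (fun y => c * N y) := by
  refine ⟨hN.sb.const_mul c, ?_⟩
  obtain ⟨ε, hε, h1⟩ := hN.lb
  exact ⟨c * ε, mul_pos hc hε, fun y => mul_le_mul_of_nonneg_left (h1 y) hc.le⟩

theorem SB.exp_pos {N : (Fin n → ℝ) → ℝ} (hN : SB N) : Pos (fun y => Real.exp (N y)) := by
  refine ⟨hN.exp, ?_⟩
  obtain ⟨C, hC⟩ := hN.bdd
  exact ⟨Real.exp (-C), Real.exp_pos _, fun y => Real.exp_le_exp.2 (abs_le.1 (hC y)).1⟩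

theorem Pos.pd_log {N : (Fin n → ℝ) → ℝ} (hN : Pos N) (i : Fin n) :
    pd (fun y => Real.log (N y)) i = fun y => pd N i y / N y := by
  rw [pd_comp (φ' := fun x => x⁻¹) hN.sb.differentiable
    (fun y => Real.hasDerivAt_log (hN.pos y).ne')]
  funext y
  rw [div_eq_mul_inv, mul_comm]

end Vale.Agent.P245.LS
end
end

section

section

/-! # Heat semigroup and lift (modules A1, A2)

Public names: `PH_*`, `pd_PH`, `EY_*`, `UP_*`. -/

open MeasureTheory Real Set Filter Topology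
open scoped ENNReal ContDiff

namespace Vale.Agent.P245.LS

variable {n : ℕ}

/-! ### heat semigroup: elementary facts -/

theorem PH_integrable {N : (Fin n → ℝ) → ℝ} (hN : Measurable N) {C : ℝ} (hC : ∀ y, |N y| ≤ C)
    (u : ℝ) (y : Fin n → ℝ) : Integrable (fun z => N (y + √u • z)) (gsn n) :=
  integrable_of_bdd _ (hN.comp (by (clear * -; fun_prop))) fun _ => hC _

theorem PH_zero (N : (Fin n → ℝ) → ℝ) : PH 0 N = N := by
  funext y
  unfold PH
  simp

theorem PH_const (u c : ℝ) : PH u (fun _ : Fin n → ℝ => c) = fun _ => c := by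
  funext y
  unfold PH
  simp

theorem PH_mono {N M : (Fin n → ℝ) → ℝ} (hN : Measurable N) {C : ℝ} (hC : ∀ y, |N y| ≤ C)
    (hM : Measurable M) {D : ℝ} (hD : ∀ y, |M y| ≤ D) (h : ∀ y, N y ≤ M y) (u : ℝ)
    (y : Fin n → ℝ) : PH u N y ≤ PH u M y :=
  integral_mono (PH_integrable hN hC u y) (PH_integrable hM hD u y) fun _ => h _

theorem PH_abs_le {N : (Fin n → ℝ) → ℝ} {C : ℝ} (hC : ∀ y, |N y| ≤ C) (u : ℝ) (y : Fin n → ℝ) :
    |PH u N y| ≤ C := by
  unfold PH
  rw [← Real.norm_eq_abs]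
  refine (norm_integral_le_of_norm_le_const (μ := gsn n) (C := C)
    (Eventually.of_forall fun z => ?_)).trans ?_
  · rw [Real.norm_eq_abs]; exact hC _
  · simp

theorem PH_ge {N : (Fin n → ℝ) → ℝ} (hN : Measurable N) {C : ℝ} (hC : ∀ y, |N y| ≤ C) {ε : ℝ}
    (hε : ∀ y, ε ≤ N y) (u : ℝ) (y : Fin n → ℝ) : ε ≤ PH u N y := by
  have h := PH_mono (N := fun _ => ε) measurable_const (C := |ε|) (fun _ => le_rfl) hN hC hε u y
  rwa [PH_const] at h

theorem PH_add {N M : (Fin n → ℝ) → ℝ} (hN : Measurable N) {C : ℝ} (hC : ∀ y, |N y| ≤ C)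
    (hM : Measurable M) {D : ℝ} (hD : ∀ y, |M y| ≤ D) (u : ℝ) :
    PH u (fun y => N y + M y) = fun y => PH u N y + PH u M y := by
  funext y
  exact integral_add (PH_integrable hN hC u y) (PH_integrable hM hD u y)

theorem PH_const_mul (c : ℝ) (N : (Fin n → ℝ) → ℝ) (u : ℝ) :
    PH u (fun y => c * N y) = fun y => c * PH u N y := by
  funext y
  exact integral_const_mul c _

theorem PH_finsum {ι : Type*} (s : Finset ι) {N : ι → (Fin n → ℝ) → ℝ} (h : ∀ i ∈ s, SB (N i))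
    (u : ℝ) : PH u (fun y => ∑ i ∈ s, N i y) = fun y => ∑ i ∈ s, PH u (N i) y := by
  funext y
  unfold PH
  refine integral_finsetSum s fun i hi => ?_
  obtain ⟨C, hC⟩ := (h i hi).bdd
  exact PH_integrable (h i hi).measurable hC u y

/-! ### derivatives -/

theorem hasFDerivAt_PH {N : (Fin n → ℝ) → ℝ} (hN : SB N) (u : ℝ) (y : Fin n → ℝ) :
    HasFDerivAt (PH u N) (∫ z, fderiv ℝ N (y + √u • z) ∂(gsn n)) y := by
  obtain ⟨C, hC⟩ := hN.bdd
  obtain ⟨K, hK0, hK⟩ := hN.norm_fderiv_le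
  have hc : Continuous (fderiv ℝ N) := (hN.contDiff_nat 1).continuous_fderiv (by norm_num)
  exact hasFDerivAt_integral_of_dominated_of_fderiv_le (𝕜 := ℝ) (μ := gsn n)
    (F := fun y z => N (y + √u • z)) (F' := fun y z => fderiv ℝ N (y + √u • z)) (x₀ := y)
    (s := Metric.ball y 1) (bound := fun _ => K) (Metric.ball_mem_nhds y one_pos)
    (Eventually.of_forall fun q => (PH_integrable hN.measurable hC u q).aestronglyMeasurable)
    (PH_integrable hN.measurable hC u y)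
    ((hc.comp (by fun_prop)).aestronglyMeasurable)
    (Eventually.of_forall fun z q _ => hK _)
    (integrable_const _)
    (Eventually.of_forall fun z q _ => by
      have h1 := (hN.differentiable (q + √u • z)).hasFDerivAt
      have h2 : HasFDerivAt (fun q : Fin n → ℝ => q + √u • z)
          (ContinuousLinearMap.id ℝ (Fin n → ℝ)) q := (hasFDerivAt_id q).add_const _
      exact h1.comp q h2)

theorem pd_PH {N : (Fin n → ℝ) → ℝ} (hN : SB N) (u : ℝ) (i : Fin n) :
    pd (PH u N) i = PH u (pd N i) := by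
  funext y
  obtain ⟨K, hK0, hK⟩ := hN.norm_fderiv_le
  have hc : Continuous (fderiv ℝ N) := (hN.contDiff_nat 1).continuous_fderiv (by norm_num)
  unfold pd
  rw [(hasFDerivAt_PH hN u y).fderiv]
  have hi : Integrable (fun z => fderiv ℝ N (y + √u • z)) (gsn n) :=
    Integrable.of_bound (hc.comp (by fun_prop)).aestronglyMeasurable K
      (Eventually.of_forall fun z => hK _)
  rw [ContinuousLinearMap.integral_apply hi]
  rfl

theorem PH_sbk (u : ℝ) : ∀ (k : ℕ) {N : (Fin n → ℝ) → ℝ}, SB N → SBk k (PH u N)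
  | 0, N, hN => by
    obtain ⟨C, hC⟩ := hN.bdd
    have hd : Differentiable ℝ (PH u N) := fun y => (hasFDerivAt_PH hN u y).differentiableAt
    exact ⟨hd.continuous, C, fun y => PH_abs_le hC u y⟩
  | k + 1, N, hN => by
    obtain ⟨C, hC⟩ := hN.bdd
    refine ⟨⟨fun y => (hasFDerivAt_PH hN u y).differentiableAt, C,
      fun y => PH_abs_le hC u y⟩, fun i => ?_⟩
    rw [pd_PH hN]
    exact PH_sbk u k (hN.pd i)

theorem PH_sb {N : (Fin n → ℝ) → ℝ} (hN : SB N) (u : ℝ) : SB (PH u N) := fun k => PH_sbk u k hN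

theorem PH_pos {N : (Fin n → ℝ) → ℝ} (hN : Pos N) (u : ℝ) : Pos (PH u N) := by
  refine ⟨PH_sb hN.sb u, ?_⟩
  obtain ⟨ε, hε, h1⟩ := hN.lb
  obtain ⟨C, hC⟩ := hN.sb.bdd
  exact ⟨ε, hε, fun y => PH_ge hN.sb.measurable hC h1 u y⟩

/-! ### semigroup law -/

theorem integral_gsn_one (a : ℝ) :
    ∫ x : ℝ, (((√(2 * π))⁻¹ * Real.exp (-x ^ 2 / 2) : ℝ) : ℂ) *
      Complex.exp ((a * x : ℝ) * Complex.I) = Complex.exp (-(a ^ 2 / 2 : ℝ)) := by
  have h := ProbabilityTheory.charFun_gaussianReal (μ := 0) (v := 1) a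
  rw [charFun_apply_real, ProbabilityTheory.integral_gaussianReal_eq_integral_smul
    (by norm_num)] at h
  have e : ∀ x : ℝ, (((√(2 * π))⁻¹ * Real.exp (-x ^ 2 / 2) : ℝ) : ℂ) *
      Complex.exp ((a * x : ℝ) * Complex.I) =
      ProbabilityTheory.gaussianPDFReal 0 1 x • Complex.exp (a * x * Complex.I) := by
    intro x
    rw [ProbabilityTheory.gaussianPDFReal, Complex.real_smul]
    simp only [Nat.ofNat_nonneg, sqrt_mul, mul_inv_rev, Complex.ofReal_mul, Complex.ofReal_inv, Complex.ofReal_exp, Complex.ofReal_div, Complex.ofReal_neg, Complex.ofReal_pow, Complex.ofReal_ofNat, NNReal.coe_one, mul_one, sub_zero]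
  simp_rw [e]
  rw [h]
  congr 1
  push_cast
  ring

theorem integral_gsn_cexp (a : Fin n → ℝ) :
    ∫ z, Complex.exp ((∑ i, a i * z i : ℝ) * Complex.I) ∂(gsn n) =
      Complex.exp (-((∑ i, a i ^ 2) / 2 : ℝ)) := by
  unfold gsn
  rw [integral_withDensity_eq_integral_toReal_smul (by exact measurable_gd.ennreal_ofReal)
    (Eventually.of_forall fun z => ENNReal.ofReal_lt_top)]
  have e : ∀ z : Fin n → ℝ, (ENNReal.ofReal (gd z)).toReal •
      Complex.exp ((∑ i, a i * z i : ℝ) * Complex.I) =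
      ∏ i, ((((√(2 * π))⁻¹ * Real.exp (-(z i) ^ 2 / 2) : ℝ) : ℂ) *
        Complex.exp ((a i * z i : ℝ) * Complex.I)) := by
    intro z
    rw [ENNReal.toReal_ofReal (gd_pos z).le, Complex.real_smul, Finset.prod_mul_distrib,
      ← Complex.exp_sum, gd]
    push_cast
    rw [Finset.sum_mul]
  simp_rw [e]
  rw [integral_fintype_prod_volume_eq_prod (𝕜 := ℂ) (fun (i : Fin n) (x : ℝ) =>
    (((√(2 * π))⁻¹ * Real.exp (-x ^ 2 / 2) : ℝ) : ℂ) * Complex.exp ((a i * x : ℝ) * Complex.I))]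
  simp_rw [integral_gsn_one]
  rw [← Complex.exp_sum]
  congr 1
  push_cast
  rw [Finset.sum_div, Finset.sum_neg_distrib]

theorem measurable_gsn_add (u v : ℝ) :
    Measurable (fun q : (Fin n → ℝ) × (Fin n → ℝ) => √u • q.1 + √v • q.2) := by fun_prop

/-- sum of independent Gaussians -/
theorem gsn_conv {u v : ℝ} (hu : 0 ≤ u) (hv : 0 ≤ v) :
    ((gsn n).prod (gsn n)).map (fun q => √u • q.1 + √v • q.2) =
      (gsn n).map (fun z => √(u + v) • z) := by
  have hm1 : Measurable (fun z : Fin n → ℝ => √(u + v) • z) := by (clear * -; fun_prop)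
  have i1 : IsProbabilityMeasure (((gsn n).prod (gsn n)).map
      (fun q => √u • q.1 + √v • q.2)) :=
    Measure.isProbabilityMeasure_map (measurable_gsn_add u v).aemeasurable
  have i2 : IsProbabilityMeasure ((gsn n).map (fun z => √(u + v) • z)) :=
    Measure.isProbabilityMeasure_map hm1.aemeasurable
  refine Measure.ext_of_charFunDual (funext fun L => ?_)
  rw [charFunDual_apply, charFunDual_apply]
  have hL : ∀ z : Fin n → ℝ, L z = ∑ i, L (Pi.single i 1) * z i := by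
    intro z
    have h : z = ∑ i, z i • (Pi.single i (1 : ℝ) : Fin n → ℝ) := by
      funext j
      simp only [Finset.sum_apply, Pi.smul_apply, Pi.single_apply, smul_eq_mul, mul_ite, mul_one, mul_zero, Finset.sum_ite_eq, Finset.mem_univ, ↓reduceIte]
    conv_lhs => rw [h]
    rw [map_sum]
    exact Finset.sum_congr rfl fun i _ => by rw [map_smul, smul_eq_mul, mul_comm]
  set a : Fin n → ℝ := fun i => L (Pi.single i 1) with ha
  have key : ∀ c : ℝ, ∫ z, Complex.exp ((c * L z : ℝ) * Complex.I) ∂(gsn n) =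
      Complex.exp (-(c ^ 2 * (∑ i, a i ^ 2) / 2 : ℝ)) := by
    intro c
    have h1 := integral_gsn_cexp (fun i => c * a i)
    have h2 : ∀ z : Fin n → ℝ, ∑ i, c * a i * z i = c * L z := by
      intro z
      rw [hL, Finset.mul_sum]
      exact Finset.sum_congr rfl fun i _ => by rw [mul_assoc]
    simp_rw [h2] at h1
    rw [h1]
    congr 3
    rw [Finset.mul_sum]
    congr 1
    exact Finset.sum_congr rfl fun i _ => by rw [mul_pow]
  have hLm : Measurable (fun z : Fin n → ℝ => Complex.exp (L z * Complex.I)) := by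
    have : Measurable (fun z : Fin n → ℝ => L z) := L.continuous.measurable
    fun_prop
  rw [integral_map (measurable_gsn_add u v).aemeasurable hLm.aestronglyMeasurable,
    integral_map hm1.aemeasurable hLm.aestronglyMeasurable]
  have e2 : ∀ z : Fin n → ℝ, Complex.exp (L (√(u + v) • z) * Complex.I) =
      Complex.exp ((√(u + v) * L z : ℝ) * Complex.I) := by
    intro z; rw [map_smul, smul_eq_mul]
  simp_rw [e2]
  rw [key]
  have e1 : ∀ q : (Fin n → ℝ) × (Fin n → ℝ),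
      Complex.exp (L (√u • q.1 + √v • q.2) * Complex.I) =
      Complex.exp ((√u * L q.1 : ℝ) * Complex.I) * Complex.exp ((√v * L q.2 : ℝ) * Complex.I) := by
    intro q
    rw [map_add, map_smul, map_smul, smul_eq_mul, smul_eq_mul, ← Complex.exp_add]
    congr 1
    push_cast
    ring
  simp_rw [e1]
  rw [integral_prod_mul (fun z : Fin n → ℝ => Complex.exp ((√u * L z : ℝ) * Complex.I))
    (fun z : Fin n → ℝ => Complex.exp ((√v * L z : ℝ) * Complex.I)), key, key,
    ← Complex.exp_add]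
  congr 1
  rw [Real.sq_sqrt hu, Real.sq_sqrt hv, Real.sq_sqrt (add_nonneg hu hv)]
  push_cast
  ring

theorem PH_PH_of_measurable {N : (Fin n → ℝ) → ℝ} (hN : Measurable N) {C : ℝ}
    (hC : ∀ y, |N y| ≤ C) {u v : ℝ} (hu : 0 ≤ u) (hv : 0 ≤ v) :
    PH u (PH v N) = PH (u + v) N := by
  funext y
  have h1 : ∫ q : (Fin n → ℝ) × (Fin n → ℝ), N (y + (√u • q.1 + √v • q.2))
      ∂((gsn n).prod (gsn n)) = ∫ z, N (y + √(u + v) • z) ∂(gsn n) := by
    have hm : Measurable (fun x => N (y + x)) := hN.comp (by fun_prop)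
    have hm1 : Measurable (fun z : Fin n → ℝ => √(u + v) • z) := by fun_prop
    rw [← integral_map (f := fun x => N (y + x)) (measurable_gsn_add u v).aemeasurable
      hm.aestronglyMeasurable, gsn_conv hu hv, integral_map hm1.aemeasurable
      hm.aestronglyMeasurable]
  have hi : Integrable (fun q : (Fin n → ℝ) × (Fin n → ℝ) => N (y + (√u • q.1 + √v • q.2)))
      ((gsn n).prod (gsn n)) :=
    integrable_of_bdd _ (hN.comp (by fun_prop)) fun _ => hC _
  rw [integral_prod _ hi] at h1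
  unfold PH
  rw [← h1]
  congr 1
  funext z
  congr 1
  funext w
  rw [add_assoc]

theorem PH_PH {N : (Fin n → ℝ) → ℝ} (hN : SB N) {u v : ℝ} (hu : 0 ≤ u) (hv : 0 ≤ v) :
    PH u (PH v N) = PH (u + v) N := by
  obtain ⟨C, hC⟩ := hN.bdd
  exact PH_PH_of_measurable hN.measurable hC hu hv

/-! ### expectations at level `σ` -/

theorem EY_zero (μ : Measure (Fin n → ℝ)) (Φ : (Fin n → ℝ) → ℝ) : EY μ 0 Φ = ∫ x, Φ x ∂μ := by
  unfold EY
  rw [PH_zero]

theorem EY_const_mul (μ : Measure (Fin n → ℝ)) (σ c : ℝ) (Φ : (Fin n → ℝ) → ℝ) :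
    EY μ σ (fun y => c * Φ y) = c * EY μ σ Φ := by
  unfold EY
  rw [PH_const_mul]
  exact integral_const_mul c _

theorem EY_add (μ : Measure (Fin n → ℝ)) [IsFiniteMeasure μ] (σ : ℝ) {Φ Ψ : (Fin n → ℝ) → ℝ}
    (hΦ : SB Φ) (hΨ : SB Ψ) : EY μ σ (fun y => Φ y + Ψ y) = EY μ σ Φ + EY μ σ Ψ := by
  obtain ⟨C, hC⟩ := hΦ.bdd
  obtain ⟨D, hD⟩ := hΨ.bdd
  unfold EY
  rw [PH_add hΦ.measurable hC hΨ.measurable hD]
  exact integral_add ((PH_sb hΦ σ).integrable μ) ((PH_sb hΨ σ).integrable μ)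

theorem EY_sum (μ : Measure (Fin n → ℝ)) [IsFiniteMeasure μ] (σ : ℝ) {ι : Type*} (s : Finset ι)
    {Φ : ι → (Fin n → ℝ) → ℝ} (h : ∀ i ∈ s, SB (Φ i)) :
    EY μ σ (fun y => ∑ i ∈ s, Φ i y) = ∑ i ∈ s, EY μ σ (Φ i) := by
  unfold EY
  rw [PH_finsum s h]
  exact integral_finsetSum s fun i hi => (PH_sb (h i hi) σ).integrable μ

theorem EY_nonneg (μ : Measure (Fin n → ℝ)) (σ : ℝ) {Φ : (Fin n → ℝ) → ℝ} (h : ∀ y, 0 ≤ Φ y) :
    0 ≤ EY μ σ Φ :=
  integral_nonneg fun _ => integral_nonneg fun _ => h _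

/-! ### the lift `UP` -/

section up

variable {μ : Measure (Fin n → ℝ)} [IsProbabilityMeasure μ] {R : ℝ}

theorem pd_Mf_scale (h : CSupp μ R) {g : (Fin n → ℝ) → ℝ} (hg : Adm μ g) (a b : ℝ) (i : Fin n) :
    pd (fun y => Mf μ g (a, b • y)) i = fun y => b * (Mf μ (fun x => x i * g x) (a, b • y)
      - Mf μ g (a, b • y) * Mf μ (fun x => x i) (a, b • y)) := by
  funext y
  have hd : Differentiable ℝ (Mf μ g) := (contDiff_Mf h hg 1).differentiable (by norm_num)
  have h1 : HasFDerivAt (fun y : Fin n → ℝ => ((a, b • y) : ℝ × (Fin n → ℝ)))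
      (ContinuousLinearMap.prod 0 (b • ContinuousLinearMap.id ℝ (Fin n → ℝ))) y :=
    (hasFDerivAt_const a y).prodMk ((hasFDerivAt_id y).const_smul b)
  have h2 := ((hd (a, b • y)).hasFDerivAt.comp y h1).fderiv
  unfold pd
  change fderiv ℝ (Mf μ g ∘ fun y : Fin n → ℝ => ((a, b • y) : ℝ × (Fin n → ℝ))) y _ = _
  rw [h2]
  change fderiv ℝ (Mf μ g) (a, b • y) (0, b • Pi.single i 1) = _
  have h3 : ((0 : ℝ), b • (Pi.single i 1 : Fin n → ℝ)) =
      b • ((0 : ℝ), (Pi.single i 1 : Fin n → ℝ)) := by simp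
  rw [h3, map_smul, smul_eq_mul]
  change b * dI i (Mf μ g) (a, b • y) = _
  rw [dI_Mf h hg]

theorem Mf_scale_sbk (h : CSupp μ R) (a b : ℝ) : ∀ (k : ℕ) {g : (Fin n → ℝ) → ℝ}, Adm μ g →
    SBk k (fun y => Mf μ g (a, b • y))
  | 0, g, hg => by
    obtain ⟨G, hG0, hG⟩ := hg.bdd
    refine ⟨?_, G, fun y => Mf_abs_le h hg hG _⟩
    exact (contDiff_Mf h hg 0).continuous.comp (by fun_prop)
  | k + 1, g, hg => by
    obtain ⟨G, hG0, hG⟩ := hg.bdd
    refine ⟨⟨?_, G, fun y => Mf_abs_le h hg hG _⟩, fun i => ?_⟩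
    · exact ((contDiff_Mf h hg 1).differentiable (by norm_num)).comp (by fun_prop)
    · rw [pd_Mf_scale h hg]
      have h1 := Mf_scale_sbk h a b k (hg.xmul h i)
      have h2 := Mf_scale_sbk h a b k hg
      have h3 := Mf_scale_sbk h a b k (h.adm_coord i)
      have h4 := h1.add ((h2.mul h3).const_mul (-1))
      have h5 := h4.const_mul b
      have e : (fun y => b * (Mf μ (fun x => x i * g x) (a, b • y)
          - Mf μ g (a, b • y) * Mf μ (fun x => x i) (a, b • y))) =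
          fun y => b * (Mf μ (fun x => x i * g x) (a, b • y) +
            -1 * (Mf μ g (a, b • y) * Mf μ (fun x => x i) (a, b • y))) := by
        funext y; ring
      rw [e]
      exact h5

theorem UP_sb (h : CSupp μ R) {g : (Fin n → ℝ) → ℝ} (hg : Adm μ g) (s : ℝ) : SB (UP μ s g) :=
  fun k => Mf_scale_sbk h (1 / s) (1 / s) k hg

theorem Pos.p2 {f : (Fin n → ℝ) → ℝ} (hf : Pos f) : P2 f := ⟨hf.sb.contDiff_nat 2, hf.lb⟩

omit [IsProbabilityMeasure μ] in
theorem P2.adm (h : CSupp μ R) {f : (Fin n → ℝ) → ℝ} (hf : P2 f) : Adm μ f :=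
  Adm.of_continuous h hf.cd.continuous

theorem UP_pos (h : CSupp μ R) {f : (Fin n → ℝ) → ℝ} (hf : P2 f) (s : ℝ) : Pos (UP μ s f) := by
  refine ⟨UP_sb h (hf.adm h) s, ?_⟩
  obtain ⟨ε, hε, h1⟩ := hf.lb
  exact ⟨ε, hε, fun y => Mf_ge h (hf.adm h) (Eventually.of_forall h1) _⟩

theorem EY_UP (h : CSupp μ R) {g : (Fin n → ℝ) → ℝ} (hg : Adm μ g) {s : ℝ} (hs : 0 < s) :
    EY μ s (UP μ s g) = ∫ x, g x ∂μ := by
  have hr : (√s)⁻¹ ^ 2 = 1 / s := by
    rw [inv_pow, Real.sq_sqrt hs.le, one_div]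
  have hr2 : 1 / s * √s = (√s)⁻¹ := by
    rw [← hr, pow_two, mul_assoc, inv_mul_cancel₀ (Real.sqrt_pos.2 hs).ne', mul_one]
  obtain ⟨G, hG0, hG⟩ := hg.bdd
  have hm : Measurable (fun w : Fin n → ℝ => Mf μ g (1 / s, w)) :=
    ((contDiff_Mf h hg 0).continuous.comp (by fun_prop)).measurable
  have hE : EG1 (fun w : Fin n → ℝ => Mf μ g (1 / s, w)) := by
    refine ⟨G, hG0, fun w => (Mf_abs_le h hg hG _).trans ?_⟩
    have h0 : 0 ≤ ∑ i, |w i| := Finset.sum_nonneg fun j _ => abs_nonneg _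
    exact le_mul_of_one_le_right hG0 (Real.one_le_exp (mul_nonneg hG0 h0))
  have h1 := tower h (Adm.const μ 1) hm hE (√s)⁻¹
  rw [hr] at h1
  have h2 : ∀ z : Fin n → ℝ, Zf μ (fun _ => 1) (1 / s, (√s)⁻¹ • z) *
      Mf μ g (1 / s, (√s)⁻¹ • z) = Zf μ g (1 / s, (√s)⁻¹ • z) := fun z =>
    (Zf_eq_mul h g _).symm
  simp_rw [h2] at h1
  have h3 := tower_one h hg (√s)⁻¹
  rw [hr] at h3
  rw [h3] at h1
  rw [h1]
  unfold EY PH UP
  congr 1
  funext x
  rw [one_mul]
  congr 1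
  funext z
  rw [smul_add, smul_smul, hr2]

/-- module A2 -/
theorem thA2 (n : ℕ) : StA2 n := by
  intro μ hμ R h f s hf hs
  refine ⟨UP_pos h hf s, ?_⟩
  rw [EY_zero]
  exact EY_UP h (hf.adm h) hs

end up

end Vale.Agent.P245.LS
end
end

section

section

/-! # The kernel `UL` on bounded measurable functions (module K of E1): `thK`, `thPr` -/

open MeasureTheory Real Set Filter Topology
open scoped ENNReal ContDiff

namespace Vale.Agent.P245.E1

open LS

variable {n : ℕ}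

/-! ### bounded measurable functions -/

theorem BM.bdd' {h : (Fin n → ℝ) → ℝ} (hh : BM h) : ∃ C, 0 ≤ C ∧ ∀ y, |h y| ≤ C := by
  obtain ⟨C, hC⟩ := hh.2
  exact ⟨C, (abs_nonneg _).trans (hC 0), hC⟩

theorem BM.mul {h g : (Fin n → ℝ) → ℝ} (hh : BM h) (hg : BM g) : BM (fun y => h y * g y) := by
  obtain ⟨C, hC⟩ := hh.2
  obtain ⟨D, hD⟩ := hg.2
  exact ⟨hh.1.mul hg.1, C * D, fun y => abs_mul_le_of (hC y) (hD y)⟩

theorem BM.sub {h g : (Fin n → ℝ) → ℝ} (hh : BM h) (hg : BM g) : BM (fun y => h y - g y) := by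
  obtain ⟨C, hC⟩ := hh.2
  obtain ⟨D, hD⟩ := hg.2
  exact ⟨hh.1.sub hg.1, C + D, fun y => (abs_sub _ _).trans (add_le_add (hC y) (hD y))⟩

theorem BM.const (c : ℝ) : BM (fun _ : Fin n → ℝ => c) :=
  ⟨measurable_const, |c|, fun _ => le_rfl⟩

theorem SB.bm {N : (Fin n → ℝ) → ℝ} (hN : SB N) : BM N := ⟨hN.measurable, hN.bdd⟩

theorem measurable_PH {h : (Fin n → ℝ) → ℝ} (hh : Measurable h) (u : ℝ) :
    Measurable (PH u h) := by
  have h1 : StronglyMeasurable (Function.uncurry fun (y z : Fin n → ℝ) => h (y + √u • z)) :=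
    (hh.comp (by (clear * -; fun_prop))).stronglyMeasurable
  exact (h1.integral_prod_right (ν := gsn n)).measurable

theorem BM.ph {h : (Fin n → ℝ) → ℝ} (hh : BM h) (u : ℝ) : BM (PH u h) := by
  obtain ⟨C, hC⟩ := hh.2
  exact ⟨measurable_PH hh.1 u, C, fun y => PH_abs_le hC u y⟩

/-! ### bounded kernels -/

/-- bounded measurable kernels -/
structure KB (k : (Fin n → ℝ) → (Fin n → ℝ) → ℝ) : Prop where
  meas : Measurable (Function.uncurry k)
  bd : ∃ C, 0 ≤ C ∧ ∀ x y, |k x y| ≤ C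

theorem KB.adm {k : (Fin n → ℝ) → (Fin n → ℝ) → ℝ} (hk : KB k) (μ : Measure (Fin n → ℝ))
    (y : Fin n → ℝ) : Adm μ (fun x => k x y) := by
  obtain ⟨C, hC0, hC⟩ := hk.bd
  exact ⟨hk.meas.comp (measurable_id.prodMk measurable_const), C, hC0,
    Eventually.of_forall fun x => hC x y⟩

theorem KB.mulr {k : (Fin n → ℝ) → (Fin n → ℝ) → ℝ} (hk : KB k) {Φ : (Fin n → ℝ) → ℝ}
    (hΦ : BM Φ) : KB (fun x y => k x y * Φ y) := by
  obtain ⟨C, hC0, hC⟩ := hk.bd
  obtain ⟨D, hD0, hD⟩ := hΦ.bdd'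
  exact ⟨hk.meas.mul (hΦ.1.comp measurable_snd), C * D, mul_nonneg hC0 hD0,
    fun x y => abs_mul_le_of (hC x y) (hD y)⟩

/-- the kernel of `UL` -/
theorem KB.ofUL {h : (Fin n → ℝ) → ℝ} (hh : BM h) (s r : ℝ) :
    KB (fun x y => PH (s * (r - s) / r) h ((1 - s / r) • x + (s / r) • y)) := by
  obtain ⟨C, hC0, hC⟩ := hh.bdd'
  exact ⟨(measurable_PH hh.1 _).comp (by (clear * -; fun_prop)), C, hC0, fun x y => PH_abs_le hC _ _⟩

section ker

variable {μ : Measure (Fin n → ℝ)} [IsProbabilityMeasure μ] {R : ℝ}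

theorem bm_Mf (h : CSupp μ R) {k : (Fin n → ℝ) → (Fin n → ℝ) → ℝ} (hk : KB k) (r : ℝ) :
    BM (fun y => Mf μ (fun x => k x y) (1 / r, (1 / r) • y)) := by
  obtain ⟨C, hC0, hC⟩ := hk.bd
  refine ⟨?_, C, fun y => Mf_abs_le h (hk.adm μ y) (Eventually.of_forall fun x => hC x y) _⟩
  have h1 : StronglyMeasurable (Function.uncurry fun (y x : Fin n → ℝ) =>
      k x y * exp (lx x (1 / r, (1 / r) • y))) := by
    apply Measurable.stronglyMeasurable
    apply Measurable.mul (hk.meas.comp measurable_swap)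
    apply Measurable.exp
    unfold lx
    simp only [Pi.smul_apply, smul_eq_mul]
    fun_prop
  have h2 : Measurable (fun y : Fin n → ℝ => Zo μ (1 / r, (1 / r) • y)) :=
    ((contDiff_Zo h 0).continuous.comp (by fun_prop)).measurable
  exact (h1.integral_prod_right (ν := μ)).measurable.div h2

/-- kernel version of `tower` -/
theorem tower_ker (h : CSupp μ R) {g : (Fin n → ℝ) → (Fin n → ℝ) → ℝ} (hg : KB g) (r : ℝ) :
    ∫ z, Zf μ (fun x => g x (r • z)) (r ^ 2, r • z) ∂(gsn n)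
      = ∫ x, ∫ z, g x (r ^ 2 • x + r • z) ∂(gsn n) ∂μ := by
  obtain ⟨G, hG0, hG⟩ := hg.bd
  have hR := h.nonneg
  unfold Zf
  have hint : Integrable (Function.uncurry fun (z x : Fin n → ℝ) =>
      g x (r • z) * exp (lx x (r ^ 2, r • z))) ((gsn n).prod μ) := by
    have hb : Integrable (fun q : (Fin n → ℝ) × (Fin n → ℝ) =>
        G * exp (R * |r| * ∑ i, |q.1 i|)) ((gsn n).prod μ) := by
      have := ((integrable_exp_abs (n := n) (R * |r|)).const_mul G).mul_prod
        (integrable_const (1 : ℝ) (μ := μ))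
      simpa only [mul_one] using this
    refine hb.mono' ?_ ?_
    · apply Measurable.aestronglyMeasurable
      unfold Function.uncurry lx
      apply Measurable.mul
      · exact hg.meas.comp (measurable_snd.prodMk ((measurable_const_smul r).comp measurable_fst))
      · apply Measurable.exp
        simp only [Pi.smul_apply, smul_eq_mul]
        fun_prop
    · have hae : ∀ᵐ q ∂((gsn n).prod μ), (∀ i, |q.2 i| ≤ R) :=
        Measure.quasiMeasurePreserving_snd.ae h.supp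
      filter_upwards [hae] with q hq
      simp only [Function.uncurry]
      rw [norm_mul, Real.norm_eq_abs, Real.norm_eq_abs, abs_of_pos (exp_pos _)]
      have es : ∑ i, |(r • q.1) i| = |r| * ∑ i, |q.1 i| := by
        rw [Finset.mul_sum]; apply Finset.sum_congr rfl; intro i _
        rw [Pi.smul_apply, smul_eq_mul, abs_mul]
      have a1 : lx q.2 (r ^ 2, r • q.1) ≤ R * |r| * ∑ i, |q.1 i| := by
        rw [mul_assoc, ← es]
        unfold lx
        have a1 : 0 ≤ r ^ 2 / 2 * ∑ i, q.2 i ^ 2 := by (clear * -; positivity)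
        have a2 : ∑ i, (r • q.1) i * q.2 i ≤ R * ∑ i, |(r • q.1) i| := by
          rw [Finset.mul_sum]
          apply Finset.sum_le_sum
          intro i _
          calc (r • q.1) i * q.2 i ≤ |(r • q.1) i * q.2 i| := le_abs_self _
            _ = |(r • q.1) i| * |q.2 i| := abs_mul _ _
            _ ≤ |(r • q.1) i| * R := mul_le_mul_of_nonneg_left (hq i) (abs_nonneg _)
            _ = _ := mul_comm _ _
        simp only at a1 a2 ⊢
        linarith
      exact mul_le_mul (hG _ _) (exp_le_exp.2 a1) (exp_pos _).le hG0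
  rw [integral_integral_swap hint]
  apply integral_congr_ae
  filter_upwards with x
  have e2 : ∀ z : Fin n → ℝ, g x (r • z) * exp (lx x (r ^ 2, r • z))
      = g x (r • z) * exp (∑ i, (r • x) i * z i - (∑ i, (r • x) i ^ 2) / 2) := by
    intro z
    have : lx x (r ^ 2, r • z) = ∑ i, (r • x) i * z i - (∑ i, (r • x) i ^ 2) / 2 := by
      unfold lx
      simp only [Pi.smul_apply, smul_eq_mul]
      congr 1
      · apply Finset.sum_congr rfl; intro i _; ring
      · rw [Finset.mul_sum, Finset.sum_div]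
        apply Finset.sum_congr rfl; intro i _; ring
    rw [this]
  simp_rw [e2]
  rw [← integral_gam_shift (r • x) (fun z => g x (r • z))]
  congr 1
  funext z
  congr 1
  rw [smul_add, smul_smul, sq, add_comm]

/-- Bayes rule for kernels -/
theorem EY_Mf_ker (h : CSupp μ R) {k : (Fin n → ℝ) → (Fin n → ℝ) → ℝ} (hk : KB k) {r : ℝ}
    (hr : 0 < r) : EY μ r (fun y => Mf μ (fun x => k x y) (1 / r, (1 / r) • y))
      = ∫ x, ∫ z, k x (x + √r • z) ∂(gsn n) ∂μ := by
  have hsr : (√r)⁻¹ ^ 2 = 1 / r := by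
    rw [inv_pow, Real.sq_sqrt hr.le, one_div]
  have hr2 : r * (1 / r) = 1 := by rw [mul_one_div, div_self hr.ne']
  have hr3 : r * (√r)⁻¹ = √r := by
    rw [← div_eq_mul_inv, Real.div_sqrt]
  obtain ⟨C, hC0, hC⟩ := hk.bd
  have hbm := bm_Mf h hk r
  have hm : Measurable (fun w : Fin n → ℝ => Mf μ (fun x => k x (r • w)) (1 / r, (1 / r) • (r • w))) :=
    hbm.1.comp (measurable_const_smul r)
  have hE : EG1 (fun w : Fin n → ℝ => Mf μ (fun x => k x (r • w)) (1 / r, (1 / r) • (r • w))) := by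
    refine ⟨C, hC0, fun w => (Mf_abs_le h (hk.adm μ _) (Eventually.of_forall fun x => hC x _)
      _).trans ?_⟩
    have h0 : 0 ≤ ∑ i, |w i| := Finset.sum_nonneg fun j _ => abs_nonneg _
    exact le_mul_of_one_le_right hC0 (Real.one_le_exp (mul_nonneg hC0 h0))
  have h1 := tower h (Adm.const μ 1) hm hE (√r)⁻¹
  rw [hsr] at h1
  have hg : KB (fun x w => k x (r • w)) := by
    refine ⟨hk.meas.comp (measurable_fst.prodMk ((measurable_const_smul r).comp measurable_snd)),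
      C, hC0, fun x w => hC _ _⟩
  have h2 := tower_ker h hg (√r)⁻¹
  rw [hsr] at h2
  have h3 : ∀ z : Fin n → ℝ, Zf μ (fun _ => 1) (1 / r, (√r)⁻¹ • z) *
      Mf μ (fun x => k x (r • ((√r)⁻¹ • z))) (1 / r, (1 / r) • (r • ((√r)⁻¹ • z)))
      = Zf μ (fun x => k x (r • ((√r)⁻¹ • z))) (1 / r, (√r)⁻¹ • z) := by
    intro z
    rw [smul_smul (1 / r) r, one_div_mul_cancel hr.ne', one_smul]
    exact (Zf_eq_mul h _ _).symm
  simp_rw [h3] at h1
  rw [h2] at h1
  have e1 : ∀ x z : Fin n → ℝ, r • ((1 / r) • x + (√r)⁻¹ • z) = x + √r • z := by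
    intro x z
    rw [smul_add, smul_smul, smul_smul, hr2, hr3, one_smul]
  simp_rw [e1, one_mul] at h1
  rw [h1]
  rfl

/-- the exponent is bounded on the support -/
theorem lx_le_of {x : Fin n → ℝ} (hx : ∀ i, |x i| ≤ R) {p : ℝ × (Fin n → ℝ)} (hp : 0 ≤ p.1) :
    lx x p ≤ R * ∑ i, |p.2 i| := by
  unfold lx
  have a1 : 0 ≤ p.1 / 2 * ∑ i, x i ^ 2 := by positivity
  have a2 : ∑ i, p.2 i * x i ≤ R * ∑ i, |p.2 i| := by
    rw [Finset.mul_sum]
    apply Finset.sum_le_sum
    intro i _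
    calc p.2 i * x i ≤ |p.2 i * x i| := le_abs_self _
      _ = |p.2 i| * |x i| := abs_mul _ _
      _ ≤ |p.2 i| * R := mul_le_mul_of_nonneg_left (hx i) (abs_nonneg _)
      _ = _ := mul_comm _ _
  linarith only [a1, a2]

end ker

/-! ### rotation invariance of the Gaussian measure -/

theorem integral_prod_cexp (c d : Fin n → ℝ) :
    ∫ q : (Fin n → ℝ) × (Fin n → ℝ),
      Complex.exp ((∑ i, (c i * q.1 i + d i * q.2 i) : ℝ) * Complex.I) ∂((gsn n).prod (gsn n))
      = Complex.exp (-((∑ i, (c i ^ 2 + d i ^ 2)) / 2 : ℝ)) := by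
  have e : ∀ q : (Fin n → ℝ) × (Fin n → ℝ),
      Complex.exp ((∑ i, (c i * q.1 i + d i * q.2 i) : ℝ) * Complex.I) =
      Complex.exp ((∑ i, c i * q.1 i : ℝ) * Complex.I) *
        Complex.exp ((∑ i, d i * q.2 i : ℝ) * Complex.I) := by
    intro q
    rw [← Complex.exp_add, Finset.sum_add_distrib, Complex.ofReal_add, add_mul]
  simp_rw [e]
  rw [integral_prod_mul (fun z : Fin n → ℝ => Complex.exp ((∑ i, c i * z i : ℝ) * Complex.I))
    (fun z : Fin n → ℝ => Complex.exp ((∑ i, d i * z i : ℝ) * Complex.I)), integral_gsn_cexp,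
    integral_gsn_cexp, ← Complex.exp_add]
  congr 1
  rw [Finset.sum_add_distrib, add_div, Complex.ofReal_add, neg_add]

theorem measurable_rot (a b : ℝ) : Measurable (fun q : (Fin n → ℝ) × (Fin n → ℝ) =>
    (a • q.1 + b • q.2, b • q.1 - a • q.2)) := by fun_prop

theorem gsn_rot {a b : ℝ} (hab : a ^ 2 + b ^ 2 = 1) :
    ((gsn n).prod (gsn n)).map (fun q : (Fin n → ℝ) × (Fin n → ℝ) =>
      (a • q.1 + b • q.2, b • q.1 - a • q.2)) = (gsn n).prod (gsn n) := by
  have hm := measurable_rot (n := n) a b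
  have i1 : IsProbabilityMeasure (((gsn n).prod (gsn n)).map
      (fun q : (Fin n → ℝ) × (Fin n → ℝ) => (a • q.1 + b • q.2, b • q.1 - a • q.2))) :=
    Measure.isProbabilityMeasure_map hm.aemeasurable
  refine Measure.ext_of_charFunDual (funext fun L => ?_)
  rw [charFunDual_apply, charFunDual_apply]
  have hLm : Measurable (fun z : (Fin n → ℝ) × (Fin n → ℝ) =>
      Complex.exp (L z * Complex.I)) := by
    have : Measurable (fun z : (Fin n → ℝ) × (Fin n → ℝ) => L z) := L.continuous.measurable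
    fun_prop
  rw [integral_map hm.aemeasurable hLm.aestronglyMeasurable]
  set c : Fin n → ℝ := fun i => L (Pi.single i 1, 0) with hc
  set d : Fin n → ℝ := fun i => L (0, Pi.single i 1) with hd
  have hL : ∀ p q : Fin n → ℝ, L (p, q) = ∑ i, (c i * p i + d i * q i) := by
    intro p q
    have h : (p, q) = ∑ i, (p i • ((Pi.single i (1 : ℝ) : Fin n → ℝ), (0 : Fin n → ℝ)) +
        q i • ((0 : Fin n → ℝ), (Pi.single i (1 : ℝ) : Fin n → ℝ))) := by
      ext j
      · simp only [Prod.smul_mk, smul_zero, Prod.mk_add_mk, add_zero, zero_add, Prod.fst_sum, Finset.sum_apply, Pi.smul_apply, Pi.single_apply, smul_eq_mul, mul_ite, mul_one, mul_zero, Finset.sum_ite_eq, Finset.mem_univ, ↓reduceIte]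
      · simp only [Prod.smul_mk, smul_zero, Prod.mk_add_mk, add_zero, zero_add, Prod.snd_sum, Finset.sum_apply, Pi.smul_apply, Pi.single_apply, smul_eq_mul, mul_ite, mul_one, mul_zero, Finset.sum_ite_eq, Finset.mem_univ, ↓reduceIte]
    rw [h, map_sum]
    refine Finset.sum_congr rfl fun i _ => ?_
    rw [map_add, map_smul, map_smul, smul_eq_mul, smul_eq_mul, mul_comm (p i), mul_comm (q i)]
  have e1 : ∀ q : (Fin n → ℝ) × (Fin n → ℝ), L (a • q.1 + b • q.2, b • q.1 - a • q.2)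
      = ∑ i, ((a * c i + b * d i) * q.1 i + (b * c i - a * d i) * q.2 i) := by
    intro q
    rw [hL]
    refine Finset.sum_congr rfl fun i _ => ?_
    simp only [Pi.add_apply, Pi.sub_apply, Pi.smul_apply, smul_eq_mul]
    ring
  have e2 : ∀ q : (Fin n → ℝ) × (Fin n → ℝ), L q = ∑ i, (c i * q.1 i + d i * q.2 i) := by
    intro q
    exact hL q.1 q.2
  simp_rw [e1]
  rw [integral_prod_cexp (fun i => a * c i + b * d i) (fun i => b * c i - a * d i)]
  simp_rw [e2]
  rw [integral_prod_cexp c d]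
  have e3 : ∑ i, ((a * c i + b * d i) ^ 2 + (b * c i - a * d i) ^ 2)
      = ∑ i, (c i ^ 2 + d i ^ 2) := by
    refine Finset.sum_congr rfl fun i _ => ?_
    linear_combination (c i ^ 2 + d i ^ 2) * hab
  rw [e3]

/-- the bivariate Gaussian identity behind the adjointness -/
theorem gauss_adj {h Φ : (Fin n → ℝ) → ℝ} (hh : BM h) (hΦ : BM Φ) {s r : ℝ} (hs : 0 < s)
    (hsr : s ≤ r) (x : Fin n → ℝ) :
    PH s (fun y => h y * PH (r - s) Φ y) x
      = ∫ z, PH (s * (r - s) / r) h ((1 - s / r) • x + (s / r) • (x + √r • z)) *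
          Φ (x + √r • z) ∂(gsn n) := by
  have hr : 0 < r := hs.trans_le hsr
  have hrs : 0 ≤ r - s := sub_nonneg.2 hsr
  obtain ⟨C, hC0, hC⟩ := hh.bdd'
  obtain ⟨D, hD0, hD⟩ := hΦ.bdd'
  set a := √(s / r) with ha
  set b := √((r - s) / r) with hb
  have ha2 : a * a = s / r := Real.mul_self_sqrt (by positivity)
  have hb2 : b * b = (r - s) / r := Real.mul_self_sqrt (by (clear * - hsr hr; positivity))
  have hab : a ^ 2 + b ^ 2 = 1 := by
    rw [sq, sq, ha2, hb2, ← add_div, add_sub_cancel, div_self hr.ne']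
  have c3 : √r * a = √s := by
    rw [ha, ← Real.sqrt_mul hr.le, mul_div_cancel₀ s hr.ne']
  have c4 : √r * b = √(r - s) := by
    rw [hb, ← Real.sqrt_mul hr.le, mul_div_cancel₀ (r - s) hr.ne']
  have d1 : √(s * (r - s) / r) = √s * b := by
    rw [hb, ← Real.sqrt_mul hs.le, mul_div_assoc]
  have d2 : √(s * (r - s) / r) = √(r - s) * a := by
    rw [ha, ← Real.sqrt_mul hrs, mul_div_assoc, ← mul_div_assoc, mul_comm s, mul_div_assoc]
  have c1 : s / r * √s + √(s * (r - s) / r) * b = √s := by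
    rw [d1, mul_assoc, hb2]
    field_simp
    ring
  have c2 : s / r * √(r - s) - √(s * (r - s) / r) * a = 0 := by
    rw [d2, mul_assoc, ha2]
    ring
  let F : (Fin n → ℝ) × (Fin n → ℝ) → ℝ := fun q =>
    h ((1 - s / r) • x + (s / r) • (x + √r • q.1) + √(s * (r - s) / r) • q.2) *
      Φ (x + √r • q.1)
  have hF : Measurable F := (hh.1.comp (by fun_prop)).mul (hΦ.1.comp (by fun_prop))
  have hFb : ∀ q, |F q| ≤ C * D := fun q => abs_mul_le_of (hC _) (hD _)
  have key : ∫ q, F q ∂((gsn n).prod (gsn n))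
      = ∫ q : (Fin n → ℝ) × (Fin n → ℝ), F (a • q.1 + b • q.2, b • q.1 - a • q.2)
        ∂((gsn n).prod (gsn n)) := by
    conv_lhs => rw [← gsn_rot hab]
    rw [integral_map (measurable_rot a b).aemeasurable hF.aestronglyMeasurable]
  have e1 : ∀ q : (Fin n → ℝ) × (Fin n → ℝ), F (a • q.1 + b • q.2, b • q.1 - a • q.2)
      = h (x + √s • q.1) * Φ (x + √s • q.1 + √(r - s) • q.2) := by
    intro q
    simp only [F]
    have v1 : (1 - s / r) • x + (s / r) • (x + √r • (a • q.1 + b • q.2)) +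
        √(s * (r - s) / r) • (b • q.1 - a • q.2) = x + √s • q.1 := by
      funext j
      simp only [Pi.add_apply, Pi.smul_apply, smul_eq_mul, Pi.sub_apply]
      linear_combination (q.1 j) * c1 + (q.2 j) * c2 + (s / r * q.1 j) * c3 +
        (s / r * q.2 j) * c4
    have v2 : x + √r • (a • q.1 + b • q.2) = x + √s • q.1 + √(r - s) • q.2 := by
      funext j
      simp only [Pi.add_apply, Pi.smul_apply, smul_eq_mul]
      linear_combination (q.1 j) * c3 + (q.2 j) * c4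
    rw [v1, v2]
  simp_rw [e1] at key
  have hi : Integrable (fun q : (Fin n → ℝ) × (Fin n → ℝ) =>
      h (x + √s • q.1) * Φ (x + √s • q.1 + √(r - s) • q.2)) ((gsn n).prod (gsn n)) :=
    integrable_of_bdd _ ((hh.1.comp (by fun_prop)).mul (hΦ.1.comp (by fun_prop)))
      (fun q => abs_mul_le_of (hC _) (hD _))
  rw [integral_prod _ (integrable_of_bdd _ hF hFb), integral_prod _ hi] at key
  unfold PH
  simp_rw [← integral_const_mul, ← integral_mul_const]
  exact key.symm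

section fin

variable {μ : Measure (Fin n → ℝ)} [IsProbabilityMeasure μ] {R : ℝ}

/-- adjointness -/
theorem EY_UL (h : CSupp μ R) {f Φ : (Fin n → ℝ) → ℝ} (hf : BM f) (hΦ : BM Φ) {s r : ℝ}
    (hs : 0 < s) (hsr : s ≤ r) :
    EY μ r (fun y => UL μ s r f y * Φ y) = EY μ s (fun y => f y * PH (r - s) Φ y) := by
  have hr : 0 < r := hs.trans_le hsr
  have h1 := EY_Mf_ker h ((KB.ofUL hf s r).mulr hΦ) hr
  have e1 : (fun y => Mf μ (fun x => PH (s * (r - s) / r) f ((1 - s / r) • x + (s / r) • y) *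
      Φ y) (1 / r, (1 / r) • y)) = fun y => UL μ s r f y * Φ y := by
    funext y
    unfold UL
    simp_rw [mul_comm _ (Φ y)]
    rw [Mf_const_mul]
  rw [← e1, h1]
  unfold EY
  congr 1
  funext x
  exact (gauss_adj hf hΦ hs hsr x).symm

/-! ### continuity -/

theorem continuous_PH {f : (Fin n → ℝ) → ℝ} (hf : BM f) {u : ℝ} (hu : 0 < u) :
    Continuous (PH u f) := by
  obtain ⟨C, hC0, hC⟩ := hf.bdd'
  have hu' : 0 < √u := Real.sqrt_pos.2 hu
  have e : PH u f = fun y => ∫ z, f (√u • z) * exp (∑ i, ((√u)⁻¹ • y) i * z i -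
      (∑ i, ((√u)⁻¹ • y) i ^ 2) / 2) ∂(gsn n) := by
    funext y
    rw [← integral_gam_shift ((√u)⁻¹ • y) (fun z => f (√u • z))]
    unfold PH
    congr 1
    funext z
    rw [smul_add, smul_smul, mul_inv_cancel₀ hu'.ne', one_smul, add_comm]
  rw [e, continuous_iff_continuousAt]
  intro y0
  refine continuousAt_of_dominated (bound := fun z => C * exp ((√u)⁻¹ * (‖y0‖ + 1) *
    ∑ i, |z i|)) ?_ ?_ ((integrable_exp_abs _).const_mul C) ?_
  · filter_upwards with y
    apply Measurable.aestronglyMeasurable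
    exact (hf.1.comp (measurable_const_smul _)).mul (by fun_prop)
  · filter_upwards [Metric.ball_mem_nhds y0 one_pos] with y hy
    filter_upwards with z
    rw [norm_mul, Real.norm_eq_abs, Real.norm_eq_abs, abs_of_pos (exp_pos _)]
    refine mul_le_mul (hC _) (exp_le_exp.2 ?_) (exp_pos _).le hC0
    have hy1 : ‖y‖ ≤ ‖y0‖ + 1 := by
      have := norm_sub_norm_le y y0
      rw [Metric.mem_ball, dist_eq_norm] at hy
      linarith only [hy, this]
    have h1 : ∑ i, ((√u)⁻¹ • y) i * z i ≤ (√u)⁻¹ * (‖y0‖ + 1) * ∑ i, |z i| := by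
      rw [Finset.mul_sum]
      refine Finset.sum_le_sum fun i _ => ?_
      rw [Pi.smul_apply, smul_eq_mul]
      calc (√u)⁻¹ * y i * z i ≤ |(√u)⁻¹ * y i * z i| := le_abs_self _
        _ = (√u)⁻¹ * |y i| * |z i| := by
          rw [abs_mul, abs_mul, abs_of_pos (inv_pos.2 hu')]
        _ ≤ (√u)⁻¹ * (‖y0‖ + 1) * |z i| := by
          have : |y i| ≤ ‖y0‖ + 1 := (norm_le_pi_norm y i).trans hy1
          (clear * - this hu; gcongr)
    have h2 : 0 ≤ (∑ i, ((√u)⁻¹ • y) i ^ 2) / 2 := by (clear * -; positivity)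
    linarith only [h2, h1]
  · filter_upwards with z
    apply Continuous.continuousAt
    simp only [Pi.smul_apply, smul_eq_mul]
    fun_prop

theorem continuous_UL (h : CSupp μ R) {f : (Fin n → ℝ) → ℝ} (hf : BM f) {s r : ℝ}
    (hs : 0 < s) (hsr : s < r) : Continuous (UL μ s r f) := by
  have hr : 0 < r := hs.trans hsr
  have hR := h.nonneg
  obtain ⟨C, hC0, hC⟩ := hf.bdd'
  have hu : 0 < s * (r - s) / r := div_pos (mul_pos hs (sub_pos.2 hsr)) hr
  have hPc := continuous_PH hf hu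
  have h2 : Continuous (fun y : Fin n → ℝ => Zo μ (1 / r, (1 / r) • y)) :=
    (contDiff_Zo h 0).continuous.comp (by fun_prop)
  have h1 : Continuous (fun y : Fin n → ℝ => Zf μ (fun x => PH (s * (r - s) / r) f
      ((1 - s / r) • x + (s / r) • y)) (1 / r, (1 / r) • y)) := by
    rw [continuous_iff_continuousAt]
    intro y0
    unfold Zf
    refine continuousAt_of_dominated (bound := fun _ => C * exp (R * ∑ _i : Fin n,
      (1 / r * (‖y0‖ + 1)))) ?_ ?_ (integrable_const _) ?_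
    · filter_upwards with y
      apply Measurable.aestronglyMeasurable
      exact ((KB.ofUL hf s r).adm μ y).meas.mul (measurable_lx _).exp
    · filter_upwards [Metric.ball_mem_nhds y0 one_pos] with y hy
      filter_upwards [h.supp] with x hx
      rw [norm_mul, Real.norm_eq_abs, Real.norm_eq_abs, abs_of_pos (exp_pos _)]
      refine mul_le_mul (PH_abs_le hC _ _) (exp_le_exp.2 ?_) (exp_pos _).le hC0
      have hy1 : ‖y‖ ≤ ‖y0‖ + 1 := by
        have := norm_sub_norm_le y y0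
        rw [Metric.mem_ball, dist_eq_norm] at hy
        linarith
      refine (lx_le_of hx (by (clear * - hr; positivity))).trans ?_
      refine mul_le_mul_of_nonneg_left (Finset.sum_le_sum fun i _ => ?_) hR
      simp only [Pi.smul_apply, smul_eq_mul]
      rw [abs_mul, abs_of_pos (by (clear * - hr; positivity) : 0 < 1 / r)]
      exact mul_le_mul_of_nonneg_left ((norm_le_pi_norm y i).trans hy1) (by positivity)
    · filter_upwards with x
      apply Continuous.continuousAt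
      unfold lx
      simp only [Pi.smul_apply, smul_eq_mul]
      exact (hPc.comp (by fun_prop)).mul (by fun_prop)
  exact h1.div h2 fun y => (Zo_pos h _).ne'

/-! ### positivity of the density -/

theorem eq_zero_of_EY {Ψ : (Fin n → ℝ) → ℝ} (hc : Continuous Ψ) (h0 : ∀ y, 0 ≤ Ψ y)
    (hb : BM Ψ) {r : ℝ} (hr : 0 < r) (hE : EY μ r Ψ = 0) (y : Fin n → ℝ) : Ψ y = 0 := by
  have hr' : 0 < √r := Real.sqrt_pos.2 hr
  obtain ⟨C, hC⟩ := hb.2
  have hp := hb.ph r
  obtain ⟨D, hD⟩ := hp.2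
  have h1 : PH r Ψ =ᵐ[μ] 0 := by
    refine (integral_eq_zero_iff_of_nonneg (fun x => integral_nonneg fun _ => h0 _)
      (integrable_of_bdd μ hp.1 hD)).1 hE
  obtain ⟨x, hx⟩ := h1.exists
  have h2 : (fun z => Ψ (x + √r • z)) =ᵐ[gsn n] 0 := by
    refine (integral_eq_zero_iff_of_nonneg (fun z => h0 _)
      (PH_integrable hb.1 hC r x)).1 hx
  have hac : (volume : Measure (Fin n → ℝ)) ≪ gsn n := by
    unfold gsn
    refine withDensity_absolutelyContinuous' measurable_gd.ennreal_ofReal.aemeasurable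
      (Eventually.of_forall fun z => ?_)
    have := gd_pos z
    simpa only [ne_eq, ENNReal.ofReal_eq_zero, not_le, gt_iff_lt] using this
  have h3 : (fun z => Ψ (x + √r • z)) =ᵐ[volume] (fun _ => (0 : ℝ)) := hac.ae_eq h2
  have h4 := (Continuous.ae_eq_iff_eq volume (hc.comp (by fun_prop)) continuous_const).1 h3
  have h5 : Ψ (x + √r • ((√r)⁻¹ • (y - x))) = 0 := congrFun h4 ((√r)⁻¹ • (y - x))
  rw [smul_smul, mul_inv_cancel₀ hr'.ne', one_smul, add_sub_cancel] at h5
  exact h5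

theorem UL_self (h : CSupp μ R) {r : ℝ} (hr : 0 < r) (f : (Fin n → ℝ) → ℝ) :
    UL μ r r f = f := by
  funext y
  unfold UL
  rw [sub_self, mul_zero, zero_div, PH_zero, div_self hr.ne', sub_self]
  simp only [zero_smul, zero_add, one_smul]
  exact Mf_const h _ _

theorem bm_UL (h : CSupp μ R) {f : (Fin n → ℝ) → ℝ} (hf : BM f) (s r : ℝ) :
    BM (UL μ s r f) := bm_Mf h (KB.ofUL hf s r) r

theorem EY_sub_bm {f g : (Fin n → ℝ) → ℝ} (hf : BM f) (hg : BM g) (r : ℝ) :
    EY μ r (fun y => f y - g y) = EY μ r f - EY μ r g := by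
  obtain ⟨C, hC⟩ := hf.2
  obtain ⟨D, hD⟩ := hg.2
  obtain ⟨C', hC'⟩ := (hf.ph r).2
  obtain ⟨D', hD'⟩ := (hg.ph r).2
  unfold EY
  have e : PH r (fun y => f y - g y) = fun y => PH r f y - PH r g y := by
    funext y
    exact integral_sub (PH_integrable hf.1 hC r y) (PH_integrable hg.1 hD r y)
  rw [e]
  exact integral_sub (integrable_of_bdd μ (hf.ph r).1 hC') (integrable_of_bdd μ (hg.ph r).1 hD')

theorem UL_UL (h : CSupp μ R) {f : (Fin n → ℝ) → ℝ} (hf : BM f) {a s r : ℝ} (ha : 0 < a)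
    (has : a ≤ s) (hsr : s ≤ r) : UL μ s r (UL μ a s f) = UL μ a r f := by
  have hs : 0 < s := ha.trans_le has
  rcases hsr.eq_or_lt with rfl | hsr'
  · rw [UL_self h hs]
  have hr : 0 < r := hs.trans hsr'
  have har : a < r := has.trans_lt hsr'
  have b1 := bm_UL h hf a s
  have b2 := bm_UL h b1 s r
  have b3 := bm_UL h hf a r
  have b4 := b2.sub b3
  have k1 : ∀ Φ : (Fin n → ℝ) → ℝ, BM Φ →
      EY μ r (fun y => UL μ s r (UL μ a s f) y * Φ y) = EY μ r (fun y => UL μ a r f y * Φ y) := by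
    intro Φ hΦ
    obtain ⟨D, hD⟩ := hΦ.2
    rw [EY_UL h b1 hΦ hs hsr, EY_UL h hf (hΦ.ph (r - s)) ha has, EY_UL h hf hΦ ha har.le,
      PH_PH_of_measurable hΦ.1 hD (sub_nonneg.2 has) (sub_nonneg.2 hsr)]
    have : s - a + (r - s) = r - a := by ring
    rw [this]
  have k2 := k1 _ b4
  have k3 : EY μ r (fun y => (UL μ s r (UL μ a s f) y - UL μ a r f y) *
      (UL μ s r (UL μ a s f) y - UL μ a r f y)) = 0 := by
    have e : (fun y => (UL μ s r (UL μ a s f) y - UL μ a r f y) *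
      (UL μ s r (UL μ a s f) y - UL μ a r f y)) = fun y =>
      UL μ s r (UL μ a s f) y * (UL μ s r (UL μ a s f) y - UL μ a r f y) -
      UL μ a r f y * (UL μ s r (UL μ a s f) y - UL μ a r f y) := by
      funext y; ring
    rw [e, EY_sub_bm (b2.mul b4) (b3.mul b4), k2, sub_self]
  have c1 := continuous_UL h b1 hs hsr'
  have c2 := continuous_UL h hf ha har
  funext y
  have := eq_zero_of_EY ((c1.sub c2).mul (c1.sub c2)) (fun y => mul_self_nonneg _)
    (b4.mul b4) hr k3 y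
  exact sub_eq_zero.1 (mul_self_eq_zero.1 this)

end fin

/-- module K -/
theorem thK (n : ℕ) : StK n := by
  intro μ _ R h
  refine ⟨fun s r hs hsr => ⟨fun f hf => ⟨bm_UL h hf s r, hf.ph _⟩, ?_, ?_, ?_, ?_, ?_⟩, ?_, ?_⟩
  · intro f g hf hg
    obtain ⟨C, hC⟩ := hf.2
    obtain ⟨D, hD⟩ := hg.2
    funext y
    unfold UL
    rw [PH_add hf.1 hC hg.1 hD]
    exact Mf_add h ((KB.ofUL hf s r).adm μ y) ((KB.ofUL hg s r).adm μ y) _
  · intro c f hf
    funext y
    unfold UL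
    rw [PH_const_mul]
    exact Mf_const_mul _ _ _
  · intro c
    funext y
    unfold UL
    rw [PH_const]
    exact Mf_const h _ _
  · intro f g hf hg hfg y
    obtain ⟨C, hC⟩ := hf.2
    obtain ⟨D, hD⟩ := hg.2
    exact Mf_mono h ((KB.ofUL hf s r).adm μ y) ((KB.ofUL hg s r).adm μ y)
      (Eventually.of_forall fun x => PH_mono hf.1 hC hg.1 hD hfg _ _) _
  · intro f Φ hf hΦ
    exact EY_UL h hf hΦ hs hsr
  · intro r f hr
    exact UL_self h hr f
  · intro a s r f ha has hsr hf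
    exact UL_UL h hf ha has hsr

/-- module Pr -/
theorem thPr (n : ℕ) : StPr n := by
  intro μ _ R h N s r hN hs hsr
  have hr : 0 < r := hs.trans_le hsr
  have hNb := SB.bm hN.sb
  have hUb := bm_UL h hNb s r
  refine ⟨?_, ?_, ?_⟩
  · have := EY_UL h hNb (BM.const (n := n) 1) hs hsr
    simpa [PH_const] using this
  · have := EY_UL h (BM.const (n := n) 1) hNb hs hsr
    have e : UL μ s r (fun _ => (1 : ℝ)) = fun _ => 1 := by
      funext y
      unfold UL
      rw [PH_const]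
      exact Mf_const h _ _
    rw [e] at this
    simpa using this.symm
  · intro φ hφ
    obtain ⟨ε, hε, hN1⟩ := hN.lb
    have hUpos : ∀ y, 0 < UL μ s r N y := by
      intro y
      have h1 : ε ≤ UL μ s r N y := by
        obtain ⟨C, hC⟩ := hN.sb.bdd
        have h2 : ∀ x : Fin n → ℝ, ε ≤ PH (s * (r - s) / r) N ((1 - s / r) • x + (s / r) • y) :=
          fun x => PH_ge hN.sb.measurable hC hN1 _ _
        have h3 := Mf_mono h (Adm.const μ ε) ((KB.ofUL hNb s r).adm μ y)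
          (Eventually.of_forall h2) (1 / r, (1 / r) • y)
        rwa [Mf_const h] at h3
      exact hε.trans_le h1
    unfold IP us sN
    have e1 : (fun y => UL μ s r N y * ∑ i, φ i y * (UL μ s r (pd N i) y / UL μ s r N y))
        = fun y => ∑ i, UL μ s r (pd N i) y * φ i y := by
      funext y
      rw [Finset.mul_sum]
      refine Finset.sum_congr rfl fun i _ => ?_
      have := (hUpos y).ne'
      (clear * - this; field_simp)
    have e2 : (fun y => N y * ∑ i, PH (r - s) (φ i) y * (pd N i y / N y))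
        = fun y => ∑ i, pd N i y * PH (r - s) (φ i) y := by
      funext y
      rw [Finset.mul_sum]
      refine Finset.sum_congr rfl fun i _ => ?_
      have := (hε.trans_le (hN1 y)).ne'
      (clear * - this; field_simp)
    rw [e1, e2]
    have hsum : ∀ (t : ℝ) (G : Fin n → (Fin n → ℝ) → ℝ), (∀ i, BM (G i)) →
        EY μ t (fun y => ∑ i, G i y) = ∑ i, EY μ t (G i) := by
      intro t G hG
      unfold EY
      have e3 : PH t (fun y => ∑ i, G i y) = fun y => ∑ i, PH t (G i) y := by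
        funext y
        unfold PH
        refine integral_finsetSum _ fun i _ => ?_
        obtain ⟨C, hC⟩ := (hG i).2
        exact PH_integrable (hG i).1 hC t y
      rw [e3]
      refine integral_finsetSum _ fun i _ => ?_
      obtain ⟨C, hC⟩ := ((hG i).ph t).2
      exact integrable_of_bdd μ ((hG i).ph t).1 hC
    have hp : ∀ i, BM (pd N i) := fun i => SB.bm (hN.sb.pd i)
    rw [hsum r (fun i y => UL μ s r (pd N i) y * φ i y)
      (fun i => (bm_UL h (hp i) s r).mul (SB.bm (hφ i))),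
      hsum s (fun i y => pd N i y * PH (r - s) (φ i) y)
      (fun i => (hp i).mul ((SB.bm (hφ i)).ph _))]
    exact Finset.sum_congr rfl fun i _ => EY_UL h (hp i) (SB.bm (hφ i)) hs hsr

end Vale.Agent.P245.E1
end
end

section

section

open MeasureTheory
open scoped ENNReal

namespace Vale.Agent.P245

variable {Ω : Type*} [MeasurableSpace Ω]

/-- Tightening of a defective log-Sobolev inequality. -/
theorem tighten2 (μ : Measure Ω) [IsProbabilityMeasure μ] {f : Ω → ℝ}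
    (hf : Measurable f) {K : ℝ} (hK : ∀ x, |f x| ≤ K) (m : ℝ) {A C1 C2 CP : ℝ}
    (hA : 0 ≤ A) (hC1 : 0 ≤ C1) (hC20 : 0 ≤ C2) (hCP : 0 ≤ CP)
    (h1 : ent μ (fun x => f x ^ 2) ≤ C1 * A + C2 * ∫ x, f x ^ 2 ∂μ)
    (h2 : ent μ (fun x => (f x - m) ^ 2) ≤ C1 * A + C2 * ∫ x, (f x - m) ^ 2 ∂μ)
    (h3 : ∫ x, (f x - m) ^ 2 ∂μ ≤ CP * A) :
    ent μ (fun x => f x ^ 2) ≤ (4 * C1 + (13 + 4 * C2) * CP) * A := by
  have hK0 : ∀ x, |f x - m| ≤ K + |m| := fun x => (abs_sub _ _).trans (by linarith only [hK x])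
  have hb2 : ∀ x, f x ^ 2 ≤ K ^ 2 := fun x => by
    rw [← sq_abs]; exact pow_le_pow_left₀ (abs_nonneg _) (hK x) 2
  have hbh2 : ∀ x, (f x - m) ^ 2 ≤ (K + |m|) ^ 2 := fun x => by
    rw [← sq_abs]; exact pow_le_pow_left₀ (abs_nonneg _) (hK0 x) 2
  have hfi : Integrable f μ := integrable_of_bdd μ hf hK
  have hf2 : Integrable (fun x => f x ^ 2) μ := integrable_of_bdd μ (by fun_prop)
    (fun x => by rw [abs_of_nonneg (sq_nonneg _)]; exact hb2 x)
  have hh2 : Integrable (fun x => (f x - m) ^ 2) μ := integrable_of_bdd μ (by fun_prop)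
    (fun x => by rw [abs_of_nonneg (sq_nonneg _)]; exact hbh2 x)
  set N := ∫ x, (f x - m) ^ 2 ∂μ with hN
  have hN0 : 0 ≤ N := integral_nonneg fun x => sq_nonneg _
  have hC1A : 0 ≤ C1 * A := mul_nonneg hC1 hA
  have hCPA : 0 ≤ CP * A := mul_nonneg hCP hA
  rcases lt_or_ge (m ^ 2) N with hmN | hmN
  · -- large oscillation
    have e1 : ∫ x, f x ^ 2 ∂μ ≤ 4 * N := by
      calc ∫ x, f x ^ 2 ∂μ ≤ ∫ x, (2 * (f x - m) ^ 2 + 2 * m ^ 2) ∂μ := by
            apply integral_mono hf2 ((hh2.const_mul _).fun_add (integrable_const _))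
            intro x
            simp only
            nlinarith only [sq_nonneg (f x - 2 * m)]
        _ = 2 * N + 2 * m ^ 2 := by
            rw [integral_add (hh2.const_mul _) (integrable_const _), integral_const_mul,
              integral_const]
            simp only [probReal_univ, smul_eq_mul, one_mul, hN]
        _ ≤ 4 * N := by linarith only [hmN]
    have e2 : C2 * ∫ x, f x ^ 2 ∂μ ≤ C2 * (4 * N) := mul_le_mul_of_nonneg_left e1 hC20
    have e3 : C2 * N ≤ C2 * (CP * A) := mul_le_mul_of_nonneg_left h3 hC20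
    linarith
  · rcases hN0.eq_or_lt with hN00 | hNpos
    · -- constant case
      have hz : (fun x => (f x - m) ^ 2) =ᵐ[μ] 0 :=
        (integral_eq_zero_iff_of_nonneg (fun x => sq_nonneg _) hh2).1 hN00.symm
      have hfm : ∀ᵐ x ∂μ, f x = m := by
        filter_upwards [hz] with x hx
        have : (f x - m) ^ 2 = 0 := hx
        have := pow_eq_zero_iff (two_ne_zero) |>.1 this
        linarith only [this]
      have e1 : ∫ x, f x ^ 2 ∂μ = m ^ 2 := by
        rw [integral_congr_ae (g := fun _ => m ^ 2)]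
        · simp
        · filter_upwards [hfm] with x hx
          rw [hx]
      have e2 : ∫ x, f x ^ 2 * Real.log (f x ^ 2) ∂μ = m ^ 2 * Real.log (m ^ 2) := by
        rw [integral_congr_ae (g := fun _ => m ^ 2 * Real.log (m ^ 2))]
        · simp
        · filter_upwards [hfm] with x hx
          rw [hx]
      rw [ent, e1, e2, sub_self]
      have e3 : 0 ≤ C2 * (CP * A) := mul_nonneg hC20 hCPA
      linarith only [e3, hC1A, hN0, h3]
    · have hm2 : 0 < m ^ 2 := lt_of_lt_of_le hNpos hmN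
      have hm0 : m ≠ 0 := fun h => by rw [h] at hm2; simp at hm2
      have hlev := ent_le_level μ (F := fun x => f x ^ 2) (by fun_prop) (fun x => sq_nonneg _)
        hb2 hm2
      have hpt : ∀ x, f x ^ 2 * Real.log (f x ^ 2) - f x ^ 2 * Real.log (m ^ 2) - f x ^ 2 + m ^ 2
          ≤ 9 * (f x - m) ^ 2 + 4 * ((f x - m) ^ 2 * Real.log ((f x - m) ^ 2)
              - (f x - m) ^ 2 * Real.log N + N) := by
        intro x
        have hk := kfun_bound (f x / m)
        have e1 : (f x / m) ^ 2 * Real.log ((f x / m) ^ 2)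
            = (f x ^ 2 * Real.log (f x ^ 2) - f x ^ 2 * Real.log (m ^ 2)) / m ^ 2 := by
          rcases eq_or_ne (f x) 0 with h0 | h0
          · rw [h0]; simp
          · rw [div_pow, Real.log_div (by (clear * - h0; positivity)) (by positivity)]
            ring
        have e2 : (f x / m - 1) ^ 2 = (f x - m) ^ 2 / m ^ 2 := by
          (clear * - hm0; field_simp)
        rw [e1, e2] at hk
        have hl : Real.log (1 + (f x - m) ^ 2 / m ^ 2) ≤ Real.log (1 + (f x - m) ^ 2 / N) := by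
          apply Real.log_le_log (by (clear * - hm0; positivity))
          have : (f x - m) ^ 2 / m ^ 2 ≤ (f x - m) ^ 2 / N :=
            div_le_div_of_nonneg_left (sq_nonneg _) hNpos hmN
          linarith only [this]
        have hq := mul_log_one_add_le (x := (f x - m) ^ 2 / N) (by (clear * - hNpos; positivity))
        have e3 : (f x - m) ^ 2 / N * Real.log ((f x - m) ^ 2 / N)
            = ((f x - m) ^ 2 * Real.log ((f x - m) ^ 2) - (f x - m) ^ 2 * Real.log N) / N := by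
          rcases eq_or_ne (f x - m) 0 with h0 | h0
          · rw [h0]; simp
          · rw [Real.log_div (by (clear * - h0; positivity)) (by (clear * - hNpos; positivity))]
            ring
        rw [e3] at hq
        have hk2 := mul_le_mul_of_nonneg_left hk hm2.le
        have e4 : m ^ 2 * ((f x ^ 2 * Real.log (f x ^ 2) - f x ^ 2 * Real.log (m ^ 2)) / m ^ 2
              - (f x / m) ^ 2 + 1)
            = f x ^ 2 * Real.log (f x ^ 2) - f x ^ 2 * Real.log (m ^ 2) - f x ^ 2 + m ^ 2 := by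
          (clear * - hm0; field_simp)
        have e5 : m ^ 2 * (9 * ((f x - m) ^ 2 / m ^ 2)
              + 4 * ((f x - m) ^ 2 / m ^ 2) * Real.log (1 + (f x - m) ^ 2 / m ^ 2))
            = 9 * (f x - m) ^ 2 + 4 * ((f x - m) ^ 2 * Real.log (1 + (f x - m) ^ 2 / m ^ 2)) := by
          (clear * - hm0; field_simp)
        rw [e4, e5] at hk2
        have h6 : (f x - m) ^ 2 * Real.log (1 + (f x - m) ^ 2 / m ^ 2)
            ≤ (f x - m) ^ 2 * Real.log (1 + (f x - m) ^ 2 / N) :=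
          mul_le_mul_of_nonneg_left hl (sq_nonneg _)
        have h7 := mul_le_mul_of_nonneg_left hq hNpos.le
        have e6 : N * ((f x - m) ^ 2 / N * Real.log (1 + (f x - m) ^ 2 / N))
            = (f x - m) ^ 2 * Real.log (1 + (f x - m) ^ 2 / N) := by
          (clear * - hNpos; field_simp)
        have e7 : N * (((f x - m) ^ 2 * Real.log ((f x - m) ^ 2) - (f x - m) ^ 2 * Real.log N) / N
              + 1)
            = (f x - m) ^ 2 * Real.log ((f x - m) ^ 2) - (f x - m) ^ 2 * Real.log N + N := by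
          (clear * - hNpos; field_simp)
        rw [e6, e7] at h7
        linarith only [hk2, h6, h7]
      have hfl := integrable_mul_log μ (F := fun x => f x ^ 2) (by fun_prop)
        (fun x => sq_nonneg _) hb2
      have hhl := integrable_mul_log μ (F := fun x => (f x - m) ^ 2) (by fun_prop)
        (fun x => sq_nonneg _) hbh2
      have hmono := integral_mono
        (((hfl.sub' (hf2.mul_const (Real.log (m ^ 2)))).sub' hf2).fun_add (integrable_const (m ^ 2)))
        ((hh2.const_mul 9).fun_add (((hhl.sub' (hh2.mul_const (Real.log N))).fun_add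
          (integrable_const N)).const_mul 4)) hpt
      rw [integral_add (f := fun x => 9 * (f x - m) ^ 2)
          (g := fun x => 4 * ((f x - m) ^ 2 * Real.log ((f x - m) ^ 2)
              - (f x - m) ^ 2 * Real.log N + N))
          (hh2.const_mul 9) (((hhl.sub' (hh2.mul_const (Real.log N))).fun_add
          (integrable_const N)).const_mul 4),
        integral_const_mul, integral_const_mul,
        integral_add (hhl.sub' (hh2.mul_const (Real.log N))) (integrable_const N),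
        integral_sub hhl (hh2.mul_const (Real.log N)), integral_mul_const, integral_const,
        ← hN] at hmono
      simp only [probReal_univ, smul_eq_mul, one_mul] at hmono
      have hent : ent μ (fun x => (f x - m) ^ 2)
          = ∫ x, (f x - m) ^ 2 * Real.log ((f x - m) ^ 2) ∂μ - N * Real.log N := by
        rw [ent]
      have h8 : ent μ (fun x => f x ^ 2) ≤ 13 * N + 4 * ent μ (fun x => (f x - m) ^ 2) := by
        rw [hent]
        refine hlev.trans (hmono.trans ?_)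
        linarith only []
      have h9 : C2 * N ≤ C2 * (CP * A) := mul_le_mul_of_nonneg_left h3 hC20
      linarith


end Vale.Agent.P245
end
end

section

section

open MeasureTheory Real Set Filter Topology
open scoped ENNReal

namespace Vale.Agent.P245

variable {n : ℕ}

/-! ### (M6 c) posteriors of log-concave measures are log-concave -/

section

variable {ρ : (Fin n → ℝ) → ℝ} [IsProbabilityMeasure (mu ρ)] {R : ℝ}

/-! ### (M6 d) a crude bound -/

end

/-! ### (M6 e) the bootstrap -/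

end Vale.Agent.P245
end
end

section

section

open MeasureTheory Real Set Filter Topology
open scoped ENNReal

/-!
# Gaussian log-Sobolev inequality for functions of slow growth
-/

namespace Vale.Agent.P245

variable {n : ℕ}

/-- positive `C²` functions with `|log f| ≤ C (1 + |z|₁)` and `|∂ f| ≤ C f` -/
structure LG (f : (Fin n → ℝ) → ℝ) : Prop where
  cd : ContDiff ℝ 2 f
  pos : ∀ z, 0 < f z
  gr : ∃ C, 0 ≤ C ∧ ∀ z, |log (f z)| ≤ C * (1 + ∑ i, |z i|)
  gr1 : ∃ C, 0 ≤ C ∧ ∀ i z, |pd f i z| ≤ C * f z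

theorem pd_comp_smul {g : (Fin n → ℝ) → ℝ} (hg : Differentiable ℝ g) (c : ℝ) (i : Fin n)
    (z : Fin n → ℝ) : pd (fun z => g (c • z)) i z = c * pd g i (c • z) := by
  unfold pd
  have h1 : HasFDerivAt (fun z : Fin n → ℝ => c • z) (c • ContinuousLinearMap.id ℝ (Fin n → ℝ)) z :=
    (hasFDerivAt_id z).const_smul c
  have h2 := (hg (c • z)).hasFDerivAt.comp z h1
  have h3 : fderiv ℝ (fun z => g (c • z)) z
      = (fderiv ℝ g (c • z)).comp (c • ContinuousLinearMap.id ℝ (Fin n → ℝ)) := h2.fderiv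
  rw [h3]
  simp

theorem pd_mul {f g : (Fin n → ℝ) → ℝ} (hf : Differentiable ℝ f) (hg : Differentiable ℝ g)
    (i : Fin n) (z : Fin n → ℝ) :
    pd (fun z => f z * g z) i z = f z * pd g i z + g z * pd f i z := by
  unfold pd
  rw [fderiv_fun_mul (hf z) (hg z)]
  simp only [add_apply, smul_apply, smul_eq_mul]

theorem pd_comp1 {φ φ' : ℝ → ℝ} {f : (Fin n → ℝ) → ℝ} (hf : Differentiable ℝ f)
    (hφ : ∀ z, HasDerivAt φ (φ' (f z)) (f z)) (i : Fin n) (z : Fin n → ℝ) :
    pd (fun z => φ (f z)) i z = φ' (f z) * pd f i z := by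
  unfold pd
  have := (hφ z).comp_hasFDerivAt z (hf z).hasFDerivAt
  have e : fderiv ℝ (fun z => φ (f z)) z = φ' (f z) • fderiv ℝ f z := this.fderiv
  rw [e]
  simp

theorem gsn_eq_gwt : gsn n = volume.withDensity fun x => ENNReal.ofReal
    (gwt 1 (fun _ => (√(2 * π))⁻¹ ^ n) x) := by
  unfold gsn
  congr 1
  funext z
  congr 1
  rw [gd_eq]
  unfold gwt
  congr 2
  ring

theorem LCd_const {c : ℝ} (hc : 0 < c) : LCd (n := n) fun _ => c where
  meas := measurable_const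
  nonneg := fun _ => hc.le
  lc := by
    intro x y s hs0 hs1
    rw [← rpow_add hc]
    have : 1 - s + s = 1 := by ring
    rw [this, rpow_one]

theorem one_add_sum_nonneg (z : Fin n → ℝ) : 0 ≤ 1 + ∑ i, |z i| := by
  have : 0 ≤ ∑ i, |z i| := Finset.sum_nonneg fun i _ => abs_nonneg _
  linarith

theorem integrable_exp_one_add (C : ℝ) :
    Integrable (fun z : Fin n → ℝ => exp (C * (1 + ∑ i, |z i|))) (gsn n) := by
  have : (fun z : Fin n → ℝ => exp (C * (1 + ∑ i, |z i|)))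
      = fun z => exp C * exp (C * ∑ i, |z i|) := by
    funext z; rw [← exp_add]; congr 1; ring
  rw [this]
  exact (integrable_exp_abs C).const_mul _

/-- **Gaussian log-Sobolev inequality** -/
theorem gauss_lsi {f : (Fin n → ℝ) → ℝ} (hf : LG f) :
    ∫ z, f z * log (f z) ∂(gsn n) - (∫ z, f z ∂(gsn n)) * log (∫ z, f z ∂(gsn n))
      ≤ 1 / 2 * ∫ z, (f z)⁻¹ * ∑ i, pd f i z ^ 2 ∂(gsn n) := by
  obtain ⟨C, hC0, hC⟩ := hf.gr
  obtain ⟨C1, hC10, hC1⟩ := hf.gr1
  set L : (Fin n → ℝ) → ℝ := fun z => log (f z) with hL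
  have hLcd : ContDiff ℝ 2 L := hf.cd.log fun z => (hf.pos z).ne'
  have hLd : Differentiable ℝ L := hLcd.differentiable (by norm_num)
  have hfd : Differentiable ℝ f := hf.cd.differentiable (by norm_num)
  have hpdL : ∀ i z, pd L i z = (f z)⁻¹ * pd f i z := fun i z =>
    pd_comp1 (φ := Real.log) (φ' := fun t => t⁻¹) hfd (fun z => Real.hasDerivAt_log (hf.pos z).ne') i z
  have hpdLb : ∀ i z, |pd L i z| ≤ C1 := by
    intro i z
    rw [hpdL, abs_mul, abs_of_pos (inv_pos.2 (hf.pos z)), inv_mul_le_iff₀ (hf.pos z), mul_comm]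
    exact hC1 i z
  -- cutoffs
  let χ : ContDiffBump (0 : Fin n → ℝ) := ⟨1, 2, one_pos, one_lt_two⟩
  have hχcd : ContDiff ℝ 2 (χ : (Fin n → ℝ) → ℝ) := χ.contDiff
  have hχd : Differentiable ℝ (χ : (Fin n → ℝ) → ℝ) := hχcd.differentiable (by norm_num)
  have hχout : ∀ z : Fin n → ℝ, 2 < ‖z‖ → χ z = 0 := fun z hz =>
    χ.zero_of_le_dist (by rw [dist_zero_right]; exact hz.le)
  have hχout' : ∀ z : Fin n → ℝ, 2 ≤ ‖z‖ → χ z = 0 := fun z hz =>
    χ.zero_of_le_dist (by rw [dist_zero_right]; exact hz)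
  have hP : ∀ i, ∃ P, ∀ x, |pd (χ : (Fin n → ℝ) → ℝ) i x| ≤ P := fun i =>
    bdd_of_const_outside (continuous_pd (hχcd.of_le (by norm_num)) i) (pd_const_outside hχout i)
  choose P hP using hP
  set k' : ℕ → ℝ := fun k => ((k : ℝ) + 1)⁻¹ with hk'
  have hk0 : ∀ k, 0 < k' k := fun k => by simp only [hk']; (clear * -; positivity)
  have hk1 : ∀ k, k' k ≤ 1 := fun k => by
    simp only [hk']
    apply inv_le_one_of_one_le₀
    have : (0 : ℝ) ≤ k := Nat.cast_nonneg k
    linarith only []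
  set X : ℕ → (Fin n → ℝ) → ℝ := fun k z => χ (k' k • z) with hX
  have hXcd : ∀ k, ContDiff ℝ 2 (X k) := fun k => hχcd.comp (contDiff_const_smul _)
  have hXd : ∀ k, Differentiable ℝ (X k) := fun k => (hXcd k).differentiable (by norm_num)
  have hX0 : ∀ k z, 0 ≤ X k z := fun k z => χ.nonneg
  have hX1 : ∀ k z, X k z ≤ 1 := fun k z => χ.le_one
  have hpdX : ∀ k i z, pd (X k) i z = k' k * pd (χ : (Fin n → ℝ) → ℝ) i (k' k • z) := fun k i z =>
    pd_comp_smul hχd _ i z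
  -- the bound on `∂χ_k L`
  have hXL : ∀ k i z, |pd (X k) i z * L z| ≤ P i * (C * (1 + 2 * n)) := by
    intro k i z
    have hP0 : 0 ≤ P i := (abs_nonneg _).trans (hP i 0)
    rcases lt_or_ge 2 ‖k' k • z‖ with h | h
    · have : pd (χ : (Fin n → ℝ) → ℝ) i (k' k • z) = 0 := by
        unfold pd
        rw [fderiv_eq_zero_of_const_outside hχout _ h]
        simp
      rw [hpdX, this, mul_zero, zero_mul, abs_zero]
      (clear * - hP0 hC0; positivity)
    · rw [norm_smul, Real.norm_of_nonneg (hk0 k).le] at h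
      have hz : ∀ j, k' k * |z j| ≤ 2 := fun j =>
        (mul_le_mul_of_nonneg_left (by rw [← Real.norm_eq_abs]; exact norm_le_pi_norm z j)
          (hk0 k).le).trans h
      have hs : k' k * (1 + ∑ j, |z j|) ≤ 1 + 2 * n := by
        rw [mul_add, mul_one, Finset.mul_sum]
        have h1 : ∑ j, k' k * |z j| ≤ ∑ _j : Fin n, (2 : ℝ) :=
          Finset.sum_le_sum fun j _ => hz j
        rw [Finset.sum_const, Finset.card_univ, Fintype.card_fin, nsmul_eq_mul] at h1
        linarith only [h1, hk1 k]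
      rw [hpdX, abs_mul, abs_mul, abs_of_pos (hk0 k)]
      calc k' k * |pd (χ : (Fin n → ℝ) → ℝ) i (k' k • z)| * |L z|
          ≤ k' k * P i * (C * (1 + ∑ j, |z j|)) :=
            mul_le_mul (mul_le_mul_of_nonneg_left (hP i _) (hk0 k).le) (hC z) (abs_nonneg _)
              (mul_nonneg (hk0 k).le hP0)
        _ = P i * (C * (k' k * (1 + ∑ j, |z j|))) := by ring
        _ ≤ _ := mul_le_mul_of_nonneg_left (mul_le_mul_of_nonneg_left hs hC0) hP0
  -- test functions
  set F : ℕ → (Fin n → ℝ) → ℝ := fun k z => exp (X k z * L z / 2) with hF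
  have hFcd : ∀ k, ContDiff ℝ 2 (F k) := fun k =>
    (((hXcd k).mul hLcd).div_const 2).exp
  have hF2 : ∀ k z, F k z ^ 2 = exp (X k z * L z) := fun k z => by
    simp only [hF]; rw [← exp_nat_mul]; congr 1; push_cast; ring
  have hFout : ∀ k z, 2 * (k' k)⁻¹ < ‖z‖ → F k z = 1 := by
    intro k z hz
    have : X k z = 0 := by
      apply hχout
      rw [norm_smul, Real.norm_of_nonneg (hk0 k).le]
      rw [← div_eq_mul_inv, div_lt_iff₀ (hk0 k)] at hz
      linarith only [hz]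
    simp only [hF]
    rw [this, zero_mul, zero_div, exp_zero]
  have hpdF : ∀ k i z, pd (F k) i z
      = F k z * ((X k z * pd L i z + pd (X k) i z * L z) / 2) := by
    intro k i z
    have hd2 : Differentiable ℝ fun z => X k z * L z / 2 := by
      have h5 : (fun z => X k z * L z / 2) = fun z => (1 / 2 : ℝ) * (X k z * L z) := by
        funext z; ring
      rw [h5]
      exact ((hXd k).mul hLd).const_mul (1 / 2)
    have h1 := pd_comp1 (φ := Real.exp) (φ' := Real.exp) (f := fun z => X k z * L z / 2)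
      hd2 (fun z => Real.hasDerivAt_exp _) i z
    have h2 : pd (fun z => X k z * L z / 2) i z = (X k z * pd L i z + L z * pd (X k) i z) / 2 := by
      have h3 := pd_mul (hXd k) hLd i z
      have h4 : pd (fun z => X k z * L z / 2) i z = 1 / 2 * pd (fun z => X k z * L z) i z :=
        pd_comp1 (φ := fun t => t / 2) (φ' := fun _ => 1 / 2) (f := fun z => X k z * L z)
          ((hXd k).mul hLd) (fun z => (hasDerivAt_id _).div_const 2) i z
      rw [h4, h3]; ring
    simp only [hF] at h1 ⊢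
    rw [h1, h2]
    ring
  -- the inequality for the test functions
  have hlsi : ∀ k, ent (gsn n) (fun z => F k z ^ 2) ≤ 2 * ∫ z, ∑ i, pd (F k) i z ^ 2 ∂(gsn n) := by
    intro k
    have h1 := lsi_slc (κ := 1) one_pos (LCd_const (n := n) (c := (√(2 * π))⁻¹ ^ n) (by positivity))
      (ν := gsn n) gsn_eq_gwt (hFcd k) (hFout k)
    have hF1 : ContDiff ℝ 1 (F k) := (hFcd k).of_le (by norm_num)
    rw [← integral_finsetSum] at h1
    · simpa only [ge_iff_le, div_one] using h1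
    · intro i _
      obtain ⟨Q, hQ⟩ := bdd_of_const_outside (continuous_pd hF1 i)
        (pd_const_outside (hFout k) i)
      exact integrable_of_bdd _ ((continuous_pd hF1 i).measurable.pow_const 2) (K := Q ^ 2)
        fun x => by
          rw [abs_of_nonneg (sq_nonneg _), ← sq_abs]
          exact pow_le_pow_left₀ (abs_nonneg _) (hQ x) 2
  -- eventually the cutoff is one near `z`
  have hev : ∀ z : Fin n → ℝ, ∀ᶠ k in atTop, X k z = 1 ∧ ∀ i, pd (X k) i z = 0 := by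
    intro z
    obtain ⟨K, hK⟩ := exists_nat_gt ‖z‖
    filter_upwards [eventually_ge_atTop K] with k hk
    have hb : k' k • z ∈ Metric.ball (0 : Fin n → ℝ) 1 := by
      rw [mem_ball_zero_iff, norm_smul, Real.norm_of_nonneg (hk0 k).le]
      simp only [hk']
      rw [inv_mul_lt_iff₀ (by (clear * -; positivity)), mul_one]
      have : (K : ℝ) ≤ k := by exact_mod_cast hk
      linarith only [hK, this]
    have he : (χ : (Fin n → ℝ) → ℝ) =ᶠ[𝓝 (k' k • z)] fun _ => 1 := χ.eventuallyEq_one_of_mem_ball hb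
    refine ⟨he.eq_of_nhds, fun i => ?_⟩
    rw [hpdX]
    have : pd (χ : (Fin n → ℝ) → ℝ) i (k' k • z) = 0 := by
      unfold pd
      rw [he.fderiv_eq]
      simp only [fderiv_fun_const, Pi.zero_apply, zero_apply]
    rw [this, mul_zero]
  -- domination
  have hdom : ∀ k z, exp (X k z * L z) ≤ exp (C * (1 + ∑ i, |z i|)) := by
    intro k z
    apply exp_le_exp.2
    calc X k z * L z ≤ |X k z * L z| := le_abs_self _
      _ = X k z * |L z| := by rw [abs_mul, abs_of_nonneg (hX0 k z)]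
      _ ≤ 1 * |L z| := mul_le_mul_of_nonneg_right (hX1 k z) (abs_nonneg _)
      _ ≤ _ := by rw [one_mul]; exact hC z
  have hXLb : ∀ k z, |X k z * L z| ≤ C * (1 + ∑ i, |z i|) := by
    intro k z
    calc |X k z * L z| = X k z * |L z| := by rw [abs_mul, abs_of_nonneg (hX0 k z)]
      _ ≤ 1 * |L z| := mul_le_mul_of_nonneg_right (hX1 k z) (abs_nonneg _)
      _ ≤ _ := by rw [one_mul]; exact hC z
  have cX : ∀ k, Continuous (X k) := fun k => (hXcd k).continuous
  have cL : Continuous L := hLcd.continuous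
  have lim1 : Tendsto (fun k => ∫ z, F k z ^ 2 ∂(gsn n)) atTop (𝓝 (∫ z, f z ∂(gsn n))) := by
    apply tendsto_integral_of_dominated_convergence (fun z => exp (C * (1 + ∑ i, |z i|)))
    · exact fun k => ((hFcd k).continuous.pow 2).aestronglyMeasurable
    · exact integrable_exp_one_add C
    · exact fun k => Eventually.of_forall fun z => by
        rw [Real.norm_of_nonneg (sq_nonneg _), hF2]; exact hdom k z
    · refine Eventually.of_forall fun z => ?_
      apply tendsto_const_nhds.congr'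
      filter_upwards [hev z] with k hk
      rw [hF2, hk.1, one_mul, hL, exp_log (hf.pos z)]
  have lim2 : Tendsto (fun k => ∫ z, F k z ^ 2 * log (F k z ^ 2) ∂(gsn n)) atTop
      (𝓝 (∫ z, f z * log (f z) ∂(gsn n))) := by
    apply tendsto_integral_of_dominated_convergence (fun z => exp ((2 * C) * (1 + ∑ i, |z i|)))
    · intro k
      have hmeas : Measurable fun x => F k x ^ 2 := ((hFcd k).continuous.pow 2).measurable
      exact (hmeas.mul hmeas.log).aestronglyMeasurable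
    · exact integrable_exp_one_add _
    · refine fun k => Eventually.of_forall fun z => ?_
      rw [Real.norm_eq_abs, hF2, log_exp, abs_mul, abs_of_pos (exp_pos _)]
      have h1 : |X k z * L z| ≤ exp (C * (1 + ∑ i, |z i|)) := by
        refine (hXLb k z).trans ?_
        linarith only [add_one_le_exp (C * (1 + ∑ i, |z i|))]
      calc exp (X k z * L z) * |X k z * L z|
          ≤ exp (C * (1 + ∑ i, |z i|)) * exp (C * (1 + ∑ i, |z i|)) :=
            mul_le_mul (hdom k z) h1 (abs_nonneg _) (exp_pos _).le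
        _ = _ := by rw [← exp_add]; ring_nf
    · refine Eventually.of_forall fun z => ?_
      apply tendsto_const_nhds.congr'
      filter_upwards [hev z] with k hk
      rw [hF2, hk.1, one_mul, hL, exp_log (hf.pos z)]
  have lim3 : Tendsto (fun k => ∫ z, ∑ i, pd (F k) i z ^ 2 ∂(gsn n)) atTop
      (𝓝 (∫ z, 1 / 4 * ((f z)⁻¹ * ∑ i, pd f i z ^ 2) ∂(gsn n))) := by
    apply tendsto_integral_of_dominated_convergence
      (fun z => (∑ i, (C1 + P i * (C * (1 + 2 * n))) ^ 2) * exp (C * (1 + ∑ i, |z i|)))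
    · exact fun k => (continuous_finsetSum _ fun i _ =>
        (continuous_pd ((hFcd k).of_le (by norm_num)) i).pow 2).aestronglyMeasurable
    · exact (integrable_exp_one_add C).const_mul _
    · refine fun k => Eventually.of_forall fun z => ?_
      rw [Real.norm_of_nonneg (Finset.sum_nonneg fun i _ => sq_nonneg _), Finset.sum_mul]
      apply Finset.sum_le_sum
      intro i _
      rw [hpdF, mul_pow, hF2, mul_comm]
      apply mul_le_mul _ (hdom k z) (exp_pos _).le (sq_nonneg _)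
      rw [← sq_abs]
      apply pow_le_pow_left₀ (abs_nonneg _)
      rw [abs_div, abs_of_pos (by norm_num : (0 : ℝ) < 2)]
      have h1 : |X k z * pd L i z + pd (X k) i z * L z| ≤ C1 + P i * (C * (1 + 2 * n)) := by
        refine (abs_add_le _ _).trans (add_le_add ?_ (hXL k i z))
        rw [abs_mul, abs_of_nonneg (hX0 k z)]
        calc X k z * |pd L i z| ≤ 1 * C1 :=
              mul_le_mul (hX1 k z) (hpdLb i z) (abs_nonneg _) zero_le_one
          _ = C1 := one_mul _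
      have h2 := abs_nonneg (X k z * pd L i z + pd (X k) i z * L z)
      linarith only [h1, h2]
    · refine Eventually.of_forall fun z => ?_
      apply tendsto_const_nhds.congr'
      filter_upwards [hev z] with k hk
      rw [Finset.mul_sum, Finset.mul_sum]
      apply Finset.sum_congr rfl
      intro i _
      rw [hpdF, mul_pow, hF2, hk.1, hk.2 i, one_mul, one_mul, zero_mul, add_zero, hL,
        exp_log (hf.pos z)]
      have e := hpdL i z
      rw [hL] at e
      rw [e]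
      have := (hf.pos z).ne'
      field_simp
      ring
  have limE : Tendsto (fun k => ent (gsn n) fun z => F k z ^ 2) atTop
      (𝓝 (∫ z, f z * log (f z) ∂(gsn n)
        - (∫ z, f z ∂(gsn n)) * log (∫ z, f z ∂(gsn n)))) := by
    unfold ent
    exact lim2.sub ((continuous_mul_log.tendsto _).comp lim1)
  have := le_of_tendsto_of_tendsto limE (lim3.const_mul 2) (Eventually.of_forall hlsi)
  refine this.trans (le_of_eq ?_)
  rw [integral_const_mul]
  ring

end Vale.Agent.P245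
end
end

section

section

open MeasureTheory Real Set Filter Topology
open scoped ENNReal ContDiff

/-!
# The extra noise channel: averaging identities (abstract form)
-/

namespace Vale.Agent.P245.LS

variable {n : ℕ} {Ω : Type*} [MeasurableSpace Ω]

/-- second moment of an affine Gaussian -/
theorem gauss_affine_sq (c : ℝ) (b : Fin n → ℝ) :
    ∫ z, (c + ∑ j, z j * b j) ^ 2 ∂(gsn n) = c ^ 2 + ∑ j, b j ^ 2 := by
  have hlin : ∀ d : ℝ, EG1 fun z : Fin n → ℝ => d + ∑ j, z j * b j := by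
    intro d
    refine (EG1.const d).add ?_
    have := EG1.sum (n := n) Finset.univ (φ := fun j z => z j * b j)
      (fun j _ => by
        have := (EG1.coord (n := n) j).const_mul (b j)
        simpa [mul_comm] using this)
    exact this
  have hcont : ∀ d : ℝ, Continuous fun z : Fin n → ℝ => d + ∑ j, z j * b j := by
    intro d; fun_prop
  have hint : ∀ d : ℝ, Integrable (fun z : Fin n → ℝ => d + ∑ j, z j * b j) (gsn n) :=
    fun d => (hlin d).integrable (hcont d).aestronglyMeasurable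
  have hj : ∀ j, ∫ z, z j * (c + ∑ k, z k * b k) ∂(gsn n) = b j := by
    intro j
    have hd : ∀ z : Fin n → ℝ, fderiv ℝ (fun z : Fin n → ℝ => c + ∑ k, z k * b k) z
        (Pi.single j 1) = b j := by
      intro z
      have h1 : HasFDerivAt (fun z : Fin n → ℝ => c + ∑ k, z k * b k)
          (∑ k, b k • (ContinuousLinearMap.proj (R := ℝ) k : (Fin n → ℝ) →L[ℝ] ℝ)) z := by
        refine HasFDerivAt.const_add _ ?_
        refine HasFDerivAt.fun_sum fun k _ => ?_
        exact ((ContinuousLinearMap.proj (R := ℝ) k : (Fin n → ℝ) →L[ℝ] ℝ).hasFDerivAt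
          (x := z)).mul_const (b k)
      rw [h1.fderiv]
      simp only [sum_apply, smul_apply, ContinuousLinearMap.proj_apply, Pi.single_apply, smul_eq_mul, mul_ite, mul_one, mul_zero, Finset.sum_ite_eq', Finset.mem_univ, ↓reduceIte]
    have := gauss_ibp (φ := fun z : Fin n → ℝ => c + ∑ k, z k * b k) (by (clear * -; fun_prop)) (hlin c) j
      (by simp_rw [hd]; exact EG1.const _) (by simp_rw [hd]; exact aestronglyMeasurable_const)
    rw [this]
    simp_rw [hd]
    simp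
  have hmj : ∀ j, Integrable (fun z : Fin n → ℝ => z j * (c + ∑ k, z k * b k)) (gsn n) :=
    fun j => ((hlin c).mul_coord j).integrable
      ((continuous_apply j).mul (hcont c)).aestronglyMeasurable
  have e : ∀ z : Fin n → ℝ, (c + ∑ j, z j * b j) ^ 2
      = c * (c + ∑ j, z j * b j) + ∑ j, b j * (z j * (c + ∑ k, z k * b k)) := by
    intro z
    have : ∑ j, b j * (z j * (c + ∑ k, z k * b k)) = (∑ j, z j * b j) * (c + ∑ k, z k * b k) := by
      rw [Finset.sum_mul]; apply Finset.sum_congr rfl; intro j _; ring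
    rw [this]; ring
  simp_rw [e]
  rw [integral_add ((hint c).const_mul c) (integrable_finsetSum _ fun j _ => (hmj j).const_mul _),
    integral_const_mul, integral_finsetSum _ fun j _ => (hmj j).const_mul _]
  simp_rw [integral_const_mul, hj]
  have h0 : ∫ z : Fin n → ℝ, (c + ∑ j, z j * b j) ∂(gsn n) = c := by
    have i1 : ∀ j : Fin n, Integrable (fun z : Fin n → ℝ => z j * b j) (gsn n) := fun j =>
      ((EG1.coord (n := n) j).integrable
        (continuous_apply j).aestronglyMeasurable).mul_const (b j)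
    rw [integral_add (integrable_const _) (integrable_finsetSum _ fun j _ => i1 j),
      integral_finsetSum _ fun j _ => i1 j]
    simp_rw [integral_mul_const, gauss_mean]
    simp only [integral_const, probReal_univ, smul_eq_mul, one_mul, zero_mul, Finset.sum_const_zero, add_zero]
  rw [h0]
  congr 1
  · ring
  · apply Finset.sum_congr rfl; intro j _; ring

/-- the likelihood ratio, abstract form -/
noncomputable def lr (t : ℝ) (z v : Fin n → ℝ) : ℝ :=
  exp (√t * ∑ i, z i * v i - t / 2 * ∑ i, v i ^ 2)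

theorem lr_eq {t : ℝ} (ht : 0 ≤ t) (z v : Fin n → ℝ) :
    lr t z v = exp (∑ i, (√t * v i) * z i - (∑ i, (√t * v i) ^ 2) / 2) := by
  unfold lr
  congr 1
  rw [Finset.mul_sum, Finset.mul_sum, Finset.sum_div]
  congr 1
  · apply Finset.sum_congr rfl; intro i _; ring
  · apply Finset.sum_congr rfl; intro i _
    rw [mul_pow, sq_sqrt ht]; ring

theorem lr_pos (t : ℝ) (z v : Fin n → ℝ) : 0 < lr t z v := exp_pos _

/-- Cameron–Martin for `lr` -/
theorem integral_lr {t : ℝ} (ht : 0 ≤ t) (v : Fin n → ℝ) (φ : (Fin n → ℝ) → ℝ) :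
    ∫ z, lr t z v * φ z ∂(gsn n) = ∫ z, φ (fun i => z i + √t * v i) ∂(gsn n) := by
  have := integral_gam_shift (fun i => √t * v i) φ
  have e : ∀ z : Fin n → ℝ, φ (z + fun i => √t * v i) = φ (fun i => z i + √t * v i) := by
    intro z; rfl
  simp_rw [e] at this
  rw [this]
  congr 1
  funext z
  rw [lr_eq ht]; ring

theorem integral_lr_one {t : ℝ} (ht : 0 ≤ t) (v : Fin n → ℝ) :
    ∫ z, lr t z v ∂(gsn n) = 1 := by
  have := integral_lr ht v (fun _ => (1 : ℝ))
  simpa only [mul_one, integral_const, probReal_univ, smul_eq_mul] using this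

theorem integral_lr_log {t : ℝ} (ht : 0 ≤ t) (v : Fin n → ℝ) (c : ℝ) :
    ∫ z, lr t z v * (c + (√t * ∑ i, z i * v i - t / 2 * ∑ i, v i ^ 2)) ∂(gsn n)
      = c + t / 2 * ∑ i, v i ^ 2 := by
  rw [integral_lr ht v]
  have e : ∀ z : Fin n → ℝ, c + (√t * ∑ i, (z i + √t * v i) * v i - t / 2 * ∑ i, v i ^ 2)
      = (c + t / 2 * ∑ i, v i ^ 2) + ∑ i, z i * (√t * v i) := by
    intro z
    have h1 : ∑ i, (z i + √t * v i) * v i = ∑ i, z i * v i + √t * ∑ i, v i ^ 2 := by
      rw [Finset.mul_sum, ← Finset.sum_add_distrib]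
      apply Finset.sum_congr rfl; intro i _; ring
    have h2 : ∑ i, z i * (√t * v i) = √t * ∑ i, z i * v i := by
      rw [Finset.mul_sum]; apply Finset.sum_congr rfl; intro i _; ring
    rw [h1, h2]
    have h3 : √t * √t = t := mul_self_sqrt ht
    linear_combination (∑ i, v i ^ 2) * h3
  simp_rw [e]
  have i1 : ∀ j : Fin n, Integrable (fun z : Fin n → ℝ => z j * (√t * v j)) (gsn n) := fun j =>
    ((EG1.coord (n := n) j).integrable
      (continuous_apply j).aestronglyMeasurable).mul_const _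
  rw [integral_add (integrable_const _) (integrable_finsetSum _ fun j _ => i1 j),
    integral_finsetSum _ fun j _ => i1 j]
  simp_rw [integral_mul_const, gauss_mean]
  simp only [integral_const, probReal_univ, smul_eq_mul, one_mul, zero_mul, Finset.sum_const_zero, add_zero]

/-- integrability on the product -/
theorem integrable_prod_exp (P : Measure Ω) [IsProbabilityMeasure P]
    {F : (Fin n → ℝ) × Ω → ℝ} (hF : Measurable F) {C : ℝ}
    (hb : ∀ q, |F q| ≤ C * exp (C * ∑ i, |q.1 i|)) : Integrable F ((gsn n).prod P) := by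
  have h1 : Integrable (fun q : (Fin n → ℝ) × Ω => C * exp (C * ∑ i, |q.1 i|))
      ((gsn n).prod P) := by
    have := ((integrable_exp_abs (n := n) C).const_mul C).mul_prod
      (integrable_const (1 : ℝ) (μ := P))
    simpa only [mul_one] using this
  exact h1.mono' hF.aestronglyMeasurable (Eventually.of_forall fun q => by
    rw [norm_eq_abs]; exact hb q)

theorem lr_le {t B : ℝ} (ht : 0 ≤ t) (z : Fin n → ℝ) {v : Fin n → ℝ}
    (hv : ∀ i, |v i| ≤ B) : lr t z v ≤ exp (√t * B * ∑ i, |z i|) := by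
  unfold lr
  apply exp_le_exp.2
  have h0 : 0 ≤ t / 2 * ∑ i, v i ^ 2 := by positivity
  have h1 : ∑ i, z i * v i ≤ B * ∑ i, |z i| := by
    rw [Finset.mul_sum]
    apply Finset.sum_le_sum
    intro i _
    calc z i * v i ≤ |z i * v i| := le_abs_self _
      _ = |v i| * |z i| := by rw [abs_mul, mul_comm]
      _ ≤ B * |z i| := mul_le_mul_of_nonneg_right (hv i) (abs_nonneg _)
  have h2 := mul_le_mul_of_nonneg_left h1 (sqrt_nonneg t)
  linarith

/-- exponential growth in the first variable -/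
def EGP (F : (Fin n → ℝ) × Ω → ℝ) : Prop :=
  ∃ C, 0 ≤ C ∧ ∀ q, |F q| ≤ C * exp (C * ∑ i, |q.1 i|)

theorem EGP.mul {F G : (Fin n → ℝ) × Ω → ℝ} (hF : EGP F) (hG : EGP G) :
    EGP fun q => F q * G q := by
  obtain ⟨C, hC, h1⟩ := hF
  obtain ⟨C', hC', h2⟩ := hG
  refine ⟨C * C' + C + C', by positivity, fun q => ?_⟩
  have hS : 0 ≤ ∑ i, |q.1 i| := Finset.sum_nonneg fun i _ => abs_nonneg _
  rw [abs_mul]
  calc |F q| * |G q| ≤ (C * exp (C * ∑ i, |q.1 i|)) * (C' * exp (C' * ∑ i, |q.1 i|)) :=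
        mul_le_mul (h1 q) (h2 q) (abs_nonneg _) (by positivity)
    _ = C * C' * exp ((C + C') * ∑ i, |q.1 i|) := by
        rw [add_mul, exp_add]; ring
    _ ≤ (C * C' + C + C') * exp ((C * C' + C + C') * ∑ i, |q.1 i|) := by
        apply mul_le_mul (by linarith only [hC, hC']) _ (exp_pos _).le (by (clear * - hC hC'; positivity))
        apply exp_le_exp.2
        apply mul_le_mul_of_nonneg_right _ hS
        have := mul_nonneg hC hC'
        linarith

theorem EGP.add {F G : (Fin n → ℝ) × Ω → ℝ} (hF : EGP F) (hG : EGP G) :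
    EGP fun q => F q + G q := by
  obtain ⟨C, hC, h1⟩ := hF
  obtain ⟨C', hC', h2⟩ := hG
  refine ⟨C + C', by positivity, fun q => ?_⟩
  have hS : 0 ≤ ∑ i, |q.1 i| := Finset.sum_nonneg fun i _ => abs_nonneg _
  have e1 : exp (C * ∑ i, |q.1 i|) ≤ exp ((C + C') * ∑ i, |q.1 i|) :=
    exp_le_exp.2 (mul_le_mul_of_nonneg_right (by linarith) hS)
  have e2 : exp (C' * ∑ i, |q.1 i|) ≤ exp ((C + C') * ∑ i, |q.1 i|) :=
    exp_le_exp.2 (mul_le_mul_of_nonneg_right (by linarith) hS)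
  calc |F q + G q| ≤ |F q| + |G q| := abs_add_le _ _
    _ ≤ C * exp (C * ∑ i, |q.1 i|) + C' * exp (C' * ∑ i, |q.1 i|) := add_le_add (h1 q) (h2 q)
    _ ≤ C * exp ((C + C') * ∑ i, |q.1 i|) + C' * exp ((C + C') * ∑ i, |q.1 i|) :=
        add_le_add (mul_le_mul_of_nonneg_left e1 hC) (mul_le_mul_of_nonneg_left e2 hC')
    _ = _ := by ring

theorem EGP.of_bdd {F : (Fin n → ℝ) × Ω → ℝ} {G : ℝ} (hG : ∀ q, |F q| ≤ G) : EGP F := by
  refine ⟨|G|, abs_nonneg _, fun q => ?_⟩
  have hS : 0 ≤ ∑ i, |q.1 i| := Finset.sum_nonneg fun i _ => abs_nonneg _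
  have h1 : 1 ≤ exp (|G| * ∑ i, |q.1 i|) := one_le_exp (by positivity)
  calc |F q| ≤ |G| * 1 := by rw [mul_one]; exact (hG q).trans (le_abs_self _)
    _ ≤ _ := mul_le_mul_of_nonneg_left h1 (abs_nonneg _)

theorem EGP.coord (i : Fin n) : EGP (Ω := Ω) fun q => q.1 i := by
  refine ⟨1, by norm_num, fun q => ?_⟩
  have h1 : |q.1 i| ≤ ∑ j, |q.1 j| := Finset.single_le_sum (f := fun j => |q.1 j|)
    (fun j _ => abs_nonneg _) (Finset.mem_univ i)
  have h2 := add_one_le_exp (∑ j, |q.1 j|)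
  simp only [one_mul]
  linarith

theorem EGP.sum {ι : Type*} (s : Finset ι) {F : ι → (Fin n → ℝ) × Ω → ℝ}
    (h : ∀ i ∈ s, EGP (F i)) : EGP fun q => ∑ i ∈ s, F i q := by
  classical
  induction s using Finset.induction_on with
  | empty => simpa using EGP.of_bdd (n := n) (Ω := Ω) (F := fun _ => (0 : ℝ)) (G := 0) (by simp)
  | insert i s hi ih =>
    simp only [Finset.sum_insert hi]
    exact (h i (Finset.mem_insert_self _ _)).add (ih fun j hj => h j (Finset.mem_insert_of_mem hj))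

theorem EGP.integrable {P : Measure Ω} [IsProbabilityMeasure P] {F : (Fin n → ℝ) × Ω → ℝ}
    (h : EGP F) (hF : Measurable F) : Integrable F ((gsn n).prod P) := by
  obtain ⟨C, _, hb⟩ := h
  exact integrable_prod_exp P hF hb

theorem EGP.fubini {P : Measure Ω} [IsProbabilityMeasure P] {F : (Fin n → ℝ) × Ω → ℝ}
    (h : EGP F) (hF : Measurable F) :
    ∫ z, ∫ y, F (z, y) ∂P ∂(gsn n) = ∫ y, ∫ z, F (z, y) ∂(gsn n) ∂P :=
  integral_integral_swap (h.integrable hF)

/-- data for the abstract channel -/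
structure AD (P : Measure Ω) (N : Ω → ℝ) (V : Ω → Fin n → ℝ) : Prop where
  Nm : Measurable N
  Vm : ∀ i, Measurable fun y => V y i
  Nb : ∃ G, ∀ y, |N y| ≤ G
  Nl : ∃ ε, 0 < ε ∧ ∀ y, ε ≤ N y
  Vb : ∃ B, 0 ≤ B ∧ ∀ y i, |V y i| ≤ B
  N1 : ∫ y, N y ∂P = 1

section AD

variable {P : Measure Ω} {N : Ω → ℝ} {V : Ω → Fin n → ℝ}

theorem AD.egp_lr (h : AD P N V) {t : ℝ} (ht : 0 ≤ t) :
    EGP fun q : (Fin n → ℝ) × Ω => lr t q.1 (V q.2) := by
  obtain ⟨B, hB0, hB⟩ := h.Vb
  refine ⟨√t * B + 1, by positivity, fun q => ?_⟩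
  have hS : 0 ≤ ∑ i, |q.1 i| := Finset.sum_nonneg fun i _ => abs_nonneg _
  rw [abs_of_pos (lr_pos _ _ _)]
  refine (lr_le ht q.1 (hB q.2)).trans ?_
  have h1 : exp (√t * B * ∑ i, |q.1 i|) ≤ exp ((√t * B + 1) * ∑ i, |q.1 i|) :=
    exp_le_exp.2 (mul_le_mul_of_nonneg_right (by linarith) hS)
  have h2 : 1 * exp ((√t * B + 1) * ∑ i, |q.1 i|)
      ≤ (√t * B + 1) * exp ((√t * B + 1) * ∑ i, |q.1 i|) :=
    mul_le_mul_of_nonneg_right (by have : 0 ≤ √t * B := by (clear * - hB0; positivity)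
                                   linarith only [this]) (exp_pos _).le
  linarith only [h1, h2]

theorem AD.meas_lr (h : AD P N V) (t : ℝ) :
    Measurable fun q : (Fin n → ℝ) × Ω => lr t q.1 (V q.2) := by
  unfold lr
  have h1 : ∀ i, Measurable fun q : (Fin n → ℝ) × Ω => V q.2 i := fun i =>
    (h.Vm i).comp measurable_snd
  have h2 : ∀ i, Measurable fun q : (Fin n → ℝ) × Ω => q.1 i := fun i =>
    (measurable_pi_apply i).comp measurable_fst
  apply Measurable.exp
  exact ((Finset.measurable_sum _ fun i _ => (h2 i).mul (h1 i)).const_mul _).sub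
    ((Finset.measurable_sum _ fun i _ => (h1 i).pow_const 2).const_mul _)

theorem AD.log_bd (h : AD P N V) : ∃ G, ∀ y, |log (N y)| ≤ G := by
  obtain ⟨G, hG⟩ := h.Nb
  obtain ⟨ε, hε, hl⟩ := h.Nl
  refine ⟨|log ε| + |log G|, fun y => ?_⟩
  have h1 : log ε ≤ log (N y) := log_le_log hε (hl y)
  have h2 : log (N y) ≤ log G := log_le_log (hε.trans_le (hl y)) ((le_abs_self _).trans (hG y))
  rw [abs_le]
  constructor
  · linarith only [h1, neg_abs_le (log ε), abs_nonneg (log G)]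
  · linarith only [h2, le_abs_self (log G), abs_nonneg (log ε)]

theorem AD.egp_V (h : AD P N V) (i : Fin n) : EGP fun q : (Fin n → ℝ) × Ω => V q.2 i := by
  obtain ⟨B, _, hB⟩ := h.Vb
  exact EGP.of_bdd fun q => hB q.2 i

theorem AD.egp_N (h : AD P N V) : EGP fun q : (Fin n → ℝ) × Ω => N q.2 := by
  obtain ⟨G, hG⟩ := h.Nb
  exact EGP.of_bdd fun q => hG q.2

theorem EGP.const (c : ℝ) : EGP fun _ : (Fin n → ℝ) × Ω => c :=
  EGP.of_bdd (G := |c|) fun _ => le_rfl

variable [IsProbabilityMeasure P]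

/-- total mass -/
theorem AD.avg_one (h : AD P N V) {t : ℝ} (ht : 0 ≤ t) :
    ∫ z, ∫ y, N y * lr t z (V y) ∂P ∂(gsn n) = 1 := by
  rw [(h.egp_N.mul (h.egp_lr ht)).fubini ((h.Nm.comp measurable_snd).mul (h.meas_lr t))]
  simp_rw [integral_const_mul, integral_lr_one ht, mul_one]
  exact h.N1

/-- average entropy -/
theorem AD.avg_ent (h : AD P N V) {t : ℝ} (ht : 0 ≤ t) :
    ∫ z, ∫ y, N y * (lr t z (V y) *
        (log (N y) + (√t * ∑ i, z i * V y i - t / 2 * ∑ i, V y i ^ 2))) ∂P ∂(gsn n)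
      = ∫ y, N y * log (N y) ∂P + t / 2 * ∫ y, N y * ∑ i, V y i ^ 2 ∂P := by
  obtain ⟨G, hG⟩ := h.Nb
  obtain ⟨L, hL⟩ := h.log_bd
  obtain ⟨B, hB0, hB⟩ := h.Vb
  have m1 : ∀ i, Measurable fun q : (Fin n → ℝ) × Ω => V q.2 i := fun i =>
    (h.Vm i).comp measurable_snd
  have m2 : ∀ i, Measurable fun q : (Fin n → ℝ) × Ω => q.1 i := fun i =>
    (measurable_pi_apply i).comp measurable_fst
  have mN : Measurable fun q : (Fin n → ℝ) × Ω => N q.2 := h.Nm.comp measurable_snd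
  have hF : EGP fun q : (Fin n → ℝ) × Ω => N q.2 * (lr t q.1 (V q.2) *
      (log (N q.2) + (√t * ∑ i, q.1 i * V q.2 i - t / 2 * ∑ i, V q.2 i ^ 2))) := by
    refine h.egp_N.mul ((h.egp_lr ht).mul ?_)
    refine (EGP.of_bdd fun q => hL q.2).add ?_
    have e1 : EGP fun q : (Fin n → ℝ) × Ω => √t * ∑ i, q.1 i * V q.2 i :=
      (EGP.const _).mul (EGP.sum _ fun i _ => (EGP.coord i).mul (h.egp_V i))
    have e2 : EGP fun q : (Fin n → ℝ) × Ω => -(t / 2) * ∑ i, V q.2 i * V q.2 i :=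
      (EGP.const _).mul (EGP.sum _ fun i _ => (h.egp_V i).mul (h.egp_V i))
    have := e1.add e2
    refine (this : EGP _) |> fun h => ?_
    convert h using 2 with q
    simp only [sq]; ring
  have hm : Measurable fun q : (Fin n → ℝ) × Ω => N q.2 * (lr t q.1 (V q.2) *
      (log (N q.2) + (√t * ∑ i, q.1 i * V q.2 i - t / 2 * ∑ i, V q.2 i ^ 2))) := by
    refine mN.mul ((h.meas_lr t).mul (mN.log.add ?_))
    exact ((Finset.measurable_sum _ fun i _ => (m2 i).mul (m1 i)).const_mul _).sub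
      ((Finset.measurable_sum _ fun i _ => (m1 i).pow_const 2).const_mul _)
  rw [hF.fubini hm]
  simp_rw [integral_const_mul, integral_lr_log ht, mul_add]
  have i1 : Integrable (fun y => N y * log (N y)) P :=
    Integrable.of_bound (h.Nm.mul h.Nm.log).aestronglyMeasurable (G * L)
      (Eventually.of_forall fun y => by
        rw [norm_mul, norm_eq_abs, norm_eq_abs]
        exact mul_le_mul (hG y) (hL y) (abs_nonneg _) ((abs_nonneg _).trans (hG y)))
  have i2 : Integrable (fun y => N y * (t / 2 * ∑ i, V y i ^ 2)) P := by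
    refine Integrable.of_bound (h.Nm.mul ((Finset.measurable_sum _ fun i _ =>
      (h.Vm i).pow_const 2).const_mul _)).aestronglyMeasurable (G * (t / 2 * ∑ i : Fin n, B ^ 2))
      (Eventually.of_forall fun y => ?_)
    rw [norm_mul, norm_eq_abs, norm_eq_abs]
    refine mul_le_mul (hG y) ?_ (abs_nonneg _) ((abs_nonneg _).trans (hG y))
    rw [abs_of_nonneg (by (clear * - ht; positivity))]
    apply mul_le_mul_of_nonneg_left _ (by (clear * - ht; positivity))
    apply Finset.sum_le_sum; intro i _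
    rw [← sq_abs]; exact pow_le_pow_left₀ (abs_nonneg _) (hB y i) 2
  rw [integral_add i1 i2, ← integral_const_mul]
  congr 1
  congr 1
  funext y
  ring

end AD

end Vale.Agent.P245.LS
end
end

section

section

open MeasureTheory Real Set Filter Topology
open scoped ENNReal ContDiff

/-!
# Module D: the extra noise channel
-/

namespace Vale.Agent.P245.LS

variable {n : ℕ}

/-- law of `X + √σ G` -/
noncomputable def lw (μ : Measure (Fin n → ℝ)) (σ : ℝ) : Measure (Fin n → ℝ) :=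
  (μ.prod (gsn n)).map fun q => q.1 + √σ • q.2

theorem measurable_lwmap (σ : ℝ) :
    Measurable fun q : (Fin n → ℝ) × (Fin n → ℝ) => q.1 + √σ • q.2 := by fun_prop

instance isProb_lw (μ : Measure (Fin n → ℝ)) [IsProbabilityMeasure μ] (σ : ℝ) :
    IsProbabilityMeasure (lw μ σ) :=
  Measure.isProbabilityMeasure_map (measurable_lwmap σ).aemeasurable

theorem EY_eq_lw (μ : Measure (Fin n → ℝ)) [IsProbabilityMeasure μ] (σ : ℝ)
    {Φ : (Fin n → ℝ) → ℝ} (hm : Measurable Φ) {C : ℝ} (hC : ∀ y, |Φ y| ≤ C) :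
    EY μ σ Φ = ∫ y, Φ y ∂(lw μ σ) := by
  unfold EY PH lw
  rw [integral_map (measurable_lwmap σ).aemeasurable hm.aestronglyMeasurable]
  have hi : Integrable (fun q : (Fin n → ℝ) × (Fin n → ℝ) => Φ (q.1 + √σ • q.2))
      (μ.prod (gsn n)) :=
    Integrable.of_bound (hm.comp (measurable_lwmap σ)).aestronglyMeasurable C
      (Eventually.of_forall fun q => by rw [norm_eq_abs]; exact hC _)
  rw [integral_prod _ hi]

theorem EY_eq_lw_sb (μ : Measure (Fin n → ℝ)) [IsProbabilityMeasure μ] (σ : ℝ)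
    {Φ : (Fin n → ℝ) → ℝ} (hΦ : SB Φ) : EY μ σ Φ = ∫ y, Φ y ∂(lw μ σ) := by
  obtain ⟨C, hC⟩ := hΦ.bdd
  exact EY_eq_lw μ σ hΦ.measurable hC

/-- the score of `N` -/
noncomputable def vN (N : (Fin n → ℝ) → ℝ) (y : Fin n → ℝ) (i : Fin n) : ℝ := pd N i y / N y

theorem Pos.vN_sb {N : (Fin n → ℝ) → ℝ} (hN : Pos N) (i : Fin n) : SB fun y => vN N y i :=
  hN.div (hN.sb.pd i)

theorem Pos.AD {N : (Fin n → ℝ) → ℝ} (hN : Pos N) {μ : Measure (Fin n → ℝ)}
    [IsProbabilityMeasure μ] {σ : ℝ} (h1 : EY μ σ N = 1) : AD (lw μ σ) N (vN N) where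
  Nm := hN.sb.measurable
  Vm i := (hN.vN_sb i).measurable
  Nb := hN.sb.bdd
  Nl := hN.lb
  Vb := by
    have h : ∀ i, ∃ C, 0 ≤ C ∧ ∀ y, |vN N y i| ≤ C := fun i => (hN.vN_sb i).bdd'
    choose C hC0 hC using h
    refine ⟨∑ i, C i, Finset.sum_nonneg fun i _ => hC0 i, fun y i => ?_⟩
    exact (hC i y).trans (Finset.single_le_sum (f := C) (fun j _ => hC0 j) (Finset.mem_univ i))
  N1 := by rw [← EY_eq_lw_sb μ σ hN.sb]; exact h1

/-! ### the law of the score -/

/-- law of `v(Y)` under the tilted law of `Y` -/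
noncomputable def nuV {Ω : Type*} [MeasurableSpace Ω] (P : Measure Ω) (N : Ω → ℝ)
    (V : Ω → Fin n → ℝ) : Measure (Fin n → ℝ) :=
  (P.withDensity fun y => ENNReal.ofReal (N y)).map V

section nuV

variable {Ω : Type*} [MeasurableSpace Ω] {P : Measure Ω} [IsProbabilityMeasure P] {N : Ω → ℝ}
  {V : Ω → Fin n → ℝ}

theorem AD.Vmeas (h : LS.AD P N V) : Measurable V := measurable_pi_lambda _ h.Vm

theorem AD.Nint (h : LS.AD P N V) : Integrable N P := by
  obtain ⟨G, hG⟩ := h.Nb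
  exact integrable_of_bdd P h.Nm hG

theorem AD.N0 (h : LS.AD P N V) (y : Ω) : 0 < N y := by
  obtain ⟨ε, hε, hl⟩ := h.Nl
  exact hε.trans_le (hl y)

theorem AD.isProb (h : LS.AD P N V) : IsProbabilityMeasure (nuV P N V) := by
  have : IsProbabilityMeasure (P.withDensity fun y => ENNReal.ofReal (N y)) := by
    constructor
    rw [withDensity_apply _ MeasurableSet.univ, Measure.restrict_univ,
      ← ofReal_integral_eq_lintegral_ofReal h.Nint (Eventually.of_forall fun y => (h.N0 y).le),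
      h.N1, ENNReal.ofReal_one]
  exact Measure.isProbabilityMeasure_map h.Vmeas.aemeasurable

theorem AD.integral_nuV (h : LS.AD P N V) {φ : (Fin n → ℝ) → ℝ} (hφ : Measurable φ) :
    ∫ v, φ v ∂(nuV P N V) = ∫ y, N y * φ (V y) ∂P := by
  unfold nuV
  rw [integral_map h.Vmeas.aemeasurable hφ.aestronglyMeasurable,
    integral_withDensity_eq_integral_toReal_smul h.Nm.ennreal_ofReal
      (Eventually.of_forall fun y => ENNReal.ofReal_lt_top)]
  congr 1
  funext y
  rw [ENNReal.toReal_ofReal (h.N0 y).le, smul_eq_mul]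

theorem AD.csupp (h : LS.AD P N V) : ∃ B, CSupp (nuV P N V) B := by
  obtain ⟨B, hB0, hB⟩ := h.Vb
  refine ⟨B, hB0, ?_⟩
  unfold nuV
  rw [ae_map_iff h.Vmeas.aemeasurable]
  · exact Eventually.of_forall fun y i => hB y i
  · have : {x : Fin n → ℝ | ∀ i, |x i| ≤ B} = ⋂ i, {x | |x i| ≤ B} := by
      ext x; simp only [mem_ofPred_eq, mem_iInter]
    rw [this]
    exact MeasurableSet.iInter fun i => measurableSet_le (by fun_prop) measurable_const

/-- the density of the output -/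
theorem AD.Zo_nuV (h : LS.AD P N V) (t : ℝ) (z : Fin n → ℝ) :
    Zo (nuV P N V) (t, √t • z) = ∫ y, N y * lr t z (V y) ∂P := by
  unfold Zo Zf
  simp only [one_mul]
  rw [h.integral_nuV (φ := fun x => exp (lx x (t, √t • z))) (by
    exact (measurable_lx _).exp)]
  congr 1
  funext y
  congr 1
  unfold lr lx
  congr 1
  simp only [Pi.smul_apply, smul_eq_mul]
  congr 1
  rw [Finset.mul_sum]
  apply Finset.sum_congr rfl; intro i _; ring

theorem AD.Zf_nuV (h : LS.AD P N V) (t : ℝ) (i : Fin n) (z : Fin n → ℝ) :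
    Zf (nuV P N V) (fun x => x i * 1) (t, √t • z) = ∫ y, N y * (V y i * lr t z (V y)) ∂P := by
  unfold Zf
  simp only [mul_one]
  rw [h.integral_nuV (φ := fun x => x i * exp (lx x (t, √t • z))) (by
    exact (measurable_pi_apply i).mul (measurable_lx _).exp)]
  congr 1
  funext y
  congr 2
  unfold lr lx
  congr 1
  simp only [Pi.smul_apply, smul_eq_mul]
  congr 1
  rw [Finset.mul_sum]
  apply Finset.sum_congr rfl; intro j _; ring

/-- the output density as a function of `z` -/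
noncomputable def pw (P : Measure Ω) (N : Ω → ℝ) (V : Ω → Fin n → ℝ) (t : ℝ) (z : Fin n → ℝ) : ℝ :=
  ∫ y, N y * lr t z (V y) ∂P

noncomputable def xw (P : Measure Ω) (N : Ω → ℝ) (V : Ω → Fin n → ℝ) (t : ℝ) (i : Fin n)
    (z : Fin n → ℝ) : ℝ := ∫ y, N y * (V y i * lr t z (V y)) ∂P

theorem AD.pw_eq (h : LS.AD P N V) (t : ℝ) :
    pw P N V t = fun z => Zo (nuV P N V) (t, √t • z) := by
  funext z; rw [h.Zo_nuV]; rfl

theorem AD.pw_pos (h : LS.AD P N V) (t : ℝ) (z : Fin n → ℝ) : 0 < pw P N V t z := by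
  have := h.isProb
  obtain ⟨B, hB⟩ := h.csupp
  rw [h.pw_eq]
  exact Zo_pos hB _

theorem AD.pw_cd (h : LS.AD P N V) (t : ℝ) : ContDiff ℝ 2 (pw P N V t) := by
  have := h.isProb
  obtain ⟨B, hB⟩ := h.csupp
  rw [h.pw_eq]
  have h1 : ContDiff ℝ 2 (Zo (nuV P N V)) := by exact_mod_cast contDiff_Zo hB 2
  exact h1.comp (contDiff_const.prodMk (contDiff_const_smul _))

theorem AD.pd_pw (h : LS.AD P N V) (t : ℝ) (i : Fin n) (z : Fin n → ℝ) :
    pd (pw P N V t) i z = √t * xw P N V t i z := by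
  have := h.isProb
  obtain ⟨B, hB⟩ := h.csupp
  have h1 : Differentiable ℝ (Zo (nuV P N V)) := (contDiff_Zo hB 1).differentiable (by norm_num)
  have hL : HasFDerivAt (fun z : Fin n → ℝ => ((t, √t • z) : ℝ × (Fin n → ℝ)))
      ((0 : (Fin n → ℝ) →L[ℝ] ℝ).prod (√t • ContinuousLinearMap.id ℝ (Fin n → ℝ))) z :=
    (hasFDerivAt_const t z).prodMk ((hasFDerivAt_id z).const_smul (√t))
  have h2 := (h1 (t, √t • z)).hasFDerivAt.comp z hL
  rw [h.pw_eq]
  unfold pd
  have e := h2.fderiv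
  change fderiv ℝ ((Zo (nuV P N V)) ∘ fun z : Fin n → ℝ => ((t, √t • z) : ℝ × (Fin n → ℝ))) z
      (Pi.single i 1) = _
  rw [e]
  simp only [ContinuousLinearMap.comp_apply]
  have e2 : ((0 : (Fin n → ℝ) →L[ℝ] ℝ).prod (√t • ContinuousLinearMap.id ℝ (Fin n → ℝ)))
      (Pi.single i 1) = √t • ((0 : ℝ), (Pi.single i 1 : Fin n → ℝ)) := by
    apply Prod.ext <;> simp only [ContinuousLinearMap.prod_apply, zero_apply, smul_apply, ContinuousLinearMap.id_apply, Prod.smul_mk, smul_eq_mul, mul_zero]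
  rw [e2, map_smul, smul_eq_mul]
  have e3 : fderiv ℝ (Zo (nuV P N V)) (t, √t • z) (0, Pi.single i 1)
      = dI i (Zo (nuV P N V)) (t, √t • z) := rfl
  have e4 : dI i (Zo (nuV P N V)) = _ := dI_Zf hB (Adm.const _ 1) i
  rw [e3, e4, h.Zf_nuV]
  rfl

theorem AD.xw_le (h : LS.AD P N V) {t : ℝ} (ht : 0 ≤ t) :
    ∃ B, 0 ≤ B ∧ ∀ i z, |xw P N V t i z| ≤ B * pw P N V t z := by
  obtain ⟨B, hB0, hB⟩ := h.Vb
  refine ⟨B, hB0, fun i z => ?_⟩
  unfold xw pw
  have hb : ∀ y, |lr t z (V y)| ≤ exp (√t * B * ∑ i, |z i|) := fun y => by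
    rw [abs_of_pos (lr_pos _ _ _)]; exact lr_le ht z (hB y)
  have hm : Measurable fun y => lr t z (V y) :=
    (h.meas_lr t).comp (measurable_const.prodMk measurable_id)
  obtain ⟨G, hG⟩ := h.Nb
  have hi : Integrable (fun y => N y * lr t z (V y)) P :=
    integrable_of_bdd P (h.Nm.mul hm) (K := G * exp (√t * B * ∑ i, |z i|)) fun y => by
      rw [abs_mul]
      exact mul_le_mul (hG y) (hb y) (abs_nonneg _) ((abs_nonneg _).trans (hG y))
  rw [← integral_const_mul]
  refine (abs_integral_le_integral_abs).trans ?_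
  apply integral_mono_of_nonneg (Eventually.of_forall fun y => abs_nonneg _) (hi.const_mul B)
  refine Eventually.of_forall fun y => ?_
  simp only
  rw [abs_mul, abs_mul, abs_of_pos (h.N0 y), abs_of_pos (lr_pos _ _ _)]
  have := mul_le_mul_of_nonneg_right (hB y i) (mul_nonneg (h.N0 y).le (lr_pos t z (V y)).le)
  linarith

theorem AD.pw_log (h : LS.AD P N V) {t : ℝ} (ht : 0 ≤ t) :
    ∃ C, 0 ≤ C ∧ ∀ z, |log (pw P N V t z)| ≤ C * (1 + ∑ i, |z i|) := by
  obtain ⟨B, hB0, hB⟩ := h.Vb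
  obtain ⟨G, hG⟩ := h.Nb
  refine ⟨√t * B + t / 2 * (n * B ^ 2), by (clear * - hB0 ht; positivity), fun z => ?_⟩
  have hS : 0 ≤ ∑ i, |z i| := Finset.sum_nonneg fun i _ => abs_nonneg _
  have hm : Measurable fun y => lr t z (V y) :=
    (h.meas_lr t).comp (measurable_const.prodMk measurable_id)
  have hub : ∀ y, lr t z (V y) ≤ exp (√t * B * ∑ i, |z i|) := fun y => lr_le ht z (hB y)
  have hlb : ∀ y, exp (-(√t * B * ∑ i, |z i| + t / 2 * (n * B ^ 2))) ≤ lr t z (V y) := by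
    intro y
    unfold lr
    apply exp_le_exp.2
    have h1 : -(B * ∑ i, |z i|) ≤ ∑ i, z i * V y i := by
      have : |∑ i, z i * V y i| ≤ B * ∑ i, |z i| := by
        refine (Finset.abs_sum_le_sum_abs _ _).trans ?_
        rw [Finset.mul_sum]
        apply Finset.sum_le_sum; intro i _
        rw [abs_mul, mul_comm]
        exact mul_le_mul_of_nonneg_right (hB y i) (abs_nonneg _)
      exact (abs_le.1 this).1
    have h2 : ∑ i, V y i ^ 2 ≤ n * B ^ 2 := by
      calc ∑ i, V y i ^ 2 ≤ ∑ _i : Fin n, B ^ 2 := by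
            apply Finset.sum_le_sum; intro i _
            rw [← sq_abs]; exact pow_le_pow_left₀ (abs_nonneg _) (hB y i) 2
        _ = n * B ^ 2 := by simp only [Finset.sum_const, Finset.card_univ, Fintype.card_fin, nsmul_eq_mul]
    have h3 := mul_le_mul_of_nonneg_left h1 (sqrt_nonneg t)
    have h4 := mul_le_mul_of_nonneg_left h2 (by (clear * - ht; positivity) : 0 ≤ t / 2)
    linarith
  have hi : Integrable (fun y => N y * lr t z (V y)) P :=
    integrable_of_bdd P (h.Nm.mul hm) (K := G * exp (√t * B * ∑ i, |z i|)) fun y => by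
      rw [abs_mul, abs_of_pos (lr_pos _ _ _)]
      exact mul_le_mul (hG y) (hub y) (lr_pos _ _ _).le ((abs_nonneg _).trans (hG y))
  have u : pw P N V t z ≤ exp (√t * B * ∑ i, |z i|) := by
    unfold pw
    calc ∫ y, N y * lr t z (V y) ∂P ≤ ∫ y, N y * exp (√t * B * ∑ i, |z i|) ∂P :=
          integral_mono hi (h.Nint.mul_const _) fun y =>
            mul_le_mul_of_nonneg_left (hub y) (h.N0 y).le
      _ = _ := by rw [integral_mul_const, h.N1, one_mul]
  have l : exp (-(√t * B * ∑ i, |z i| + t / 2 * (n * B ^ 2))) ≤ pw P N V t z := by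
    unfold pw
    calc exp (-(√t * B * ∑ i, |z i| + t / 2 * (n * B ^ 2)))
        = ∫ y, N y * exp (-(√t * B * ∑ i, |z i| + t / 2 * (n * B ^ 2))) ∂P := by
          rw [integral_mul_const, h.N1, one_mul]
      _ ≤ _ := integral_mono (h.Nint.mul_const _) hi fun y =>
            mul_le_mul_of_nonneg_left (hlb y) (h.N0 y).le
  have hp := h.pw_pos t z
  have l1 := log_le_log hp u
  have l2 := log_le_log (exp_pos _) l
  rw [log_exp] at l1 l2
  have hc : 0 ≤ t / 2 * (n * B ^ 2) := by (clear * - ht; positivity)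
  have hc2 : 0 ≤ √t * B := by (clear * - hB0; positivity)
  have hc3 := mul_nonneg hc hS
  rw [abs_le]
  constructor <;> linarith

theorem AD.pw_LG (h : LS.AD P N V) {t : ℝ} (ht : 0 ≤ t) : LG (pw P N V t) where
  cd := h.pw_cd t
  pos := h.pw_pos t
  gr := h.pw_log ht
  gr1 := by
    obtain ⟨B, hB0, hB⟩ := h.xw_le ht
    refine ⟨√t * B, by positivity, fun i z => ?_⟩
    rw [h.pd_pw, abs_mul, abs_of_nonneg (sqrt_nonneg t), mul_assoc]
    exact mul_le_mul_of_nonneg_left (hB i z) (sqrt_nonneg t)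

theorem AD.int_pw (h : LS.AD P N V) {t : ℝ} (ht : 0 ≤ t) : ∫ z, pw P N V t z ∂(gsn n) = 1 :=
  h.avg_one ht

end nuV

end Vale.Agent.P245.LS
end
end

section

section

open MeasureTheory Real Set Filter Topology
open scoped ENNReal ContDiff

/-!
# E1, module Co: elementary facts on the quadratic functionals and on channels
-/

namespace Vale.Agent.P245.E1

open LS

variable {n : ℕ}

/-! ### the quadratic functionals -/

theorem FI_eq_IP (μ : Measure (Fin n → ℝ)) (r : ℝ) {N : (Fin n → ℝ) → ℝ} (hN : Pos N) :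
    LS.FI μ r N = IP μ r N (sN N) (sN N) := by
  unfold LS.FI IP
  congr 1
  funext y
  have h0 := (hN.pos y).ne'
  unfold sN
  rw [Finset.mul_sum, Finset.sum_div]
  refine Finset.sum_congr rfl fun i _ => ?_
  field_simp

theorem GA_eq_DE (μ : Measure (Fin n → ℝ)) (r : ℝ) {N : (Fin n → ℝ) → ℝ} (hN : Pos N) :
    LS.GA μ r N = DE μ r N (sN N) := by
  unfold LS.GA DE
  have e : ∀ i, pd (fun y => Real.log (N y)) i = sN N i := fun i => hN.pd_log i
  simp only [e]

section ip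

variable {μ : Measure (Fin n → ℝ)} [IsProbabilityMeasure μ] {r : ℝ} {N : (Fin n → ℝ) → ℝ}
  {φ ψ : Fin n → (Fin n → ℝ) → ℝ}

theorem sb_ip (hN : Pos N) (hφ : ∀ i, SB (φ i)) (hψ : ∀ i, SB (ψ i)) :
    SB fun y => N y * ∑ i, φ i y * ψ i y :=
  hN.sb.mul (SB.sum _ fun i _ => (hφ i).mul (hψ i))

omit [IsProbabilityMeasure μ] in
theorem IP_self_nonneg (hN : Pos N) : 0 ≤ IP μ r N φ φ :=
  EY_nonneg μ r fun y => mul_nonneg (hN.pos y).le
    (Finset.sum_nonneg fun _ _ => mul_self_nonneg _)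

omit [IsProbabilityMeasure μ] in
theorem DE_nonneg (hN : Pos N) : 0 ≤ DE μ r N φ :=
  EY_nonneg μ r fun y => mul_nonneg (hN.pos y).le
    (Finset.sum_nonneg fun _ _ => Finset.sum_nonneg fun _ _ => sq_nonneg _)

omit [IsProbabilityMeasure μ] in
theorem IP_comm : IP μ r N φ ψ = IP μ r N ψ φ := by
  unfold IP
  congr 1
  funext y
  congr 1
  exact Finset.sum_congr rfl fun i _ => mul_comm _ _

theorem IP_quad (hN : Pos N) (hφ : ∀ i, SB (φ i)) (hψ : ∀ i, SB (ψ i)) (a b : ℝ) :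
    IP μ r N (fun i y => a * φ i y + b * ψ i y) (fun i y => a * φ i y + b * ψ i y)
      = a ^ 2 * IP μ r N φ φ + 2 * a * b * IP μ r N φ ψ + b ^ 2 * IP μ r N ψ ψ := by
  have h1 := sb_ip hN hφ hφ
  have h2 := sb_ip hN hφ hψ
  have h3 := sb_ip hN hψ hψ
  unfold IP
  rw [← EY_const_mul, ← EY_const_mul, ← EY_const_mul,
    ← EY_add μ r (h1.const_mul _) (h2.const_mul _),
    ← EY_add μ r ((h1.const_mul _).add (h2.const_mul _)) (h3.const_mul _)]
  congr 1
  funext y
  have e : ∑ i, (a * φ i y + b * ψ i y) * (a * φ i y + b * ψ i y)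
      = a ^ 2 * ∑ i, φ i y * φ i y + 2 * a * b * ∑ i, φ i y * ψ i y
        + b ^ 2 * ∑ i, ψ i y * ψ i y := by
    simp only [Finset.mul_sum]
    rw [← Finset.sum_add_distrib, ← Finset.sum_add_distrib]
    exact Finset.sum_congr rfl fun i _ => by ring
  rw [e]
  ring

theorem IP_cs (hN : Pos N) (hφ : ∀ i, SB (φ i)) (hψ : ∀ i, SB (ψ i)) :
    IP μ r N φ ψ ^ 2 ≤ IP μ r N φ φ * IP μ r N ψ ψ := by
  have hA : 0 ≤ IP μ r N φ φ := IP_self_nonneg hN
  have hC : 0 ≤ IP μ r N ψ ψ := IP_self_nonneg hN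
  have hq : ∀ a b : ℝ, 0 ≤ a ^ 2 * IP μ r N φ φ + 2 * a * b * IP μ r N φ ψ
      + b ^ 2 * IP μ r N ψ ψ := fun a b => by
    rw [← IP_quad hN hφ hψ a b]; exact IP_self_nonneg hN
  rcases hC.eq_or_lt with h0 | h0
  · rw [← h0, mul_zero]
    by_contra hB
    push Not at hB
    have hB0 : IP μ r N φ ψ ≠ 0 := by
      intro h
      rw [h] at hB
      norm_num at hB
    have h1 := hq 1 (-(IP μ r N φ φ + 1) / (2 * IP μ r N φ ψ))
    rw [← h0, mul_zero, add_zero] at h1
    have e : 1 ^ 2 * IP μ r N φ φ + 2 * 1 * (-(IP μ r N φ φ + 1) / (2 * IP μ r N φ ψ))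
      * IP μ r N φ ψ = -1 := by
      field_simp
      ring
    rw [e] at h1
    linarith only [h1]
  · have h1 := hq (IP μ r N ψ ψ) (-IP μ r N φ ψ)
    have h2 : 0 ≤ IP μ r N ψ ψ * (IP μ r N φ φ * IP μ r N ψ ψ - IP μ r N φ ψ ^ 2) := by
      linarith
    have h3 := nonneg_of_mul_nonneg_right h2 h0
    linarith

end ip

/-! ### channels -/

section chan

variable {l : (Fin n → ℝ) → (Fin n → ℝ) → ℝ}

theorem Ch.meas_left (hl : Ch l) (w : Fin n → ℝ) : Measurable (l w) :=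
  hl.meas.comp (measurable_const.prodMk measurable_id)

theorem Ch.pos (hl : Ch l) (w y : Fin n → ℝ) : 0 < l w y := by
  obtain ⟨K, _, hK⟩ := hl.bd
  exact (exp_pos _).trans_le (hK w y).1

theorem Ch.bdd_left (hl : Ch l) (w : Fin n → ℝ) : ∃ C, ∀ y, |l w y| ≤ C := by
  obtain ⟨K, _, hK⟩ := hl.bd
  exact ⟨_, fun y => by rw [abs_of_pos (hl.pos w y)]; exact (hK w y).2⟩

theorem integrable_expo (K : ℝ) :
    Integrable (fun w : Fin n → ℝ => exp (K * (1 + ∑ i, |w i|))) (gsn n) := by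
  apply EG1.int
  · refine ⟨exp |K| + |K|, by (clear * -; positivity), fun w => ?_⟩
    have hS : 0 ≤ ∑ i, |w i| := Finset.sum_nonneg fun i _ => abs_nonneg _
    rw [abs_of_pos (exp_pos _), mul_add, mul_one, exp_add]
    apply mul_le_mul
    · exact (exp_le_exp.2 (le_abs_self K)).trans (by linarith [abs_nonneg K])
    · apply exp_le_exp.2
      exact mul_le_mul_of_nonneg_right ((le_abs_self K).trans (by linarith [exp_pos |K|])) hS
    · exact (exp_pos _).le
    · positivity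
  · fun_prop

variable {P : Measure (Fin n → ℝ)} [IsProbabilityMeasure P]

theorem Ch.meas_int (hl : Ch l) {Ψ : (Fin n → ℝ) → ℝ} (hΨ : Measurable Ψ) :
    Measurable fun w => ∫ y, Ψ y * l w y ∂P := by
  have h : Measurable (Function.uncurry fun (w y : Fin n → ℝ) => Ψ y * l w y) :=
    (hΨ.comp measurable_snd).mul hl.meas
  exact h.stronglyMeasurable.integral_prod_right'.measurable

theorem Ch.int_left (hl : Ch l) {Ψ : (Fin n → ℝ) → ℝ} (hΨ : Measurable Ψ) {C : ℝ}
    (hC : ∀ y, |Ψ y| ≤ C) (w : Fin n → ℝ) : Integrable (fun y => Ψ y * l w y) P := by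
  obtain ⟨D, hD⟩ := hl.bdd_left w
  exact Integrable.of_bound (hΨ.mul (hl.meas_left w)).aestronglyMeasurable (C * D)
    (Eventually.of_forall fun y => by rw [norm_eq_abs]; exact abs_mul_le_of (hC y) (hD y))

theorem Ch.int_prod (hl : Ch l) {Ψ : (Fin n → ℝ) → ℝ} (hΨ : Measurable Ψ) {C : ℝ}
    (hC : ∀ y, |Ψ y| ≤ C) :
    Integrable (Function.uncurry fun (w y : Fin n → ℝ) => Ψ y * l w y) ((gsn n).prod P) := by
  obtain ⟨K, _, hK⟩ := hl.bd
  have h : Measurable (Function.uncurry fun (w y : Fin n → ℝ) => Ψ y * l w y) :=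
    (hΨ.comp measurable_snd).mul hl.meas
  have h2 : Integrable (fun q : (Fin n → ℝ) × (Fin n → ℝ) =>
      C * exp (K * (1 + ∑ i, |q.1 i|))) ((gsn n).prod P) :=
    ((integrable_expo K).comp_fst P).const_mul C
  refine h2.mono' h.aestronglyMeasurable (Eventually.of_forall fun q => ?_)
  rw [norm_eq_abs]
  have h3 : |l q.1 q.2| ≤ exp (K * (1 + ∑ i, |q.1 i|)) := by
    rw [abs_of_pos (hl.pos _ _)]; exact (hK _ _).2
  exact abs_mul_le_of (hC q.2) h3

theorem Ch.int_out (hl : Ch l) {Ψ : (Fin n → ℝ) → ℝ} (hΨ : Measurable Ψ) {C : ℝ}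
    (hC : ∀ y, |Ψ y| ≤ C) : Integrable (fun w => ∫ y, Ψ y * l w y ∂P) (gsn n) :=
  (hl.int_prod (P := P) hΨ hC).integral_prod_left

/-- Fubini -/
theorem Ch.fubini (hl : Ch l) {Ψ : (Fin n → ℝ) → ℝ} (hΨ : Measurable Ψ) {C : ℝ}
    (hC : ∀ y, |Ψ y| ≤ C) : ∫ w, ∫ y, Ψ y * l w y ∂P ∂(gsn n) = ∫ y, Ψ y ∂P := by
  rw [integral_integral_swap (hl.int_prod (P := P) hΨ hC)]
  congr 1
  funext y
  rw [integral_const_mul, hl.one y, mul_one]

end chan

section co

variable {μ : Measure (Fin n → ℝ)} [IsProbabilityMeasure μ] {r : ℝ} {N : (Fin n → ℝ) → ℝ}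
  {φ ψ : Fin n → (Fin n → ℝ) → ℝ} {l : (Fin n → ℝ) → (Fin n → ℝ) → ℝ}

theorem EY_ch (hl : Ch l) {Ψ : (Fin n → ℝ) → ℝ} (hΨ : SB Ψ) (w : Fin n → ℝ) :
    (EY μ r fun y => Ψ y * l w y) = ∫ y, Ψ y * l w y ∂(lw μ r) := by
  obtain ⟨C, hC⟩ := hΨ.bdd
  obtain ⟨D, hD⟩ := hl.bdd_left w
  exact EY_eq_lw μ r (hΨ.measurable.mul (hl.meas_left w)) fun y => abs_mul_le_of (hC y) (hD y)

theorem ms_eq (hN : Pos N) (hl : Ch l) (w : Fin n → ℝ) :
    ms μ r N l w = ∫ y, N y * l w y ∂(lw μ r) := EY_ch hl hN.sb w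

theorem ms_pos (hN : Pos N) (hl : Ch l) (w : Fin n → ℝ) : 0 < ms μ r N l w := by
  rw [ms_eq hN hl w]
  obtain ⟨ε, hε, hNε⟩ := hN.lb
  obtain ⟨K, _, hK⟩ := hl.bd
  obtain ⟨C, hC⟩ := hN.sb.bdd
  have h1 : ∫ _y, ε * exp (-(K * (1 + ∑ i, |w i|))) ∂(lw μ r) ≤ ∫ y, N y * l w y ∂(lw μ r) := by
    apply integral_mono (integrable_const _) (hl.int_left hN.sb.measurable hC w)
    intro y
    exact mul_le_mul (hNε y) (hK w y).1 (exp_pos _).le (hε.le.trans (hNε y))
  rw [integral_const] at h1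
  simp only [probReal_univ, smul_eq_mul, one_mul] at h1
  exact (mul_pos hε (exp_pos _)).trans_le h1

theorem ms_measurable (hN : Pos N) (hl : Ch l) : Measurable (ms μ r N l) := by
  have e : ms μ r N l = fun w => ∫ y, N y * l w y ∂(lw μ r) := by
    funext w; exact ms_eq hN hl w
  rw [e]; exact hl.meas_int hN.sb.measurable

/-- Cauchy-Schwarz for the posterior mean -/
theorem post_cs (hN : Pos N) {h : (Fin n → ℝ) → ℝ} (hh : SB h) (hl : Ch l) (w : Fin n → ℝ) :
    (EY μ r fun y => N y * h y * l w y) ^ 2 / ms μ r N l w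
      ≤ EY μ r fun y => (N y * (h y * h y)) * l w y := by
  have hm := ms_pos (μ := μ) (r := r) hN hl w
  have e1 : (EY μ r fun y => N y * h y * l w y) = ∫ y, N y * h y * l w y ∂(lw μ r) :=
    EY_ch hl (hN.sb.mul hh) w
  have e2 : (EY μ r fun y => (N y * (h y * h y)) * l w y)
      = ∫ y, (N y * (h y * h y)) * l w y ∂(lw μ r) := EY_ch hl (hN.sb.mul (hh.mul hh)) w
  have e3 := ms_eq (μ := μ) (r := r) hN hl w
  rw [e1, e2]
  set m := ms μ r N l w with hmdef
  set a := ∫ y, N y * h y * l w y ∂(lw μ r) with ha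
  obtain ⟨C1, hC1⟩ := (hN.sb.mul hh).bdd
  obtain ⟨C2, hC2⟩ := (hN.sb.mul (hh.mul hh)).bdd
  obtain ⟨C3, hC3⟩ := hN.sb.bdd
  have i1 := hl.int_left (P := lw μ r) (hN.sb.mul hh).measurable hC1 w
  have i2 := hl.int_left (P := lw μ r) (hN.sb.mul (hh.mul hh)).measurable hC2 w
  have i3 := hl.int_left (P := lw μ r) hN.sb.measurable hC3 w
  have h0 : 0 ≤ ∫ y, ((N y * (h y * h y)) * l w y - 2 * (a / m) * (N y * h y * l w y)
      + (a / m) ^ 2 * (N y * l w y)) ∂(lw μ r) := by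
    apply integral_nonneg
    intro y
    have e : (N y * (h y * h y)) * l w y - 2 * (a / m) * (N y * h y * l w y)
      + (a / m) ^ 2 * (N y * l w y) = N y * l w y * (h y - a / m) ^ 2 := by ring
    show 0 ≤ (N y * (h y * h y)) * l w y - 2 * (a / m) * (N y * h y * l w y)
      + (a / m) ^ 2 * (N y * l w y)
    rw [e]
    exact mul_nonneg (mul_nonneg (hN.pos y).le (hl.pos w y).le) (sq_nonneg _)
  have i4 : Integrable (fun y => (N y * (h y * h y)) * l w y - 2 * (a / m) * (N y * h y * l w y))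
      (lw μ r) := i2.sub (i1.const_mul _)
  rw [integral_add i4 (i3.const_mul _), integral_sub i2 (i1.const_mul _),
    integral_const_mul, integral_const_mul, ← e3] at h0
  have e4 : (a / m) ^ 2 * m = a ^ 2 / m := by field_simp
  have e5 : 2 * (a / m) * a = 2 * (a ^ 2 / m) := by ring
  rw [← ha, e4, e5] at h0
  linarith only [h0]

theorem Co_integrand_le (hN : Pos N) (hφ : ∀ i, SB (φ i)) (hl : Ch l) (w : Fin n → ℝ) :
    (∑ i, (EY μ r fun y => N y * φ i y * l w y) ^ 2) / ms μ r N l w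
      ≤ ∫ y, (N y * ∑ i, φ i y * φ i y) * l w y ∂(lw μ r) := by
  rw [Finset.sum_div]
  have h1 : ∑ i, (EY μ r fun y => N y * φ i y * l w y) ^ 2 / ms μ r N l w
      ≤ ∑ i, ∫ y, (N y * (φ i y * φ i y)) * l w y ∂(lw μ r) := by
    apply Finset.sum_le_sum
    intro i _
    have := post_cs (μ := μ) (r := r) hN (hφ i) hl w
    rwa [EY_ch hl (hN.sb.mul ((hφ i).mul (hφ i))) w] at this
  refine h1.trans (le_of_eq ?_)
  rw [← integral_finsetSum]
  · congr 1
    funext y
    rw [Finset.mul_sum, Finset.sum_mul]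
  · intro i _
    obtain ⟨C, hC⟩ := (hN.sb.mul ((hφ i).mul (hφ i))).bdd
    exact hl.int_left (hN.sb.mul ((hφ i).mul (hφ i))).measurable hC w

theorem Co_integrand_nonneg (hN : Pos N) (hl : Ch l) (w : Fin n → ℝ) :
    0 ≤ (∑ i, (EY μ r fun y => N y * φ i y * l w y) ^ 2) / ms μ r N l w :=
  div_nonneg (Finset.sum_nonneg fun _ _ => sq_nonneg _) (ms_pos hN hl w).le

theorem Co_integrand_meas (hN : Pos N) (hφ : ∀ i, SB (φ i)) (hl : Ch l) :
    Measurable fun w => (∑ i, (EY μ r fun y => N y * φ i y * l w y) ^ 2) / ms μ r N l w := by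
  apply Measurable.div _ (ms_measurable hN hl)
  apply Finset.measurable_sum
  intro i _
  apply Measurable.pow_const
  have e : (fun w => EY μ r fun y => N y * φ i y * l w y)
      = fun w => ∫ y, N y * φ i y * l w y ∂(lw μ r) := by
    funext w; exact EY_ch hl (hN.sb.mul (hφ i)) w
  rw [e]
  exact hl.meas_int (hN.sb.mul (hφ i)).measurable

theorem sb_ip_bdd (hN : Pos N) (hφ : ∀ i, SB (φ i)) :
    ∃ C, ∀ y, |N y * ∑ i, φ i y * φ i y| ≤ C := (sb_ip hN hφ hφ).bdd

theorem Co_integrable (hN : Pos N) (hφ : ∀ i, SB (φ i)) (hl : Ch l) :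
    Integrable (fun w => (∑ i, (EY μ r fun y => N y * φ i y * l w y) ^ 2) / ms μ r N l w)
      (gsn n) := by
  obtain ⟨C, hC⟩ := sb_ip_bdd hN hφ
  have h := hl.int_out (P := lw μ r) (sb_ip hN hφ hφ).measurable hC
  refine h.mono' (Co_integrand_meas hN hφ hl).aestronglyMeasurable
    (Eventually.of_forall fun w => ?_)
  rw [norm_eq_abs, abs_of_nonneg (Co_integrand_nonneg hN hl w)]
  exact Co_integrand_le hN hφ hl w

theorem Co_nonneg (hN : Pos N) (hl : Ch l) : 0 ≤ Co μ r N φ l :=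
  integral_nonneg fun w => Co_integrand_nonneg hN hl w

theorem Co_le (hN : Pos N) (hφ : ∀ i, SB (φ i)) (hl : Ch l) : Co μ r N φ l ≤ IP μ r N φ φ := by
  obtain ⟨C, hC⟩ := sb_ip_bdd hN hφ
  have h := hl.int_out (P := lw μ r) (sb_ip hN hφ hφ).measurable hC
  unfold Co IP
  refine (integral_mono (Co_integrable hN hφ hl) h fun w => Co_integrand_le hN hφ hl w).trans
    (le_of_eq ?_)
  rw [hl.fubini (P := lw μ r) (sb_ip hN hφ hφ).measurable hC, EY_eq_lw_sb μ r (sb_ip hN hφ hφ)]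

theorem Co_comb (hN : Pos N) (hφ : ∀ i, SB (φ i)) (hψ : ∀ i, SB (ψ i)) (hl : Ch l) (a b : ℝ) :
    Co μ r N (fun i y => a * φ i y + b * ψ i y) l
      ≤ 2 * a ^ 2 * Co μ r N φ l + 2 * b ^ 2 * Co μ r N ψ l := by
  have hc : ∀ i, SB fun y => a * φ i y + b * ψ i y := fun i =>
    ((hφ i).const_mul a).add ((hψ i).const_mul b)
  have i1 := Co_integrable (μ := μ) (r := r) hN hφ hl
  have i2 := Co_integrable (μ := μ) (r := r) hN hψ hl
  have i3 := Co_integrable (μ := μ) (r := r) hN hc hl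
  unfold Co
  rw [← integral_const_mul, ← integral_const_mul,
    ← integral_add (i1.const_mul _) (i2.const_mul _)]
  apply integral_mono i3 ((i1.const_mul _).add (i2.const_mul _))
  intro w
  have hm := ms_pos (μ := μ) (r := r) hN hl w
  have key : ∀ i, (EY μ r fun y => N y * (a * φ i y + b * ψ i y) * l w y)
      = a * (EY μ r fun y => N y * φ i y * l w y)
        + b * (EY μ r fun y => N y * ψ i y * l w y) := by
    intro i
    rw [EY_ch hl (hN.sb.mul (hc i)) w, EY_ch hl (hN.sb.mul (hφ i)) w,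
      EY_ch hl (hN.sb.mul (hψ i)) w, ← integral_const_mul, ← integral_const_mul, ← integral_add]
    · congr 1
      funext y
      ring
    · obtain ⟨C, hC⟩ := (hN.sb.mul (hφ i)).bdd
      exact (hl.int_left (hN.sb.mul (hφ i)).measurable hC w).const_mul a
    · obtain ⟨C, hC⟩ := (hN.sb.mul (hψ i)).bdd
      exact (hl.int_left (hN.sb.mul (hψ i)).measurable hC w).const_mul b
  show (∑ i, (EY μ r fun y => N y * (a * φ i y + b * ψ i y) * l w y) ^ 2) / ms μ r N l w
    ≤ 2 * a ^ 2 * ((∑ i, (EY μ r fun y => N y * φ i y * l w y) ^ 2) / ms μ r N l w)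
      + 2 * b ^ 2 * ((∑ i, (EY μ r fun y => N y * ψ i y * l w y) ^ 2) / ms μ r N l w)
  rw [← mul_div_assoc, ← mul_div_assoc, ← add_div]
  apply div_le_div_of_nonneg_right _ hm.le
  rw [Finset.mul_sum, Finset.mul_sum, ← Finset.sum_add_distrib]
  apply Finset.sum_le_sum
  intro i _
  rw [key i]
  linarith only [sq_nonneg (a * (EY μ r fun y => N y * φ i y * l w y) - b * (EY μ r fun y => N y * ψ i y * l w y))]

/-- tangent line of `x log x` -/
theorem xlogx_tangent {x m : ℝ} (hx : 0 < x) (hm : 0 < m) :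
    m * log m + (1 + log m) * (x - m) ≤ x * log x := by
  have h := log_le_sub_one_of_pos (div_pos hm hx)
  rw [log_div hm.ne' hx.ne'] at h
  have h1 : x * (log m - log x) ≤ x * (m / x - 1) := mul_le_mul_of_nonneg_left h hx.le
  have h2 : x * (m / x - 1) = m - x := by field_simp
  rw [h2] at h1
  linarith

theorem Inf_nonneg (hN : Pos N) (h1 : EY μ r N = 1) (hl : Ch l) : 0 ≤ Inf μ r N l := by
  apply integral_nonneg
  intro w
  show 0 ≤ (EY μ r fun y => N y * (l w y * log (l w y))) - ms μ r N l w * log (ms μ r N l w)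
  have hm := ms_pos (μ := μ) (r := r) hN hl w
  have e3 := ms_eq (μ := μ) (r := r) hN hl w
  set m := ms μ r N l w with hmdef
  obtain ⟨K, hK0, hK⟩ := hl.bd
  obtain ⟨C3, hC3⟩ := hN.sb.bdd
  have hS : 0 ≤ 1 + ∑ i, |w i| := by
    have : 0 ≤ ∑ i, |w i| := Finset.sum_nonneg fun i _ => abs_nonneg _
    linarith only [this]
  have hlm := hl.meas_left w
  have hllm : Measurable fun y => l w y * log (l w y) := hlm.mul hlm.log
  have hllb : ∀ y, |l w y * log (l w y)| ≤ exp (K * (1 + ∑ i, |w i|)) * (K * (1 + ∑ i, |w i|)) := by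
    intro y
    have hp := hl.pos w y
    apply abs_mul_le_of
    · rw [abs_of_pos hp]; exact (hK w y).2
    · rw [abs_le]
      constructor
      · have := log_le_log (exp_pos _) (hK w y).1
        rwa [log_exp] at this
      · have := log_le_log hp (hK w y).2
        rwa [log_exp] at this
  have hb2 : ∀ y, |N y * (l w y * log (l w y))|
      ≤ C3 * (exp (K * (1 + ∑ i, |w i|)) * (K * (1 + ∑ i, |w i|))) :=
    fun y => abs_mul_le_of (hC3 y) (hllb y)
  have hm2 : Measurable fun y => N y * (l w y * log (l w y)) := hN.sb.measurable.mul hllm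
  rw [EY_eq_lw μ r hm2 hb2]
  have i0 : Integrable N (lw μ r) := hN.sb.integrable _
  have i1 : Integrable (fun y => N y * l w y) (lw μ r) :=
    hl.int_left (P := lw μ r) hN.sb.measurable hC3 w
  have i2 : Integrable (fun y => N y * (l w y * log (l w y))) (lw μ r) :=
    Integrable.of_bound hm2.aestronglyMeasurable _
      (Eventually.of_forall fun y => by rw [norm_eq_abs]; exact hb2 y)
  have i3 : Integrable (fun y => (m * log m - (1 + log m) * m) * N y
      + (1 + log m) * (N y * l w y)) (lw μ r) := (i0.const_mul _).add (i1.const_mul _)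
  have h2 : ∫ y, ((m * log m - (1 + log m) * m) * N y + (1 + log m) * (N y * l w y)) ∂(lw μ r)
      ≤ ∫ y, N y * (l w y * log (l w y)) ∂(lw μ r) := by
    apply integral_mono i3 i2
    intro y
    have h3 := mul_le_mul_of_nonneg_left (xlogx_tangent (hl.pos w y) hm) (hN.pos y).le
    show (m * log m - (1 + log m) * m) * N y + (1 + log m) * (N y * l w y)
      ≤ N y * (l w y * log (l w y))
    linarith only [h3]
  rw [integral_add (i0.const_mul _) (i1.const_mul _), integral_const_mul, integral_const_mul,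
    ← e3, ← EY_eq_lw_sb μ r hN.sb, h1] at h2
  linarith only [h2]

end co

/-- module Co -/
theorem thCo (n : ℕ) : StCo n := by
  intro μ _ r N hN
  refine ⟨⟨FI_eq_IP μ r hN, GA_eq_DE μ r hN⟩, fun φ ψ hφ hψ => ⟨IP_self_nonneg hN, DE_nonneg hN,
    IP_comm, IP_cs hN hφ hψ, IP_quad hN hφ hψ⟩, fun h1 l hl => ⟨Inf_nonneg hN h1 hl,
    fun φ hφ => ⟨Co_nonneg hN hl, Co_le hN hφ hl, fun ψ hψ a b => Co_comb hN hφ hψ hl a b⟩⟩⟩

end Vale.Agent.P245.E1
end
end

section

section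

open MeasureTheory Real Set Filter Topology
open scoped ENNReal ContDiff

namespace Vale.Agent.P245.LS

variable {n : ℕ}

namespace Conv

theorem EY_zero (μ : Measure (Fin n → ℝ)) (Φ : (Fin n → ℝ) → ℝ) :
    EY μ 0 Φ = ∫ x, Φ x ∂μ := by
  unfold EY PH
  simp only [sqrt_zero, zero_smul, add_zero, integral_const, probReal_univ, smul_eq_mul, one_mul]

theorem contDiff_pd {f : (Fin n → ℝ) → ℝ} (hf : ContDiff ℝ 2 f) (i : Fin n) :
    ContDiff ℝ 1 (pd f i) := by
  unfold pd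
  exact (hf.fderiv_right (m := 1) (by norm_num)).clm_apply contDiff_const

theorem fi_integrable {f : (Fin n → ℝ) → ℝ} (hf : P2 f) {μ : Measure (Fin n → ℝ)}
    [IsProbabilityMeasure μ] {R : ℝ} (h : CSupp μ R) (i : Fin n) :
    Integrable (fun x => pd f i x ^ 2 / f x) μ := by
  obtain ⟨ε, hε, hl⟩ := hf.lb
  refine (Adm.of_continuous h ?_).integrable
  exact ((contDiff_pd hf.cd i).continuous.pow 2).div hf.cd.continuous
    fun x => (hε.trans_le (hl x)).ne'

theorem down {μ : Measure (Fin n → ℝ)} [IsProbabilityMeasure μ] {R κ D : ℝ} (h : CSupp μ R)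
    (hL : DL μ (4 * κ) D) : DB μ κ D := by
  intro f hf h1
  obtain ⟨ε, hε, hl⟩ := id hf.lb
  have hpos : ∀ x, 0 < f x := fun x => hε.trans_le (hl x)
  have hfc := hf.cd
  have hR := h.nonneg
  let χ : ContDiffBump (0 : Fin n → ℝ) := ⟨R + 1, R + 2, by linarith only [hR], by linarith⟩
  set g : (Fin n → ℝ) → ℝ := fun x => 1 + χ x * (√(f x) - 1) with hg
  have hs : ContDiff ℝ 2 fun x => √(f x) := hfc.sqrt fun x => (hpos x).ne'
  have hgc : ContDiff ℝ 2 g := by
    have : ContDiff ℝ 2 χ := χ.contDiff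
    exact contDiff_const.add (this.mul (hs.sub contDiff_const))
  have hgo : ∀ x, R + 2 < ‖x‖ → g x = 1 := by
    intro x hx
    have : χ x = 0 := χ.zero_of_le_dist (by simpa only [dist_zero_right] using hx.le)
    simp [hg, this]
  have hin : ∀ x : Fin n → ℝ, (∀ i, |x i| ≤ R) → ‖x‖ ≤ R := fun x hx =>
    (pi_norm_le_iff_of_nonneg hR).2 fun i => by simpa only [norm_eq_abs] using hx i
  have hev : ∀ x : Fin n → ℝ, ‖x‖ ≤ R → g =ᶠ[𝓝 x] fun x => √(f x) := by
    intro x hx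
    have : Metric.ball (0 : Fin n → ℝ) (R + 1) ∈ 𝓝 x :=
      Metric.isOpen_ball.mem_nhds (by simpa only [Metric.mem_ball, dist_zero_right] using (by linarith : ‖x‖ < R + 1))
    filter_upwards [this] with y hy
    have : χ y = 1 := χ.one_of_mem_closedBall (Metric.ball_subset_closedBall hy)
    simp [hg, this]
  have hval : ∀ x : Fin n → ℝ, ‖x‖ ≤ R → g x ^ 2 = f x := fun x hx => by
    rw [(hev x hx).eq_of_nhds, sq_sqrt (hpos x).le]
  have hpd : ∀ x : Fin n → ℝ, ‖x‖ ≤ R → ∀ i, pd g i x ^ 2 = pd f i x ^ 2 / f x / 4 := by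
    intro x hx i
    have e : pd g i x = pd (fun x => √(f x)) i x := by
      unfold pd
      rw [(hev x hx).fderiv_eq]
    have e2 : pd (fun x => √(f x)) i x = pd f i x / (2 * √(f x)) := by
      unfold pd
      have h1 := ((hfc.differentiable (by simp)) x).hasFDerivAt.sqrt (hpos x).ne'
      rw [h1.fderiv]
      simp only [_root_.smul_apply, smul_eq_mul]
      field_simp
    rw [e, e2, div_pow, mul_pow, sq_sqrt (hpos x).le]
    field_simp
    (clear * -; norm_num)
  have hae : ∀ᵐ x ∂μ, ‖x‖ ≤ R := h.supp.mono fun x hx => hin x hx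
  have key := hL g ⟨hgc, R + 2, 1, hgo⟩
  rw [EY_zero] at h1
  have i1 : ∫ x, g x ^ 2 ∂μ = 1 := by
    rw [← h1]
    exact integral_congr_ae (hae.mono fun x hx => hval x hx)
  have i2 : ∫ x, g x ^ 2 * log (g x ^ 2) ∂μ = HE μ 0 f := by
    unfold HE
    rw [EY_zero]
    exact integral_congr_ae (hae.mono fun x hx => by simp only [hval x hx])
  have i3 : ∑ i, ∫ x, pd g i x ^ 2 ∂μ = FI μ 0 f / 4 := by
    unfold FI
    rw [EY_zero]
    have : ∀ i, ∫ x, pd g i x ^ 2 ∂μ = (∫ x, pd f i x ^ 2 / f x ∂μ) / 4 := by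
      intro i
      rw [← integral_div]
      exact integral_congr_ae (hae.mono fun x hx => hpd x hx i)
    rw [Finset.sum_congr rfl fun i _ => this i, ← Finset.sum_div,
      ← integral_finsetSum _ fun i _ => fi_integrable hf h i]
    congr 2
    funext x
    rw [Finset.sum_div]
  unfold ent at key
  rw [i1, i2, i3, log_one] at key
  linarith only [key]

theorem up {μ : Measure (Fin n → ℝ)} [IsProbabilityMeasure μ] {R₀ κ D : ℝ} (h₀ : CSupp μ R₀)
    (hκ : 0 ≤ κ) (hB : DB μ κ D) : DL μ (4 * κ) D := by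
  intro g hg
  obtain ⟨hgc, R, c, hc⟩ := hg
  obtain ⟨K, hK⟩ := bdd_of_const_outside hgc.continuous hc
  have hg2 : ∀ x, g x ^ 2 ≤ K ^ 2 := fun x => by
    rw [← sq_abs]; exact pow_le_pow_left₀ (abs_nonneg _) (hK x) 2
  have hgm : Measurable fun x => g x ^ 2 := hgc.continuous.measurable.pow_const 2
  have hgi : Integrable (fun x => g x ^ 2) μ := integrable_of_bdd _ hgm (K := K ^ 2)
    (fun x => by rw [abs_of_nonneg (sq_nonneg _)]; exact hg2 x)
  have hpdi : ∀ i, Integrable (fun x => pd g i x ^ 2) μ := by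
    intro i
    obtain ⟨P, hP⟩ := bdd_of_const_outside (contDiff_pd hgc i).continuous (pd_const_outside hc i)
    exact integrable_of_bdd _ ((contDiff_pd hgc i).continuous.measurable.pow_const 2)
      (K := P ^ 2) fun x => by
        rw [abs_of_nonneg (sq_nonneg _), ← sq_abs]; exact pow_le_pow_left₀ (abs_nonneg _) (hP x) 2
  -- the perturbed inequality
  have step : ∀ δ : ℝ, 0 < δ → ent μ (fun x => g x ^ 2 + δ)
      ≤ 4 * κ * ∑ i, ∫ x, pd g i x ^ 2 ∂μ + D * ∫ x, (g x ^ 2 + δ) ∂μ := by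
    intro δ hδ
    set h : (Fin n → ℝ) → ℝ := fun x => g x ^ 2 + δ with hh
    have hhc : ContDiff ℝ 2 h := (hgc.pow 2).add contDiff_const
    have hhpos : ∀ x, 0 < h x := fun x => by (clear * - hδ; positivity)
    have hhi : Integrable h μ := hgi.add (integrable_const _)
    set m : ℝ := ∫ x, h x ∂μ with hm
    have hmpos : 0 < m := by
      have : δ ≤ m := by
        have e : ∫ _, δ ∂μ = δ := by simp only [integral_const, probReal_univ, smul_eq_mul, one_mul]
        rw [← e]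
        exact integral_mono (integrable_const _) hhi fun x => by
          simp only [hh]; nlinarith only []
      linarith only [hδ, this]
    set f : (Fin n → ℝ) → ℝ := fun x => m⁻¹ * h x with hf
    have hfc : ContDiff ℝ 2 f := contDiff_const.mul hhc
    have hfo : ∀ x, R < ‖x‖ → f x = m⁻¹ * (c ^ 2 + δ) := fun x hx => by
      simp only [hf, hh, hc x hx]
    have hfP : P2 f := ⟨hfc, m⁻¹ * δ, by (clear * - hmpos hδ; positivity),
      fun y => mul_le_mul_of_nonneg_left (by simp only [hh]; nlinarith only [])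
        (by (clear * - hmpos; positivity))⟩
    have hf1 : EY μ 0 f = 1 := by
      rw [EY_zero]
      simp only [hf]
      rw [integral_const_mul, ← hm, inv_mul_cancel₀ hmpos.ne']
    have key := hB f hfP hf1
    have e1 : HE μ 0 f = m⁻¹ * ent μ h := by
      unfold HE ent
      rw [EY_zero, ← hm]
      have hi2 : Integrable (fun x => h x * log (h x)) μ := by
        have hcont : Continuous fun x => h x * log (h x) :=
          Real.continuous_mul_log.comp hhc.continuous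
        obtain ⟨B, hB⟩ := bdd_of_const_outside hcont (R := R) (c := (c ^ 2 + δ) * log (c ^ 2 + δ))
          (fun x hx => by simp only [hh, hc x hx])
        exact integrable_of_bdd _ hcont.measurable hB
      have e : (fun x => f x * log (f x))
          = fun x => m⁻¹ * (h x * log (h x)) - m⁻¹ * log m * h x := by
        funext x
        simp only [hf]
        rw [log_mul (inv_pos.2 hmpos).ne' (hhpos x).ne', log_inv]
        ring
      rw [e, integral_sub (hi2.const_mul _) (hhi.const_mul _), integral_const_mul,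
        integral_const_mul, ← hm]
      ring
    have e2 : FI μ 0 f ≤ m⁻¹ * (4 * ∑ i, ∫ x, pd g i x ^ 2 ∂μ) := by
      unfold FI
      rw [EY_zero, ← integral_finsetSum _ fun i _ => hpdi i, ← integral_const_mul,
        ← integral_const_mul]
      have e : (fun x => (∑ i, pd f i x ^ 2) / f x) = fun x => ∑ i, pd f i x ^ 2 / f x := by
        funext x; rw [Finset.sum_div]
      refine integral_mono ?_ ((integrable_finsetSum _ fun i _ => hpdi i).const_mul _ |>.const_mul _)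
        fun x => ?_
      · rw [e]
        exact integrable_finsetSum _ fun i _ => fi_integrable hfP h₀ i
      have hp : ∀ i, pd f i x = m⁻¹ * (2 * g x * pd g i x) := by
        intro i
        unfold pd
        have h1 : HasFDerivAt f (m⁻¹ • ((2 * g x) • fderiv ℝ g x)) x := by
          have := (((hgc.differentiable (by simp)) x).hasFDerivAt.pow 2).add_const δ
          have := this.const_mul m⁻¹
          simpa only [Nat.add_one_sub_one, pow_one, nsmul_eq_mul, Nat.cast_ofNat] using this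
        rw [h1.fderiv]
        simp only [_root_.smul_apply, smul_eq_mul]
      simp only [hp]
      rw [div_le_iff₀ (by simp only [hf]; have := hhpos x; (clear * - hmpos hδ; positivity))]
      simp only [hf, hh]
      have : ∑ i, (m⁻¹ * (2 * g x * pd g i x)) ^ 2
          = m⁻¹ ^ 2 * 4 * g x ^ 2 * ∑ i, pd g i x ^ 2 := by
        rw [Finset.mul_sum]
        exact Finset.sum_congr rfl fun i _ => by ring
      rw [this]
      have hS : 0 ≤ ∑ i, pd g i x ^ 2 := Finset.sum_nonneg fun i _ => sq_nonneg _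
      have : m⁻¹ * (4 * ∑ i, pd g i x ^ 2) * (m⁻¹ * (g x ^ 2 + δ))
          - m⁻¹ ^ 2 * 4 * g x ^ 2 * ∑ i, pd g i x ^ 2
          = m⁻¹ ^ 2 * 4 * δ * ∑ i, pd g i x ^ 2 := by ring
      have h2 : 0 ≤ m⁻¹ ^ 2 * 4 * δ * ∑ i, pd g i x ^ 2 := by (clear * - hmpos hδ; positivity)
      linarith only [h2]
    rw [e1] at key
    have k1 : m⁻¹ * ent μ h ≤ κ * (m⁻¹ * (4 * ∑ i, ∫ x, pd g i x ^ 2 ∂μ)) + D :=
      key.trans (by (clear * - e2 hκ; gcongr))
    have k2 := mul_le_mul_of_nonneg_left k1 hmpos.le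
    have k3 : m * (m⁻¹ * ent μ h) = ent μ h := by (clear * - hmpos; field_simp)
    have k4 : m * (κ * (m⁻¹ * (4 * ∑ i, ∫ x, pd g i x ^ 2 ∂μ)) + D)
        = 4 * κ * ∑ i, ∫ x, pd g i x ^ 2 ∂μ + D * m := by (clear * - hmpos; field_simp)
    rw [k3, k4] at k2
    exact k2
  -- the limit
  let φ : ℝ → ℝ := fun u => u * log u
  have hφ : Continuous φ := Real.continuous_mul_log
  let δ : ℕ → ℝ := fun k => 1 / ((k : ℝ) + 1)
  have hδ0 : ∀ k, 0 < δ k := fun k => by positivity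
  have hδ1 : ∀ k, δ k ≤ 1 := fun k => by
    have : (0 : ℝ) ≤ k := Nat.cast_nonneg k
    rw [div_le_one (by positivity)]; linarith only []
  have hδt : Tendsto δ atTop (𝓝 0) := tendsto_one_div_add_atTop_nhds_zero_nat
  obtain ⟨B, hB2⟩ := (isCompact_Icc (a := (0 : ℝ)) (b := K ^ 2 + 1)).exists_bound_of_continuousOn
    hφ.continuousOn
  have t1 : Tendsto (fun k => ∫ x, φ (g x ^ 2 + δ k) ∂μ) atTop (𝓝 (∫ x, φ (g x ^ 2) ∂μ)) := by
    refine tendsto_integral_of_dominated_convergence (fun _ => B) ?_ (integrable_const _) ?_ ?_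
    · intro k
      exact (hφ.measurable.comp (hgm.add_const _)).aestronglyMeasurable
    · intro k
      refine Eventually.of_forall fun x => hB2 _ ⟨by have := hδ0 k; (clear * -; positivity), ?_⟩
      exact add_le_add (hg2 x) (hδ1 k)
    · refine Eventually.of_forall fun x => ?_
      have : Tendsto (fun k => g x ^ 2 + δ k) atTop (𝓝 (g x ^ 2 + 0)) := hδt.const_add _
      rw [add_zero] at this
      exact (hφ.tendsto _).comp this
  have t2 : Tendsto (fun k => ∫ x, (g x ^ 2 + δ k) ∂μ) atTop (𝓝 (∫ x, g x ^ 2 ∂μ)) := by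
    have e : (fun k => ∫ x, (g x ^ 2 + δ k) ∂μ) = fun k => ∫ x, g x ^ 2 ∂μ + δ k := by
      funext k
      rw [integral_add hgi (integrable_const _)]
      simp
    rw [e]
    simpa only [add_zero] using hδt.const_add (∫ x, g x ^ 2 ∂μ)
  have t3 : Tendsto (fun k => ent μ (fun x => g x ^ 2 + δ k)) atTop
      (𝓝 (ent μ fun x => g x ^ 2)) := by
    unfold ent
    exact t1.sub ((hφ.tendsto _).comp t2)
  exact le_of_tendsto_of_tendsto' t3 ((t2.const_mul D).const_add _) fun k => step (δ k) (hδ0 k)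

end Conv

/-- H2: `DB` gives the defective log-Sobolev inequality and conversely -/
theorem thH2 (n : ℕ) : StH2 n := by
  intro μ _ R κ D h hκ _
  exact ⟨Conv.up h hκ, Conv.down h⟩

end Vale.Agent.P245.LS
end
end

section

section

open MeasureTheory Real Set Filter Topology
open scoped ENNReal

/-!
# From a defective log-Sobolev inequality with small defect to a log-Sobolev inequality

If `Ent(f²) ≤ A ∫|Df|² + b ∫ f²` with `b < log 2` then the Poincaré inequality holds with constant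
`A / (log 2 - b)`, by applying the inequality to `(f - m)_+` and `(f - m)_-`, `m` a median.
-/

namespace Vale.Agent.P245

section general

variable {Ω : Type*} [MeasurableSpace Ω]

/-- entropy of a function supported in a set of measure at most one half -/
theorem ent_half (μ : Measure Ω) [IsProbabilityMeasure μ] {F : Ω → ℝ} (hF : Measurable F)
    (h0 : ∀ x, 0 ≤ F x) {B : ℝ} (hB : ∀ x, F x ≤ B) {S : Set Ω} (hS : MeasurableSet S)
    (hμ : μ.real S ≤ 1 / 2) (hFS : ∀ x, x ∉ S → F x = 0) :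
    log 2 * ∫ x, F x ∂μ ≤ ent μ F := by
  have hFi : Integrable F μ := integrable_of_bdd μ hF
    (fun x => by rw [abs_of_nonneg (h0 x)]; exact hB x)
  have hFl := integrable_mul_log μ hF h0 hB
  set N := ∫ x, F x ∂μ with hN
  have hN0 : 0 ≤ N := integral_nonneg h0
  rcases hN0.eq_or_lt with h | h
  · have hF0 : F =ᵐ[μ] 0 := (integral_eq_zero_iff_of_nonneg h0 hFi).1 h.symm
    have e1 : ∫ x, F x * Real.log (F x) ∂μ = 0 := by
      rw [integral_congr_ae (g := fun _ => (0 : ℝ))]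
      · simp
      · filter_upwards [hF0] with x hx
        rw [hx]; simp
    rw [ent, e1, ← hN, ← h]; simp
  · have hpt : ∀ x, F x * log (2 * N) + F x - S.indicator (fun _ => 2 * N) x
        ≤ F x * log (F x) := by
      intro x
      by_cases hx : x ∈ S
      · rw [indicator_of_mem hx]
        have := mul_le_mul_log_add_exp (a := F x) (b := log (2 * N)) (h0 x)
        rw [exp_log (by (clear * - h; positivity))] at this
        linarith only [this]
      · rw [indicator_of_notMem hx, hFS x hx]; simp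
    have hI : Integrable (S.indicator fun _ => 2 * N : Ω → ℝ) μ :=
      (integrable_const _).indicator hS
    have key := integral_mono (((hFi.mul_const _).add hFi).sub hI) hFl hpt
    have e1 : ∫ x, (F x * log (2 * N) + F x - S.indicator (fun _ => 2 * N) x) ∂μ
        = N * log (2 * N) + N - 2 * N * μ.real S := by
      have a1 : ∫ x, (F x * log (2 * N) + F x - S.indicator (fun _ => 2 * N) x) ∂μ
          = ∫ x, (F x * log (2 * N) + F x) ∂μ - ∫ x, S.indicator (fun _ => 2 * N) x ∂μ :=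
        integral_sub ((hFi.mul_const _).add hFi) hI
      rw [a1, integral_add (hFi.mul_const _) hFi, integral_mul_const, integral_indicator hS,
        setIntegral_const, smul_eq_mul, ← hN]
      ring
    have key2 : N * log (2 * N) + N - 2 * N * μ.real S ≤ ∫ x, F x * log (F x) ∂μ := by
      rw [← e1]; exact key
    have h3 : 2 * N * μ.real S ≤ N := by linarith only [mul_nonneg (sub_nonneg.2 hμ) (sub_nonneg.2 hN0)]
    rw [ent, ← hN]
    have h4 : log (2 * N) = log 2 + log N := log_mul (by norm_num) h.ne'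
    rw [h4] at key2
    (clear * - key2 h3; linarith)

/-- existence of a median of a bounded function -/
theorem exists_median (μ : Measure Ω) [IsProbabilityMeasure μ] {f : Ω → ℝ} (hf : Measurable f)
    {K : ℝ} (hK : ∀ x, |f x| ≤ K) :
    ∃ m : ℝ, |m| ≤ K ∧ μ.real {x | m < f x} ≤ 1 / 2 ∧ μ.real {x | f x < m} ≤ 1 / 2 := by
  obtain ⟨x0⟩ : Nonempty Ω := by
    by_contra h
    rw [not_nonempty_iff] at h
    have h1 : μ Set.univ = 1 := measure_univ
    rw [Set.univ_eq_empty_iff.2 h, measure_empty] at h1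
    exact zero_ne_one h1
  have hK0 : 0 ≤ K := (abs_nonneg _).trans (hK x0)
  set T : Set ℝ := {t | μ.real {x | t < f x} ≤ 1 / 2} with hT
  have hKT : K ∈ T := by
    have : {x | K < f x} = ∅ := by
      ext x
      simp only [mem_ofPred_eq, mem_empty_iff_false, iff_false, not_lt]
      exact (le_abs_self _).trans (hK x)
    rw [hT, mem_ofPred_eq, this]
    simp only [measureReal_empty, one_div, inv_nonneg, Nat.ofNat_nonneg]
  have hbd : ∀ t ∈ T, -K ≤ t := by
    intro t ht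
    by_contra hlt
    push Not at hlt
    have : {x | t < f x} = Set.univ := by
      ext x
      simp only [mem_ofPred_eq, mem_univ, iff_true]
      linarith only [hlt, (abs_le.1 (hK x)).1]
    rw [hT, mem_ofPred_eq, this, probReal_univ] at ht
    norm_num at ht
  have hbdd : BddBelow T := ⟨-K, hbd⟩
  set m := sInf T with hm
  have hmK : m ≤ K := csInf_le hbdd hKT
  have hmK' : -K ≤ m := le_csInf ⟨K, hKT⟩ hbd
  refine ⟨m, abs_le.2 ⟨hmK', hmK⟩, ?_, ?_⟩
  · -- {m < f} is the increasing union of {m + 1/(k+1) < f}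
    have hun : {x | m < f x} = ⋃ k : ℕ, {x | m + 1 / (k + 1 : ℝ) < f x} := by
      ext x
      simp only [mem_ofPred_eq, mem_iUnion]
      constructor
      · intro hx
        obtain ⟨k, hk⟩ := exists_nat_one_div_lt (sub_pos.2 hx)
        exact ⟨k, by linarith only [hk]⟩
      · rintro ⟨k, hk⟩
        have : 0 < 1 / (k + 1 : ℝ) := by (clear * -; positivity)
        linarith only [hk, this]
    have hmono : Monotone fun k : ℕ => {x | m + 1 / (k + 1 : ℝ) < f x} := by
      intro k l hkl x hx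
      simp only [mem_ofPred_eq] at hx ⊢
      have : 1 / (l + 1 : ℝ) ≤ 1 / (k + 1 : ℝ) := by
        apply one_div_le_one_div_of_le (by positivity)
        have : (k : ℝ) ≤ l := by exact_mod_cast hkl
        linarith only [this]
      linarith only [hx, this]
    have hlim : Tendsto (fun k : ℕ => μ.real {x | m + 1 / (k + 1 : ℝ) < f x}) atTop
        (𝓝 (μ.real {x | m < f x})) := by
      rw [hun]
      exact (ENNReal.tendsto_toReal (measure_ne_top _ _)).comp
        (tendsto_measure_iUnion_atTop hmono)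
    refine le_of_tendsto hlim (Eventually.of_forall fun k => ?_)
    have hlt : m < m + 1 / (k + 1 : ℝ) := by
      have : 0 < 1 / (k + 1 : ℝ) := by (clear * -; positivity)
      linarith only [this]
    obtain ⟨t, htT, htm⟩ := (csInf_lt_iff hbdd ⟨K, hKT⟩).1 hlt
    refine le_trans (measureReal_mono ?_) htT
    intro x hx
    simp only [mem_ofPred_eq] at hx ⊢
    linarith only [htm, hx]
  · have hun : {x | f x < m} = ⋃ k : ℕ, {x | f x ≤ m - 1 / (k + 1 : ℝ)} := by
      ext x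
      simp only [mem_ofPred_eq, mem_iUnion]
      constructor
      · intro hx
        obtain ⟨k, hk⟩ := exists_nat_one_div_lt (sub_pos.2 hx)
        exact ⟨k, by linarith⟩
      · rintro ⟨k, hk⟩
        have : 0 < 1 / (k + 1 : ℝ) := by (clear * -; positivity)
        linarith only [hk, this]
    have hmono : Monotone fun k : ℕ => {x | f x ≤ m - 1 / (k + 1 : ℝ)} := by
      intro k l hkl x hx
      simp only [mem_ofPred_eq] at hx ⊢
      have : 1 / (l + 1 : ℝ) ≤ 1 / (k + 1 : ℝ) := by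
        apply one_div_le_one_div_of_le (by (clear * -; positivity))
        have : (k : ℝ) ≤ l := by exact_mod_cast hkl
        linarith only [this]
      linarith only [hx, this]
    have hlim : Tendsto (fun k : ℕ => μ.real {x | f x ≤ m - 1 / (k + 1 : ℝ)}) atTop
        (𝓝 (μ.real {x | f x < m})) := by
      rw [hun]
      exact (ENNReal.tendsto_toReal (measure_ne_top _ _)).comp
        (tendsto_measure_iUnion_atTop hmono)
    refine le_of_tendsto hlim (Eventually.of_forall fun k => ?_)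
    have hnot : m - 1 / (k + 1 : ℝ) ∉ T := by
      intro hmem
      have h1 := csInf_le hbdd hmem
      have : 0 < 1 / (k + 1 : ℝ) := by (clear * -; positivity)
      linarith only [h1, this]
    have hgt : 1 / 2 < μ.real {x | m - 1 / (k + 1 : ℝ) < f x} := by
      rw [hT, mem_ofPred_eq, not_le] at hnot
      exact hnot
    have hcompl : {x | f x ≤ m - 1 / (k + 1 : ℝ)} = {x | m - 1 / (k + 1 : ℝ) < f x}ᶜ := by
      ext x; simp only [one_div, mem_ofPred_eq, mem_compl_iff, not_lt]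
    rw [hcompl, probReal_compl_eq_one_sub (measurableSet_lt measurable_const hf)]
    linarith only [hgt]

/-- smooth approximation of the positive part -/
noncomputable def psm (δ t : ℝ) : ℝ := (t + √(t ^ 2 + δ ^ 2)) / 2

theorem psm_nonneg (δ t : ℝ) : 0 ≤ psm δ t := by
  unfold psm
  have : |t| ≤ √(t ^ 2 + δ ^ 2) := abs_le_sqrt (by nlinarith only [])
  have h2 := neg_abs_le t
  linarith only [this, h2]

theorem psm_le (δ t : ℝ) : psm δ t ≤ |t| + |δ| := by
  unfold psm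
  have h1 : √(t ^ 2 + δ ^ 2) ≤ |t| + |δ| := by
    rw [sqrt_le_left (by positivity)]
    linarith only [mul_nonneg (abs_nonneg t) (abs_nonneg δ), sq_abs δ, sq_abs t]
  have h2 := le_abs_self t
  have h3 := abs_nonneg δ
  linarith only [h1, h2, h3]

theorem psm_zero (t : ℝ) : psm 0 t = max t 0 := by
  unfold psm
  rw [zero_pow two_ne_zero, add_zero, sqrt_sq_eq_abs]
  rcases le_total 0 t with h | h
  · rw [abs_of_nonneg h, max_eq_left h]; ring
  · rw [abs_of_nonpos h, max_eq_right h]; ring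

theorem continuous_psm (t : ℝ) : Continuous fun δ => psm δ t := by
  unfold psm; fun_prop

theorem contDiff_psm {δ : ℝ} (hδ : 0 < δ) : ContDiff ℝ 2 (psm δ) := by
  unfold psm
  apply ContDiff.div_const
  apply contDiff_id.add
  apply ContDiff.sqrt
  · fun_prop
  · intro t; positivity

theorem hasDerivAt_psm {δ : ℝ} (hδ : 0 < δ) (t : ℝ) :
    HasDerivAt (psm δ) ((1 + t / √(t ^ 2 + δ ^ 2)) / 2) t := by
  have hpos : t ^ 2 + δ ^ 2 ≠ 0 := by positivity
  have h1 : HasDerivAt (fun t : ℝ => t ^ 2 + δ ^ 2) (2 * t) t := by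
    simpa only [hasDerivAt_add_const_iff, Nat.cast_ofNat, Nat.add_one_sub_one, pow_one] using     (hasDerivAt_pow 2 t).add_const (δ ^ 2)
  have h2 := h1.sqrt hpos
  have h3 := ((hasDerivAt_id t).add h2).div_const 2
  refine h3.congr_deriv ?_
  congr 2
  field_simp

theorem psm_deriv_sq {δ : ℝ} (hδ : 0 < δ) (t : ℝ) :
    ((1 + t / √(t ^ 2 + δ ^ 2)) / 2) ^ 2 + ((1 + -t / √((-t) ^ 2 + δ ^ 2)) / 2) ^ 2 ≤ 1 := by
  rw [neg_sq]
  set u := t / √(t ^ 2 + δ ^ 2) with hu
  have e : -t / √(t ^ 2 + δ ^ 2) = -u := by rw [hu]; ring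
  rw [e]
  have hu1 : u ^ 2 ≤ 1 := by
    rw [hu, div_pow, sq_sqrt (by positivity), div_le_one (by positivity)]
    (by_contra nlg; linarith only [nlg, mul_pos (sub_pos.2 (not_le.1 nlg)) (sub_pos.2 (not_le.1 nlg)), mul_nonneg (sq_nonneg (δ : ℝ)) (le_of_lt (sub_pos.2 (not_le.1 nlg)))])
  linarith

end general

variable {n : ℕ} {μ : Measure (Fin n → ℝ)}

/-- the defective inequality for `C²` functions which are constant outside a ball -/
def DLS (μ : Measure (Fin n → ℝ)) (A b : ℝ) : Prop :=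
  ∀ f : (Fin n → ℝ) → ℝ, ContDiff ℝ 2 f → ∀ R c : ℝ, (∀ x, R < ‖x‖ → f x = c) →
    ent μ (fun x => f x ^ 2) ≤ A * ∑ i, ∫ x, pd f i x ^ 2 ∂μ + b * ∫ x, f x ^ 2 ∂μ

theorem pd_psm {f : (Fin n → ℝ) → ℝ} (hf : Differentiable ℝ f) {δ : ℝ} (hδ : 0 < δ) (σ m : ℝ)
    (i : Fin n) (x : Fin n → ℝ) :
    pd (fun x => psm δ (σ * (f x - m))) i x
      = (1 + σ * (f x - m) / √((σ * (f x - m)) ^ 2 + δ ^ 2)) / 2 * (σ * pd f i x) := by
  unfold pd
  have h1 : HasFDerivAt (fun x => σ * (f x - m)) (σ • fderiv ℝ f x) x :=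
    ((hf x).hasFDerivAt.sub_const m).const_mul σ
  have h2 := (hasDerivAt_psm hδ (σ * (f x - m))).comp_hasFDerivAt x h1
  have h3 : fderiv ℝ (fun x => psm δ (σ * (f x - m))) x
      = ((1 + σ * (f x - m) / √((σ * (f x - m)) ^ 2 + δ ^ 2)) / 2) • σ • fderiv ℝ f x := h2.fderiv
  rw [h3]
  simp only [smul_apply, smul_eq_mul]

/-- **Poincaré inequality** from a defective log-Sobolev inequality with defect `b < log 2`. -/
theorem poincare_of_level [IsProbabilityMeasure μ] {A b : ℝ} (hA : 0 ≤ A) (hb : b < log 2)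
    (hD : DLS μ A b) {f : (Fin n → ℝ) → ℝ} (hf : ContDiff ℝ 2 f) {R c : ℝ}
    (hc : ∀ x, R < ‖x‖ → f x = c) :
    ∃ m : ℝ, ∫ x, (f x - m) ^ 2 ∂μ ≤ A / (log 2 - b) * ∑ i, ∫ x, pd f i x ^ 2 ∂μ := by
  have hf1 : ContDiff ℝ 1 f := hf.of_le (by norm_num)
  have hfd : Differentiable ℝ f := hf1.differentiable (by norm_num)
  obtain ⟨K, hK⟩ := bdd_of_const_outside hf.continuous hc
  obtain ⟨m, hmK, hm1, hm2⟩ := exists_median μ hf.continuous.measurable hK
  have hfm : Measurable f := hf.continuous.measurable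
  have hK0 : ∀ x, |f x - m| ≤ 2 * K := fun x => (abs_sub _ _).trans (by linarith only [hmK, hK x])
  have hP : ∀ i, ∃ P, ∀ x, |pd f i x| ≤ P := fun i =>
    bdd_of_const_outside (continuous_pd hf1 i) (pd_const_outside hc i)
  choose P hP using hP
  have hpdi : ∀ i, Integrable (fun x => pd f i x ^ 2) μ := fun i =>
    integrable_of_bdd _ ((continuous_pd hf1 i).measurable.pow_const 2) (K := P i ^ 2) fun x => by
      rw [abs_of_nonneg (sq_nonneg _), ← sq_abs]; exact pow_le_pow_left₀ (abs_nonneg _) (hP i x) 2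
  -- one sided functions
  set δ : ℕ → ℝ := fun k => 1 / (k + 1 : ℝ) with hδ
  have hδ0 : ∀ k, 0 < δ k := fun k => by simp only [hδ]; (clear * -; positivity)
  have hδ1 : ∀ k, δ k ≤ 1 := fun k => by
    simp only [hδ]
    rw [div_le_one (by positivity)]
    have : (0 : ℝ) ≤ k := Nat.cast_nonneg k
    linarith only []
  have hδlim : Tendsto δ atTop (𝓝 0) := tendsto_one_div_add_atTop_nhds_zero_nat
  set F : ℝ → ℕ → (Fin n → ℝ) → ℝ := fun σ k x => psm (δ k) (σ * (f x - m)) with hFdef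
  have hFcd : ∀ σ k, ContDiff ℝ 2 (F σ k) := fun σ k =>
    (contDiff_psm (hδ0 k)).comp (contDiff_const.mul (hf.sub contDiff_const))
  have hFout : ∀ σ k x, R < ‖x‖ → F σ k x = psm (δ k) (σ * (c - m)) := fun σ k x hx => by
    simp only [hFdef]; rw [hc x hx]
  have hF0 : ∀ σ k x, 0 ≤ F σ k x := fun σ k x => psm_nonneg _ _
  have hFb : ∀ σ, |σ| = 1 → ∀ k x, F σ k x ^ 2 ≤ (2 * K + 1) ^ 2 := by
    intro σ hσ k x
    apply pow_le_pow_left₀ (hF0 σ k x)
    have h1 := psm_le (δ k) (σ * (f x - m))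
    rw [abs_mul, hσ, one_mul, abs_of_pos (hδ0 k)] at h1
    linarith only [h1, hK0 x, hδ1 k]
  have hFlim : ∀ σ x, Tendsto (fun k => F σ k x) atTop (𝓝 (max (σ * (f x - m)) 0)) := by
    intro σ x
    have := (continuous_psm (σ * (f x - m))).tendsto 0
    rw [psm_zero] at this
    exact this.comp hδlim
  -- entropy and norm limits
  have lim1 : ∀ σ, |σ| = 1 → Tendsto (fun k => ∫ x, F σ k x ^ 2 ∂μ) atTop
      (𝓝 (∫ x, max (σ * (f x - m)) 0 ^ 2 ∂μ)) := by
    intro σ hσ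
    apply tendsto_integral_of_dominated_convergence (fun _ => (2 * K + 1) ^ 2)
    · exact fun k => ((hFcd σ k).continuous.pow 2).aestronglyMeasurable
    · exact integrable_const _
    · exact fun k => Eventually.of_forall fun x => by
        rw [Real.norm_of_nonneg (sq_nonneg _)]; exact hFb σ hσ k x
    · exact Eventually.of_forall fun x => (hFlim σ x).pow 2
  obtain ⟨L, hL⟩ := exists_bound_mul_log ((2 * K + 1) ^ 2)
  have lim2 : ∀ σ, |σ| = 1 → Tendsto (fun k => ∫ x, F σ k x ^ 2 * log (F σ k x ^ 2) ∂μ) atTop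
      (𝓝 (∫ x, max (σ * (f x - m)) 0 ^ 2 * log (max (σ * (f x - m)) 0 ^ 2) ∂μ)) := by
    intro σ hσ
    apply tendsto_integral_of_dominated_convergence (fun _ => L)
    · intro k
      have hmeas : Measurable fun x => F σ k x ^ 2 := ((hFcd σ k).continuous.pow 2).measurable
      exact (hmeas.mul hmeas.log).aestronglyMeasurable
    · exact integrable_const _
    · exact fun k => Eventually.of_forall fun x => by
        rw [Real.norm_eq_abs]; exact hL _ (sq_nonneg _) (hFb σ hσ k x)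
    · exact Eventually.of_forall fun x =>
        (continuous_mul_log.tendsto _).comp ((hFlim σ x).pow 2)
  have limE : ∀ σ, |σ| = 1 → Tendsto (fun k => ent μ fun x => F σ k x ^ 2) atTop
      (𝓝 (ent μ fun x => max (σ * (f x - m)) 0 ^ 2)) := by
    intro σ hσ
    unfold ent
    exact (lim2 σ hσ).sub ((continuous_mul_log.tendsto _).comp (lim1 σ hσ))
  -- the sum of the two inequalities
  have hsum : ∀ k, ent μ (fun x => F 1 k x ^ 2) + ent μ (fun x => F (-1) k x ^ 2)
      ≤ A * ∑ i, ∫ x, pd f i x ^ 2 ∂μ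
        + b * (∫ x, F 1 k x ^ 2 ∂μ + ∫ x, F (-1) k x ^ 2 ∂μ) := by
    intro k
    have d1 := hD (F 1 k) (hFcd 1 k) R _ (hFout 1 k)
    have d2 := hD (F (-1) k) (hFcd (-1) k) R _ (hFout (-1) k)
    have hE : ∑ i, ∫ x, pd (F 1 k) i x ^ 2 ∂μ + ∑ i, ∫ x, pd (F (-1) k) i x ^ 2 ∂μ
        ≤ ∑ i, ∫ x, pd f i x ^ 2 ∂μ := by
      rw [← Finset.sum_add_distrib]
      apply Finset.sum_le_sum
      intro i _
      have hI : ∀ σ, Integrable (fun x => pd (F σ k) i x ^ 2) μ := by
        intro σ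
        have hF1 : ContDiff ℝ 1 (F σ k) := (hFcd σ k).of_le (by norm_num)
        obtain ⟨Q, hQ⟩ := bdd_of_const_outside (continuous_pd hF1 i)
          (pd_const_outside (hFout σ k) i)
        exact integrable_of_bdd _ ((continuous_pd hF1 i).measurable.pow_const 2) (K := Q ^ 2)
          fun x => by
            rw [abs_of_nonneg (sq_nonneg _), ← sq_abs]
            exact pow_le_pow_left₀ (abs_nonneg _) (hQ x) 2
      rw [← integral_add (hI 1) (hI (-1))]
      apply integral_mono ((hI 1).add (hI (-1))) (hpdi i)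
      intro x
      simp only [hFdef, Pi.add_apply]
      rw [pd_psm hfd (hδ0 k), pd_psm hfd (hδ0 k)]
      have h1 := psm_deriv_sq (hδ0 k) (1 * (f x - m))
      have e1 : -1 * (f x - m) = -(1 * (f x - m)) := by ring
      rw [e1]
      set u1 := (1 + 1 * (f x - m) / √((1 * (f x - m)) ^ 2 + δ k ^ 2)) / 2
      set u2 := (1 + -(1 * (f x - m)) / √((-(1 * (f x - m))) ^ 2 + δ k ^ 2)) / 2
      calc (u1 * (1 * pd f i x)) ^ 2 + (u2 * (-1 * pd f i x)) ^ 2
          = (u1 ^ 2 + u2 ^ 2) * pd f i x ^ 2 := by ring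
        _ ≤ 1 * pd f i x ^ 2 := mul_le_mul_of_nonneg_right h1 (sq_nonneg _)
        _ = _ := one_mul _
    have := mul_le_mul_of_nonneg_left hE hA
    linarith only [d1, d2, this]
  have hlimit := le_of_tendsto_of_tendsto ((limE 1 (by simp)).add (limE (-1) (by simp only [abs_neg, abs_one])))
    (tendsto_const_nhds.add (((lim1 1 (by simp)).add (lim1 (-1) (by simp))).const_mul b))
    (Eventually.of_forall hsum)
  -- lower bounds for the entropies
  have hb2 : ∀ σ, |σ| = 1 → ∀ x, max (σ * (f x - m)) 0 ^ 2 ≤ (2 * K) ^ 2 := by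
    intro σ hσ x
    apply pow_le_pow_left₀ (le_max_right _ _)
    have h1 : |σ * (f x - m)| ≤ 2 * K := by rw [abs_mul, hσ, one_mul]; exact hK0 x
    exact max_le ((le_abs_self _).trans h1) ((abs_nonneg _).trans h1)
  have hmeasm : ∀ σ, Measurable fun x => max (σ * (f x - m)) 0 ^ 2 := fun σ =>
    ((measurable_const.mul (hfm.sub_const m)).max measurable_const).pow_const 2
  have l1 := ent_half μ (hmeasm 1) (fun x => sq_nonneg _) (hb2 1 (by simp))
    (measurableSet_lt measurable_const hfm) hm1 (fun x hx => by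
      simp only [mem_ofPred_eq, not_lt] at hx
      rw [max_eq_right (by linarith only [hx])]; simp)
  have l2 := ent_half μ (hmeasm (-1)) (fun x => sq_nonneg _) (hb2 (-1) (by simp))
    (measurableSet_lt hfm measurable_const) hm2 (fun x hx => by
      simp only [mem_ofPred_eq, not_lt] at hx
      rw [max_eq_right (by linarith only [hx])]; simp)
  have hI : ∀ σ, |σ| = 1 → Integrable (fun x => max (σ * (f x - m)) 0 ^ 2) μ := fun σ hσ =>
    integrable_of_bdd μ (hmeasm σ) (K := (2 * K) ^ 2) fun x => by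
      rw [abs_of_nonneg (sq_nonneg _)]; exact hb2 σ hσ x
  have hN : ∫ x, max (1 * (f x - m)) 0 ^ 2 ∂μ + ∫ x, max (-1 * (f x - m)) 0 ^ 2 ∂μ
      = ∫ x, (f x - m) ^ 2 ∂μ := by
    rw [← integral_add (hI 1 (by simp)) (hI (-1) (by simp))]
    congr 1
    funext x
    rcases le_total 0 (f x - m) with h | h
    · rw [max_eq_left (by linarith only [h]), max_eq_right (by linarith only [h])]; ring
    · rw [max_eq_right (by linarith only [h]), max_eq_left (by linarith only [h])]; ring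
  refine ⟨m, ?_⟩
  rw [hN] at hlimit
  have h5 : (log 2 - b) * ∫ x, (f x - m) ^ 2 ∂μ ≤ A * ∑ i, ∫ x, pd f i x ^ 2 ∂μ := by
    rw [← hN] at hlimit ⊢
    linarith only [l2, l1, hlimit]
  have hpos : 0 < log 2 - b := by linarith only [hb]
  rw [div_mul_eq_mul_div, le_div_iff₀ hpos]
  linarith only [h5]

/-- **Log-Sobolev inequality** from a defective inequality with defect `(log 2) / 2`. -/
theorem lsi_of_level [IsProbabilityMeasure μ] {A : ℝ} (hA : 0 ≤ A)
    (hD : DLS μ A (log 2 / 2)) {f : (Fin n → ℝ) → ℝ} (hf : ContDiff ℝ 2 f) {R c : ℝ}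
    (hc : ∀ x, R < ‖x‖ → f x = c) :
    ent μ (fun x => f x ^ 2) ≤ 46 * A * ∑ i, ∫ x, pd f i x ^ 2 ∂μ := by
  have hl1 := Real.log_two_gt_d9
  have hl2 := Real.log_two_lt_d9
  obtain ⟨m, hm⟩ := poincare_of_level hA (by linarith only [hl1]) hD hf hc
  obtain ⟨K, hK⟩ := bdd_of_const_outside hf.continuous hc
  have hE0 : 0 ≤ ∑ i, ∫ x, pd f i x ^ 2 ∂μ :=
    Finset.sum_nonneg fun i _ => integral_nonneg fun x => sq_nonneg _
  have h1 := hD f hf R c hc
  have h2 := hD (fun x => f x - m) (hf.sub contDiff_const) R (c - m) (fun x hx => by rw [hc x hx])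
  have e : ∀ i x, pd (fun x => f x - m) i x = pd f i x := by
    intro i x
    unfold pd
    rw [fderiv_sub_const]
  simp only [e] at h2
  have hCP : A / (log 2 - log 2 / 2) = 2 / log 2 * A := by
    have : log 2 - log 2 / 2 = log 2 / 2 := by ring
    rw [this, div_div_eq_mul_div]; ring
  have hl0 : 0 < log 2 := by linarith only [hl1]
  rw [hCP] at hm
  have key := tighten2 μ hf.continuous.measurable hK m hE0 hA (by linarith only [hl1])
    (by positivity : 0 ≤ 2 / log 2 * A) h1 h2 hm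
  refine key.trans (mul_le_mul_of_nonneg_right ?_ hE0)
  have h3 : 2 / log 2 ≤ 2.8854 := by
    rw [div_le_iff₀ hl0]; linarith only [hl1]
  have h4 : (13 + 4 * (log 2 / 2)) * (2 / log 2 * A) = (13 * (2 / log 2) + 4) * A := by
    field_simp
  rw [h4]
  linarith only [mul_nonneg (sub_nonneg.2 hA) (sub_nonneg.2 h3), hA]

end Vale.Agent.P245
end
end

section

section

/-! # Transport of predictability along the flows (module T of E1): `thT` -/

open MeasureTheory Real Set Filter Topology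
open scoped ENNReal ContDiff

namespace Vale.Agent.P245.E1

open LS

variable {n : ℕ}

/-- positive unital linear operators on bounded measurable functions, compatible with channels -/
structure MO (Λ : ((Fin n → ℝ) → ℝ) → (Fin n → ℝ) → ℝ) : Prop where
  bm : ∀ f, BM f → BM (Λ f)
  add : ∀ f g, BM f → BM g → ∀ y, Λ (fun y => f y + g y) y = Λ f y + Λ g y
  smul : ∀ (c : ℝ) f, BM f → ∀ y, Λ (fun y => c * f y) y = c * Λ f y
  one : ∀ y, Λ (fun _ => 1) y = 1
  mono : ∀ f g, BM f → BM g → (∀ y, f y ≤ g y) → ∀ y, Λ f y ≤ Λ g y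
  jm : ∀ (G : (Fin n → ℝ) → ℝ) (l : (Fin n → ℝ) → (Fin n → ℝ) → ℝ), BM G → Ch l →
    Measurable (Function.uncurry fun w y => Λ (fun y' => G y' * l w y') y)
  fub : ∀ (G : (Fin n → ℝ) → ℝ) (l : (Fin n → ℝ) → (Fin n → ℝ) → ℝ), BM G → Ch l →
    ∀ y, ∫ w, Λ (fun y' => G y' * l w y') y ∂(gsn n) = Λ G y

theorem Ch.bm {l : (Fin n → ℝ) → (Fin n → ℝ) → ℝ} (hl : Ch l) (w : Fin n → ℝ) : BM (l w) :=
  ⟨hl.meas_left w, hl.bdd_left w⟩

/-! ### the heat semigroup -/

theorem PH_jm {G : (Fin n → ℝ) → ℝ} {l : (Fin n → ℝ) → (Fin n → ℝ) → ℝ} (hG : BM G) (hl : Ch l)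
    (u : ℝ) : Measurable (Function.uncurry fun w y => PH u (fun y' => G y' * l w y') y) := by
  have h : Measurable (fun p : ((Fin n → ℝ) × (Fin n → ℝ)) × (Fin n → ℝ) =>
      G (p.1.2 + √u • p.2) * l p.1.1 (p.1.2 + √u • p.2)) :=
    (hG.1.comp (by fun_prop)).mul (hl.meas.comp
      (Measurable.prodMk (by fun_prop) (by (clear * -; fun_prop)) :
        Measurable fun p : ((Fin n → ℝ) × (Fin n → ℝ)) × (Fin n → ℝ) =>
          (p.1.1, p.1.2 + √u • p.2)))
  exact (h.stronglyMeasurable.integral_prod_right' (ν := gsn n)).measurable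

theorem PH_fub {G : (Fin n → ℝ) → ℝ} {l : (Fin n → ℝ) → (Fin n → ℝ) → ℝ} (hG : BM G) (hl : Ch l)
    (u : ℝ) (y : Fin n → ℝ) :
    ∫ w, PH u (fun y' => G y' * l w y') y ∂(gsn n) = PH u G y := by
  obtain ⟨C, hC⟩ := hG.2
  have hm : Measurable fun z : Fin n → ℝ => y + √u • z := by fun_prop
  have hP : IsProbabilityMeasure ((gsn n).map fun z : Fin n → ℝ => y + √u • z) :=
    Measure.isProbabilityMeasure_map hm.aemeasurable
  have h := hl.fubini (P := (gsn n).map fun z : Fin n → ℝ => y + √u • z) hG.1 hC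
  rw [integral_map hm.aemeasurable hG.1.aestronglyMeasurable] at h
  have e : ∀ w : Fin n → ℝ, ∫ z, G z * l w z ∂((gsn n).map fun z : Fin n → ℝ => y + √u • z)
      = PH u (fun y' => G y' * l w y') y := fun w =>
    integral_map hm.aemeasurable (hG.1.mul (hl.meas_left w)).aestronglyMeasurable
  simp_rw [e] at h
  exact h

theorem MO_PH (u : ℝ) : MO (PH (n := n) u) where
  bm f hf := hf.ph u
  add f g hf hg y := by
    obtain ⟨C, hC⟩ := hf.2
    obtain ⟨D, hD⟩ := hg.2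
    rw [PH_add hf.1 hC hg.1 hD]
  smul c f _ y := by rw [PH_const_mul]
  one y := by rw [PH_const]
  mono f g hf hg h y := by
    obtain ⟨C, hC⟩ := hf.2
    obtain ⟨D, hD⟩ := hg.2
    exact PH_mono hf.1 hC hg.1 hD h u y
  jm G l hG hl := PH_jm hG hl u
  fub G l hG hl y := PH_fub hG hl u y

/-! ### the kernel `UL` -/

theorem PH_ch_le {G : (Fin n → ℝ) → ℝ} {l : (Fin n → ℝ) → (Fin n → ℝ) → ℝ} {C : ℝ}
    (hC : ∀ y, |G y| ≤ C) {K : ℝ}
    (hK : ∀ w y, exp (-(K * (1 + ∑ i, |w i|))) ≤ l w y ∧ l w y ≤ exp (K * (1 + ∑ i, |w i|)))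
    (u : ℝ) (w y : Fin n → ℝ) :
    |PH u (fun y' => G y' * l w y') y| ≤ C * exp (K * (1 + ∑ i, |w i|)) := by
  refine PH_abs_le (fun y' => abs_mul_le_of (hC y') ?_) u y
  rw [abs_of_pos ((exp_pos _).trans_le (hK w y').1)]
  exact (hK w y').2

section ul

variable {μ : Measure (Fin n → ℝ)} [IsProbabilityMeasure μ] {R : ℝ}

theorem UL_jm (h : CSupp μ R) {G : (Fin n → ℝ) → ℝ} {l : (Fin n → ℝ) → (Fin n → ℝ) → ℝ}
    (hG : BM G) (hl : Ch l) (s r : ℝ) :
    Measurable (Function.uncurry fun w y => UL μ s r (fun y' => G y' * l w y') y) := by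
  have h0 : Measurable (fun p : ((Fin n → ℝ) × (Fin n → ℝ)) × (Fin n → ℝ) =>
      (p.1.1, (1 - s / r) • p.2 + (s / r) • p.1.2)) :=
    Measurable.prodMk (by fun_prop) (by (clear * -; fun_prop))
  have h1 : Measurable (fun p : ((Fin n → ℝ) × (Fin n → ℝ)) × (Fin n → ℝ) =>
      PH (s * (r - s) / r) (fun y' => G y' * l p.1.1 y') ((1 - s / r) • p.2 + (s / r) • p.1.2)
        * exp (lx p.2 (1 / r, (1 / r) • p.1.2))) := by
    apply ((PH_jm hG hl (s * (r - s) / r)).comp h0).mul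
    apply Measurable.exp
    unfold lx
    simp only [Pi.smul_apply, smul_eq_mul]
    fun_prop
  have h2 : Measurable (fun y : Fin n → ℝ => Zo μ (1 / r, (1 / r) • y)) :=
    ((contDiff_Zo h 0).continuous.comp (by fun_prop)).measurable
  exact (h1.stronglyMeasurable.integral_prod_right' (ν := μ)).measurable.div
    (h2.comp measurable_snd)

theorem UL_fub (h : CSupp μ R) {G : (Fin n → ℝ) → ℝ} {l : (Fin n → ℝ) → (Fin n → ℝ) → ℝ}
    (hG : BM G) (hl : Ch l) (s r : ℝ) (y : Fin n → ℝ) :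
    ∫ w, UL μ s r (fun y' => G y' * l w y') y ∂(gsn n) = UL μ s r G y := by
  obtain ⟨C, hC0, hC⟩ := hG.bdd'
  obtain ⟨K, hK0, hK⟩ := hl.bd
  unfold UL Mf Zf
  rw [integral_div]
  congr 1
  have hadm := h.adm_exp_lx (1 / r, (1 / r) • y)
  obtain ⟨E, hE0, hE⟩ := hadm.bdd
  have h0 : Measurable (fun p : (Fin n → ℝ) × (Fin n → ℝ) =>
      (p.1, (1 - s / r) • p.2 + (s / r) • y)) :=
    Measurable.prodMk (by fun_prop) (by (clear * -; fun_prop))
  have hm : Measurable (Function.uncurry fun (w x : Fin n → ℝ) =>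
      PH (s * (r - s) / r) (fun y' => G y' * l w y') ((1 - s / r) • x + (s / r) • y)
        * exp (lx x (1 / r, (1 / r) • y))) :=
    ((PH_jm hG hl (s * (r - s) / r)).comp h0).mul (hadm.meas.comp measurable_snd)
  have hint : Integrable (Function.uncurry fun (w x : Fin n → ℝ) =>
      PH (s * (r - s) / r) (fun y' => G y' * l w y') ((1 - s / r) • x + (s / r) • y)
        * exp (lx x (1 / r, (1 / r) • y))) ((gsn n).prod μ) := by
    have h2 : Integrable (fun q : (Fin n → ℝ) × (Fin n → ℝ) =>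
        C * exp (K * (1 + ∑ i, |q.1 i|)) * E) ((gsn n).prod μ) :=
      (((integrable_expo K).comp_fst μ).const_mul C).mul_const E
    refine h2.mono' hm.aestronglyMeasurable ?_
    have hae : ∀ᵐ q ∂((gsn n).prod μ), |exp (lx q.2 (1 / r, (1 / r) • y))| ≤ E :=
      Measure.quasiMeasurePreserving_snd.ae hE
    filter_upwards [hae] with q hq
    rw [norm_eq_abs]
    exact abs_mul_le_of (PH_ch_le hC hK _ _ _) hq
  rw [integral_integral_swap hint]
  congr 1
  funext x
  rw [integral_mul_const, PH_fub hG hl]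

theorem MO_UL (hK : StK n) (h : CSupp μ R) {s r : ℝ} (hs : 0 < s) (hsr : s ≤ r) :
    MO (UL μ s r) := by
  obtain ⟨h1, h2, h3, h4, h5, h6⟩ := (hK μ R h).1 s r hs hsr
  refine ⟨fun f hf => (h1 f hf).1, fun f g hf hg y => ?_, fun c f hf y => ?_, fun y => ?_, h5,
    fun G l hG hl => UL_jm h hG hl s r, fun G l hG hl y => UL_fub h hG hl s r y⟩
  · rw [h2 f g hf hg]
  · rw [h3 c f hf]
  · rw [h4 1]

end ul

/-! ### transport of channels -/

/-- the transported channel -/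
noncomputable def tch (Λ : ((Fin n → ℝ) → ℝ) → (Fin n → ℝ) → ℝ) (G : (Fin n → ℝ) → ℝ)
    (l : (Fin n → ℝ) → (Fin n → ℝ) → ℝ) (w y : Fin n → ℝ) : ℝ :=
  Λ (fun y' => G y' * l w y') y / Λ G y

section tr

variable {Λ : ((Fin n → ℝ) → ℝ) → (Fin n → ℝ) → ℝ} {G : (Fin n → ℝ) → ℝ}
  {l : (Fin n → ℝ) → (Fin n → ℝ) → ℝ}

theorem MO.cst (hΛ : MO Λ) (c : ℝ) (y : Fin n → ℝ) : Λ (fun _ => c) y = c := by
  have h := hΛ.smul c (fun _ => 1) (BM.const 1) y
  simp only [mul_one] at h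
  rw [h, hΛ.one, mul_one]

theorem MO.pos (hΛ : MO Λ) (hG : BM G) (hG0 : ∃ ε, 0 < ε ∧ ∀ y, ε ≤ G y) (y : Fin n → ℝ) :
    0 < Λ G y := by
  obtain ⟨ε, hε, h1⟩ := hG0
  have h2 := hΛ.mono (fun _ => ε) G (BM.const ε) hG h1 y
  rw [hΛ.cst] at h2
  exact hε.trans_le h2

theorem tch_mul (hΛ : MO Λ) (hG : BM G) (hG0 : ∃ ε, 0 < ε ∧ ∀ y, ε ≤ G y) (w y : Fin n → ℝ) :
    Λ G y * tch Λ G l w y = Λ (fun y' => G y' * l w y') y := by
  unfold tch
  rw [mul_div_cancel₀ _ (hΛ.pos hG hG0 y).ne']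

theorem Ch.tch (hΛ : MO Λ) (hG : BM G) (hG0 : ∃ ε, 0 < ε ∧ ∀ y, ε ≤ G y) (hl : Ch l) :
    Ch (tch Λ G l) := by
  have hG' : ∀ y, 0 ≤ G y := fun y => by
    obtain ⟨ε, hε, h1⟩ := hG0
    exact hε.le.trans (h1 y)
  refine ⟨(hΛ.jm G l hG hl).div ((hΛ.bm G hG).1.comp measurable_snd), ?_, fun y => ?_⟩
  · obtain ⟨K, hK0, hK⟩ := hl.bd
    refine ⟨K, hK0, fun w y => ?_⟩
    have hp := hΛ.pos hG hG0 y
    have hb := hG.mul (hl.bm w)
    unfold E1.tch
    rw [le_div_iff₀ hp, div_le_iff₀ hp]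
    have hc : ∀ c : ℝ, BM fun y => c * G y := fun c => (BM.const c).mul hG
    constructor
    · rw [← hΛ.smul _ G hG]
      apply hΛ.mono _ _ (hc _) hb
      intro y'
      rw [mul_comm]
      exact mul_le_mul_of_nonneg_left (hK w y').1 (hG' y')
    · rw [← hΛ.smul _ G hG]
      apply hΛ.mono _ _ hb (hc _)
      intro y'
      rw [mul_comm]
      exact mul_le_mul_of_nonneg_right (hK w y').2 (hG' y')
  · unfold E1.tch
    rw [integral_div, hΛ.fub G l hG hl, div_self (hΛ.pos hG hG0 y).ne']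

/-- `l log l` is bounded -/
theorem Ch.bm_log (hl : Ch l) (w : Fin n → ℝ) : BM fun y => l w y * log (l w y) := by
  obtain ⟨K, hK0, hK⟩ := hl.bd
  refine ⟨(hl.meas_left w).mul (hl.meas_left w).log,
    exp (K * (1 + ∑ i, |w i|)) * (K * (1 + ∑ i, |w i|)), fun y => ?_⟩
  have hp := hl.pos w y
  apply abs_mul_le_of
  · rw [abs_of_pos hp]; exact (hK w y).2
  · rw [abs_le]
    constructor
    · have := log_le_log (exp_pos _) (hK w y).1
      rwa [log_exp] at this
    · have := log_le_log hp (hK w y).2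
      rwa [log_exp] at this

/-- Jensen's inequality for the transported channel -/
theorem tch_jensen (hΛ : MO Λ) (hG : BM G) (hG0 : ∃ ε, 0 < ε ∧ ∀ y, ε ≤ G y) (hl : Ch l)
    (w y : Fin n → ℝ) :
    Λ G y * (tch Λ G l w y * log (tch Λ G l w y))
      ≤ Λ (fun y' => G y' * (l w y' * log (l w y'))) y := by
  have hG' : ∀ y, 0 ≤ G y := fun y => by
    obtain ⟨ε, hε, h1⟩ := hG0
    exact hε.le.trans (h1 y)
  have hv : 0 < tch Λ G l w y := (Ch.tch hΛ hG hG0 hl).pos w y
  have hm := tch_mul (l := l) hΛ hG hG0 w y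
  set v := tch Λ G l w y with hvdef
  have hb := hG.mul (hl.bm w)
  have hb2 := hG.mul (hl.bm_log w)
  have hc1 : BM fun y => (v * log v - (1 + log v) * v) * G y := (BM.const _).mul hG
  have hc2 : BM fun y => (1 + log v) * (G y * l w y) := (BM.const _).mul hb
  have hs : BM fun y => (v * log v - (1 + log v) * v) * G y + (1 + log v) * (G y * l w y) := by
    obtain ⟨C, hC⟩ := hc1.2
    obtain ⟨D, hD⟩ := hc2.2
    exact ⟨hc1.1.add hc2.1, C + D, fun y => (abs_add_le _ _).trans (add_le_add (hC y) (hD y))⟩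
  have h := hΛ.mono _ _ hs hb2 (fun y' => by
    have h3 := mul_le_mul_of_nonneg_left (xlogx_tangent (hl.pos w y') hv) (hG' y')
    linarith) y
  rw [hΛ.add _ _ hc1 hc2, hΛ.smul _ G hG, hΛ.smul _ _ hb, ← hm] at h
  linarith only [h]

end tr

/-! ### the information is integrable -/

theorem abs_xlogx_le {x : ℝ} (hx : 0 < x) : |x * log x| ≤ 1 + x ^ 2 := by
  rcases le_total x 1 with h | h
  · have h1 := abs_log_mul_self_lt x hx h
    rw [mul_comm]
    nlinarith only [h1]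
  · rw [abs_of_nonneg (mul_nonneg hx.le (log_nonneg h))]
    have h1 := log_le_sub_one_of_pos hx
    (by_contra nlg; linarith [mul_pos (sub_pos.2 hx) (sub_pos.2 hx), mul_pos (sub_pos.2 (not_le.1 nlg)) (sub_pos.2 hx), mul_nonneg (sq_nonneg (x : ℝ)) (sub_nonneg.2 h1), hx])

section inf

variable {μ : Measure (Fin n → ℝ)} [IsProbabilityMeasure μ] {r : ℝ} {N : (Fin n → ℝ) → ℝ}
  {l : (Fin n → ℝ) → (Fin n → ℝ) → ℝ}

theorem EY_eq_lw_bm {Φ : (Fin n → ℝ) → ℝ} (hΦ : BM Φ) : EY μ r Φ = ∫ y, Φ y ∂(lw μ r) := by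
  obtain ⟨C, hC⟩ := hΦ.2
  exact EY_eq_lw μ r hΦ.1 hC

theorem EY_abs_le {Φ : (Fin n → ℝ) → ℝ} {C : ℝ} (hC : ∀ y, |Φ y| ≤ C) : |EY μ r Φ| ≤ C := by
  unfold EY
  rw [← norm_eq_abs]
  refine (norm_integral_le_of_norm_le_const (μ := μ) (C := C)
    (Eventually.of_forall fun x => ?_)).trans ?_
  · rw [norm_eq_abs]; exact PH_abs_le hC r x
  · simp

theorem EY_mono_bm {Φ Ψ : (Fin n → ℝ) → ℝ} (hΦ : BM Φ) (hΨ : BM Ψ) (h : ∀ y, Φ y ≤ Ψ y) :
    EY μ r Φ ≤ EY μ r Ψ := by
  rw [EY_eq_lw_bm hΦ, EY_eq_lw_bm hΨ]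
  obtain ⟨C, hC⟩ := hΦ.2
  obtain ⟨D, hD⟩ := hΨ.2
  exact integral_mono (integrable_of_bdd _ hΦ.1 hC) (integrable_of_bdd _ hΨ.1 hD) h

theorem Inf_integrable (hN : Pos N) (hl : Ch l) :
    Integrable (fun w => (EY μ r fun y => N y * (l w y * log (l w y)))
      - ms μ r N l w * log (ms μ r N l w)) (gsn n) := by
  obtain ⟨C, hC0, hC⟩ := (SB.bm hN.sb).bdd'
  obtain ⟨K, hK0, hK⟩ := hl.bd
  have hS : ∀ w : Fin n → ℝ, 0 ≤ K * (1 + ∑ i, |w i|) := fun w => by
    have : 0 ≤ ∑ i, |w i| := Finset.sum_nonneg fun i _ => abs_nonneg _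
    positivity
  have hE : ∀ w : Fin n → ℝ, exp (2 * K * (1 + ∑ i, |w i|))
      = exp (K * (1 + ∑ i, |w i|)) * exp (K * (1 + ∑ i, |w i|)) := fun w => by
    rw [← exp_add]
    congr 1
    ring
  have hla : ∀ w y, |l w y| ≤ exp (K * (1 + ∑ i, |w i|)) := fun w y => by
    rw [abs_of_pos (hl.pos w y)]; exact (hK w y).2
  have hlg : ∀ w y, |log (l w y)| ≤ exp (K * (1 + ∑ i, |w i|)) := fun w y => by
    have h1 : |log (l w y)| ≤ K * (1 + ∑ i, |w i|) := by
      rw [abs_le]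
      constructor
      · have := log_le_log (exp_pos _) (hK w y).1
        rwa [log_exp] at this
      · have := log_le_log (hl.pos w y) (hK w y).2
        rwa [log_exp] at this
    exact h1.trans ((le_add_of_nonneg_right zero_le_one).trans (add_one_le_exp _))
  apply Integrable.sub
  · have hm : Measurable (Function.uncurry fun (w y : Fin n → ℝ) =>
        N y * (l w y * log (l w y))) :=
      (hN.sb.measurable.comp measurable_snd).mul (hl.meas.mul hl.meas.log)
    have e : (fun w => EY μ r fun y => N y * (l w y * log (l w y)))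
        = fun w => ∫ y, N y * (l w y * log (l w y)) ∂(lw μ r) := by
      funext w
      exact EY_eq_lw_bm ((SB.bm hN.sb).mul (hl.bm_log w))
    have hm2 : Measurable fun w => EY μ r fun y => N y * (l w y * log (l w y)) := by
      rw [e]
      exact (hm.stronglyMeasurable.integral_prod_right' (ν := lw μ r)).measurable
    refine ((integrable_expo (2 * K)).const_mul C).mono' hm2.aestronglyMeasurable
      (Eventually.of_forall fun w => ?_)
    rw [norm_eq_abs, hE w]
    exact EY_abs_le fun y => abs_mul_le_of (hC y) (abs_mul_le_of (hla w y) (hlg w y))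
  · have hm := ms_measurable (μ := μ) (r := r) hN hl
    refine ((integrable_const (1 : ℝ)).add
      ((integrable_expo (2 * K)).const_mul (C ^ 2))).mono' (hm.mul hm.log).aestronglyMeasurable
      (Eventually.of_forall fun w => ?_)
    have hp := ms_pos (μ := μ) (r := r) hN hl w
    have h1 : |ms μ r N l w| ≤ C * exp (K * (1 + ∑ i, |w i|)) :=
      EY_abs_le fun y => abs_mul_le_of (hC y) (hla w y)
    rw [abs_of_pos hp] at h1
    have h2 := abs_xlogx_le hp
    have h3 : ms μ r N l w ^ 2 ≤ (C * exp (K * (1 + ∑ i, |w i|))) ^ 2 :=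
      pow_le_pow_left₀ hp.le h1 2
    have h4 : (C * exp (K * (1 + ∑ i, |w i|))) ^ 2
        = C ^ 2 * exp (2 * K * (1 + ∑ i, |w i|)) := by
      rw [hE w]; ring
    rw [norm_eq_abs]
    show |ms μ r N l w * log (ms μ r N l w)| ≤ 1 + C ^ 2 * exp (2 * K * (1 + ∑ i, |w i|))
    rw [← h4]
    linarith only [h2, h3]

end inf

/-! ### transport of predictability -/

theorem transport {μ : Measure (Fin n → ℝ)} [IsProbabilityMeasure μ] {a b : ℝ}
    {Λ Λs : ((Fin n → ℝ) → ℝ) → (Fin n → ℝ) → ℝ} (hΛ : MO Λ)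
    (adj : ∀ f Φ : (Fin n → ℝ) → ℝ, BM f → BM Φ →
      EY μ a (fun y => Λ f y * Φ y) = EY μ b (fun y => f y * Λs Φ y))
    {G H Na Nb : (Fin n → ℝ) → ℝ} (hG : BM G) (hG0 : ∃ ε, 0 < ε ∧ ∀ y, ε ≤ G y) (hH : BM H)
    (hH0 : ∀ y, 0 ≤ H y) (hNa : Pos Na) (hNb : Pos Nb) (eNa : ∀ y, Na y = H y * Λ G y)
    (eNb : ∀ y, Nb y = G y * Λs H y) {φa φb : Fin n → (Fin n → ℝ) → ℝ}
    (hφa : ∀ i, BM (φa i)) (eφ : ∀ i y, Λs (fun y => H y * φa i y) y = Λs H y * φb i y)
    {x X : ℝ} (hp : Pred μ a Na φa x X) : Pred μ b Nb φb x X := by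
  intro l hl hI
  have hl' := Ch.tch hΛ hG hG0 hl
  have key : ∀ ψ : (Fin n → ℝ) → ℝ, BM ψ → ∀ w,
      (EY μ a fun y => Na y * ψ y * tch Λ G l w y)
        = EY μ b fun y => (G y * l w y) * Λs (fun y => H y * ψ y) y := by
    intro ψ hψ w
    rw [← adj _ _ (hG.mul (hl.bm w)) (hH.mul hψ)]
    congr 1
    funext y
    rw [eNa, ← tch_mul hΛ hG hG0 w y]
    ring
  have hms : ∀ w, ms μ a Na (tch Λ G l) w = ms μ b Nb l w := by
    intro w
    have h := key (fun _ => 1) (BM.const 1) w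
    simp only [mul_one] at h
    unfold ms
    rw [h]
    congr 1
    funext y
    rw [eNb]
    ring
  have hfi : ∀ w i, (EY μ a fun y => Na y * φa i y * tch Λ G l w y)
      = EY μ b fun y => Nb y * φb i y * l w y := by
    intro w i
    rw [key _ (hφa i) w]
    congr 1
    funext y
    rw [eφ, eNb]
    ring
  have hCo : Co μ a Na φa (tch Λ G l) = Co μ b Nb φb l := by
    unfold Co
    congr 1
    funext w
    rw [hms w]
    congr 1
    exact Finset.sum_congr rfl fun i _ => by rw [hfi w i]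
  have hInf : Inf μ a Na (tch Λ G l) ≤ Inf μ b Nb l := by
    unfold Inf
    refine integral_mono (Inf_integrable hNa hl') (Inf_integrable hNb hl) fun w => ?_
    show (EY μ a fun y => Na y * (tch Λ G l w y * log (tch Λ G l w y)))
      - ms μ a Na (tch Λ G l) w * log (ms μ a Na (tch Λ G l) w)
      ≤ (EY μ b fun y => Nb y * (l w y * log (l w y))) - ms μ b Nb l w * log (ms μ b Nb l w)
    rw [hms w]
    apply sub_le_sub_right
    have h1 : (EY μ b fun y => Nb y * (l w y * log (l w y)))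
        = EY μ a fun y => Λ (fun y' => G y' * (l w y' * log (l w y'))) y * H y := by
      rw [adj _ _ (hG.mul (hl.bm_log w)) hH]
      congr 1
      funext y
      rw [eNb]
      ring
    rw [h1]
    refine EY_mono_bm ((SB.bm hNa.sb).mul (hl'.bm_log w))
      ((hΛ.bm _ (hG.mul (hl.bm_log w))).mul hH) fun y => ?_
    have h2 := mul_le_mul_of_nonneg_right (tch_jensen hΛ hG hG0 hl w y) (hH0 y)
    rw [eNa]
    refine (le_of_eq ?_).trans h2
    ring
  have h := hp _ hl' (hInf.trans hI)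
  rwa [hCo] at h

/-- module T -/
theorem thT (n : ℕ) (hK : StK n) (hR : StR n) : StT n := by
  intro μ _ R h N s r x X hN hs hsr
  have adjU : ∀ f Φ : (Fin n → ℝ) → ℝ, BM f → BM Φ →
      EY μ r (fun y => UL μ s r f y * Φ y) = EY μ s (fun y => f y * PH (r - s) Φ y) :=
    ((hK μ R h).1 s r hs hsr).2.2.2.2.2
  have adjP : ∀ f Φ : (Fin n → ℝ) → ℝ, BM f → BM Φ →
      EY μ s (fun y => PH (r - s) f y * Φ y) = EY μ r (fun y => f y * UL μ s r Φ y) := by
    intro f Φ hf hΦ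
    have h1 := adjU Φ f hΦ hf
    simp_rw [mul_comm (Φ _), mul_comm _ (f _)] at h1
    exact h1.symm
  have mU := MO_UL hK h hs hsr
  have mP := MO_PH (n := n) (r - s)
  have hone : BM (fun _ : Fin n → ℝ => (1 : ℝ)) := BM.const 1
  have hone' : ∃ ε : ℝ, 0 < ε ∧ ∀ y : Fin n → ℝ, ε ≤ (fun _ => (1 : ℝ)) y :=
    ⟨1, one_pos, fun _ => le_rfl⟩
  obtain ⟨hUN, hsb, -⟩ := ((hR μ R h).2.2 s r hs hsr).2 N hN
  have hPN := PH_pos hN (r - s)
  have hNb := SB.bm hN.sb
  have hN0 : ∀ y, 0 ≤ N y := fun y => (hN.pos y).le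
  have epd : ∀ i, (fun y => N y * sN N i y) = pd N i := fun i => by
    funext y
    unfold sN
    rw [mul_div_cancel₀ _ (hN.pos y).ne']
  refine ⟨fun _ hp => ?_, fun _ hp => ?_, fun _ φ hφ hp => ?_, fun _ φ hφ hp => ?_⟩
  · refine transport mU adjU hone hone' hNb hN0 hN hPN (fun y => by rw [mU.one, mul_one])
      (fun y => by rw [one_mul]) (fun i => SB.bm (hsb i).1) (fun i y => ?_) hp
    rw [epd i, ← pd_PH hN.sb]
    unfold sN
    rw [mul_div_cancel₀ _ (hPN.pos y).ne']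
  · refine transport mP adjP hone hone' hNb hN0 hN hUN (fun y => by rw [mP.one, mul_one])
      (fun y => by rw [one_mul]) (fun i => SB.bm (hsb i).1) (fun i y => ?_) hp
    rw [epd i]
    unfold us
    rw [mul_div_cancel₀ _ (hUN.pos y).ne']
  · refine transport mU adjU hNb hN.lb hone (fun _ => zero_le_one) hUN hN
      (fun y => by rw [one_mul]) (fun y => by rw [mP.one, mul_one]) (fun i => SB.bm (hφ i))
      (fun i y => ?_) hp
    simp only [one_mul]
    rw [mP.one, one_mul]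
  · refine transport mP adjP hNb hN.lb hone (fun _ => zero_le_one) hPN hN
      (fun y => by rw [one_mul]) (fun y => by rw [mU.one, mul_one]) (fun i => SB.bm (hφ i))
      (fun i y => ?_) hp
    simp only [one_mul]
    rw [mU.one, one_mul]

end Vale.Agent.P245.E1
end
end

section

section

open MeasureTheory Real Set
open scoped ENNReal

namespace Vale.Agent.P245

theorem exp_moment {n : ℕ} {μ : Measure (EuclideanSpace ℝ (Fin n))} [IsProbabilityMeasure μ]
    {a : ℝ} (ha : 0 < a) (hs : LinearlySubgaussian μ a) (h : Fin n → ℝ) :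
    ∫⁻ x, ENNReal.ofReal (exp (∑ i, h i * x i)) ∂(μ.map (MeasurableEquiv.toLp 2 (Fin n → ℝ)).symm)
      ≤ 2 * ENNReal.ofReal (exp (a ^ 2 / 4 * ∑ i, h i ^ 2)) := by
  rw [lintegral_map (by fun_prop) (MeasurableEquiv.measurable _)]
  set H : EuclideanSpace ℝ (Fin n) := WithLp.toLp 2 h with hH
  have hN : ‖H‖ ^ 2 = ∑ i, h i ^ 2 := by rw [EuclideanSpace.real_norm_sq_eq]
  rcases eq_or_ne H 0 with h0 | h0
  · have : h = 0 := by
      have := congrArg WithLp.ofLp h0
      simpa [hH] using this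
    subst this
    simp only [Pi.zero_apply, MeasurableEquiv.toLp_symm_apply, zero_mul, Finset.sum_const_zero, exp_zero, ENNReal.ofReal_one, lintegral_const, measure_univ, mul_one, ne_eq, OfNat.ofNat_ne_zero, not_false_eq_true, zero_pow, mul_zero, Nat.one_le_ofNat]
  · have hHp : 0 < ‖H‖ := norm_pos_iff.2 h0
    set θ : EuclideanSpace ℝ (Fin n) := (‖H‖⁻¹) • H with hθ
    have hθ1 : ‖θ‖ = 1 := by rw [hθ, norm_smul, norm_inv, norm_norm, inv_mul_cancel₀ hHp.ne']
    have key : ∀ x : EuclideanSpace ℝ (Fin n), ∑ i, h i * x i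
        ≤ a ^ 2 / 4 * ∑ i, h i ^ 2 + inner ℝ x θ ^ 2 / a ^ 2 := by
      intro x
      have e1 : ∑ i, h i * x i = ‖H‖ * inner ℝ x θ := by
        have : inner ℝ x H = ∑ i, h i * x i := by
          rw [PiLp.inner_apply]
          apply Finset.sum_congr rfl
          intro i _
          simp [hH]
        rw [hθ, inner_smul_right, this]
        field_simp
      rw [e1, ← hN]
      set t := inner ℝ x θ
      have e2 : a ^ 2 / 4 * ‖H‖ ^ 2 + t ^ 2 / a ^ 2 - ‖H‖ * t = (a / 2 * ‖H‖ - t / a) ^ 2 := by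
        field_simp
        ring
      (by_contra nlg; linarith only [nlg, mul_eq_zero_of_left (sub_eq_zero.2 e2) (‖H‖ * t - (a ^ 2 / 4 * ‖H‖ ^ 2 + t ^ 2 / a ^ 2)), mul_pos (sub_pos.2 (not_le.1 nlg)) (sub_pos.2 (not_le.1 nlg)), mul_nonneg (sq_nonneg (1 * a * (1 * ‖H‖) - 2 * (t / a) : ℝ)) (le_of_lt (sub_pos.2 (not_le.1 nlg)))])
    calc ∫⁻ x, ENNReal.ofReal (exp (∑ i, h i * ((MeasurableEquiv.toLp 2 (Fin n → ℝ)).symm x) i)) ∂μ
        ≤ ∫⁻ x, ENNReal.ofReal (exp (a ^ 2 / 4 * ∑ i, h i ^ 2))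
            * ENNReal.ofReal (exp (inner ℝ x θ ^ 2 / a ^ 2)) ∂μ := by
          apply lintegral_mono
          intro x
          simp only
          rw [← ENNReal.ofReal_mul (exp_pos _).le, ← exp_add]
          exact ENNReal.ofReal_le_ofReal (exp_le_exp.2 (key x))
      _ = ENNReal.ofReal (exp (a ^ 2 / 4 * ∑ i, h i ^ 2))
            * ∫⁻ x, ENNReal.ofReal (exp (inner ℝ x θ ^ 2 / a ^ 2)) ∂μ := by
          rw [lintegral_const_mul' _ _ ENNReal.ofReal_ne_top]
      _ ≤ ENNReal.ofReal (exp (a ^ 2 / 4 * ∑ i, h i ^ 2)) * 2 := by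
          gcongr
          exact hs θ hθ1
      _ = _ := mul_comm _ _

theorem gradient_norm_sq {n : ℕ} {f : EuclideanSpace ℝ (Fin n) → ℝ} (hf : Differentiable ℝ f)
    (x : EuclideanSpace ℝ (Fin n)) :
    ‖gradient f x‖ ^ 2 = ∑ i, pd (fun y : Fin n → ℝ => f (WithLp.toLp 2 y)) i (WithLp.ofLp x) ^ 2 := by
  rw [EuclideanSpace.real_norm_sq_eq]
  apply Finset.sum_congr rfl
  intro i _
  congr 1
  have e1 : (gradient f x) i = inner ℝ (gradient f x) (EuclideanSpace.single i (1 : ℝ)) := by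
    rw [EuclideanSpace.inner_single_right]; simp
  rw [e1]
  have e2 : inner ℝ (gradient f x) (EuclideanSpace.single i (1 : ℝ))
      = fderiv ℝ f x (EuclideanSpace.single i (1 : ℝ)) := by
    rw [gradient, InnerProductSpace.toDual_symm_apply]
  rw [e2]
  unfold pd
  have e3 : (fun y : Fin n → ℝ => f (WithLp.toLp 2 y))
      = f ∘ (EuclideanSpace.equiv (Fin n) ℝ).symm := by
    funext y; rfl
  rw [e3, fderiv_comp _ (hf _) (EuclideanSpace.equiv (Fin n) ℝ).symm.differentiableAt,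
    ContinuousLinearEquiv.fderiv]
  rfl

theorem contDiff_transfer {n : ℕ} {f : EuclideanSpace ℝ (Fin n) → ℝ} {m : WithTop ℕ∞}
    (hf : ContDiff ℝ m f) : ContDiff ℝ m (fun y : Fin n → ℝ => f (WithLp.toLp 2 y)) :=
  hf.comp PiLp.contDiff_toLp

theorem hasCompactSupport_transfer {n : ℕ} {f : EuclideanSpace ℝ (Fin n) → ℝ}
    (hf : HasCompactSupport f) : HasCompactSupport (fun y : Fin n → ℝ => f (WithLp.toLp 2 y)) :=
  hf.comp_homeomorph (EuclideanSpace.equiv (Fin n) ℝ).symm.toHomeomorph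

end Vale.Agent.P245
end
end

section

section

open MeasureTheory Real Set Filter Topology
open scoped ENNReal

namespace Vale.Agent.P245

variable {n : ℕ}

end Vale.Agent.P245
end
end

section

section

/-!
# Borell's lemma and the fourth moment of linear functions

For a log-concave probability measure, `∫ L^4 ≤ 6600 (∫ L^2)^2` for every affine function `L`.
-/

open MeasureTheory Real Set Filter Topology
open scoped ENNReal

namespace Vale.Agent.P245

variable {n : ℕ} {ρ : (Fin n → ℝ) → ℝ}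

end Vale.Agent.P245
end
end
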