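import Mathlib
import Vale.Agent.P245.Bdl.B1

set_option linter.all false

section

section

open MeasureTheory Real Set
open scoped ENNReal ContDiff

namespace Vale.Agent.P245

/-- multiplicative form of log-concavity -/
def LC {n : ℕ} (ρ : (Fin n → ℝ) → ℝ) : Prop :=
  ∀ (x y : Fin n → ℝ) (s : ℝ), 0 < s → s < 1 → ρ x ^ (1 - s) * ρ y ^ s ≤ ρ ((1 - s) • x + s • y)

theorem LC_of_concaveOn {n : ℕ} {ρ : EuclideanSpace ℝ (Fin n) → ℝ} (h0 : ∀ x, 0 ≤ ρ x)
    (h : ConcaveOn ℝ {x | 0 < ρ x} (fun x => log (ρ x))) :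
    LC (fun y : Fin n → ℝ => ρ (WithLp.toLp 2 y)) := by
  intro x y s hs0 hs1
  simp only
  rcases (h0 (WithLp.toLp 2 x)).eq_or_lt with hx | hx
  · rw [← hx, zero_rpow (by linarith), zero_mul]; exact h0 _
  rcases (h0 (WithLp.toLp 2 y)).eq_or_lt with hy | hy
  · rw [← hy, zero_rpow hs0.ne', mul_zero]; exact h0 _
  have hz : (0 : ℝ) < ρ ((1 - s) • WithLp.toLp 2 x + s • WithLp.toLp 2 y) :=
    h.1 hx hy (by linarith) hs0.le (by ring)
  have h1 := h.2 hx hy (show 0 ≤ 1 - s by linarith) hs0.le (by ring)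
  simp only [smul_eq_mul] at h1
  have e : WithLp.toLp 2 ((1 - s) • x + s • y) = (1 - s) • WithLp.toLp 2 x + s • WithLp.toLp 2 y := rfl
  rw [e, ← exp_log hz, rpow_def_of_pos hx, rpow_def_of_pos hy, ← exp_add]
  apply exp_le_exp.2
  linarith only [h1]

end Vale.Agent.P245
end
end

section

section

open MeasureTheory Real Set Filter Topology
open scoped ENNReal

namespace Vale.Agent.P245

variable {n : ℕ} {ρ : (Fin n → ℝ) → ℝ}

theorem cube_convex {L : ℝ} {x y : Fin n → ℝ} (hx : x ∈ cube n L) (hy : y ∈ cube n L) {s : ℝ}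
    (hs0 : 0 < s) (hs1 : s < 1) : (1 - s) • x + s • y ∈ cube n L := by
  have h1s : 0 < 1 - s := by linarith
  intro i
  have h1 := hx i
  have h2 := hy i
  simp only [Pi.add_apply, Pi.smul_apply, smul_eq_mul]
  calc |(1 - s) * x i + s * y i| ≤ |(1 - s) * x i| + |s * y i| := abs_add_le _ _
    _ = (1 - s) * |x i| + s * |y i| := by rw [abs_mul, abs_mul, abs_of_pos h1s, abs_of_pos hs0]
    _ ≤ (1 - s) * L + s * L := by gcongr
    _ = L := by ring

theorem trunc_LCd (hρ : LCd ρ) {L m : ℝ} (hm : 0 < m) : LCd (trunc ρ L m) where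
  meas := (hρ.meas.div_const m).indicator (measurableSet_cube n L)
  nonneg := fun x => indicator_nonneg (fun y _ => div_nonneg (hρ.nonneg y) hm.le) x
  lc := by
    intro x y s hs0 hs1
    have h1s : 0 < 1 - s := by linarith
    by_cases hx : x ∈ cube n L
    · by_cases hy : y ∈ cube n L
      · have hz : (1 - s) • x + s • y ∈ cube n L := cube_convex hx hy hs0 hs1
        rw [trunc, indicator_of_mem hx, indicator_of_mem hy, indicator_of_mem hz]
        rw [div_rpow (hρ.nonneg x) hm.le, div_rpow (hρ.nonneg y) hm.le, div_mul_div_comm, ← rpow_add hm]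
        have : 1 - s + s = 1 := by ring
        rw [this, rpow_one]
        exact div_le_div_of_nonneg_right (hρ.lc x y s hs0 hs1) hm.le
      · rw [trunc, indicator_of_notMem hy, zero_rpow hs0.ne', mul_zero]
        exact indicator_nonneg (fun y _ => div_nonneg (hρ.nonneg y) hm.le) _
    · rw [trunc, indicator_of_notMem hx, zero_rpow h1s.ne', zero_mul]
      exact indicator_nonneg (fun y _ => div_nonneg (hρ.nonneg y) hm.le) _

theorem mu_trunc' (hρ : LCd ρ) {L m : ℝ} (hm : 0 < m) :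
    mu (trunc ρ L m) = ENNReal.ofReal m⁻¹ • (mu ρ).restrict (cube n L) := by
  have hmeas : Measurable fun x => ENNReal.ofReal (ρ x) := hρ.meas.ennreal_ofReal
  rw [mu, mu, restrict_withDensity (measurableSet_cube n L), ← withDensity_smul _ hmeas,
    ← withDensity_indicator (measurableSet_cube n L)]
  congr 1
  funext x
  by_cases hx : x ∈ cube n L
  · rw [trunc, indicator_of_mem hx, indicator_of_mem hx]
    simp only [Pi.smul_apply, smul_eq_mul]
    rw [← ENNReal.ofReal_mul (by positivity)]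
    congr 1; ring
  · rw [trunc, indicator_of_notMem hx, indicator_of_notMem hx]
    simp

/-- the truncated probability measure -/
noncomputable def muT (ρ : (Fin n → ℝ) → ℝ) (L : ℝ) : Measure (Fin n → ℝ) :=
  mu (trunc ρ L ((mu ρ).real (cube n L)))

theorem muT_eq (hρ : LCd ρ) {L : ℝ} (hm : 0 < (mu ρ).real (cube n L)) :
    muT ρ L = ENNReal.ofReal ((mu ρ).real (cube n L))⁻¹ • (mu ρ).restrict (cube n L) :=
  mu_trunc' hρ hm

theorem integral_muT (hρ : LCd ρ) {L : ℝ} (hm : 0 < (mu ρ).real (cube n L))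
    (φ : (Fin n → ℝ) → ℝ) :
    ∫ x, φ x ∂(muT ρ L) = ((mu ρ).real (cube n L))⁻¹ * ∫ x in cube n L, φ x ∂(mu ρ) := by
  rw [muT_eq hρ hm, integral_smul_measure, ENNReal.toReal_ofReal (inv_nonneg.2 hm.le),
    smul_eq_mul]

theorem isProb_muT (hρ : LCd ρ) [IsProbabilityMeasure (mu ρ)] {L : ℝ}
    (hm : 0 < (mu ρ).real (cube n L)) : IsProbabilityMeasure (muT ρ L) := by
  constructor
  rw [muT_eq hρ hm, Measure.smul_apply, Measure.restrict_apply MeasurableSet.univ, univ_inter,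
    smul_eq_mul]
  have h1 : mu ρ (cube n L) = ENNReal.ofReal ((mu ρ).real (cube n L)) := by
    rw [Measure.real, ENNReal.ofReal_toReal (measure_ne_top _ _)]
  rw [h1, ← ENNReal.ofReal_mul (inv_nonneg.2 hm.le), inv_mul_cancel₀ hm.ne', ENNReal.ofReal_one]

theorem csupp_muT (hρ : LCd ρ) {L : ℝ} (hL : 0 ≤ L) (hm : 0 < (mu ρ).real (cube n L)) :
    CSupp (muT ρ L) L := by
  refine ⟨hL, ?_⟩
  rw [muT_eq hρ hm]
  apply Measure.ae_smul_measure
  filter_upwards [ae_restrict_mem (measurableSet_cube n L)] with x hx using hx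

theorem expM_muT (hρ : LCd ρ) [IsProbabilityMeasure (mu ρ)] {L : ℝ} (hL : 0 ≤ L)
    (hm : 2 / 3 ≤ (mu ρ).real (cube n L))
    (hexp : ∀ h : Fin n → ℝ, ∫⁻ x, ENNReal.ofReal (exp (∑ i, h i * x i)) ∂(mu ρ)
      ≤ 2 * ENNReal.ofReal (exp ((∑ i, h i ^ 2) / 4))) : ExpM (muT ρ L) 3 := by
  intro b
  have hm0 : 0 < (mu ρ).real (cube n L) := by linarith
  have := isProb_muT hρ hm0
  have hc := csupp_muT hρ hL hm0
  have hV : Adm (muT ρ L) fun x => exp (∑ i, b i * x i) := Adm.of_continuous hc (by fun_prop)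
  have h1 : ∫⁻ x, ENNReal.ofReal (exp (∑ i, b i * x i)) ∂(muT ρ L)
      ≤ ENNReal.ofReal (3 * exp ((∑ i, b i ^ 2) / 4)) := by
    rw [muT_eq hρ hm0, lintegral_smul_measure]
    have h2 : ∫⁻ x in cube n L, ENNReal.ofReal (exp (∑ i, b i * x i)) ∂(mu ρ)
        ≤ 2 * ENNReal.ofReal (exp ((∑ i, b i ^ 2) / 4)) :=
      (setLIntegral_le_lintegral _ _).trans (hexp b)
    have h3 : ((mu ρ).real (cube n L))⁻¹ ≤ 3 / 2 := by
      rw [inv_le_comm₀ hm0 (by norm_num)]; linarith only [hm]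
    calc ENNReal.ofReal ((mu ρ).real (cube n L))⁻¹ •
          ∫⁻ x in cube n L, ENNReal.ofReal (exp (∑ i, b i * x i)) ∂(mu ρ)
        ≤ ENNReal.ofReal (3 / 2) * (2 * ENNReal.ofReal (exp ((∑ i, b i ^ 2) / 4))) := by
          rw [smul_eq_mul]
          exact mul_le_mul' (ENNReal.ofReal_le_ofReal h3) h2
      _ = ENNReal.ofReal (3 * exp ((∑ i, b i ^ 2) / 4)) := by
          rw [show (2 : ℝ≥0∞) = ENNReal.ofReal 2 by simp, ← ENNReal.ofReal_mul (by norm_num),
            ← ENNReal.ofReal_mul (by norm_num)]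
          congr 1; ring
  rw [← ofReal_integral_eq_lintegral_ofReal hV.integrable
    (Eventually.of_forall fun x => (exp_pos _).le)] at h1
  exact (ENNReal.ofReal_le_ofReal_iff (by positivity)).1 h1

theorem iUnion_cube : ⋃ k : ℕ, cube n (k : ℝ) = univ := by
  rw [eq_univ_iff_forall]
  intro x
  obtain ⟨k, hk⟩ := exists_nat_ge (∑ i, |x i|)
  rw [mem_iUnion]
  refine ⟨k, fun i => ?_⟩
  exact (Finset.single_le_sum (f := fun i => |x i|) (fun j _ => abs_nonneg _)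
    (Finset.mem_univ i)).trans hk

theorem monotone_cube : Monotone fun k : ℕ => cube n (k : ℝ) := by
  intro k l hkl x hx i
  exact (hx i).trans (by exact_mod_cast hkl)

theorem tendsto_real_cube [IsProbabilityMeasure (mu ρ)] :
    Tendsto (fun k : ℕ => (mu ρ).real (cube n k)) atTop (𝓝 1) := by
  have h := tendsto_measure_iUnion_atTop (μ := mu ρ) (monotone_cube (n := n))
  rw [iUnion_cube, measure_univ] at h
  have := (ENNReal.tendsto_toReal ENNReal.one_ne_top).comp h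
  rw [ENNReal.toReal_one] at this
  exact this

theorem tendsto_integral_muT (hρ : LCd ρ) [IsProbabilityMeasure (mu ρ)] {φ : (Fin n → ℝ) → ℝ}
    (hφ : Integrable φ (mu ρ)) :
    Tendsto (fun k : ℕ => ∫ x, φ x ∂(muT ρ k)) atTop (𝓝 (∫ x, φ x ∂(mu ρ))) := by
  have h1 := tendsto_real_cube (ρ := ρ)
  have h2 : Tendsto (fun k : ℕ => ∫ x in cube n k, φ x ∂(mu ρ)) atTop
      (𝓝 (∫ x in ⋃ k : ℕ, cube n (k : ℝ), φ x ∂(mu ρ))) :=
    tendsto_setIntegral_of_monotone (fun k => measurableSet_cube n k) monotone_cube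
      hφ.integrableOn
  rw [iUnion_cube, setIntegral_univ] at h2
  have h3 := (h1.inv₀ one_ne_zero).mul h2
  rw [inv_one, one_mul] at h3
  refine h3.congr' ?_
  have : ∀ᶠ k : ℕ in atTop, 0 < (mu ρ).real (cube n k) := h1.eventually (lt_mem_nhds one_pos)
  filter_upwards [this] with k hk
  rw [integral_muT hρ hk]

end Vale.Agent.P245
end
end

section

section

open MeasureTheory Real Set Filter Topology
open scoped ENNReal ContDiff

/-! Common part of Boot and Path: the two legs (steps 1 and 2 of the bootstrap). -/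

namespace Vale.Agent.P245.E1

open LS

/-- PathA: the defect and the mismatch along the two legs.  `r = 2δ`; down leg
`PH (σ - ρ) N`, `ρ ∈ [2δ, σ]`; up leg `UL μ (2δ) ρ V`, `V = PH (σ - 2δ) N`, `ρ ∈ [2δ, 3δ]`. -/
def StPathA (n : ℕ) : Prop :=
  ∀ (ρ0 : (Fin n → ℝ) → ℝ) (R : ℝ), LCd ρ0 → IsProbabilityMeasure (mu ρ0) →
    CSupp (mu ρ0) R →
    ∀ (N V : (Fin n → ℝ) → ℝ) (δ κ σ α x X D : ℝ), 0 < δ → 2000 * δ ≤ κ →
      DBS (mu ρ0) (2 * δ) δ κ D → σ ∈ Icc (2 * δ) (3 * δ) → Pos N → EY (mu ρ0) σ N = 1 →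
      0 ≤ α → 10 ^ 4 * α ≤ κ * FI (mu ρ0) σ N →
      D - α ≤ HE (mu ρ0) σ N - κ * FI (mu ρ0) σ N →
      2 * δ * FI (mu ρ0) σ N ≤ x → 0 ≤ X → X ≤ FI (mu ρ0) σ N →
      Pred (mu ρ0) σ N (sN N) x X → V = PH (σ - 2 * δ) N →
      (Pos V ∧ EY (mu ρ0) (2 * δ) V = 1 ∧ HE (mu ρ0) (2 * δ) V ≤ HE (mu ρ0) σ N) ∧
      (∀ ρ ∈ Icc (2 * δ) σ, Pos (PH (σ - ρ) N) ∧ EY (mu ρ0) ρ (PH (σ - ρ) N) = 1 ∧
        HE (mu ρ0) ρ (PH (σ - ρ) N) - κ * FI (mu ρ0) ρ (PH (σ - ρ) N) ≤ D ∧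
        D - (10 * α + 8 * δ * X)
          ≤ HE (mu ρ0) ρ (PH (σ - ρ) N) - κ * FI (mu ρ0) ρ (PH (σ - ρ) N) ∧
        FI (mu ρ0) ρ (PH (σ - ρ) N) ≤ FI (mu ρ0) σ N ∧
        98 / 100 * FI (mu ρ0) σ N ≤ FI (mu ρ0) ρ (PH (σ - ρ) N) ∧
        Pred (mu ρ0) ρ (PH (σ - ρ) N) (sN (PH (σ - ρ) N)) x X) ∧
      (∀ ρ ∈ Icc (2 * δ) (3 * δ), Pos (UL (mu ρ0) (2 * δ) ρ V) ∧
        EY (mu ρ0) ρ (UL (mu ρ0) (2 * δ) ρ V) = 1 ∧
        HE (mu ρ0) ρ (UL (mu ρ0) (2 * δ) ρ V) - κ * FI (mu ρ0) ρ (UL (mu ρ0) (2 * δ) ρ V) ≤ D ∧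
        D - (10 * α + 8 * δ * X)
          ≤ HE (mu ρ0) ρ (UL (mu ρ0) (2 * δ) ρ V) - κ * FI (mu ρ0) ρ (UL (mu ρ0) (2 * δ) ρ V) ∧
        FI (mu ρ0) ρ (UL (mu ρ0) (2 * δ) ρ V) ≤ FI (mu ρ0) σ N ∧
        98 / 100 * FI (mu ρ0) σ N ≤ FI (mu ρ0) ρ (UL (mu ρ0) (2 * δ) ρ V) ∧
        IP (mu ρ0) ρ (UL (mu ρ0) (2 * δ) ρ V) (mm (mu ρ0) (2 * δ) ρ V) (mm (mu ρ0) (2 * δ) ρ V)
          ≤ (10 * α + 8 * δ * X) / κ ∧
        Pred (mu ρ0) ρ (UL (mu ρ0) (2 * δ) ρ V) (us (mu ρ0) (2 * δ) ρ V) x X)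

end Vale.Agent.P245.E1
end
end

section

section

open MeasureTheory Real Set Filter Topology
open scoped ENNReal

namespace Vale.Agent.P245

/-- the Poincaré inequality with constant `C` for `C²` functions -/
def Poin {n : ℕ} (ν : Measure (Fin n → ℝ)) (C : ℝ) : Prop :=
  ∀ f : (Fin n → ℝ) → ℝ, ContDiff ℝ 2 f →
    ∫ x, f x ^ 2 ∂ν - (∫ x, f x ∂ν) ^ 2 ≤ C * ∫ x, ∑ i, pd f i x ^ 2 ∂ν

/-- the covariance matrix is bounded by `m` -/
def CovLe {n : ℕ} (ν : Measure (Fin n → ℝ)) (m : ℝ) : Prop :=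
  ∀ u : Fin n → ℝ, ∫ x, (∑ i, u i * x i) ^ 2 ∂ν - (∫ x, ∑ i, u i * x i ∂ν) ^ 2
    ≤ m * ∑ i, u i ^ 2

end Vale.Agent.P245
end
end

section

section

open MeasureTheory Real Set Filter Topology
open scoped ENNReal

namespace Vale.Agent.P245

variable {n : ℕ}

/-! ### cutoff -/

/-- every `C²` function agrees on the cube with a compactly supported `C²` function -/
theorem exists_cutoff {f : (Fin n → ℝ) → ℝ} (hf : ContDiff ℝ 2 f) (R : ℝ) :
    ∃ g : (Fin n → ℝ) → ℝ, ContDiff ℝ 2 g ∧ (∃ R', ∀ x, R' < ‖x‖ → g x = 0) ∧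
      ∀ x : Fin n → ℝ, (∀ i, |x i| ≤ R) → g x = f x ∧ ∀ i, pd g i x = pd f i x := by
  let χ : ContDiffBump (0 : Fin n → ℝ) := ⟨|R| + 1, |R| + 2, by positivity, by linarith⟩
  refine ⟨fun x => χ x * f x, χ.contDiff.mul hf, ⟨|R| + 2, fun x hx => ?_⟩, fun x hx => ?_⟩
  · have : χ x = 0 := χ.zero_of_le_dist (by rw [dist_zero_right]; exact hx.le)
    simp [this]
  · have hxR : ‖x‖ ≤ |R| := (pi_norm_le_iff_of_nonneg (abs_nonneg R)).2 fun i =>
      (hx i).trans (le_abs_self R)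
    have hb : x ∈ Metric.ball (0 : Fin n → ℝ) χ.rIn := by
      rw [mem_ball_zero_iff]
      change ‖x‖ < |R| + 1
      linarith only [hxR]
    have he : (fun x => χ x * f x) =ᶠ[𝓝 x] f := by
      filter_upwards [χ.eventuallyEq_one_of_mem_ball hb] with y hy
      rw [hy]; simp
    refine ⟨he.eq_of_nhds, fun i => ?_⟩
    unfold pd
    rw [he.fderiv_eq]

/-! ### posterior covariances -/

/-- posterior covariance of two functions -/
noncomputable def Cf (μ : Measure (Fin n → ℝ)) (g k : (Fin n → ℝ) → ℝ) (p : ℝ × (Fin n → ℝ)) : ℝ :=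
  Mf μ (fun x => g x * k x) p - Mf μ g p * Mf μ k p

/-- posterior variance -/
noncomputable def Vf (μ : Measure (Fin n → ℝ)) (f : (Fin n → ℝ) → ℝ) (p : ℝ × (Fin n → ℝ)) : ℝ :=
  Mf μ (fun x => f x ^ 2) p - Mf μ f p ^ 2

section

variable {μ : Measure (Fin n → ℝ)} [IsProbabilityMeasure μ] {R : ℝ}

omit [IsProbabilityMeasure μ] in
theorem Adm.sq {f : (Fin n → ℝ) → ℝ} (hf : Adm μ f) : Adm μ fun x => f x ^ 2 := by
  simpa only [pow_two] using hf.mul hf

omit [IsProbabilityMeasure μ] in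
theorem Cf_self (f : (Fin n → ℝ) → ℝ) (p : ℝ × (Fin n → ℝ)) : Cf μ f f p = Vf μ f p := by
  unfold Cf Vf
  simp only [sq]

omit [IsProbabilityMeasure μ] in
theorem Cf_comm (g k : (Fin n → ℝ) → ℝ) (p : ℝ × (Fin n → ℝ)) : Cf μ g k p = Cf μ k g p := by
  unfold Cf
  simp only [mul_comm]

theorem Mf_sub (h : CSupp μ R) {g g' : (Fin n → ℝ) → ℝ} (hg : Adm μ g) (hg' : Adm μ g')
    (p : ℝ × (Fin n → ℝ)) : Mf μ (fun x => g x - g' x) p = Mf μ g p - Mf μ g' p := by
  have h1 := Mf_add h hg (hg'.const_mul (-1)) p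
  rw [Mf_const_mul] at h1
  have e : (fun x => g x + -1 * g' x) = fun x => g x - g' x := by funext x; ring
  rw [e] at h1
  rw [h1]; ring

theorem Mf_nonneg (h : CSupp μ R) {g : (Fin n → ℝ) → ℝ} (hg : Adm μ g) (h0 : ∀ x, 0 ≤ g x)
    (p : ℝ × (Fin n → ℝ)) : 0 ≤ Mf μ g p := by
  have h1 := Mf_mono h (Adm.const μ 0) hg (Eventually.of_forall h0) p
  rwa [Mf_const h] at h1

omit [IsProbabilityMeasure μ] in
theorem Cf_const_mul_left (c : ℝ) (g k : (Fin n → ℝ) → ℝ) (p : ℝ × (Fin n → ℝ)) :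
    Cf μ (fun x => c * g x) k p = c * Cf μ g k p := by
  unfold Cf
  simp only [mul_assoc]
  rw [Mf_const_mul, Mf_const_mul]
  ring

theorem Cf_sum_left (h : CSupp μ R) {ι : Type*} (s : Finset ι) {g : ι → (Fin n → ℝ) → ℝ}
    {k : (Fin n → ℝ) → ℝ} (hg : ∀ i ∈ s, Adm μ (g i)) (hk : Adm μ k) (p : ℝ × (Fin n → ℝ)) :
    Cf μ (fun x => ∑ i ∈ s, g i x) k p = ∑ i ∈ s, Cf μ (g i) k p := by
  unfold Cf
  simp only [Finset.sum_mul]
  rw [Mf_sum h s fun i hi => (hg i hi).mul hk, Mf_sum h s hg, Finset.sum_sub_distrib,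
    Finset.sum_mul]

omit [IsProbabilityMeasure μ] in
theorem Adm.lin (h : CSupp μ R) (u : Fin n → ℝ) : Adm μ fun x => ∑ i, u i * x i :=
  Adm.sum _ fun i _ => (h.adm_coord i).const_mul (u i)

/-- the covariance with a linear function -/
theorem Cf_lin (h : CSupp μ R) {k : (Fin n → ℝ) → ℝ} (hk : Adm μ k) (u : Fin n → ℝ)
    (p : ℝ × (Fin n → ℝ)) :
    Cf μ (fun x => ∑ i, u i * x i) k p = ∑ i, u i * Cf μ (fun x => x i) k p := by
  rw [Cf_sum_left h _ (fun i _ => (h.adm_coord i).const_mul (u i)) hk]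
  exact Finset.sum_congr rfl fun i _ => Cf_const_mul_left _ _ _ _

theorem Vf_eq (h : CSupp μ R) {f : (Fin n → ℝ) → ℝ} (hf : Adm μ f) (c : ℝ)
    (p : ℝ × (Fin n → ℝ)) :
    Mf μ (fun x => (f x - c) ^ 2) p = Vf μ f p + (Mf μ f p - c) ^ 2 := by
  have e : (fun x => (f x - c) ^ 2) = fun x => (f x ^ 2 - 2 * c * f x) + c ^ 2 := by
    funext x; ring
  rw [e, Mf_add h (hf.sq.sub (hf.const_mul (2 * c))) (Adm.const μ _), Mf_const h,
    Mf_sub h hf.sq (hf.const_mul (2 * c)), Mf_const_mul]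
  unfold Vf
  ring

theorem Vf_nonneg (h : CSupp μ R) {f : (Fin n → ℝ) → ℝ} (hf : Adm μ f) (p : ℝ × (Fin n → ℝ)) :
    0 ≤ Vf μ f p := by
  have h1 := Vf_eq h hf (Mf μ f p) p
  rw [sub_self, zero_pow two_ne_zero, add_zero] at h1
  rw [← h1]
  exact Mf_nonneg h ((hf.sub (Adm.const μ _)).sq) (fun x => sq_nonneg _) p

theorem dI_Mf' (h : CSupp μ R) {g : (Fin n → ℝ) → ℝ} (hg : Adm μ g) (i : Fin n)
    (p : ℝ × (Fin n → ℝ)) : dI i (Mf μ g) p = Cf μ (fun x => x i) g p := by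
  rw [dI_Mf h hg]
  unfold Cf
  ring

/-! ### (a) -/

/-! ### (b) -/

omit [IsProbabilityMeasure μ] in
theorem Lop_sub {F G : ℝ × (Fin n → ℝ) → ℝ} (hF : ContDiff ℝ 2 F) (hG : ContDiff ℝ 2 G)
    (p : ℝ × (Fin n → ℝ)) :
    Lop μ (fun p => F p - G p) p = Lop μ F p - Lop μ G p := by
  have dF : Differentiable ℝ F := hF.differentiable (by norm_num)
  have dG : Differentiable ℝ G := hG.differentiable (by norm_num)
  have e1 : dS (fun p => F p - G p) p = dS F p - dS G p := by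
    unfold dS
    rw [fderiv_fun_sub (dF p) (dG p)]
    simp only [sub_apply]
  have e2 : ∀ i, dI i (fun p => F p - G p) = fun p => dI i F p - dI i G p := fun i =>
    dI_sub dF dG i
  have e3 : ∀ i, dI i (dI i (fun p => F p - G p)) p = dI i (dI i F) p - dI i (dI i G) p := by
    intro i
    rw [e2, dI_sub (diff_dI hF i) (diff_dI hG i)]
  unfold Lop Dop
  rw [e1]
  simp_rw [e3, e2]
  simp only [mul_sub, Finset.sum_sub_distrib]
  ring

/-! ### (c) -/

/-! ### (d) -/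

/-! ### (f) -/

end

end Vale.Agent.P245
end
end

section

section

open MeasureTheory Real Set Filter Topology
open scoped ENNReal

namespace Vale.Agent.P245

variable {n : ℕ}

section

variable {μ : Measure (Fin n → ℝ)} {R : ℝ}

theorem Mf_congr_ae {g g' : (Fin n → ℝ) → ℝ} (hg : ∀ᵐ x ∂μ, g x = g' x) (p : ℝ × (Fin n → ℝ)) :
    Mf μ g p = Mf μ g' p := by
  unfold Mf Zf
  congr 1
  refine integral_congr_ae ?_
  filter_upwards [hg] with x hx
  rw [hx]

theorem Vf_congr_ae {g g' : (Fin n → ℝ) → ℝ} (hg : ∀ᵐ x ∂μ, g x = g' x) (p : ℝ × (Fin n → ℝ)) :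
    Vf μ g p = Vf μ g' p := by
  unfold Vf
  rw [Mf_congr_ae hg, Mf_congr_ae (g := fun x => g x ^ 2) (g' := fun x => g' x ^ 2)]
  filter_upwards [hg] with x hx
  rw [hx]

theorem pd_lin (u : Fin n → ℝ) (i : Fin n) (x : Fin n → ℝ) :
    pd (fun x => ∑ j, u j * x j) i x = u i := by
  have e : (fun x : Fin n → ℝ => ∑ j, u j * x j)
      = ⇑(∑ j, u j • (ContinuousLinearMap.proj (R := ℝ) j : (Fin n → ℝ) →L[ℝ] ℝ)) := by
    funext y
    simp only [sum_apply, smul_apply, ContinuousLinearMap.proj_apply, smul_eq_mul]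
  unfold pd
  rw [e, ContinuousLinearMap.fderiv]
  simp only [sum_apply, smul_apply, ContinuousLinearMap.proj_apply, Pi.single_apply, smul_eq_mul, mul_ite, mul_one, mul_zero, Finset.sum_ite_eq', Finset.mem_univ, ↓reduceIte]

end

section

variable {ρ : (Fin n → ℝ) → ℝ} [IsProbabilityMeasure (mu ρ)] {R : ℝ}

/-- the variance of a posterior -/
theorem Vf_eq_post (hρ : LCd ρ) (h : CSupp (mu ρ) R) (f : (Fin n → ℝ) → ℝ)
    (p : ℝ × (Fin n → ℝ)) :
    Vf (mu ρ) f p = ∫ x, f x ^ 2 ∂(post ρ p) - (∫ x, f x ∂(post ρ p)) ^ 2 := by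
  rw [integral_post hρ h, integral_post hρ h]
  rfl

omit [IsProbabilityMeasure (mu ρ)] in
theorem adm_pd (h : CSupp (mu ρ) R) {f : (Fin n → ℝ) → ℝ} (hf : ContDiff ℝ 2 f) :
    Adm (mu ρ) fun x => ∑ i, pd f i x ^ 2 :=
  Adm.of_continuous h (continuous_finsetSum _ fun i _ =>
    (continuous_pd (hf.of_le (by norm_num)) i).pow 2)

theorem covLe_of_poin {ν : Measure (Fin n → ℝ)} [IsProbabilityMeasure ν] {c : ℝ} (h : Poin ν c) :
    CovLe ν c := by
  intro u
  have h1 := h (fun x => ∑ i, u i * x i) (by fun_prop)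
  simp only [pd_lin] at h1
  simpa only [tsub_le_iff_right, ge_iff_le, integral_const, probReal_univ, smul_eq_mul, one_mul] using h1

theorem Vf_lin_le (hρ : LCd ρ) (h : CSupp (mu ρ) R) {p : ℝ × (Fin n → ℝ)} {a : ℝ}
    (ha : CovLe (post ρ p) a) (u : Fin n → ℝ) :
    Vf (mu ρ) (fun x => ∑ i, u i * x i) p ≤ a * ∑ i, u i ^ 2 := by
  rw [Vf_eq_post hρ h]
  exact ha u

/-! ### exponential moments of posteriors -/

end

end Vale.Agent.P245
end
end

section

section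

open MeasureTheory Real Set Filter Topology
open scoped ENNReal

namespace Vale.Agent.P245

variable {n : ℕ} {μ : Measure (Fin n → ℝ)} [IsProbabilityMeasure μ] {R : ℝ}

/-! ### finite sums -/

theorem B2.sum {T : ℝ} {ι : Type*} (s : Finset ι) {F : ι → ℝ × (Fin n → ℝ) → ℝ}
    (hF : ∀ k ∈ s, B2 T (F k)) : B2 T fun p => ∑ k ∈ s, F k p := by
  classical
  induction s using Finset.induction_on with
  | empty => simpa using B2.const T 0
  | insert i s hi ih =>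
    simp only [Finset.sum_insert hi]
    exact (hF i (Finset.mem_insert_self _ _)).add
      (ih fun j hj => hF j (Finset.mem_insert_of_mem hj))

theorem B2.sub {T : ℝ} {F G : ℝ × (Fin n → ℝ) → ℝ} (hF : B2 T F) (hG : B2 T G) :
    B2 T fun p => F p - G p := by
  have h := hF.add ((B2.const (n := n) T (-1)).mul hG)
  have e : (fun p => F p + -1 * G p) = fun p => F p - G p := by funext p; ring
  rwa [e] at h

theorem B2.diff {T : ℝ} {F : ℝ × (Fin n → ℝ) → ℝ} (hF : B2 T F) : Differentiable ℝ F :=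
  hF.cd.differentiable (by norm_num)

theorem dI_const (c : ℝ) (i : Fin n) : dI i (fun _ : ℝ × (Fin n → ℝ) => c) = fun _ => 0 := by
  funext p; simp only [dI, fderiv_fun_const, Pi.zero_apply, zero_apply]

theorem dI_const_mul {F : ℝ × (Fin n → ℝ) → ℝ} (hF : Differentiable ℝ F) (c : ℝ) (i : Fin n) :
    dI i (fun p => c * F p) = fun p => c * dI i F p := by
  rw [dI_mul (F := fun _ => c) (differentiable_const _) hF, dI_const]
  funext p; ring

omit [IsProbabilityMeasure μ] in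
theorem Lop_const (c : ℝ) (p : ℝ × (Fin n → ℝ)) : Lop μ (fun _ => c) p = 0 := by
  unfold Lop Dop
  simp only [dI_const]
  have : dS (fun _ : ℝ × (Fin n → ℝ) => c) p = 0 := by simp only [dS, fderiv_fun_const, Pi.zero_apply, zero_apply]
  rw [this]; simp only [one_div, Finset.sum_const_zero, mul_zero, add_zero]

omit [IsProbabilityMeasure μ] in
theorem Lop_add {F G : ℝ × (Fin n → ℝ) → ℝ} (hF : ContDiff ℝ 2 F) (hG : ContDiff ℝ 2 G)
    (p : ℝ × (Fin n → ℝ)) :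
    Lop μ (fun p => F p + G p) p = Lop μ F p + Lop μ G p := by
  have dF : Differentiable ℝ F := hF.differentiable (by norm_num)
  have dG : Differentiable ℝ G := hG.differentiable (by norm_num)
  unfold Lop Dop
  rw [dS_add dF dG]
  simp_rw [dI_add dF dG, dI_add (diff_dI hF _) (diff_dI hG _)]
  simp_rw [mul_add, Finset.sum_add_distrib]
  ring

omit [IsProbabilityMeasure μ] in
theorem Lop_sum {ι : Type*} (s : Finset ι) {F : ι → ℝ × (Fin n → ℝ) → ℝ}
    (hF : ∀ k ∈ s, ContDiff ℝ 2 (F k)) (p : ℝ × (Fin n → ℝ)) :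
    Lop μ (fun p => ∑ k ∈ s, F k p) p = ∑ k ∈ s, Lop μ (F k) p := by
  classical
  induction s using Finset.induction_on with
  | empty => simpa only [Finset.sum_empty] using Lop_const (μ := μ) 0 p
  | insert i s hi ih =>
    simp only [Finset.sum_insert hi]
    rw [Lop_add (F := F i) (G := fun p => ∑ k ∈ s, F k p)
      (hF i (Finset.mem_insert_self _ _))
      (ContDiff.sum fun j hj => hF j (Finset.mem_insert_of_mem hj)),
      ih fun j hj => hF j (Finset.mem_insert_of_mem hj)]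

/-! ### matrix valued functions -/

/-- entrywise second order bounded -/
def B2M (T : ℝ) (F : ℝ × (Fin n → ℝ) → Matrix (Fin n) (Fin n) ℝ) : Prop :=
  ∀ i j, B2 T fun p => F p i j

theorem B2M.one {T : ℝ} : B2M T fun _ => (1 : Matrix (Fin n) (Fin n) ℝ) := fun _ _ =>
  B2.const T _

/-! ### the covariance matrix -/

/-- posterior covariance matrix -/
noncomputable def Am (μ : Measure (Fin n → ℝ)) (p : ℝ × (Fin n → ℝ)) :
    Matrix (Fin n) (Fin n) ℝ :=
  Matrix.of fun i j => Mf μ (fun x => x i * x j) p - Mf μ (fun x => x i) p * Mf μ (fun x => x j) p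

omit [IsProbabilityMeasure μ] in
theorem Am_symm (p : ℝ × (Fin n → ℝ)) (i j : Fin n) : Am μ p i j = Am μ p j i := by
  unfold Am
  simp only [Matrix.of_apply]
  have : (fun x : Fin n → ℝ => x i * x j) = fun x => x j * x i := by funext x; ring
  rw [this]; ring

theorem dI_Mf_coord (h : CSupp μ R) (i j : Fin n) (p : ℝ × (Fin n → ℝ)) :
    dI i (Mf μ fun x => x j) p = Am μ p i j := by
  rw [dI_Mf h (h.adm_coord j)]
  unfold Am
  simp only [Matrix.of_apply]
  ring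

end Vale.Agent.P245
end
end

section

section

open MeasureTheory Real Set Filter Topology
open scoped ENNReal ContDiff

/-! The path down: Gaussian interpolation (`StB`). -/

namespace Vale.Agent.P245.LS

namespace Down

variable {n : ℕ}

/-- continuous and bounded -/
def CBd (N : (Fin n → ℝ) → ℝ) : Prop := Continuous N ∧ ∃ C, ∀ y, |N y| ≤ C

theorem sb_cbd {N : (Fin n → ℝ) → ℝ} (h : SB N) : CBd N := h 0

theorem sb_pd {N : (Fin n → ℝ) → ℝ} (h : SB N) (i : Fin n) : SB (pd N i) :=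
  fun k => (h (k + 1)).2 i

theorem sb_diff {N : (Fin n → ℝ) → ℝ} (h : SB N) : Differentiable ℝ N := (h 1).1.1

theorem cbd_bound {N : (Fin n → ℝ) → ℝ} (h : CBd N) : ∃ C, 0 ≤ C ∧ ∀ y, |N y| ≤ C := by
  obtain ⟨C, hC⟩ := h.2
  exact ⟨C, (abs_nonneg _).trans (hC 0), hC⟩

theorem cbd_integrable {N : (Fin n → ℝ) → ℝ} (h : CBd N) {g : (Fin n → ℝ) → (Fin n → ℝ)}
    (hg : Continuous g) : Integrable (fun z => N (g z)) (gsn n) := by
  obtain ⟨C, hC⟩ := h.2
  exact (integrable_const C).mono' (h.1.comp hg).aestronglyMeasurable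
    (Eventually.of_forall fun z => by rw [norm_eq_abs]; exact hC _)

theorem PH_bound {N : (Fin n → ℝ) → ℝ} {C : ℝ} (hC : ∀ y, |N y| ≤ C) (u : ℝ) (y : Fin n → ℝ) :
    |PH u N y| ≤ C := by
  unfold PH
  have := norm_integral_le_of_norm_le_const (μ := gsn n) (f := fun z => N (y + √u • z)) (C := C)
    (Eventually.of_forall fun z => by rw [norm_eq_abs]; exact hC _)
  simpa only [ge_iff_le, norm_eq_abs, probReal_univ, mul_one] using this

theorem PH_cont {N : (Fin n → ℝ) → ℝ} (h : CBd N) :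
    Continuous fun p : ℝ × (Fin n → ℝ) => PH p.1 N p.2 := by
  obtain ⟨C, hC⟩ := h.2
  unfold PH
  refine continuous_of_dominated (bound := fun _ => C) ?_ ?_ (integrable_const C) ?_
  · intro p
    exact (h.1.comp (by (clear * -; fun_prop))).aestronglyMeasurable
  · intro p
    exact Eventually.of_forall fun z => by rw [norm_eq_abs]; exact hC _
  · exact Eventually.of_forall fun z => h.1.comp (by fun_prop)

theorem PH_lb {N : (Fin n → ℝ) → ℝ} (h : CBd N) {ε : ℝ} (hε : ∀ y, ε ≤ N y) (u : ℝ)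
    (y : Fin n → ℝ) : ε ≤ PH u N y := by
  unfold PH
  calc ε = ∫ z, ε ∂(gsn n) := by simp
    _ ≤ _ := integral_mono (integrable_const _) (cbd_integrable h (by fun_prop)) (fun z => hε _)

theorem fderiv_eq_sum (f : (Fin n → ℝ) → ℝ) (x : Fin n → ℝ) :
    fderiv ℝ f x
      = ∑ i, pd f i x • (ContinuousLinearMap.proj (R := ℝ) (φ := fun _ : Fin n => ℝ) i) := by
  ext v
  rw [fderiv_apply_eq_sum]
  simp only [sum_apply, smul_apply, ContinuousLinearMap.proj_apply, smul_eq_mul]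

/-- the linear form with coefficients `c` -/
noncomputable def lf (c : Fin n → ℝ) : (Fin n → ℝ) →L[ℝ] ℝ :=
  ∑ i, c i • (ContinuousLinearMap.proj (R := ℝ) (φ := fun _ : Fin n => ℝ) i)

theorem lf_apply (c v : Fin n → ℝ) : lf c v = ∑ i, c i * v i := by
  simp only [lf, sum_apply, smul_apply, ContinuousLinearMap.proj_apply, smul_eq_mul]

theorem lf_norm (c : Fin n → ℝ) : ‖lf c‖ ≤ ∑ i, |c i| := by
  apply ContinuousLinearMap.opNorm_le_bound _ (Finset.sum_nonneg fun i _ => abs_nonneg _)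
  intro v
  rw [lf_apply, norm_eq_abs, Finset.sum_mul]
  refine (Finset.abs_sum_le_sum_abs _ _).trans (Finset.sum_le_sum fun i _ => ?_)
  rw [abs_mul]
  exact mul_le_mul_of_nonneg_left (norm_le_pi_norm v i) (abs_nonneg _)

theorem continuous_lf : Continuous (lf : (Fin n → ℝ) → ((Fin n → ℝ) →L[ℝ] ℝ)) := by
  unfold lf
  fun_prop

theorem hasFDerivAt_lf {N : (Fin n → ℝ) → ℝ} {y : Fin n → ℝ} (h : DifferentiableAt ℝ N y) :
    HasFDerivAt N (lf fun i => pd N i y) y := by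
  have := h.hasFDerivAt
  rw [fderiv_eq_sum] at this
  exact this

theorem pd_of_hasFDerivAt {N : (Fin n → ℝ) → ℝ} {y c : Fin n → ℝ}
    (h : HasFDerivAt N (lf c) y) (i : Fin n) : pd N i y = c i := by
  unfold pd
  rw [h.fderiv, lf_apply]
  simp only [Pi.single_apply, mul_ite, mul_one, mul_zero, Finset.sum_ite_eq', Finset.mem_univ, ↓reduceIte]

theorem integral_lf {X : Type*} [MeasurableSpace X] {ν : Measure X} {c : X → Fin n → ℝ}
    (hc : ∀ i, Integrable (fun x => c x i) ν) :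
    ∫ x, lf (c x) ∂ν = lf fun i => ∫ x, c x i ∂ν := by
  unfold lf
  rw [integral_finsetSum _ fun i _ => (hc i).smul_const _]
  simp_rw [integral_smul_const]

theorem PH_hasFDerivAt {N : (Fin n → ℝ) → ℝ} (h : SB N) (u : ℝ) (y : Fin n → ℝ) :
    HasFDerivAt (PH u N) (lf fun i => PH u (pd N i) y) y := by
  choose C hC0 hC using fun i => cbd_bound (sb_cbd (sb_pd h i))
  have key := hasFDerivAt_integral_of_dominated_of_fderiv_le (μ := gsn n)
    (F := fun y z => N (y + √u • z)) (F' := fun y z => lf fun i => pd N i (y + √u • z))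
    (x₀ := y) (s := univ) (bound := fun _ => ∑ i, C i) univ_mem
    (Eventually.of_forall fun y' => ((sb_cbd h).1.comp (by fun_prop)).aestronglyMeasurable)
    (cbd_integrable (sb_cbd h) (by fun_prop))
    (by
      apply Continuous.aestronglyMeasurable
      apply continuous_lf.comp
      apply continuous_pi
      intro i
      exact (sb_cbd (sb_pd h i)).1.comp (by fun_prop))
    (Eventually.of_forall fun z y' _ =>
      (lf_norm _).trans (Finset.sum_le_sum fun i _ => hC i _))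
    (integrable_const _)
    (Eventually.of_forall fun z y' _ => by
      have h1 := hasFDerivAt_lf (sb_diff h (y' + √u • z))
      have h2 : HasFDerivAt (fun y : Fin n → ℝ => y + √u • z)
        (ContinuousLinearMap.id ℝ (Fin n → ℝ)) y' := (hasFDerivAt_id y').add_const _
      exact h1.comp y' h2)
  rw [integral_lf fun i => cbd_integrable (sb_cbd (sb_pd h i)) (by fun_prop)] at key
  exact key

theorem pd_PH {N : (Fin n → ℝ) → ℝ} (h : SB N) (u : ℝ) (i : Fin n) :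
    pd (PH u N) i = PH u (pd N i) := by
  funext y
  exact pd_of_hasFDerivAt (PH_hasFDerivAt h u y) i

theorem PH_diff {N : (Fin n → ℝ) → ℝ} (h : SB N) (u : ℝ) : Differentiable ℝ (PH u N) :=
  fun y => (PH_hasFDerivAt h u y).differentiableAt

theorem integrable_abs_coord (i : Fin n) : Integrable (fun z : Fin n → ℝ => |z i|) (gsn n) :=
  ((EG1.coord i).integrable (continuous_apply i).aestronglyMeasurable).abs

theorem integrable_coord_mul {N : (Fin n → ℝ) → ℝ} (h : CBd N)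
    {g : (Fin n → ℝ) → (Fin n → ℝ)} (hg : Continuous g) (i : Fin n) :
    Integrable (fun z : Fin n → ℝ => z i * N (g z)) (gsn n) := by
  obtain ⟨C, hC0, hC⟩ := cbd_bound h
  refine ((integrable_abs_coord i).mul_const C).mono'
    ((continuous_apply i).mul (h.1.comp hg)).aestronglyMeasurable
    (Eventually.of_forall fun z => ?_)
  rw [norm_eq_abs, abs_mul]
  exact mul_le_mul_of_nonneg_left (hC _) (abs_nonneg _)

/-- Gaussian integration by parts for bounded functions, along `z ↦ x + q z` -/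
theorem ibp {N : (Fin n → ℝ) → ℝ} (hd : Differentiable ℝ N) (h : CBd N) (i : Fin n)
    (hi : CBd (pd N i)) (x : Fin n → ℝ) (q : ℝ) :
    ∫ z, z i * N (x + q • z) ∂(gsn n) = q * ∫ z, pd N i (x + q • z) ∂(gsn n) := by
  have e : ∀ z : Fin n → ℝ, fderiv ℝ (fun z => N (x + q • z)) z (Pi.single i 1)
      = q * pd N i (x + q • z) := by
    intro z
    have h1 := hasFDerivAt_lf (hd (x + q • z))
    have h2 : HasFDerivAt (fun z : Fin n → ℝ => x + q • z)
      (q • ContinuousLinearMap.id ℝ (Fin n → ℝ)) z := ((hasFDerivAt_id z).const_smul q).const_add x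
    have h3 := (h1.comp z h2).fderiv
    change fderiv ℝ (N ∘ fun z => x + q • z) z _ = _
    rw [h3]
    simp only [ContinuousLinearMap.comp_smulₛₗ, ringHom_apply, ContinuousLinearMap.comp_id, smul_apply, lf_apply, Pi.single_apply, mul_comm, ite_mul, one_mul, zero_mul, Finset.sum_ite_eq', Finset.mem_univ, ↓reduceIte, smul_eq_mul]
  obtain ⟨C, hC0, hC⟩ := cbd_bound h
  obtain ⟨C', hC0', hC'⟩ := cbd_bound hi
  have eg : ∀ {f : (Fin n → ℝ) → ℝ} {K : ℝ}, 0 ≤ K → (∀ z, |f z| ≤ K) → EG1 f := by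
    intro f K hK hf
    refine ⟨K, hK, fun z => (hf z).trans ?_⟩
    have hS0 : 0 ≤ ∑ i, |z i| := Finset.sum_nonneg fun j _ => abs_nonneg _
    have : 1 ≤ exp (K * ∑ i, |z i|) := one_le_exp (by (clear * - hK; positivity))
    nlinarith
  have := gauss_ibp (φ := fun z => N (x + q • z)) (hd.comp (by fun_prop)) (eg hC0 fun z => hC _) i
    (by
      simp_rw [e]
      exact eg (K := |q| * C') (by (clear * - hC0'; positivity)) fun z => by
        rw [abs_mul]; exact mul_le_mul_of_nonneg_left (hC' _) (abs_nonneg _))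
    (by
      simp_rw [e]
      exact (continuous_const.mul (hi.1.comp (by fun_prop))).aestronglyMeasurable)
  rw [this]
  simp_rw [e]
  rw [integral_const_mul]

/-- derivative along the interpolation path -/
theorem path {N : (Fin n → ℝ) → ℝ} (h : SB N) {s r : ℝ} (hr : 0 < r) (hrs : r ^ 2 < s)
    (x z : Fin n → ℝ) :
    HasDerivAt (fun r => PH (s - r ^ 2) N (x + r • z))
      (-(r * ∑ i, PH (s - r ^ 2) (pd (pd N i) i) (x + r • z))
        + ∑ i, z i * PH (s - r ^ 2) (pd N i) (x + r • z)) r := by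
  choose C hC0 hC using fun i => cbd_bound (sb_cbd (sb_pd h i))
  have hs : 0 < s := lt_of_le_of_lt (sq_nonneg r) hrs
  have hr' : r < √s := Real.lt_sqrt_of_sq_lt hrs
  obtain ⟨ρ, hρ1, hρ2⟩ := exists_between hr'
  have hρ0 : 0 < ρ := hr.trans hρ1
  have hρs : ρ ^ 2 < s := by
    have := (Real.lt_sqrt hρ0.le).1 hρ2
    exact this
  set q := √(s - ρ ^ 2) with hq
  have hq0 : 0 < q := Real.sqrt_pos.2 (by linarith only [hρs])
  have hlt : ∀ r' ∈ Ioo 0 ρ, r' ^ 2 < s ∧ q ≤ √(s - r' ^ 2) := by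
    intro r' hr'
    have : r' ^ 2 < ρ ^ 2 := pow_lt_pow_left₀ hr'.2 hr'.1.le (by norm_num)
    exact ⟨by linarith only [hρs, this], Real.sqrt_le_sqrt (by linarith only [this])⟩
  have key := hasDerivAt_integral_of_dominated_loc_of_deriv_le (μ := gsn n)
    (F := fun r w => N (x + r • z + √(s - r ^ 2) • w))
    (F' := fun r w => ∑ i, pd N i (x + r • z + √(s - r ^ 2) • w)
      * (z i + (-r / √(s - r ^ 2)) * w i))
    (x₀ := r) (s := Ioo 0 ρ)
    (bound := fun w => ∑ i, C i * (|z i| + ρ / q * |w i|))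
    (Ioo_mem_nhds hr hρ1)
    (Eventually.of_forall fun r' => ((sb_cbd h).1.comp (by fun_prop)).aestronglyMeasurable)
    (cbd_integrable (sb_cbd h) (by fun_prop))
    (by
      apply Continuous.aestronglyMeasurable
      refine continuous_finsetSum _ fun i _ => ?_
      exact ((sb_cbd (sb_pd h i)).1.comp (by fun_prop)).mul (by fun_prop))
    (by
      refine Eventually.of_forall fun w r' hr' => ?_
      obtain ⟨h1, h2⟩ := hlt r' hr'
      rw [norm_eq_abs]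
      refine (Finset.abs_sum_le_sum_abs _ _).trans (Finset.sum_le_sum fun i _ => ?_)
      rw [abs_mul]
      apply mul_le_mul (hC i _) _ (abs_nonneg _) (hC0 i)
      refine (abs_add_le _ _).trans ?_
      rw [abs_mul]
      have : |-r' / √(s - r' ^ 2)| ≤ ρ / q := by
        rw [abs_div, abs_neg, abs_of_pos hr'.1, abs_of_pos (hq0.trans_le h2)]
        exact div_le_div₀ hρ0.le hr'.2.le hq0 h2
      have := mul_le_mul_of_nonneg_right this (abs_nonneg (w i))
      linarith only [this])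
    (integrable_finsetSum _ fun i _ =>
      ((integrable_const _).add ((integrable_abs_coord i).const_mul _)).const_mul _)
    (by
      refine Eventually.of_forall fun w r' hr' => ?_
      obtain ⟨h1, h2⟩ := hlt r' hr'
      have e1 : HasDerivAt (fun r : ℝ => s - r ^ 2) (-(2 * r')) r' := by
        simpa only [Nat.cast_ofNat, Nat.add_one_sub_one, pow_one] using (hasDerivAt_pow 2 r').const_sub s
      have e2 := e1.sqrt (by linarith only [h1] : (0 : ℝ) < s - r' ^ 2).ne'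
      have e3 : HasDerivAt (fun r : ℝ => x + r • z) z r' := by
        simpa using ((hasDerivAt_id r').smul_const z).const_add x
      have e4 := e3.add (e2.smul_const w)
      have e5 := (hasFDerivAt_lf (sb_diff h _)).comp_hasDerivAt r' e4
      refine e5.congr_deriv ?_
      rw [lf_apply]
      apply Finset.sum_congr rfl
      intro i _
      simp only [Pi.add_apply, Pi.smul_apply, smul_eq_mul]
      congr 2
      have hne : √(s - r' ^ 2) ≠ 0 := (hq0.trans_le h2).ne'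
      (clear * - hne; field_simp))
  refine key.2.congr_deriv ?_
  obtain ⟨hu, hqu⟩ := hlt r ⟨hr, hρ1⟩
  have hne : √(s - r ^ 2) ≠ 0 := (hq0.trans_le hqu).ne'
  set y := x + r • z with hy
  have i1 : ∀ i, Integrable (fun w => z i * pd N i (y + √(s - r ^ 2) • w)) (gsn n) := fun i =>
    (cbd_integrable (sb_cbd (sb_pd h i)) (by fun_prop)).const_mul _
  have i2 : ∀ i, Integrable (fun w : Fin n → ℝ =>
      -(r / √(s - r ^ 2)) * (w i * pd N i (y + √(s - r ^ 2) • w))) (gsn n) := fun i =>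
    (integrable_coord_mul (sb_cbd (sb_pd h i)) (by fun_prop) i).const_mul _
  have e : ∀ w : Fin n → ℝ, ∑ i, pd N i (y + √(s - r ^ 2) • w) * (z i + (-r / √(s - r ^ 2)) * w i)
      = ∑ i, (z i * pd N i (y + √(s - r ^ 2) • w)
        + -(r / √(s - r ^ 2)) * (w i * pd N i (y + √(s - r ^ 2) • w))) := by
    intro w; apply Finset.sum_congr rfl; intro i _; ring
  simp_rw [e]
  have i3 : ∀ i ∈ Finset.univ, Integrable (fun w : Fin n → ℝ =>
      z i * pd N i (y + √(s - r ^ 2) • w)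
        + -(r / √(s - r ^ 2)) * (w i * pd N i (y + √(s - r ^ 2) • w))) (gsn n) :=
    fun i _ => (i1 i).add (i2 i)
  rw [integral_finsetSum _ i3]
  rw [Finset.mul_sum, ← Finset.sum_neg_distrib, ← Finset.sum_add_distrib]
  apply Finset.sum_congr rfl
  intro i _
  rw [integral_add (i1 i) (i2 i), integral_const_mul, integral_const_mul,
    ibp (sb_diff (sb_pd h i)) (sb_cbd (sb_pd h i)) i (sb_cbd (sb_pd (sb_pd h i) i))]
  unfold PH
  field_simp
  ring

/-- jointly continuous and uniformly bounded -/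
def UB (f : ℝ → (Fin n → ℝ) → ℝ) : Prop :=
  Continuous (fun p : ℝ × (Fin n → ℝ) => f p.1 p.2) ∧ ∃ K, 0 ≤ K ∧ ∀ r y, |f r y| ≤ K

theorem UB.cont {f : ℝ → (Fin n → ℝ) → ℝ} (h : UB f) (r : ℝ) : Continuous (f r) :=
  h.1.comp (f := fun y => (r, y)) (by fun_prop)

theorem UB.cbd {f : ℝ → (Fin n → ℝ) → ℝ} (h : UB f) (r : ℝ) : CBd (f r) := by
  obtain ⟨K, _, hK⟩ := h.2
  exact ⟨h.cont r, K, hK r⟩

theorem UB.const (c : ℝ) : UB (n := n) (fun _ _ => c) :=
  ⟨continuous_const, |c|, abs_nonneg _, fun _ _ => le_rfl⟩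

theorem UB.add {f g : ℝ → (Fin n → ℝ) → ℝ} (hf : UB f) (hg : UB g) :
    UB (fun r y => f r y + g r y) := by
  obtain ⟨K, hK0, hK⟩ := hf.2
  obtain ⟨L, hL0, hL⟩ := hg.2
  exact ⟨hf.1.add hg.1, K + L, by (clear * - hK0 hL0; positivity), fun r y =>
    (abs_add_le _ _).trans (add_le_add (hK r y) (hL r y))⟩

theorem UB.mul {f g : ℝ → (Fin n → ℝ) → ℝ} (hf : UB f) (hg : UB g) :
    UB (fun r y => f r y * g r y) := by
  obtain ⟨K, hK0, hK⟩ := hf.2
  obtain ⟨L, hL0, hL⟩ := hg.2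
  exact ⟨hf.1.mul hg.1, K * L, by (clear * - hK0 hL0; positivity), fun r y => by
    rw [abs_mul]; exact mul_le_mul (hK r y) (hL r y) (abs_nonneg _) hK0⟩

theorem UB.sub {f g : ℝ → (Fin n → ℝ) → ℝ} (hf : UB f) (hg : UB g) :
    UB (fun r y => f r y - g r y) := by
  have := hf.add ((UB.const (-1)).mul hg)
  simpa only [sub_eq_add_neg, neg_mul, one_mul] using this

theorem UB.sum {f : Fin n → ℝ → (Fin n → ℝ) → ℝ} (hf : ∀ i, UB (f i)) :
    UB (fun r y => ∑ i, f i r y) := by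
  choose K hK0 hK using fun i => (hf i).2
  exact ⟨continuous_finsetSum _ fun i _ => (hf i).1, ∑ i, K i,
    Finset.sum_nonneg fun i _ => hK0 i, fun r y =>
    (Finset.abs_sum_le_sum_abs _ _).trans (Finset.sum_le_sum fun i _ => hK i r y)⟩

theorem UB.div {f g : ℝ → (Fin n → ℝ) → ℝ} (hf : UB f) (hg : UB g) {ε : ℝ} (hε : 0 < ε)
    (h : ∀ r y, ε ≤ g r y) : UB (fun r y => f r y / g r y) := by
  obtain ⟨K, hK0, hK⟩ := hf.2
  refine ⟨hf.1.div hg.1 fun p => (hε.trans_le (h _ _)).ne', K / ε, by (clear * - hK0 hε; positivity), fun r y => ?_⟩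
  rw [abs_div]
  exact div_le_div₀ hK0 (hK r y) hε ((h r y).trans (le_abs_self _))

theorem UB.log {g : ℝ → (Fin n → ℝ) → ℝ} (hg : UB g) {ε : ℝ} (hε : 0 < ε)
    (h : ∀ r y, ε ≤ g r y) : UB (fun r y => Real.log (g r y)) := by
  obtain ⟨L, hL0, hL⟩ := hg.2
  refine ⟨hg.1.log fun p => (hε.trans_le (h _ _)).ne', |Real.log ε| + |Real.log L|,
    by (clear * -; positivity), fun r y => ?_⟩
  have h1 : Real.log ε ≤ Real.log (g r y) := Real.log_le_log hε (h r y)
  have h2 : Real.log (g r y) ≤ Real.log L :=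
    Real.log_le_log (hε.trans_le (h r y)) ((le_abs_self _).trans (hL r y))
  rw [abs_le]
  constructor
  · linarith only [h1, neg_abs_le (Real.log ε), abs_nonneg (Real.log L)]
  · linarith only [h2, le_abs_self (Real.log L), abs_nonneg (Real.log ε)]

theorem UB.PH {N : (Fin n → ℝ) → ℝ} (h : CBd N) (s : ℝ) :
    UB (fun r => PH (s - r ^ 2) N) := by
  obtain ⟨C, hC0, hC⟩ := cbd_bound h
  refine ⟨?_, C, hC0, fun r y => PH_bound hC _ y⟩
  exact (PH_cont h).comp (f := fun p : ℝ × (Fin n → ℝ) => (s - p.1 ^ 2, p.2)) (by (clear * -; fun_prop))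

/-- the average of `A r (X + r G)` -/
noncomputable def J (μ : Measure (Fin n → ℝ)) (A : ℝ → (Fin n → ℝ) → ℝ) (r : ℝ) : ℝ :=
  ∫ x, ∫ z, A r (x + r • z) ∂(gsn n) ∂μ

variable {μ : Measure (Fin n → ℝ)} [IsProbabilityMeasure μ]

theorem UB.int {A : ℝ → (Fin n → ℝ) → ℝ} (hA : UB A) (r : ℝ) :
    Integrable (fun p : (Fin n → ℝ) × (Fin n → ℝ) => A r (p.1 + r • p.2)) (μ.prod (gsn n)) := by
  obtain ⟨K, hK0, hK⟩ := hA.2
  exact (integrable_const K).mono' ((hA.cont r).comp (by fun_prop)).aestronglyMeasurable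
    (Eventually.of_forall fun z => by rw [norm_eq_abs]; exact hK _ _)

theorem J_eq {A : ℝ → (Fin n → ℝ) → ℝ} (hA : UB A) (r : ℝ) :
    J μ A r = ∫ p, A r (p.1 + r • p.2) ∂(μ.prod (gsn n)) :=
  (integral_prod _ (hA.int r)).symm

theorem J_cont {A : ℝ → (Fin n → ℝ) → ℝ} (hA : UB A) : Continuous (J μ A) := by
  obtain ⟨K, hK0, hK⟩ := hA.2
  have : J μ A = fun r => ∫ p, A r (p.1 + r • p.2) ∂(μ.prod (gsn n)) := by
    funext r; exact J_eq hA r
  rw [this]
  refine continuous_of_dominated (bound := fun _ => K) (fun r => (hA.int r).aestronglyMeasurable)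
    (fun r => Eventually.of_forall fun p => by rw [norm_eq_abs]; exact hK _ _)
    (integrable_const K) (Eventually.of_forall fun p => ?_)
  exact hA.1.comp (f := fun r => (r, p.1 + r • p.2)) (by fun_prop)

omit [IsProbabilityMeasure μ] in
theorem J_congr {A B : ℝ → (Fin n → ℝ) → ℝ} {r : ℝ} (h : ∀ y, A r y = B r y) :
    J μ A r = J μ B r := by
  unfold J; simp_rw [h]

theorem J_mono {A B : ℝ → (Fin n → ℝ) → ℝ} (hA : UB A) (hB : UB B) {r : ℝ}
    (h : ∀ y, A r y ≤ B r y) : J μ A r ≤ J μ B r := by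
  rw [J_eq hA, J_eq hB]
  exact integral_mono (hA.int r) (hB.int r) fun p => h _

/-- the derivative of the interpolation -/
theorem J_deriv {A B : ℝ → (Fin n → ℝ) → ℝ} {F D : Fin n → ℝ → (Fin n → ℝ) → ℝ} {ρ : ℝ}
    (hA : UB A) (hB : UB B) (hF : ∀ i, UB (F i)) (hD : ∀ i, UB (D i))
    (hd : ∀ r ∈ Ioo 0 ρ, ∀ x z, HasDerivAt (fun r => A r (x + r • z))
      (-(r * B r (x + r • z)) + ∑ i, z i * F i r (x + r • z)) r)
    (hFd : ∀ i r, Differentiable ℝ (F i r)) (hFD : ∀ i r y, pd (F i r) i y = D i r y)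
    {r : ℝ} (hr : r ∈ Ioo 0 ρ) :
    HasDerivAt (J μ A) (r * J μ (fun r y => ∑ i, D i r y - B r y) r) r := by
  obtain ⟨K, hK0, hK⟩ := hB.2
  choose L hL0 hL using fun i => (hF i).2
  have hJ : J μ A = fun r => ∫ p, A r (p.1 + r • p.2) ∂(μ.prod (gsn n)) := by
    funext r; exact J_eq hA r
  have hbint : Integrable (fun p : (Fin n → ℝ) × (Fin n → ℝ) =>
      ρ * K + ∑ i, |p.2 i| * L i) (μ.prod (gsn n)) := by
    refine (integrable_const _).add (integrable_finsetSum _ fun i _ => ?_)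
    exact ((integrable_abs_coord i).comp_snd μ).mul_const _
  have hbd : ∀ r ∈ Ioo 0 ρ, ∀ p : (Fin n → ℝ) × (Fin n → ℝ),
      ‖-(r * B r (p.1 + r • p.2)) + ∑ i, p.2 i * F i r (p.1 + r • p.2)‖
        ≤ ρ * K + ∑ i, |p.2 i| * L i := by
    intro r hr p
    rw [norm_eq_abs]
    refine (abs_add_le _ _).trans (add_le_add ?_ ?_)
    · rw [abs_neg, abs_mul, abs_of_pos hr.1]
      exact mul_le_mul hr.2.le (hK _ _) (abs_nonneg _) (hr.1.trans hr.2).le
    · refine (Finset.abs_sum_le_sum_abs _ _).trans (Finset.sum_le_sum fun i _ => ?_)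
      rw [abs_mul]
      exact mul_le_mul_of_nonneg_left (hL i _ _) (abs_nonneg _)
  have hmeas : ∀ r, AEStronglyMeasurable (fun p : (Fin n → ℝ) × (Fin n → ℝ) =>
      -(r * B r (p.1 + r • p.2)) + ∑ i, p.2 i * F i r (p.1 + r • p.2)) (μ.prod (gsn n)) := by
    intro r
    apply Continuous.aestronglyMeasurable
    refine (continuous_const.mul ((hB.cont r).comp (by fun_prop))).neg.add
      (continuous_finsetSum _ fun i _ => ?_)
    exact (by fun_prop : Continuous fun p : (Fin n → ℝ) × (Fin n → ℝ) => p.2 i).mul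
      (((hF i).cont r).comp (by fun_prop))
  have key := hasDerivAt_integral_of_dominated_loc_of_deriv_le (μ := μ.prod (gsn n))
    (F := fun r p => A r (p.1 + r • p.2))
    (F' := fun r p => -(r * B r (p.1 + r • p.2)) + ∑ i, p.2 i * F i r (p.1 + r • p.2))
    (x₀ := r) (s := Ioo 0 ρ) (bound := fun p => ρ * K + ∑ i, |p.2 i| * L i)
    (Ioo_mem_nhds hr.1 hr.2)
    (Eventually.of_forall fun r' => (hA.int r').aestronglyMeasurable)
    (hA.int r) (hmeas r)
    (Eventually.of_forall fun p r' hr' => hbd r' hr' p)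
    hbint
    (Eventually.of_forall fun p r' hr' => hd r' hr' p.1 p.2)
  rw [hJ]
  refine key.2.congr_deriv ?_
  have hi : Integrable (fun p : (Fin n → ℝ) × (Fin n → ℝ) =>
      -(r * B r (p.1 + r • p.2)) + ∑ i, p.2 i * F i r (p.1 + r • p.2)) (μ.prod (gsn n)) :=
    hbint.mono' (hmeas r) (Eventually.of_forall fun p => hbd r hr p)
  rw [integral_prod _ hi]
  unfold J
  rw [← integral_const_mul]
  congr 1
  funext x
  simp only
  have iB : Integrable (fun z => B r (x + r • z)) (gsn n) :=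
    cbd_integrable (hB.cbd r) (by fun_prop)
  have iF : ∀ i, Integrable (fun z : Fin n → ℝ => z i * F i r (x + r • z)) (gsn n) := fun i =>
    integrable_coord_mul ((hF i).cbd r) (by fun_prop) i
  have iD : ∀ i, Integrable (fun z => D i r (x + r • z)) (gsn n) := fun i =>
    cbd_integrable ((hD i).cbd r) (by fun_prop)
  have hFD' : ∀ i, pd (F i r) i = D i r := fun i => by funext y; exact hFD i r y
  have iB' : Integrable (fun z => -(r * B r (x + r • z))) (gsn n) := (iB.const_mul r).neg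
  rw [integral_add iB' (integrable_finsetSum _ fun i _ => iF i),
    integral_neg, integral_const_mul, integral_finsetSum _ fun i _ => iF i,
    integral_sub (integrable_finsetSum _ fun i _ => iD i) iB,
    integral_finsetSum _ fun i _ => iD i]
  have e : ∀ i, ∫ z, z i * F i r (x + r • z) ∂(gsn n) = r * ∫ z, D i r (x + r • z) ∂(gsn n) := by
    intro i
    rw [ibp (hFd i r) ((hF i).cbd r) i (by rw [hFD' i]; exact (hD i).cbd r), hFD' i]
  simp_rw [e]
  rw [← Finset.mul_sum]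
  ring

/-! ### first order calculus along the path -/

/-- `f` has space derivatives `a i` and derivative `-(r b) + ∑ z_i a_i` along the path -/
structure G1 (s : ℝ) (f b : ℝ → (Fin n → ℝ) → ℝ) (a : Fin n → ℝ → (Fin n → ℝ) → ℝ) : Prop where
  uf : UB f
  ub : UB b
  ua : ∀ i, UB (a i)
  fd : ∀ r y, HasFDerivAt (f r) (lf fun i => a i r y) y
  hd : ∀ r ∈ Ioo 0 (√s), ∀ x z : Fin n → ℝ, HasDerivAt (fun r => f r (x + r • z))
    (-(r * b r (x + r • z)) + ∑ i, z i * a i r (x + r • z)) r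

theorem lf_congr {c d : Fin n → ℝ} (h : ∀ i, c i = d i) : lf c = lf d := by
  have : c = d := funext h
  rw [this]

theorem lf_add (c d : Fin n → ℝ) : lf c + lf d = lf fun i => c i + d i := by
  ext v; simp only [add_apply, lf_apply, add_mul, Finset.sum_add_distrib]

theorem lf_smul (k : ℝ) (c : Fin n → ℝ) : k • lf c = lf fun i => k * c i := by
  ext v
  simp only [_root_.smul_apply, lf_apply, smul_eq_mul, Finset.mul_sum]
  apply Finset.sum_congr rfl; intro i _; ring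

theorem lf_sum {ι : Type*} (s : Finset ι) (c : ι → Fin n → ℝ) :
    ∑ j ∈ s, lf (c j) = lf fun i => ∑ j ∈ s, c j i := by
  ext v
  rw [_root_.sum_apply]
  simp only [lf_apply, Finset.sum_mul]
  rw [Finset.sum_comm]

section closure

variable {s : ℝ} {f g b b' : ℝ → (Fin n → ℝ) → ℝ} {a a' : Fin n → ℝ → (Fin n → ℝ) → ℝ}

theorem G1.mul (hf : G1 s f b a) (hg : G1 s g b' a') :
    G1 s (fun r y => f r y * g r y) (fun r y => b r y * g r y + f r y * b' r y)
      (fun i r y => a i r y * g r y + f r y * a' i r y) where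
  uf := hf.uf.mul hg.uf
  ub := (hf.ub.mul hg.uf).add (hf.uf.mul hg.ub)
  ua := fun i => ((hf.ua i).mul hg.uf).add (hf.uf.mul (hg.ua i))
  fd := by
    intro r y
    refine ((hf.fd r y).mul (hg.fd r y)).congr_fderiv ?_
    rw [lf_smul, lf_smul, lf_add]
    apply lf_congr; intro i; ring
  hd := by
    intro r hr x z
    refine ((hf.hd r hr x z).mul (hg.hd r hr x z)).congr_deriv ?_
    simp_rw [mul_add, Finset.sum_add_distrib]
    have e1 : ∑ i, z i * (a i r (x + r • z) * g r (x + r • z))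
        = (∑ i, z i * a i r (x + r • z)) * g r (x + r • z) := by
      rw [Finset.sum_mul]; apply Finset.sum_congr rfl; intro i _; ring
    have e2 : ∑ i, z i * (f r (x + r • z) * a' i r (x + r • z))
        = f r (x + r • z) * ∑ i, z i * a' i r (x + r • z) := by
      rw [Finset.mul_sum]; apply Finset.sum_congr rfl; intro i _; ring
    rw [e1, e2]
    ring

theorem G1.add (hf : G1 s f b a) (hg : G1 s g b' a') :
    G1 s (fun r y => f r y + g r y) (fun r y => b r y + b' r y)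
      (fun i r y => a i r y + a' i r y) where
  uf := hf.uf.add hg.uf
  ub := hf.ub.add hg.ub
  ua := fun i => (hf.ua i).add (hg.ua i)
  fd := by
    intro r y
    refine ((hf.fd r y).add (hg.fd r y)).congr_fderiv ?_
    rw [lf_add]
  hd := by
    intro r hr x z
    refine ((hf.hd r hr x z).add (hg.hd r hr x z)).congr_deriv ?_
    simp_rw [mul_add, Finset.sum_add_distrib]
    ring

theorem G1.const (c : ℝ) : G1 (n := n) s (fun _ _ => c) (fun _ _ => 0) (fun _ _ _ => 0) where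
  uf := UB.const c
  ub := UB.const 0
  ua := fun _ => UB.const 0
  fd := by
    intro r y
    refine (hasFDerivAt_const c y).congr_fderiv ?_
    ext v; simp only [zero_apply, lf_apply, zero_mul, Finset.sum_const_zero]
  hd := by
    intro r hr x z
    simpa only [mul_zero, neg_zero, Finset.sum_const_zero, add_zero] using hasDerivAt_const r c

theorem G1.log (hf : G1 s f b a) {ε : ℝ} (hε : 0 < ε) (h : ∀ r y, ε ≤ f r y) :
    G1 s (fun r y => Real.log (f r y)) (fun r y => b r y / f r y)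
      (fun i r y => a i r y / f r y) where
  uf := hf.uf.log hε h
  ub := hf.ub.div hf.uf hε h
  ua := fun i => (hf.ua i).div hf.uf hε h
  fd := by
    intro r y
    refine ((hf.fd r y).log (hε.trans_le (h r y)).ne').congr_fderiv ?_
    rw [lf_smul]
    apply lf_congr; intro i; rw [div_eq_inv_mul]
  hd := by
    intro r hr x z
    refine ((hf.hd r hr x z).log (hε.trans_le (h r _)).ne').congr_deriv ?_
    rw [add_div, Finset.sum_div]
    congr 1
    · ring
    · apply Finset.sum_congr rfl; intro i _; ring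

theorem G1.div (hf : G1 s f b a) (hg : G1 s g b' a') {ε : ℝ} (hε : 0 < ε)
    (h : ∀ r y, ε ≤ g r y) :
    G1 s (fun r y => f r y / g r y)
      (fun r y => b r y / g r y - f r y / g r y * (b' r y / g r y))
      (fun i r y => a i r y / g r y - f r y / g r y * (a' i r y / g r y)) where
  uf := hf.uf.div hg.uf hε h
  ub := (hf.ub.div hg.uf hε h).sub ((hf.uf.div hg.uf hε h).mul (hg.ub.div hg.uf hε h))
  ua := fun i => ((hf.ua i).div hg.uf hε h).sub
    ((hf.uf.div hg.uf hε h).mul ((hg.ua i).div hg.uf hε h))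
  fd := by
    intro r y
    have hne := (hε.trans_le (h r y)).ne'
    have h1 := (hf.fd r y).mul ((hasDerivAt_inv hne).comp_hasFDerivAt y (hg.fd r y))
    refine (h1.congr_fderiv ?_).congr_of_eventuallyEq
      (Eventually.of_forall fun y' => by simp only [div_eq_mul_inv, Pi.mul_apply, Function.comp_apply])
    simp only [lf_smul, lf_add, Function.comp_apply]
    apply lf_congr; intro i
    field_simp
    ring
  hd := by
    intro r hr x z
    have hne := (hε.trans_le (h r (x + r • z))).ne'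
    refine ((hf.hd r hr x z).div (hg.hd r hr x z) hne).congr_deriv ?_
    simp_rw [mul_sub, Finset.sum_sub_distrib]
    have e1 : ∑ i, z i * (a i r (x + r • z) / g r (x + r • z))
        = (∑ i, z i * a i r (x + r • z)) / g r (x + r • z) := by
      rw [Finset.sum_div]; apply Finset.sum_congr rfl; intro i _; ring
    have e2 : ∑ i, z i * (f r (x + r • z) / g r (x + r • z)
        * (a' i r (x + r • z) / g r (x + r • z)))
        = f r (x + r • z) / g r (x + r • z) ^ 2 * ∑ i, z i * a' i r (x + r • z) := by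
      rw [Finset.mul_sum]; apply Finset.sum_congr rfl; intro i _; ring
    rw [e1, e2]
    field_simp
    ring

theorem G1.sum {f b : Fin n → ℝ → (Fin n → ℝ) → ℝ} {a : Fin n → Fin n → ℝ → (Fin n → ℝ) → ℝ}
    (hf : ∀ j, G1 s (f j) (b j) (a j)) :
    G1 s (fun r y => ∑ j, f j r y) (fun r y => ∑ j, b j r y)
      (fun i r y => ∑ j, a j i r y) where
  uf := UB.sum fun j => (hf j).uf
  ub := UB.sum fun j => (hf j).ub
  ua := fun i => UB.sum fun j => (hf j).ua i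
  fd := by
    intro r y
    refine (HasFDerivAt.fun_sum fun j _ => (hf j).fd r y).congr_fderiv ?_
    rw [lf_sum]
  hd := by
    intro r hr x z
    refine (HasDerivAt.fun_sum fun j _ => (hf j).hd r hr x z).congr_deriv ?_
    rw [Finset.sum_add_distrib, Finset.sum_neg_distrib, ← Finset.mul_sum, Finset.sum_comm]
    simp_rw [Finset.mul_sum]

end closure

/-- notation: `U` and its derivatives along the path -/
noncomputable def U0 (s : ℝ) (N : (Fin n → ℝ) → ℝ) (r : ℝ) : (Fin n → ℝ) → ℝ := PH (s - r ^ 2) N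

theorem G1.U0 {N : (Fin n → ℝ) → ℝ} (h : SB N) (s : ℝ) :
    G1 s (U0 s N) (fun r y => ∑ i, U0 s (pd (pd N i) i) r y) (fun i => U0 s (pd N i)) where
  uf := UB.PH (sb_cbd h) s
  ub := UB.sum fun i => UB.PH (sb_cbd (sb_pd (sb_pd h i) i)) s
  ua := fun i => UB.PH (sb_cbd (sb_pd h i)) s
  fd := fun _ y => PH_hasFDerivAt h _ y
  hd := fun _ hr x z => path h hr.1 ((Real.lt_sqrt hr.1.le).1 hr.2) x z

theorem J_deriv' {s : ℝ} {A B : ℝ → (Fin n → ℝ) → ℝ} {F Bi : Fin n → ℝ → (Fin n → ℝ) → ℝ}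
    {Fi : Fin n → Fin n → ℝ → (Fin n → ℝ) → ℝ} (hA : G1 s A B F)
    (hF : ∀ i, G1 s (F i) (Bi i) (Fi i)) {r : ℝ} (hr : r ∈ Ioo 0 (√s)) :
    HasDerivAt (J μ A) (r * J μ (fun r y => ∑ i, Fi i i r y - B r y) r) r :=
  J_deriv hA.uf hA.ub (fun i => (hF i).uf) (fun i => (hF i).ua i) hA.hd
    (fun i _ y => ((hF i).fd _ y).differentiableAt)
    (fun i _ y => pd_of_hasFDerivAt ((hF i).fd _ y) i) hr

theorem hent {N : (Fin n → ℝ) → ℝ} (hN : Pos N) {s : ℝ} {r : ℝ} (hr : r ∈ Ioo 0 (√s)) :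
    HasDerivAt (J μ fun r y => U0 s N r y * Real.log (U0 s N r y))
      (r * J μ (fun r y => (∑ i, U0 s (pd N i) r y ^ 2) / U0 s N r y) r) r := by
  obtain ⟨ε, hε0, hε⟩ := hN.lb
  have h := hN.sb
  have hlb : ∀ r y, ε ≤ U0 s N r y := fun r y => PH_lb (sb_cbd h) hε _ y
  have gU := G1.U0 h s
  have gV := fun i => G1.U0 (sb_pd h i) s
  have glog := gU.log hε0 hlb
  have key := J_deriv' (μ := μ) (gU.mul glog) (fun i =>
    ((gV i).mul glog).add (gU.mul ((gV i).div gU hε0 hlb))) hr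
  refine key.congr_deriv ?_
  congr 1
  apply J_congr
  intro y
  have hne : U0 s N r y ≠ 0 := (hε0.trans_le (hlb r y)).ne'
  rw [mul_div_cancel₀ _ hne, Finset.sum_div, Finset.sum_mul, ← Finset.sum_add_distrib,
    ← Finset.sum_sub_distrib]
  apply Finset.sum_congr rfl
  intro i _
  field_simp
  ring

theorem hfis {N : (Fin n → ℝ) → ℝ} (hN : Pos N) {s : ℝ} {r : ℝ} (hr : r ∈ Ioo 0 (√s)) :
    HasDerivAt (J μ fun r y => (∑ i, U0 s (pd N i) r y ^ 2) / U0 s N r y)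
      (r * J μ (fun r y => 2 * (U0 s N r y * ∑ j, ∑ i, (U0 s (pd (pd N j) i) r y / U0 s N r y
        - U0 s (pd N j) r y / U0 s N r y * (U0 s (pd N i) r y / U0 s N r y)) ^ 2)) r) r := by
  obtain ⟨ε, hε0, hε⟩ := hN.lb
  have h := hN.sb
  have hlb : ∀ r y, ε ≤ U0 s N r y := fun r y => PH_lb (sb_cbd h) hε _ y
  have gU := G1.U0 h s
  have gV := fun i => G1.U0 (sb_pd h i) s
  have gW := fun i j => G1.U0 (sb_pd (sb_pd h i) j) s
  have gq := fun j => (gV j).div gU hε0 hlb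
  have hA := G1.sum fun j => (gV j).mul (gq j)
  have hF := fun i => G1.sum fun j => ((gW j i).mul (gq j)).add ((gV j).mul
    (((gW j i).div gU hε0 hlb).add ((G1.const (-1)).mul ((gq j).mul (gq i)))))
  have key := J_deriv' (μ := μ) (s := s)
    (F := fun i r y => ∑ j, (U0 s (pd (pd N j) i) r y * (U0 s (pd N j) r y / U0 s N r y)
      + U0 s (pd N j) r y * (U0 s (pd (pd N j) i) r y / U0 s N r y
        + -1 * (U0 s (pd N j) r y / U0 s N r y * (U0 s (pd N i) r y / U0 s N r y)))))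
    (A := fun r y => ∑ j, U0 s (pd N j) r y * (U0 s (pd N j) r y / U0 s N r y))
    (by
      convert hA using 6
      ring) hF hr
  have e0 : J μ (fun r y => (∑ i, U0 s (pd N i) r y ^ 2) / U0 s N r y)
      = J μ (fun r y => ∑ j, U0 s (pd N j) r y * (U0 s (pd N j) r y / U0 s N r y)) := by
    funext r
    apply J_congr
    intro y
    rw [Finset.sum_div]
    apply Finset.sum_congr rfl
    intro j _
    ring
  rw [e0]
  refine key.congr_deriv ?_
  congr 1
  apply J_congr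
  intro y
  have hne : U0 s N r y ≠ 0 := (hε0.trans_le (hlb r y)).ne'
  rw [Finset.sum_comm, ← Finset.sum_sub_distrib, Finset.mul_sum, Finset.mul_sum]
  apply Finset.sum_congr rfl
  intro j _
  rw [Finset.mul_sum, Finset.mul_sum]
  have eB : (∑ i, U0 s (pd (pd (pd N j) i) i) r y) * (U0 s (pd N j) r y / U0 s N r y)
      + U0 s (pd N j) r y * ((∑ i, U0 s (pd (pd (pd N j) i) i) r y) / U0 s N r y
        - U0 s (pd N j) r y / U0 s N r y * ((∑ i, U0 s (pd (pd N i) i) r y) / U0 s N r y))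
      = ∑ i, (U0 s (pd (pd (pd N j) i) i) r y * (U0 s (pd N j) r y / U0 s N r y)
      + U0 s (pd N j) r y * (U0 s (pd (pd (pd N j) i) i) r y / U0 s N r y
        - U0 s (pd N j) r y / U0 s N r y * (U0 s (pd (pd N i) i) r y / U0 s N r y))) := by
    rw [Finset.sum_add_distrib, ← Finset.sum_mul, ← Finset.mul_sum, Finset.sum_sub_distrib,
      ← Finset.sum_div, ← Finset.mul_sum, ← Finset.sum_div]
  rw [eB, ← Finset.sum_sub_distrib]
  apply Finset.sum_congr rfl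
  intro i _
  field_simp
  ring


/-! ### assembly -/

theorem HE_eq (μ : Measure (Fin n → ℝ)) (N : (Fin n → ℝ) → ℝ) {s σ : ℝ} (hσ : 0 ≤ σ) :
    HE μ σ (PH (s - σ) N) = J μ (fun r y => U0 s N r y * Real.log (U0 s N r y)) (√σ) := by
  have : U0 s N (√σ) = PH (s - σ) N := by unfold U0; rw [Real.sq_sqrt hσ]
  unfold J
  simp only [this]
  rfl

theorem FI_eq (μ : Measure (Fin n → ℝ)) {N : (Fin n → ℝ) → ℝ} (h : SB N) {s σ : ℝ}
    (hσ : 0 ≤ σ) : FI μ σ (PH (s - σ) N)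
      = J μ (fun r y => (∑ i, U0 s (pd N i) r y ^ 2) / U0 s N r y) (√σ) := by
  have h0 : ∀ N : (Fin n → ℝ) → ℝ, U0 s N (√σ) = PH (s - σ) N := by
    intro N; unfold U0; rw [Real.sq_sqrt hσ]
  unfold J FI
  simp only [h0, pd_PH h]
  rfl

theorem pd_log {N : (Fin n → ℝ) → ℝ} (hd : Differentiable ℝ N) (hne : ∀ y, N y ≠ 0) (i : Fin n) :
    pd (fun y => Real.log (N y)) i = fun y => pd N i y / N y := by
  funext y
  have h1 := (hasFDerivAt_lf (hd y)).log (hne y)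
  rw [lf_smul] at h1
  rw [pd_of_hasFDerivAt h1 i, div_eq_inv_mul]

theorem pd_div {f g : (Fin n → ℝ) → ℝ} (hf : Differentiable ℝ f) (hg : Differentiable ℝ g)
    (hne : ∀ y, g y ≠ 0) (i : Fin n) (y : Fin n → ℝ) :
    pd (fun y => f y / g y) i y = pd f i y / g y - f y / g y * (pd g i y / g y) := by
  have h1 := (hasFDerivAt_lf (hf y)).mul
    ((hasDerivAt_inv (hne y)).comp_hasFDerivAt y (hasFDerivAt_lf (hg y)))
  simp only [lf_smul, lf_add, Function.comp_apply] at h1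
  have h2 := h1.congr_of_eventuallyEq (f₁ := fun y => f y / g y)
    (Eventually.of_forall fun y' => by simp only [div_eq_mul_inv, Pi.mul_apply, Function.comp_apply])
  rw [pd_of_hasFDerivAt h2 i]
  have := hne y
  field_simp
  ring

theorem GA_eq (μ : Measure (Fin n → ℝ)) {N : (Fin n → ℝ) → ℝ} (hN : Pos N) {s σ : ℝ}
    (hσ : 0 ≤ σ) : GA μ σ (PH (s - σ) N)
      = J μ (fun r y => U0 s N r y * ∑ j, ∑ i, (U0 s (pd (pd N j) i) r y / U0 s N r y
        - U0 s (pd N j) r y / U0 s N r y * (U0 s (pd N i) r y / U0 s N r y)) ^ 2) (√σ) := by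
  obtain ⟨ε, hε0, hε⟩ := hN.lb
  have h := hN.sb
  have h0 : ∀ N : (Fin n → ℝ) → ℝ, U0 s N (√σ) = PH (s - σ) N := by
    intro N; unfold U0; rw [Real.sq_sqrt hσ]
  have hne : ∀ y, PH (s - σ) N y ≠ 0 := fun y => (hε0.trans_le (PH_lb (sb_cbd h) hε _ y)).ne'
  have e : ∀ j i y, pd (pd (fun y => Real.log (PH (s - σ) N y)) j) i y
      = PH (s - σ) (pd (pd N j) i) y / PH (s - σ) N y
        - PH (s - σ) (pd N j) y / PH (s - σ) N y * (PH (s - σ) (pd N i) y / PH (s - σ) N y) := by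
    intro j i y
    rw [pd_log (PH_diff h _) hne j, pd_PH h, pd_div (PH_diff (sb_pd h j) _) (PH_diff h _) hne i y,
      pd_PH (sb_pd h j), pd_PH h]
  unfold J GA
  simp only [e, h0]
  rfl

theorem sq_nonneg_U {N : (Fin n → ℝ) → ℝ} (hN : Pos N) (s r : ℝ) (y : Fin n → ℝ) :
    0 ≤ U0 s N r y * ∑ j, ∑ i, (U0 s (pd (pd N j) i) r y / U0 s N r y
        - U0 s (pd N j) r y / U0 s N r y * (U0 s (pd N i) r y / U0 s N r y)) ^ 2 := by
  obtain ⟨ε, hε0, hε⟩ := hN.lb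
  exact mul_nonneg (hε0.le.trans (PH_lb (sb_cbd hN.sb) hε _ y))
    (Finset.sum_nonneg fun j _ => Finset.sum_nonneg fun i _ => sq_nonneg _)

/-- comparison of increments -/
theorem incr {f g : ℝ → ℝ} {a b : ℝ} (hab : a ≤ b) (hf : Continuous f) (hg : Continuous g)
    {f' g' : ℝ → ℝ} (hf' : ∀ r ∈ Ioo a b, HasDerivAt f (f' r) r)
    (hg' : ∀ r ∈ Ioo a b, HasDerivAt g (g' r) r) (h : ∀ r ∈ Ioo a b, f' r ≤ g' r) :
    f b - f a ≤ g b - g a := by
  have : MonotoneOn (fun r => g r - f r) (Icc a b) := by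
    apply monotoneOn_of_deriv_nonneg (convex_Icc a b) (hg.sub hf).continuousOn
    · rw [interior_Icc]
      intro r hr
      exact ((hg' r hr).sub (hf' r hr)).differentiableAt.differentiableWithinAt
    · rw [interior_Icc]
      intro r hr
      rw [((hg' r hr).sub (hf' r hr)).deriv]
      linarith only [h r hr]
  have := this (left_mem_Icc.2 hab) (right_mem_Icc.2 hab) hab
  simp only at this
  linarith only [this]

end Down

open Vale.Agent.P245.LS.Down in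
/-- the path down -/
theorem thB (n : ℕ) : StB n := by
  intro μ _ N s hN hs
  obtain ⟨ε, hε0, hε⟩ := hN.lb
  have h := hN.sb
  have hlb : ∀ r y, ε ≤ U0 s N r y := fun r y => PH_lb (sb_cbd h) hε _ y
  have uU : UB (U0 s N) := UB.PH (sb_cbd h) s
  have uV : ∀ i, UB (U0 s (pd N i)) := fun i => UB.PH (sb_cbd (sb_pd h i)) s
  have uW : ∀ i j, UB (U0 s (pd (pd N i) j)) := fun i j => UB.PH (sb_cbd (sb_pd (sb_pd h i) j)) s
  set He : ℝ → ℝ := J μ fun r y => U0 s N r y * Real.log (U0 s N r y) with hHe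
  set Fi : ℝ → ℝ := J μ fun r y => (∑ i, U0 s (pd N i) r y ^ 2) / U0 s N r y with hFi
  set Q : ℝ → (Fin n → ℝ) → ℝ := fun r y => U0 s N r y * ∑ j, ∑ i,
    (U0 s (pd (pd N j) i) r y / U0 s N r y
        - U0 s (pd N j) r y / U0 s N r y * (U0 s (pd N i) r y / U0 s N r y)) ^ 2 with hQ
  set Ga : ℝ → ℝ := J μ Q with hGa
  have uA : UB fun r y => U0 s N r y * Real.log (U0 s N r y) := uU.mul (uU.log hε0 hlb)
  have uF : UB fun r y => (∑ i, U0 s (pd N i) r y ^ 2) / U0 s N r y := by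
    refine UB.div (UB.sum fun i => ?_) uU hε0 hlb
    simpa [sq] using (uV i).mul (uV i)
  have uQ : UB Q := by
    refine uU.mul (UB.sum fun j => UB.sum fun i => ?_)
    have := ((uW j i).div uU hε0 hlb).sub (((uV j).div uU hε0 hlb).mul ((uV i).div uU hε0 hlb))
    simpa only [sq] using this.mul this
  have cH : Continuous He := J_cont uA
  have cF : Continuous Fi := J_cont uF
  have dH : ∀ r ∈ Ioo 0 (√s), HasDerivAt He (r * Fi r) r := fun r hr => hent hN hr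
  have dF : ∀ r ∈ Ioo 0 (√s), HasDerivAt Fi (r * (2 * Ga r)) r := by
    intro r hr
    refine (hfis hN hr).congr_deriv ?_
    congr 1
    rw [hGa, J_eq uQ, J_eq ((UB.const 2).mul uQ), integral_const_mul]
  have gG : ∀ r, 0 ≤ Ga r := by
    intro r
    have := J_mono (μ := μ) (UB.const 0) uQ (r := r) fun y => sq_nonneg_U hN s r y
    have h1 : J μ (fun _ _ => (0 : ℝ)) r = 0 := by simp [J]
    rw [h1] at this
    exact this
  have eH : ∀ σ, 0 ≤ σ → HE μ σ (PH (s - σ) N) = He (√σ) := fun σ hσ => HE_eq μ N hσ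
  have eF : ∀ σ, 0 ≤ σ → FI μ σ (PH (s - σ) N) = Fi (√σ) := fun σ hσ => FI_eq μ h hσ
  have eG : ∀ σ, 0 ≤ σ → GA μ σ (PH (s - σ) N) = Ga (√σ) := fun σ hσ => GA_eq μ hN hσ
  have eH0 : HE μ 0 (PH s N) = He 0 := by simpa using eH 0 le_rfl
  have eF0 : FI μ 0 (PH s N) = Fi 0 := by simpa using eF 0 le_rfl
  have eHs : HE μ s N = He (√s) := by simpa [PH_zero] using eH s hs.le
  have eFs : FI μ s N = Fi (√s) := by simpa [PH_zero] using eF s hs.le
  -- monotonicity of the Fisher information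
  have mF : ∀ a b, 0 ≤ a → a ≤ b → b ≤ √s → Fi a ≤ Fi b := by
    intro a b ha hab hb
    have := incr (f := fun _ => (0 : ℝ)) (f' := fun _ => 0) hab continuous_const cF
      (fun r _ => hasDerivAt_const r _) (fun r hr => dF r ⟨ha.trans_lt hr.1, hr.2.trans_le hb⟩)
      (fun r hr => mul_nonneg (ha.trans hr.1.le) (by linarith only [gG r]))
    linarith only [this]
  have hdq : ∀ c r : ℝ, HasDerivAt (fun r : ℝ => c / 2 * r ^ 2) (r * c) r := by
    intro c r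
    refine ((hasDerivAt_pow 2 r).const_mul (c / 2)).congr_deriv ?_
    push_cast; ring
  refine ⟨?_, ?_, ?_⟩
  · intro σ hσ0 hσs
    have hsq : √σ ≤ √s := Real.sqrt_le_sqrt hσs
    have hsq0 := Real.sqrt_nonneg σ
    rw [eF0, eFs, eH0, eF σ hσ0, eH σ hσ0]
    refine ⟨mF 0 (√σ) le_rfl hsq0 hsq, mF _ _ hsq0 hsq le_rfl, ?_⟩
    have := incr (f := fun r => Fi 0 / 2 * r ^ 2) (f' := fun r => r * Fi 0) hsq0 (by fun_prop) cH
      (fun r _ => hdq _ r) (fun r hr => dH r ⟨hr.1, hr.2.trans_le hsq⟩)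
      (fun r hr => mul_le_mul_of_nonneg_left (mF 0 r le_rfl hr.1.le (hr.2.le.trans hsq)) hr.1.le)
    simp only [Real.sq_sqrt hσ0] at this
    linarith only [this]
  · rw [eHs, eFs, eH0]
    have := incr (g := fun r => Fi (√s) / 2 * r ^ 2) (g' := fun r => r * Fi (√s))
      (Real.sqrt_nonneg s) cH (by fun_prop)
      (fun r hr => dH r hr) (fun r _ => hdq _ r)
      (fun r hr => mul_le_mul_of_nonneg_left (mF r (√s) hr.1.le hr.2.le le_rfl) hr.1.le)
    simp only [Real.sq_sqrt hs.le] at this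
    linarith only [this]
  · intro b hb
    rw [eFs, eF0]
    have := incr (f := fun r => (2 * b) / 2 * r ^ 2) (f' := fun r => r * (2 * b))
      (Real.sqrt_nonneg s) (by fun_prop) cF (fun r _ => hdq _ r) (fun r hr => dF r hr)
      (fun r hr => by
        have h1 : 0 < r ^ 2 := by have := hr.1; (clear * - this; positivity)
        have h2 : r ^ 2 < s := (Real.lt_sqrt hr.1.le).1 hr.2
        have := hb (r ^ 2) h1 h2
        rw [eG _ h1.le, Real.sqrt_sq hr.1.le] at this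
        exact mul_le_mul_of_nonneg_left (by linarith only [this]) hr.1.le)
    simp only [Real.sq_sqrt hs.le] at this
    linarith only [this]

end Vale.Agent.P245.LS
end
end

section

section

/-! # The iteration (module G) -/

open MeasureTheory Real Set Filter Topology
open scoped ENNReal ContDiff

namespace Vale.Agent.P245.LS

section Abstract

variable {F : Type*} (H I : F → ℝ)

/-- `sup (H - k I)` -/
noncomputable def iterD (k : ℝ) : ℝ := ⨆ f, (H f - k * I f)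

variable {H I}

end Abstract

variable {n : ℕ}

lemma iter_SBk_const (k : ℕ) : ∀ c : ℝ, SBk k (fun _ : Fin n → ℝ => c) := by
  induction k with
  | zero =>
    intro c
    exact ⟨continuous_const, |c|, fun _ => le_rfl⟩
  | succ k ih =>
    intro c
    refine ⟨⟨differentiable_const c, |c|, fun _ => le_rfl⟩, fun i => ?_⟩
    have e : pd (fun _ : Fin n → ℝ => c) i = fun _ => 0 := by
      funext x
      simp only [pd, fderiv_fun_const, Pi.zero_apply, zero_apply]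
    rw [e]
    exact ih 0

lemma iter_FI_nonneg (μ : Measure (Fin n → ℝ)) {f : (Fin n → ℝ) → ℝ} (hf : P2 f) :
    0 ≤ FI μ 0 f := by
  obtain ⟨ε, hε, hlb⟩ := hf.lb
  refine integral_nonneg fun x => integral_nonneg fun z => ?_
  have h1 : 0 < f (x + √(0 : ℝ) • z) := lt_of_lt_of_le hε (hlb _)
  have h2 : 0 ≤ ∑ i, pd f i (x + √(0 : ℝ) • z) ^ 2 := Finset.sum_nonneg fun i _ => sq_nonneg _
  exact div_nonneg h2 h1.le

end Vale.Agent.P245.LS
end
end

section

section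

open MeasureTheory Real Set Filter Topology
open scoped ENNReal ContDiff

/-!
# E1, module Path: a level of the up leg with small `κ Γ - J / 2`
-/

namespace Vale.Agent.P245.E1

open LS

variable {n : ℕ}

/-- if a function `α`, `0 ≤ α ≤ M` on `[a, b]`, `b - a = δ`, has derivative `α'`, then at some
level `-α' ≤ M / δ` -/
theorem exists_deriv_ge {α α' : ℝ → ℝ} {a b δ M : ℝ} (hδ : 0 < δ) (hab : b - a = δ)
    (hc : ContinuousOn α (Icc a b)) (hd : ∀ v ∈ Ioo a b, HasDerivAt α (α' v) v)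
    (h0 : 0 ≤ α b) (hM : α a ≤ M) : ∃ v ∈ Ioo a b, -(M / δ) ≤ α' v := by
  by_contra hcon
  push Not at hcon
  have hab' : a < b := by linarith
  have hanti : StrictAntiOn (fun v => α v + M / δ * v) (Icc a b) := by
    refine strictAntiOn_of_deriv_neg (f := fun v => α v + M / δ * v) (convex_Icc a b)
      (hc.add (continuous_const.mul continuous_id).continuousOn) fun x hx => ?_
    rw [interior_Icc] at hx
    have e : HasDerivAt (fun v => α v + M / δ * v) (α' x + M / δ * 1) x :=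
      (hd x hx).add ((hasDerivAt_id x).const_mul (M / δ))
    rw [e.deriv]
    have := hcon x hx
    linarith only [this]
  have h1 := hanti (left_mem_Icc.2 hab'.le) (right_mem_Icc.2 hab'.le) hab'
  simp only at h1
  have e1 : M / δ * b = M / δ * a + M := by
    have : b = a + δ := by linarith only [hab]
    rw [this, mul_add, div_mul_cancel₀ M hδ.ne']
  linarith

/-- module Path -/
theorem thPath (n : ℕ) (hPA : StPathA n) (hR : StR n) (hCo : StCo n) (hU : StU n)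
    (hP : StP n) : StPath n := by
  intro ρ0 R hρ hprob hcs N δ κ σ α x X D hδ hδκ hDBS hσ hN hN1 hα hαJ hnear hx hX0 hXJ hPred
  have := hprob
  obtain ⟨⟨hVpos, hV1, -⟩, -, hup⟩ := hPA ρ0 R hρ hprob hcs N (PH (σ - 2 * δ) N) δ κ σ α x X D
    hδ hδκ hDBS hσ hN hN1 hα hαJ hnear hx hX0 hXJ hPred rfl
  set V : (Fin n → ℝ) → ℝ := PH (σ - 2 * δ) N with hV
  set M : ℝ := 10 * α + 8 * δ * X with hM
  have hs0 : 0 < 2 * δ := by linarith only [hδ]
  have hsr : (2 : ℝ) * δ ≤ 3 * δ := by linarith only [hδ]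
  have hκ : 0 < κ := by linarith only [hδ, hδκ]
  have hss : 2 * δ ∈ Icc (2 * δ) (3 * δ) := ⟨le_rfl, hsr⟩
  have hrr : 3 * δ ∈ Icc (2 * δ) (3 * δ) := ⟨hsr, le_rfl⟩
  obtain ⟨cH, cJ, dH, dJ, -⟩ := hU (mu ρ0) R hcs V (2 * δ) (3 * δ) hVpos hs0 hsr
  obtain ⟨-, -, hRb⟩ := hR (mu ρ0) R hcs
  have hsb : ∀ v ∈ Icc (2 * δ) (3 * δ), ∀ i, SB (us (mu ρ0) (2 * δ) v V i) ∧
      SB (mm (mu ρ0) (2 * δ) v V i) ∧ SB (sN (UL (mu ρ0) (2 * δ) v V) i) := by
    intro v hv i
    obtain ⟨hUpos, h1, -⟩ := (hRb (2 * δ) v hs0 hv.1).2 V hVpos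
    have hv0 : 0 < v := hs0.trans_le hv.1
    exact ⟨(h1 i).2.1, (h1 i).2.2.1, (((hRb v v hv0 le_rfl).2 _ hUpos).2.1 i).1⟩
  obtain ⟨v, hv, hvd⟩ := exists_deriv_ge (M := M) (δ := δ) (a := 2 * δ) (b := 3 * δ)
    (α := fun ρ => D - LS.HE (mu ρ0) ρ (UL (mu ρ0) (2 * δ) ρ V)
      + κ * LS.FI (mu ρ0) ρ (UL (mu ρ0) (2 * δ) ρ V)) hδ (by ring)
    ((continuousOn_const.sub cH).add (continuousOn_const.mul cJ))
    (fun v hv => ((dH v hv).const_sub D).add ((dJ v hv).const_mul κ))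
    (by
      have h1 := (hup (3 * δ) hrr).2.2.1
      show 0 ≤ D - LS.HE (mu ρ0) (3 * δ) (UL (mu ρ0) (2 * δ) (3 * δ) V)
        + κ * LS.FI (mu ρ0) (3 * δ) (UL (mu ρ0) (2 * δ) (3 * δ) V)
      linarith only [h1])
    (by
      have h1 := (hup (2 * δ) hss).2.2.2.1
      show D - LS.HE (mu ρ0) (2 * δ) (UL (mu ρ0) (2 * δ) (2 * δ) V)
        + κ * LS.FI (mu ρ0) (2 * δ) (UL (mu ρ0) (2 * δ) (2 * δ) V) ≤ M
      linarith only [h1])
  have hvI : v ∈ Icc (2 * δ) (3 * δ) := ⟨hv.1.le, hv.2.le⟩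
  obtain ⟨hUpos, hUE, hHD, hHM, hFle, hFge, hmm, hPu⟩ := hup v hvI
  have hv0 : 0 < v := hs0.trans hv.1
  have hB : 0 ≤ BI (mu ρ0) v (UL (mu ρ0) (2 * δ) v V) (sN (UL (mu ρ0) (2 * δ) v V))
      (sN (UL (mu ρ0) (2 * δ) v V)) :=
    (hP ρ0 R hρ hprob hcs v _ _ _ hv0 hUpos (fun i => (hsb v hvI i).2.2)
      (fun i => (hsb v hvI i).2.2)).1
  have hJ0 : 0 ≤ LS.FI (mu ρ0) σ N := hX0.trans hXJ
  refine ⟨v, UL (mu ρ0) (2 * δ) v V, hvI, hUpos, hUE, hHM, by linarith only [hX0, hXJ, hFge], hFle, ?_, ?_⟩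
  · have h1 := mul_nonneg hκ.le hB
    linarith only [hvd, h1]
  · intro l hl hI
    obtain ⟨-, hc⟩ := (hCo (mu ρ0) v _ hUpos).2.2 hUE l hl
    have h1 := (hc (us (mu ρ0) (2 * δ) v V) fun i => (hsb v hvI i).1).2.2
      (mm (mu ρ0) (2 * δ) v V) (fun i => (hsb v hvI i).2.1) 1 (-1)
    have h3 := (hc (mm (mu ρ0) (2 * δ) v V) fun i => (hsb v hvI i).2.1).2.1
    have h4 := hPu l hl hI
    have e1 : (fun i y => 1 * us (mu ρ0) (2 * δ) v V i y + -1 * mm (mu ρ0) (2 * δ) v V i y)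
        = sN (UL (mu ρ0) (2 * δ) v V) := by
      funext i y
      unfold mm
      ring
    rw [e1] at h1
    have e2 : 2 * M / κ = 2 * (M / κ) := by ring
    rw [e2]
    linarith only [hmm, h1, h3, h4]

end Vale.Agent.P245.E1
end
end

section

section

open MeasureTheory Real Set Filter Topology
open scoped ENNReal ContDiff

/-! # E1, module Step: one step of the iteration -/

namespace Vale.Agent.P245.E1

open LS

/-- The bound of the forcing term of the bootstrap. -/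
theorem step_forcing {Λ κ δ F H ℓ α L : ℝ} (hΛ : 1 ≤ Λ) (hκ : 0 < κ) (hδ : κ / 4000 ≤ δ)
    (hF : 0 < F) (hα : α ≤ 1 / 10 ^ 6 * F) (hH : H ≤ Λ * κ * F) (hℓ : ℓ ≤ Λ * κ * F)
    (hL : L = 6400000000 * (2 * Λ + 1) + 1) :
    400 / δ ^ 2 * (H + κ * F + ℓ) + 2000 * α / κ ≤ L * F / κ := by
  have hδ0 : 0 < δ := lt_of_lt_of_le (by positivity) hδ
  have h1 : H + κ * F + ℓ ≤ (2 * Λ + 1) * κ * F := by linarith only [hH, hℓ]
  have h2 : 400 / δ ^ 2 ≤ 6400000000 / κ ^ 2 := by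
    rw [div_le_div_iff₀ (by (clear * - hδ0; positivity)) (by positivity)]
    have : κ ≤ 4000 * δ := by linarith only [hδ]
    nlinarith only [hκ, hδ]
  have h3 : 0 ≤ (2 * Λ + 1) * κ * F := by positivity
  have h4 : 400 / δ ^ 2 * (H + κ * F + ℓ) ≤ 6400000000 / κ ^ 2 * ((2 * Λ + 1) * κ * F) := by
    calc 400 / δ ^ 2 * (H + κ * F + ℓ) ≤ 400 / δ ^ 2 * ((2 * Λ + 1) * κ * F) := by
          have : 0 ≤ 400 / δ ^ 2 := by positivity
          exact mul_le_mul_of_nonneg_left h1 this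
      _ ≤ _ := mul_le_mul_of_nonneg_right h2 h3
  have h5 : 6400000000 / κ ^ 2 * ((2 * Λ + 1) * κ * F) = 6400000000 * (2 * Λ + 1) * F / κ := by
    field_simp
  have h6 : 2000 * α / κ ≤ F / κ := by
    apply div_le_div_of_nonneg_right _ hκ.le
    linarith only [hF, hα]
  calc 400 / δ ^ 2 * (H + κ * F + ℓ) + 2000 * α / κ
      ≤ 6400000000 * (2 * Λ + 1) * F / κ + F / κ := by rw [← h5]; exact add_le_add h4 h6
    _ = L * F / κ := by rw [hL]; ring

/-- The final accounting. -/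
theorem step_account {L F κ δ α X β D D' FM : ℝ} (hL : 1 ≤ L) (hF : 0 < F) (hκ : 0 < κ)
    (hδ : κ / 4000 ≤ δ) (hδ2 : 2000 * δ ≤ κ) (hα0 : 0 ≤ α) (hα : α ≤ 1 / 10 ^ 6 * F)
    (hX0 : 0 ≤ X) (hX : κ * X = 2 * L * F) (hβ : β = 10 * α + 8 * δ * X)
    (hFM : 9 / 10 * F ≤ FM)
    (h : D + 2 * (250 * L) * FM - κ * (2 * X + 2 * β / κ) - β - 2 * κ * (β / δ) ≤ D') :
    D + 3 / 2 * (250 * L) * F ≤ D' := by
  have hδ0 : 0 < δ := lt_of_lt_of_le (by positivity) hδ
  have hβ0 : 0 ≤ β := by rw [hβ]; (clear * - hα0 hδ0 hX0; positivity)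
  have h1 : κ * (2 * X + 2 * β / κ) = 4 * L * F + 2 * β := by
    have : κ * (2 * X + 2 * β / κ) = 2 * (κ * X) + 2 * β := by (clear * - hκ; field_simp)
    rw [this, hX]; ring
  have h2 : 2 * κ * (β / δ) ≤ 8000 * β := by
    have e : 2 * κ * (β / δ) = 2 * β * (κ / δ) := by ring
    rw [e]
    have h3 : κ / δ ≤ 4000 := by
      rw [div_le_iff₀ hδ0]; linarith only [hδ]
    linarith only [mul_nonneg (sub_nonneg.2 hβ0) (sub_nonneg.2 h3)]
  have h3 : β ≤ 801 / 100000 * (L * F) := by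
    have k1 : 8 * δ * X ≤ 8 / 2000 * (κ * X) := by nlinarith only [hδ2, hX0]
    have k2 : F ≤ L * F := by nlinarith only [hL, hF]
    rw [hX] at k1
    rw [hβ]
    nlinarith only [hα, k1, k2]
  rw [h1] at h
  have hLF : 0 < L * F := by positivity
  have h4 : 2 * (250 * L) * (9 / 10 * F) ≤ 2 * (250 * L) * FM := by
    have : 0 ≤ 2 * (250 * L) := by positivity
    exact mul_le_mul_of_nonneg_left hFM this
  linarith

theorem thStep (hB : ∀ n, StBoot n) (hP : ∀ n, StPath n) (hA : ∀ n, StAmp n)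
    (hCo : ∀ n, StCo n) :
    ∀ Λ, 1 ≤ Λ → ∃ C2 K0 η, 1 ≤ C2 ∧ 1 ≤ K0 ∧ 0 < η ∧ ∀ n, StStep Λ C2 K0 η n := by
  intro Λ hΛ
  set L : ℝ := 6400000000 * (2 * Λ + 1) + 1 with hL
  have hL1 : 1 ≤ L := by rw [hL]; linarith only [hΛ]
  refine ⟨250 * L, 250 * L, 1 / 10 ^ 6, by linarith only [hΛ], by linarith only [hΛ], by norm_num, ?_⟩
  intro n ρ0 R hlc hpm hsup hexp N δ κ σ α D D' hK0 hδ1 hδ2 hD hD' hσ hN hN1 hα0 hα hdef hHE hlog
  have := hpm
  set F := FI (mu ρ0) σ N with hF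
  have hκ : 0 < κ := lt_of_lt_of_le (by linarith only [hΛ]) hK0
  have hδ0 : 0 < δ := lt_of_lt_of_le (by (clear * - hκ; positivity)) hδ1
  have hlog3 : 0 < log 3 := Real.log_pos (by norm_num)
  have hFpos : 0 < F := by
    by_contra hc
    have h1 : Λ * κ * F ≤ 0 := mul_nonpos_of_nonneg_of_nonpos (by (clear * - hΛ hκ; positivity)) (not_lt.1 hc)
    linarith only [hlog, hlog3, h1]
  have hx : 2 * δ * F ≤ κ * F := mul_le_mul_of_nonneg_right (by linarith only [hΛ, hK0, hδ2]) hFpos.le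
  have hα4 : 10 ^ 4 * α ≤ κ * F := by
    have : F ≤ κ * F := by nlinarith only [hα0, hα, hΛ, hK0]
    linarith
  have hscore : ∀ i, SB (sN N i) := fun i => hN.div (hN.sb.pd i)
  obtain ⟨⟨hFI, -⟩, -, hch⟩ := hCo n (mu ρ0) σ N hN
  have hch' := hch hN1
  -- the bootstrap
  set A0 := L * F / κ with hA0
  have hA0pos : 0 ≤ A0 := by rw [hA0]; (clear * - hΛ hFpos hκ; positivity)
  have hforce := step_forcing (H := HE (mu ρ0) σ N) (ℓ := log 3) hΛ hκ hδ1 hFpos hα hHE hlog hL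
  have hPred0 : Pred (mu ρ0) σ N (sN N) (κ * F) F := by
    intro l hl _
    have h1 := ((hch' l hl).2 (sN N) hscore).2.1
    rwa [← hFI] at h1
  have hstep : ∀ X, 0 ≤ X → X ≤ F → Pred (mu ρ0) σ N (sN N) (κ * F) X →
      Pred (mu ρ0) σ N (sN N) (κ * F) (A0 + X / 2) := by
    intro X hX0 hXF hPX l hl hI
    have h1 := hB n ρ0 R 3 hlc hpm hsup (by norm_num) hexp N δ κ σ α (κ * F) X D hδ0 hδ2 hD hσ hN
      hN1 hα0 hα4 hdef hx hX0 hXF hPX l hl hI
    linarith only [hforce, h1]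
  have hclose : Pred (mu ρ0) σ N (sN N) (κ * F) (2 * A0) := by
    have key := contraction_close
      (ι := {l : (Fin n → ℝ) → (Fin n → ℝ) → ℝ // Ch l ∧ Inf (mu ρ0) σ N l ≤ κ * F})
      (P := fun l => Co (mu ρ0) σ N (sN N) l.1) (A := A0) (N0 := F)
      (fun l => hPred0 l.1 l.2.1 l.2.2) hFpos.le
      (fun X hX0 hX l => by
        rcases le_total X F with hXF | hXF
        · exact hstep X hX0 hXF (fun l' hl' hI' => hX ⟨l', hl', hI'⟩) l.1 l.2.1 l.2.2
        · have h1 := hstep F hFpos.le le_rfl hPred0 l.1 l.2.1 l.2.2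
          linarith only [hXF, h1])
      hA0pos
    intro l hl hI
    exact key ⟨l, hl, hI⟩
  have h2A : 2 * A0 ≤ F := by
    have e : 2 * A0 = 2 * L * F / κ := by rw [hA0]; ring
    rw [e, div_le_iff₀ hκ]
    nlinarith only [hΛ, hα0, hα, hK0]
  -- the path
  obtain ⟨ρ, M, hρ, hM, hM1, m1, m2, m3, m4, m5⟩ := hP n ρ0 R hlc hpm hsup N δ κ σ α (κ * F)
    (2 * A0) D hδ0 hδ2 hD hσ hN hN1 hα0 hα4 hdef hx (by (clear * - hΛ hFpos hκ; positivity)) h2A hclose
  set β := 10 * α + 8 * δ * (2 * A0) with hβ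
  have hβ0 : 0 ≤ β := by (clear * - hα0 hδ0 hΛ hFpos hκ; positivity)
  have hρ' : ρ ∈ Icc (2 * δ) (2 * δ + δ) := ⟨hρ.1, by linarith only [hρ.2]⟩
  have hamp := hA n (mu ρ0) M ρ κ (250 * L) β (β / δ) (κ * F) (2 * (2 * A0) + 2 * β / κ) D D'
    (by linarith only [hΛ, hK0, hδ1, hρ.1]) (by linarith only [hΛ]) hK0 hM hM1 hβ0 (by (clear * - hα0 hδ0 hΛ hFpos hκ; positivity)) m1 m4
    (mul_le_mul_of_nonneg_left m3 hκ.le) m5 (hD' ρ hρ')
  refine step_account hL1 hFpos hκ hδ1 hδ2 hα0 hα (X := 2 * A0) (by (clear * - hΛ hFpos hκ; positivity)) ?_ hβ m2 hamp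
  rw [hA0]
  (clear * - hκ hFpos hL1; field_simp)

end Vale.Agent.P245.E1
end
end

section

section

open MeasureTheory Real Set Filter Topology
open scoped ENNReal ContDiff

/-! # Module Amp: amplification by revealing the score of a good law -/

namespace Vale.Agent.P245.E1

open LS

/-- module Amp -/
theorem thAmp (n : ℕ) (hCo : StCo n) (hRv : StRv n) : StAmp n := by
  intro μ _ M ρ κ C2 β γ x X D D' hρ hC2 hC2κ hM hM1 hβ hγ hdef hGA hx hPred hDB
  have hκ : 0 < κ := hC2.trans_le hC2κ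
  have hsb : ∀ i, SB (sN M i) := fun i => hM.div (hM.sb.pd i)
  obtain ⟨⟨eFI, eGA⟩, hIP, hch⟩ := hCo μ ρ M hM
  obtain ⟨hCh, hup, hlow, hrev⟩ := hRv μ ρ (2 * κ) (κ - C2) D' M (sN M) hρ (by positivity) hM hM1 hsb
  have hrev := hrev hDB
  rw [← eFI] at hup hlow
  rw [← eGA] at hrev
  have e : 2 * κ / 2 = κ := by ring
  rw [e] at hup hlow
  have hCo1 : Co μ ρ M (sN M) (RL (2 * κ) (sN M)) ≤ X := hPred _ hCh (hup.trans hx)
  set I := Inf μ ρ M (RL (2 * κ) (sN M)) with hI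
  set F := FI μ ρ M with hF
  set G := GA μ ρ M with hG
  have h1 : κ * (F - X) ≤ I := (mul_le_mul_of_nonneg_left (by linarith only [hCo1]) hκ.le).trans hlow
  have h2 : (κ - C2) * (2 * (κ * G)) ≤ (κ - C2) * (2 * (1 / 2 * F + γ)) :=
    mul_le_mul_of_nonneg_left (by linarith only [hGA]) (by linarith only [hC2κ])
  have h3 : 0 ≤ C2 * γ := by (clear * - hC2 hγ; positivity)
  linarith only [hdef, hrev, h3, h2, h1]

end Vale.Agent.P245.E1
end
end

section

section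

open MeasureTheory Real Set Filter Topology
open scoped ENNReal ContDiff

/-! # First order calculus along a path of levels, with exponential growth

`H1 I f d a`: on the open set of levels `I`, `f σ` has gradient `a · σ`, time derivative `d σ`,
everything jointly continuous and with at most exponential growth, locally uniformly in the level.
Main result `EY_deriv`: `d/dσ EY μ σ (f σ) = EY μ σ (d σ + 1/2 Δ f σ)` for `μ` with compact
support. -/

namespace Vale.Agent.P245.E1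

open LS LS.Down

variable {n : ℕ}

/-- jointly continuous on `I × R^n`, with an exponential bound locally uniform in the level -/
def UE (I : Set ℝ) (f : ℝ → (Fin n → ℝ) → ℝ) : Prop :=
  ContinuousOn (fun p : ℝ × (Fin n → ℝ) => f p.1 p.2) (I ×ˢ univ) ∧
    ∀ p q, Icc p q ⊆ I → ∃ K, 0 ≤ K ∧ ∀ σ ∈ Icc p q, ∀ y, |f σ y| ≤ K * exp (K * ∑ i, |y i|)

theorem sum_abs_nonneg (y : Fin n → ℝ) : 0 ≤ ∑ i, |y i| := Finset.sum_nonneg fun _ _ => abs_nonneg _

variable {I : Set ℝ} {f g d d' : ℝ → (Fin n → ℝ) → ℝ} {a a' : Fin n → ℝ → (Fin n → ℝ) → ℝ}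

theorem UE.contAt (h : UE I f) (hI : IsOpen I) {σ : ℝ} (hσ : σ ∈ I) (y : Fin n → ℝ) :
    ContinuousAt (fun p : ℝ × (Fin n → ℝ) => f p.1 p.2) (σ, y) :=
  h.1.continuousAt ((hI.prod isOpen_univ).mem_nhds ⟨hσ, mem_univ _⟩)

theorem UE.cont (h : UE I f) {σ : ℝ} (hσ : σ ∈ I) : Continuous (f σ) := by
  have h1 : ContinuousOn (fun y : Fin n → ℝ => f σ y) univ :=
    h.1.comp (f := fun y : Fin n → ℝ => ((σ, y) : ℝ × (Fin n → ℝ))) (by (clear * -; fun_prop))
      fun y _ => ⟨hσ, mem_univ _⟩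
  exact continuousOn_univ.1 h1

theorem UE.eg1 (h : UE I f) {σ : ℝ} (hσ : σ ∈ I) : EG1 (f σ) := by
  obtain ⟨K, hK0, hK⟩ := h.2 σ σ (by simpa only [Icc_self, singleton_subset_iff] using hσ)
  exact ⟨K, hK0, fun y => hK σ ⟨le_rfl, le_rfl⟩ y⟩

theorem UE.of_bdd (hc : ContinuousOn (fun p : ℝ × (Fin n → ℝ) => f p.1 p.2) (I ×ˢ univ))
    {K : ℝ} (hK0 : 0 ≤ K) (hK : ∀ σ ∈ I, ∀ y, |f σ y| ≤ K) : UE I f := by
  refine ⟨hc, fun p q hpq => ⟨K, hK0, fun σ hσ y => (hK σ (hpq hσ) y).trans ?_⟩⟩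
  exact le_mul_of_one_le_right hK0 (one_le_exp (mul_nonneg hK0 (sum_abs_nonneg y)))

theorem UE.const (c : ℝ) : UE (n := n) I (fun _ _ => c) :=
  UE.of_bdd continuousOn_const (abs_nonneg c) fun _ _ _ => le_rfl

theorem UE.mono {I' : Set ℝ} (h : UE I f) (hI : I' ⊆ I) : UE I' f :=
  ⟨h.1.mono (prod_mono hI subset_rfl), fun p q hpq => h.2 p q (hpq.trans hI)⟩

theorem UE.congr (h : UE I f) (hfg : ∀ σ ∈ I, ∀ y, g σ y = f σ y) : UE I g := by
  refine ⟨h.1.congr fun p hp => hfg _ hp.1 _, fun p q hpq => ?_⟩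
  obtain ⟨K, hK0, hK⟩ := h.2 p q hpq
  exact ⟨K, hK0, fun σ hσ y => by rw [hfg σ (hpq hσ)]; exact hK σ hσ y⟩

theorem UE.add (hf : UE I f) (hg : UE I g) : UE I (fun σ y => f σ y + g σ y) := by
  refine ⟨hf.1.add hg.1, fun p q hpq => ?_⟩
  obtain ⟨K, hK0, hK⟩ := hf.2 p q hpq
  obtain ⟨L, hL0, hL⟩ := hg.2 p q hpq
  refine ⟨K + L, by positivity, fun σ hσ y => ?_⟩
  have hS := sum_abs_nonneg y
  calc |f σ y + g σ y| ≤ |f σ y| + |g σ y| := abs_add_le _ _
    _ ≤ K * exp ((K + L) * ∑ i, |y i|) + L * exp ((K + L) * ∑ i, |y i|) := by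
        apply add_le_add
        · exact (hK σ hσ y).trans (mul_le_mul_of_nonneg_left (exp_le_exp.2
            (mul_le_mul_of_nonneg_right (by linarith only [hL0]) hS)) hK0)
        · exact (hL σ hσ y).trans (mul_le_mul_of_nonneg_left (exp_le_exp.2
            (mul_le_mul_of_nonneg_right (by linarith only [hK0]) hS)) hL0)
    _ = (K + L) * exp ((K + L) * ∑ i, |y i|) := by ring

theorem UE.mul (hf : UE I f) (hg : UE I g) : UE I (fun σ y => f σ y * g σ y) := by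
  refine ⟨hf.1.mul hg.1, fun p q hpq => ?_⟩
  obtain ⟨K, hK0, hK⟩ := hf.2 p q hpq
  obtain ⟨L, hL0, hL⟩ := hg.2 p q hpq
  refine ⟨max (K * L) (K + L), by (clear * - hK0 hL0; positivity), fun σ hσ y => ?_⟩
  have hS := sum_abs_nonneg y
  rw [abs_mul]
  calc |f σ y| * |g σ y| ≤ (K * exp (K * ∑ i, |y i|)) * (L * exp (L * ∑ i, |y i|)) :=
        mul_le_mul (hK σ hσ y) (hL σ hσ y) (abs_nonneg _) (by (clear * - hK0; positivity))
    _ = (K * L) * exp ((K + L) * ∑ i, |y i|) := by rw [add_mul, exp_add]; ring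
    _ ≤ max (K * L) (K + L) * exp (max (K * L) (K + L) * ∑ i, |y i|) := by
        apply mul_le_mul (le_max_left _ _) _ (exp_pos _).le (by (clear * - hK0 hL0; positivity))
        exact exp_le_exp.2 (mul_le_mul_of_nonneg_right (le_max_right _ _) hS)

theorem UE.const_mul (c : ℝ) (hf : UE I f) : UE I (fun σ y => c * f σ y) := (UE.const c).mul hf

theorem UE.neg (hf : UE I f) : UE I (fun σ y => -f σ y) := by
  simpa using hf.const_mul (-1)

theorem UE.sub (hf : UE I f) (hg : UE I g) : UE I (fun σ y => f σ y - g σ y) := by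
  simpa [sub_eq_add_neg] using hf.add hg.neg

theorem UE.sum {ι : Type*} (s : Finset ι) {f : ι → ℝ → (Fin n → ℝ) → ℝ} (hf : ∀ i ∈ s, UE I (f i)) :
    UE I (fun σ y => ∑ i ∈ s, f i σ y) := by
  classical
  induction s using Finset.induction_on with
  | empty => simpa using UE.const (n := n) (I := I) 0
  | insert i s hi ih =>
    simp only [Finset.sum_insert hi]
    exact (hf i (Finset.mem_insert_self _ _)).add
      (ih fun j hj => hf j (Finset.mem_insert_of_mem hj))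

theorem UE.time {c : ℝ → ℝ} (hc : ContinuousOn c I) : UE (n := n) I (fun σ _ => c σ) := by
  refine ⟨hc.comp continuousOn_fst fun p hp => hp.1, fun p q hpq => ?_⟩
  obtain ⟨K, hK⟩ := isCompact_Icc.exists_bound_of_continuousOn (hc.mono hpq)
  refine ⟨|K|, abs_nonneg _, fun σ hσ y => ?_⟩
  have h1 : |c σ| ≤ |K| := by
    have := hK σ hσ
    rw [norm_eq_abs] at this
    exact this.trans (le_abs_self K)
  exact h1.trans (le_mul_of_one_le_right (abs_nonneg _)
    (one_le_exp (mul_nonneg (abs_nonneg _) (sum_abs_nonneg y))))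

theorem UE.coord (i : Fin n) : UE I (fun _ y => y i) := by
  refine ⟨by (clear * -; fun_prop), fun p q _ => ⟨1, zero_le_one, fun σ _ y => ?_⟩⟩
  have hS : |y i| ≤ ∑ i, |y i| := Finset.single_le_sum (f := fun i => |y i|)
    (fun j _ => abs_nonneg _) (Finset.mem_univ i)
  rw [one_mul, one_mul]
  exact hS.trans (by linarith only [add_one_le_exp (∑ i, |y i|)])

theorem UE.inv (hg : UE I g) {ε : ℝ} (hε : 0 < ε) (h : ∀ σ ∈ I, ∀ y, ε ≤ g σ y) :
    UE I (fun σ y => (g σ y)⁻¹) := by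
  refine UE.of_bdd (K := ε⁻¹) (hg.1.inv₀ fun p hp => (hε.trans_le (h _ hp.1 _)).ne')
    (by (clear * - hε; positivity)) fun σ hσ y => ?_
  rw [abs_inv, abs_of_pos (hε.trans_le (h σ hσ y))]
  exact inv_anti₀ hε (h σ hσ y)

theorem UE.div (hf : UE I f) (hg : UE I g) {ε : ℝ} (hε : 0 < ε) (h : ∀ σ ∈ I, ∀ y, ε ≤ g σ y) :
    UE I (fun σ y => f σ y / g σ y) := by
  simpa only [div_eq_mul_inv] using hf.mul (hg.inv hε h)

theorem UE.log (hg : UE I g) {ε : ℝ} (hε : 0 < ε) (h : ∀ σ ∈ I, ∀ y, ε ≤ g σ y) :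
    UE I (fun σ y => Real.log (g σ y)) := by
  refine ⟨hg.1.log fun p hp => (hε.trans_le (h _ hp.1 _)).ne', fun p q hpq => ?_⟩
  obtain ⟨K, hK0, hK⟩ := hg.2 p q hpq
  refine ⟨K + |Real.log ε|, by (clear * - hK0; positivity), fun σ hσ y => ?_⟩
  have hS := sum_abs_nonneg y
  have hg0 : 0 < g σ y := hε.trans_le (h σ (hpq hσ) y)
  have h1 : Real.log ε ≤ Real.log (g σ y) := Real.log_le_log hε (h σ (hpq hσ) y)
  have h2 : Real.log (g σ y) ≤ K * exp (K * ∑ i, |y i|) := by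
    have := Real.log_le_sub_one_of_pos hg0
    have h3 := (le_abs_self _).trans (hK σ hσ y)
    linarith only [this, h3]
  have e1 : (1 : ℝ) ≤ exp ((K + |Real.log ε|) * ∑ i, |y i|) := one_le_exp (by (clear * - hK0; positivity))
  have e2 : exp (K * ∑ i, |y i|) ≤ exp ((K + |Real.log ε|) * ∑ i, |y i|) :=
    exp_le_exp.2 (mul_le_mul_of_nonneg_right (by linarith only [abs_nonneg (Real.log ε)]) hS)
  have e3 : |Real.log ε| ≤ |Real.log ε| * exp ((K + |Real.log ε|) * ∑ i, |y i|) :=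
    le_mul_of_one_le_right (abs_nonneg _) e1
  have e4 : K * exp (K * ∑ i, |y i|) ≤ K * exp ((K + |Real.log ε|) * ∑ i, |y i|) :=
    mul_le_mul_of_nonneg_left e2 hK0
  have e5 : 0 ≤ K * exp ((K + |Real.log ε|) * ∑ i, |y i|) := by (clear * - hK0; positivity)
  rw [add_mul, abs_le]
  constructor
  · linarith only [h1, e3, e5, neg_abs_le (Real.log ε)]
  · have : 0 ≤ |Real.log ε| * exp ((K + |Real.log ε|) * ∑ i, |y i|) := by (clear * -; positivity)
    linarith only [h2, e4, this]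

/-! ### the class `H1` -/

/-- `f` has gradient `a` and time derivative `d` on the levels `I` -/
structure H1 (I : Set ℝ) (f d : ℝ → (Fin n → ℝ) → ℝ) (a : Fin n → ℝ → (Fin n → ℝ) → ℝ) :
    Prop where
  uf : UE I f
  ud : UE I d
  ua : ∀ i, UE I (a i)
  fd : ∀ σ ∈ I, ∀ y, HasFDerivAt (f σ) (lf fun i => a i σ y) y
  td : ∀ σ ∈ I, ∀ y, HasDerivAt (fun σ => f σ y) (d σ y) σ

theorem H1.mono {I' : Set ℝ} (h : H1 I f d a) (hI : I' ⊆ I) : H1 I' f d a where
  uf := h.uf.mono hI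
  ud := h.ud.mono hI
  ua := fun i => (h.ua i).mono hI
  fd := fun σ hσ y => h.fd σ (hI hσ) y
  td := fun σ hσ y => h.td σ (hI hσ) y

theorem H1.pd_eq (h : H1 I f d a) {σ : ℝ} (hσ : σ ∈ I) (i : Fin n) : pd (f σ) i = a i σ := by
  funext y; exact pd_of_hasFDerivAt (h.fd σ hσ y) i

theorem H1.congr (h : H1 I f d a) (hI : IsOpen I) {f₁ d₁ : ℝ → (Fin n → ℝ) → ℝ}
    {a₁ : Fin n → ℝ → (Fin n → ℝ) → ℝ}
    (hf : ∀ σ ∈ I, ∀ y, f₁ σ y = f σ y) (hd : ∀ σ ∈ I, ∀ y, d₁ σ y = d σ y)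
    (ha : ∀ i, ∀ σ ∈ I, ∀ y, a₁ i σ y = a i σ y) : H1 I f₁ d₁ a₁ where
  uf := h.uf.congr hf
  ud := h.ud.congr hd
  ua := fun i => (h.ua i).congr (ha i)
  fd := by
    intro σ hσ y
    have e : (fun i => a₁ i σ y) = fun i => a i σ y := by funext i; exact ha i σ hσ y
    have e2 : f₁ σ = f σ := by funext y; exact hf σ hσ y
    rw [e, e2]; exact h.fd σ hσ y
  td := by
    intro σ hσ y
    rw [hd σ hσ y]
    refine (h.td σ hσ y).congr_of_eventuallyEq ?_
    filter_upwards [hI.mem_nhds hσ] with τ hτ using hf τ hτ y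

theorem H1.const (c : ℝ) : H1 (n := n) I (fun _ _ => c) (fun _ _ => 0) (fun _ _ _ => 0) where
  uf := UE.const c
  ud := UE.const 0
  ua := fun _ => UE.const 0
  fd := by
    intro σ _ y
    refine (hasFDerivAt_const c y).congr_fderiv ?_
    ext v; simp only [zero_apply, lf_apply, zero_mul, Finset.sum_const_zero]
  td := fun σ _ y => hasDerivAt_const σ c

/-- functions of the level only -/
theorem H1.time {c c' : ℝ → ℝ} (hc' : ContinuousOn c' I) (hc : ∀ σ ∈ I, HasDerivAt c (c' σ) σ) :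
    H1 (n := n) I (fun σ _ => c σ) (fun σ _ => c' σ) (fun _ _ _ => 0) where
  uf := UE.time fun σ hσ => (hc σ hσ).continuousAt.continuousWithinAt
  ud := UE.time hc'
  ua := fun _ => UE.const 0
  fd := by
    intro σ _ y
    refine (hasFDerivAt_const (c σ) y).congr_fderiv ?_
    ext v; simp only [zero_apply, lf_apply, zero_mul, Finset.sum_const_zero]
  td := fun σ hσ _ => hc σ hσ

theorem H1.coord (i : Fin n) :
    H1 I (fun _ y => y i) (fun _ _ => 0) (fun j _ _ => if j = i then 1 else 0) where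
  uf := UE.coord i
  ud := UE.const 0
  ua := fun j => by
    by_cases h : j = i
    · simpa [h] using UE.const (n := n) (I := I) 1
    · simpa [h] using UE.const (n := n) (I := I) 0
  fd := by
    intro σ _ y
    refine (hasFDerivAt_apply i y).congr_fderiv ?_
    ext v; simp only [ContinuousLinearMap.proj_apply, lf_apply, ite_mul, one_mul, zero_mul, Finset.sum_ite_eq', Finset.mem_univ, ↓reduceIte]
  td := fun σ _ y => hasDerivAt_const σ (y i)

theorem H1.add (hf : H1 I f d a) (hg : H1 I g d' a') :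
    H1 I (fun σ y => f σ y + g σ y) (fun σ y => d σ y + d' σ y)
      (fun i σ y => a i σ y + a' i σ y) where
  uf := hf.uf.add hg.uf
  ud := hf.ud.add hg.ud
  ua := fun i => (hf.ua i).add (hg.ua i)
  fd := by
    intro σ hσ y
    refine ((hf.fd σ hσ y).add (hg.fd σ hσ y)).congr_fderiv ?_
    rw [lf_add]
  td := fun σ hσ y => (hf.td σ hσ y).add (hg.td σ hσ y)

theorem H1.mul (hf : H1 I f d a) (hg : H1 I g d' a') :
    H1 I (fun σ y => f σ y * g σ y) (fun σ y => d σ y * g σ y + f σ y * d' σ y)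
      (fun i σ y => a i σ y * g σ y + f σ y * a' i σ y) where
  uf := hf.uf.mul hg.uf
  ud := (hf.ud.mul hg.uf).add (hf.uf.mul hg.ud)
  ua := fun i => ((hf.ua i).mul hg.uf).add (hf.uf.mul (hg.ua i))
  fd := by
    intro σ hσ y
    refine ((hf.fd σ hσ y).mul (hg.fd σ hσ y)).congr_fderiv ?_
    rw [lf_smul, lf_smul, lf_add]
    apply lf_congr; intro i; ring
  td := fun σ hσ y => (hf.td σ hσ y).mul (hg.td σ hσ y)

theorem H1.const_mul (c : ℝ) (hf : H1 I f d a) :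
    H1 I (fun σ y => c * f σ y) (fun σ y => c * d σ y) (fun i σ y => c * a i σ y) where
  uf := hf.uf.const_mul c
  ud := hf.ud.const_mul c
  ua := fun i => (hf.ua i).const_mul c
  fd := by
    intro σ hσ y
    refine ((hf.fd σ hσ y).const_mul c).congr_fderiv ?_
    rw [lf_smul]
  td := fun σ hσ y => (hf.td σ hσ y).const_mul c

theorem H1.neg (hf : H1 I f d a) :
    H1 I (fun σ y => -f σ y) (fun σ y => -d σ y) (fun i σ y => -a i σ y) := by
  simpa only [neg_mul, one_mul] using hf.const_mul (-1)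

theorem H1.sub (hf : H1 I f d a) (hg : H1 I g d' a') :
    H1 I (fun σ y => f σ y - g σ y) (fun σ y => d σ y - d' σ y)
      (fun i σ y => a i σ y - a' i σ y) := by
  simpa only [sub_eq_add_neg] using hf.add hg.neg

theorem H1.sum {ι : Type*} (s : Finset ι) {f d : ι → ℝ → (Fin n → ℝ) → ℝ}
    {a : ι → Fin n → ℝ → (Fin n → ℝ) → ℝ} (hf : ∀ j ∈ s, H1 I (f j) (d j) (a j)) :
    H1 I (fun σ y => ∑ j ∈ s, f j σ y) (fun σ y => ∑ j ∈ s, d j σ y)
      (fun i σ y => ∑ j ∈ s, a j i σ y) := by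
  classical
  induction s using Finset.induction_on with
  | empty => simpa using H1.const (n := n) (I := I) 0
  | insert i s hi ih =>
    simp only [Finset.sum_insert hi]
    exact (hf i (Finset.mem_insert_self _ _)).add
      (ih fun j hj => hf j (Finset.mem_insert_of_mem hj))

theorem H1.inv (hg : H1 I g d a) {ε : ℝ} (hε : 0 < ε) (h : ∀ σ ∈ I, ∀ y, ε ≤ g σ y) :
    H1 I (fun σ y => (g σ y)⁻¹) (fun σ y => -(d σ y / g σ y ^ 2))
      (fun i σ y => -(a i σ y / g σ y ^ 2)) := by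
  have hε2 : 0 < ε ^ 2 := by positivity
  have h2 : ∀ σ ∈ I, ∀ y, ε ^ 2 ≤ g σ y ^ 2 := fun σ hσ y => pow_le_pow_left₀ hε.le (h σ hσ y) 2
  have hg2 : UE I (fun σ y => g σ y ^ 2) := by simpa [sq] using hg.uf.mul hg.uf
  refine ⟨hg.uf.inv hε h, (hg.ud.div hg2 hε2 h2).neg, fun i => ((hg.ua i).div hg2 hε2 h2).neg,
    fun σ hσ y => ?_, fun σ hσ y => ?_⟩
  · have hne := (hε.trans_le (h σ hσ y)).ne'
    refine ((hasDerivAt_inv hne).comp_hasFDerivAt y (hg.fd σ hσ y)).congr_fderiv ?_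
    rw [lf_smul]
    apply lf_congr; intro i
    (clear * - hne; field_simp)
  · have hne := (hε.trans_le (h σ hσ y)).ne'
    refine ((hg.td σ hσ y).inv hne).congr_deriv ?_
    (clear * - hne; field_simp)

theorem H1.div (hf : H1 I f d a) (hg : H1 I g d' a') {ε : ℝ} (hε : 0 < ε)
    (h : ∀ σ ∈ I, ∀ y, ε ≤ g σ y) (hI : IsOpen I) :
    H1 I (fun σ y => f σ y / g σ y)
      (fun σ y => d σ y / g σ y - f σ y * d' σ y / g σ y ^ 2)
      (fun i σ y => a i σ y / g σ y - f σ y * a' i σ y / g σ y ^ 2) := by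
  refine (hf.mul (hg.inv hε h)).congr hI (fun σ hσ y => ?_) (fun σ hσ y => ?_)
    (fun i σ hσ y => ?_)
  · rw [div_eq_mul_inv]
  · have hne := (hε.trans_le (h σ hσ y)).ne'
    field_simp
    ring
  · have hne := (hε.trans_le (h σ hσ y)).ne'
    field_simp
    ring

theorem H1.log (hg : H1 I g d a) {ε : ℝ} (hε : 0 < ε) (h : ∀ σ ∈ I, ∀ y, ε ≤ g σ y) :
    H1 I (fun σ y => Real.log (g σ y)) (fun σ y => d σ y / g σ y)
      (fun i σ y => a i σ y / g σ y) where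
  uf := hg.uf.log hε h
  ud := hg.ud.div hg.uf hε h
  ua := fun i => (hg.ua i).div hg.uf hε h
  fd := by
    intro σ hσ y
    refine ((hg.fd σ hσ y).log (hε.trans_le (h σ hσ y)).ne').congr_fderiv ?_
    rw [lf_smul]
    apply lf_congr; intro i; rw [div_eq_inv_mul]
  td := fun σ hσ y => (hg.td σ hσ y).log (hε.trans_le (h σ hσ y)).ne'

/-- joint differentiability -/
theorem H1.hasFDerivAt (h : H1 I f d a) (hI : IsOpen I) {σ : ℝ} (hσ : σ ∈ I) (y : Fin n → ℝ) :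
    HasFDerivAt (fun p : ℝ × (Fin n → ℝ) => f p.1 p.2)
      (((ContinuousLinearMap.toSpanSingleton ℝ (d σ y))).coprod (lf fun i => a i σ y)) (σ, y) := by
  have hnh : ∀ᶠ v : ℝ × (Fin n → ℝ) in 𝓝 (σ, y), v.1 ∈ I :=
    (continuous_fst.tendsto (σ, y)).eventually (hI.mem_nhds hσ)
  have key := hasStrictFDerivAt_uncurry_coprod (𝕜 := ℝ) (u := (σ, y)) (f := f)
    (f₁ := fun σ y => ContinuousLinearMap.toSpanSingleton ℝ (d σ y))
    (f₂ := fun σ y => lf fun i => a i σ y) ?_ ?_ ?_ ?_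
  · exact key.hasFDerivAt
  · filter_upwards [hnh] with v hv
    exact (h.td v.1 hv v.2).hasFDerivAt
  · filter_upwards [hnh] with v hv
    exact h.fd v.1 hv v.2
  · have h1 := h.ud.contAt hI hσ y
    have h2 : Continuous (fun c : ℝ => ContinuousLinearMap.toSpanSingleton ℝ c) := by
      exact (ContinuousLinearMap.toSpanSingletonCLE (𝕜 := ℝ) (E := ℝ)).continuous
    exact h2.continuousAt.comp (f := fun p : ℝ × (Fin n → ℝ) => d p.1 p.2) h1
  · have h1 : ContinuousAt (fun p : ℝ × (Fin n → ℝ) => fun i => a i p.1 p.2) (σ, y) :=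
      continuousAt_pi.2 fun i => (h.ua i).contAt hI hσ y
    exact continuous_lf.continuousAt.comp (f := fun p : ℝ × (Fin n → ℝ) => fun i => a i p.1 p.2) h1

/-- derivative along the moving path -/
theorem H1.path (h : H1 I f d a) (hI : IsOpen I) {σ : ℝ} (hσ : σ ∈ I) (hσ0 : 0 < σ)
    (x z : Fin n → ℝ) :
    HasDerivAt (fun σ => f σ (x + √σ • z))
      (d σ (x + √σ • z) + (∑ i, z i * a i σ (x + √σ • z)) / (2 * √σ)) σ := by
  have h1 := h.hasFDerivAt hI hσ (x + √σ • z)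
  have h2 : HasDerivAt (fun σ : ℝ => ((σ, x + √σ • z) : ℝ × (Fin n → ℝ)))
      (1, (1 / (2 * √σ)) • z) σ := by
    refine (hasDerivAt_id σ).prodMk ?_
    have h3 : HasDerivAt (fun σ : ℝ => √σ) (1 / (2 * √σ)) σ := Real.hasDerivAt_sqrt hσ0.ne'
    exact (h3.smul_const z).const_add x
  have h4 := h1.comp_hasDerivAt σ h2
  refine h4.congr_deriv ?_
  simp only [ContinuousLinearMap.coprod_apply, lf_apply, Pi.smul_apply, smul_eq_mul]
  have e1 : (ContinuousLinearMap.toSpanSingleton ℝ (d σ (x + √σ • z))) (1 : ℝ)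
      = d σ (x + √σ • z) := by simp only [ContinuousLinearMap.toSpanSingleton_apply, smul_eq_mul, one_mul]
  rw [e1, Finset.sum_div]
  congr 1
  apply Finset.sum_congr rfl
  intro i _
  ring

/-! ### the derivative of expectations -/

section EYd

variable {μ : Measure (Fin n → ℝ)} {R : ℝ}

theorem ae_fst [SFinite μ] (hμ : CSupp μ R) :
    ∀ᵐ p ∂(μ.prod (gsn n)), ∀ i, |p.1 i| ≤ R :=
  Measure.quasiMeasurePreserving_fst.ae hμ.supp

theorem sum_path_le {x z : Fin n → ℝ} (hx : ∀ i, |x i| ≤ R) (r : ℝ) :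
    ∑ i, |(x + r • z) i| ≤ n * R + |r| * ∑ i, |z i| := by
  calc ∑ i, |(x + r • z) i| ≤ ∑ i, (|x i| + |r| * |z i|) := by
        apply Finset.sum_le_sum
        intro i _
        simp only [Pi.add_apply, Pi.smul_apply, smul_eq_mul]
        refine (abs_add_le _ _).trans ?_
        rw [abs_mul]
    _ = ∑ i, |x i| + |r| * ∑ i, |z i| := by rw [Finset.sum_add_distrib, Finset.mul_sum]
    _ ≤ _ := by
        gcongr
        calc ∑ i, |x i| ≤ ∑ _i : Fin n, R := Finset.sum_le_sum fun i _ => hx i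
          _ = n * R := by simp only [Finset.sum_const, Finset.card_univ, Fintype.card_fin, nsmul_eq_mul]

theorem exp_path_le {x z : Fin n → ℝ} (hx : ∀ i, |x i| ≤ R) {K r q : ℝ} (hK : 0 ≤ K)
    (hr : |r| ≤ q) : K * exp (K * ∑ i, |(x + r • z) i|)
      ≤ (K * exp (K * (n * R))) * exp ((K * q) * ∑ i, |z i|) := by
  rw [mul_assoc, ← exp_add]
  apply mul_le_mul_of_nonneg_left _ hK
  apply exp_le_exp.2
  have h1 := sum_path_le (z := z) hx r
  have h2 : |r| * ∑ i, |z i| ≤ q * ∑ i, |z i| := mul_le_mul_of_nonneg_right hr (sum_abs_nonneg z)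
  calc K * ∑ i, |(x + r • z) i| ≤ K * (n * R + q * ∑ i, |z i|) :=
        mul_le_mul_of_nonneg_left (by linarith only [h1, h2]) hK
    _ = _ := by ring

theorem _root_.Vale.Agent.P245.EG1.int_prod [IsFiniteMeasure μ] (hμ : CSupp μ R) {Φ : (Fin n → ℝ) → ℝ}
    (hc : Continuous Φ) (hΦ : EG1 Φ) (r : ℝ) :
    Integrable (fun p : (Fin n → ℝ) × (Fin n → ℝ) => Φ (p.1 + r • p.2)) (μ.prod (gsn n)) := by
  obtain ⟨K, hK0, hK⟩ := hΦ
  have hb : Integrable (fun p : (Fin n → ℝ) × (Fin n → ℝ) =>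
      (K * exp (K * (n * R))) * exp ((K * |r|) * ∑ i, |p.2 i|)) (μ.prod (gsn n)) :=
    ((integrable_exp_abs (n := n) (K * |r|)).const_mul _).comp_snd μ
  refine hb.mono' ((hc.comp (by (clear * -; fun_prop))).aestronglyMeasurable) ?_
  filter_upwards [ae_fst hμ] with p hp
  rw [norm_eq_abs]
  exact (hK _).trans (exp_path_le hp hK0 le_rfl)

theorem EY_eq_prod [IsFiniteMeasure μ] (hμ : CSupp μ R) {Φ : (Fin n → ℝ) → ℝ}
    (hc : Continuous Φ) (hΦ : EG1 Φ) (σ : ℝ) :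
    EY μ σ Φ = ∫ p, Φ (p.1 + √σ • p.2) ∂(μ.prod (gsn n)) :=
  (integral_prod _ (hΦ.int_prod hμ hc _)).symm

theorem _root_.Vale.Agent.P245.EG1.comp_path {Φ : (Fin n → ℝ) → ℝ} (hΦ : EG1 Φ) (x : Fin n → ℝ) (r : ℝ) :
    EG1 fun z => Φ (x + r • z) := by
  obtain ⟨K, hK0, hK⟩ := hΦ
  have hx : ∀ i, |x i| ≤ ∑ i, |x i| := fun i => Finset.single_le_sum (f := fun i => |x i|)
    (fun j _ => abs_nonneg _) (Finset.mem_univ i)
  set C := max (K * exp (K * (n * ∑ i, |x i|))) (K * |r|) with hC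
  refine ⟨C, le_max_of_le_right (by positivity), fun z => (hK _).trans
    ((exp_path_le hx hK0 le_rfl).trans ?_)⟩
  apply mul_le_mul (le_max_left _ _) _ (exp_pos _).le (le_max_of_le_right (by (clear * - hK0; positivity)))
  exact exp_le_exp.2 (mul_le_mul_of_nonneg_right (le_max_right _ _) (sum_abs_nonneg z))

theorem ibp_exp {N : (Fin n → ℝ) → ℝ} {c : Fin n → (Fin n → ℝ) → ℝ}
    (hd : ∀ y, HasFDerivAt N (lf fun i => c i y) y) (hN : EG1 N) (i : Fin n)
    (hc : Continuous (c i)) (hi : EG1 (c i)) (x : Fin n → ℝ) (q : ℝ) :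
    ∫ z, z i * N (x + q • z) ∂(gsn n) = q * ∫ z, c i (x + q • z) ∂(gsn n) := by
  have e : ∀ z : Fin n → ℝ, fderiv ℝ (fun z => N (x + q • z)) z (Pi.single i 1)
      = q * c i (x + q • z) := by
    intro z
    have h2 : HasFDerivAt (fun z : Fin n → ℝ => x + q • z)
      (q • ContinuousLinearMap.id ℝ (Fin n → ℝ)) z := ((hasFDerivAt_id z).const_smul q).const_add x
    have h3 := ((hd (x + q • z)).comp z h2).fderiv
    change fderiv ℝ (N ∘ fun z => x + q • z) z _ = _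
    rw [h3]
    simp only [ContinuousLinearMap.comp_smulₛₗ, ringHom_apply, ContinuousLinearMap.comp_id, smul_apply, lf_apply, Pi.single_apply, mul_comm, ite_mul, one_mul, zero_mul, Finset.sum_ite_eq', Finset.mem_univ, ↓reduceIte, smul_eq_mul]
  have hdiff : Differentiable ℝ N := fun y => (hd y).differentiableAt
  have := gauss_ibp (φ := fun z => N (x + q • z)) (hdiff.comp (by fun_prop)) (hN.comp_path x q) i
    (by
      simp_rw [e]
      obtain ⟨C, hC0, hC⟩ := hi.comp_path x q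
      refine ⟨max C (|q| * C), le_max_of_le_left hC0, fun z => ?_⟩
      rw [abs_mul]
      have hS := sum_abs_nonneg z
      calc |q| * |c i (x + q • z)| ≤ |q| * (C * exp (C * ∑ i, |z i|)) :=
            mul_le_mul_of_nonneg_left (hC z) (abs_nonneg _)
        _ = (|q| * C) * exp (C * ∑ i, |z i|) := by ring
        _ ≤ _ := mul_le_mul (le_max_right _ _) (exp_le_exp.2
            (mul_le_mul_of_nonneg_right (le_max_left _ _) hS)) (exp_pos _).le
            (le_max_of_le_left hC0))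
    (by
      simp_rw [e]
      exact (continuous_const.mul (hc.comp (by fun_prop))).aestronglyMeasurable)
  rw [this]
  simp_rw [e]
  rw [integral_const_mul]

theorem EY_deriv [IsProbabilityMeasure μ] (hμ : CSupp μ R) (hI : IsOpen I) (hI0 : I ⊆ Ioi 0)
    (hf : H1 I f d a) {da : Fin n → ℝ → (Fin n → ℝ) → ℝ} {a2 : Fin n → Fin n → ℝ → (Fin n → ℝ) → ℝ}
    (ha : ∀ i, H1 I (a i) (da i) (a2 i)) {σ : ℝ} (hσ : σ ∈ I) :
    HasDerivAt (fun σ => EY μ σ (f σ))
      (EY μ σ (fun y => d σ y + 1 / 2 * ∑ i, a2 i i σ y)) σ := by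
  have hσ0 : 0 < σ := hI0 hσ
  obtain ⟨p, q, hpq, hpqI⟩ : ∃ p q, σ ∈ Ioo p q ∧ Icc p q ⊆ I := by
    obtain ⟨ε, hε, hb⟩ := Metric.isOpen_iff.1 hI σ hσ
    refine ⟨σ - ε / 2, σ + ε / 2, ⟨by linarith only [hε], by linarith only [hε]⟩, fun τ hτ => hb ?_⟩
    rw [Metric.mem_ball, Real.dist_eq, abs_lt]
    constructor <;> [linarith only [hε, hτ.1]; linarith only [hε, hτ.2]]
  have hp0 : 0 < p := hI0 (hpqI ⟨le_rfl, (hpq.1.trans hpq.2).le⟩)
  obtain ⟨K, hK0, hK⟩ := hf.ud.2 p q hpqI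
  choose L hL0 hL using fun i => (hf.ua i).2 p q hpqI
  have hsp : 0 < √p := Real.sqrt_pos.2 hp0
  have hmem : ∀ {τ}, τ ∈ Ioo p q → τ ∈ I := fun hτ => hpqI ⟨hτ.1.le, hτ.2.le⟩
  have hpos : ∀ {τ}, τ ∈ Ioo p q → 0 < τ := fun hτ => hp0.trans hτ.1
  -- the dominating function
  set bnd : (Fin n → ℝ) × (Fin n → ℝ) → ℝ := fun w =>
    (K * exp (K * (n * R))) * exp ((K * √q) * ∑ i, |w.2 i|)
      + (∑ i, |w.2 i| * ((L i * exp (L i * (n * R))) * exp ((L i * √q) * ∑ i, |w.2 i|)))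
        / (2 * √p) with hbnd
  have hbint : Integrable bnd (μ.prod (gsn n)) := by
    have h1 : Integrable (fun z : Fin n → ℝ =>
        (K * exp (K * (n * R))) * exp ((K * √q) * ∑ i, |z i|)
        + (∑ i, |z i| * ((L i * exp (L i * (n * R))) * exp ((L i * √q) * ∑ i, |z i|)))
          / (2 * √p)) (gsn n) := by
      refine ((integrable_exp_abs (n := n) (K * √q)).const_mul _).add
        (Integrable.div_const (integrable_finsetSum _ fun i _ => ?_) _)
      have hE : EG1 fun z : Fin n → ℝ =>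
          (L i * exp (L i * (n * R))) * exp ((L i * √q) * ∑ i, |z i|) := by
        refine ⟨max (L i * exp (L i * (n * R))) (L i * √q),
          le_max_of_le_right (mul_nonneg (hL0 i) (Real.sqrt_nonneg _)), fun z => ?_⟩
        have h0 : 0 ≤ L i * exp (L i * (n * R)) := mul_nonneg (hL0 i) (exp_pos _).le
        rw [abs_of_nonneg (mul_nonneg h0 (exp_pos _).le)]
        exact mul_le_mul (le_max_left _ _) (exp_le_exp.2
          (mul_le_mul_of_nonneg_right (le_max_right _ _) (sum_abs_nonneg z))) (exp_pos _).le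
          (h0.trans (le_max_left _ _))
      have h2 := (hE.mul_coord i).integrable (by (clear * -; exact Continuous.aestronglyMeasurable (by fun_prop)))
      refine h2.abs.congr (Eventually.of_forall fun z => ?_)
      simp only
      rw [abs_mul, abs_of_nonneg (mul_nonneg (mul_nonneg (hL0 i) (exp_pos _).le) (exp_pos _).le)]
    exact h1.comp_snd μ
  have hbd : ∀ᵐ w ∂(μ.prod (gsn n)), ∀ τ ∈ Ioo p q,
      ‖d τ (w.1 + √τ • w.2) + (∑ i, w.2 i * a i τ (w.1 + √τ • w.2)) / (2 * √τ)‖ ≤ bnd w := by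
    filter_upwards [ae_fst hμ] with w hw τ hτ
    have hτ' : τ ∈ Icc p q := ⟨hτ.1.le, hτ.2.le⟩
    have hsq : |√τ| ≤ √q := by
      rw [abs_of_nonneg (Real.sqrt_nonneg _)]; exact Real.sqrt_le_sqrt hτ.2.le
    rw [norm_eq_abs]
    refine (abs_add_le _ _).trans (add_le_add ?_ ?_)
    · exact (hK τ hτ' _).trans (exp_path_le hw hK0 hsq)
    · rw [abs_div, abs_of_pos (by have := Real.sqrt_pos.2 (hpos hτ); (clear * - this; positivity) : 0 < 2 * √τ)]
      have hnn : 0 ≤ ∑ i, |w.2 i| * ((L i * exp (L i * (n * R))) *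
          exp ((L i * √q) * ∑ i, |w.2 i|)) := Finset.sum_nonneg fun i _ =>
        mul_nonneg (abs_nonneg _) (mul_nonneg (mul_nonneg (hL0 i) (exp_pos _).le) (exp_pos _).le)
      apply div_le_div₀ hnn _ (by (clear * - hp0; positivity))
      · exact mul_le_mul_of_nonneg_left (Real.sqrt_le_sqrt hτ.1.le) (by norm_num)
      · refine (Finset.abs_sum_le_sum_abs _ _).trans (Finset.sum_le_sum fun i _ => ?_)
        rw [abs_mul]
        exact mul_le_mul_of_nonneg_left ((hL i τ hτ' _).trans (exp_path_le hw (hL0 i) hsq))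
          (abs_nonneg _)
  have hmeas : ∀ τ ∈ Ioo p q, AEStronglyMeasurable (fun w : (Fin n → ℝ) × (Fin n → ℝ) =>
      d τ (w.1 + √τ • w.2) + (∑ i, w.2 i * a i τ (w.1 + √τ • w.2)) / (2 * √τ))
      (μ.prod (gsn n)) := by
    intro τ hτ
    apply Continuous.aestronglyMeasurable
    refine ((hf.ud.cont (hmem hτ)).comp (by fun_prop)).add
      (Continuous.div_const (continuous_finsetSum _ fun i _ => ?_) _)
    exact (by fun_prop : Continuous fun p : (Fin n → ℝ) × (Fin n → ℝ) => p.2 i).mul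
      (((hf.ua i).cont (hmem hτ)).comp (by fun_prop))
  have key := hasDerivAt_integral_of_dominated_loc_of_deriv_le (μ := μ.prod (gsn n))
    (F := fun τ w => f τ (w.1 + √τ • w.2))
    (F' := fun τ w => d τ (w.1 + √τ • w.2) + (∑ i, w.2 i * a i τ (w.1 + √τ • w.2)) / (2 * √τ))
    (x₀ := σ) (s := Ioo p q) (bound := bnd)
    (Ioo_mem_nhds hpq.1 hpq.2)
    (by
      filter_upwards [Ioo_mem_nhds hpq.1 hpq.2] with τ hτ
      exact ((hf.uf.cont (hmem hτ)).comp (by fun_prop)).aestronglyMeasurable)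
    ((hf.uf.eg1 hσ).int_prod hμ (hf.uf.cont hσ) _) (hmeas σ hpq)
    hbd hbint
    (Eventually.of_forall fun w τ hτ => hf.path hI (hmem hτ) (hpos hτ) w.1 w.2)
  have hcongr : (fun τ => EY μ τ (f τ)) =ᶠ[𝓝 σ] fun τ => ∫ w, f τ (w.1 + √τ • w.2) ∂(μ.prod (gsn n)) := by
    filter_upwards [Ioo_mem_nhds hpq.1 hpq.2] with τ hτ
    exact EY_eq_prod hμ (hf.uf.cont (hmem hτ)) (hf.uf.eg1 (hmem hτ)) τ
  refine (key.2.congr_of_eventuallyEq hcongr).congr_deriv ?_
  have hi : Integrable (fun w : (Fin n → ℝ) × (Fin n → ℝ) =>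
      d σ (w.1 + √σ • w.2) + (∑ i, w.2 i * a i σ (w.1 + √σ • w.2)) / (2 * √σ))
      (μ.prod (gsn n)) := key.1
  rw [integral_prod _ hi]
  unfold EY PH
  congr 1
  funext x
  have hsσ : 0 < √σ := Real.sqrt_pos.2 hσ0
  have iE : ∀ {Φ : (Fin n → ℝ) → ℝ}, Continuous Φ → EG1 Φ →
      Integrable (fun z => Φ (x + √σ • z)) (gsn n) := fun hc hE =>
    (hE.comp_path x _).integrable (hc.comp (by fun_prop)).aestronglyMeasurable
  have iD := iE (hf.ud.cont hσ) (hf.ud.eg1 hσ)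
  have iA : ∀ i, Integrable (fun z : Fin n → ℝ => z i * a i σ (x + √σ • z)) (gsn n) := fun i =>
    ((((hf.ua i).eg1 hσ).comp_path x _).mul_coord i).integrable
      ((continuous_apply i).mul (((hf.ua i).cont hσ).comp (by fun_prop))).aestronglyMeasurable
  have iA2 : ∀ i, Integrable (fun z : Fin n → ℝ => a2 i i σ (x + √σ • z)) (gsn n) := fun i =>
    iE (((ha i).ua i).cont hσ) (((ha i).ua i).eg1 hσ)
  have e : ∀ i, ∫ z, z i * a i σ (x + √σ • z) ∂(gsn n)
      = √σ * ∫ z, a2 i i σ (x + √σ • z) ∂(gsn n) := fun i =>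
    ibp_exp (fun y => (ha i).fd σ hσ y) ((hf.ua i).eg1 hσ) i
      (((ha i).ua i).cont hσ) (((ha i).ua i).eg1 hσ) x _
  simp only
  rw [integral_add iD (Integrable.div_const (integrable_finsetSum _ fun i _ => iA i) _),
    integral_div, integral_finsetSum _ fun i _ => iA i,
    integral_add iD ((integrable_finsetSum _ fun i _ => iA2 i).const_mul _),
    integral_const_mul, integral_finsetSum _ fun i _ => iA2 i]
  simp_rw [e]
  rw [← Finset.mul_sum]
  congr 1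
  (clear * - hσ0; field_simp)

end EYd

end Vale.Agent.P245.E1
end
end

section

section

open MeasureTheory Real Set Filter Topology
open scoped ENNReal ContDiff

/-! # Module C3: the derivative of the Fisher information along the channel -/

namespace Vale.Agent.P245.LS

variable {n : ℕ} {μ : Measure (Fin n → ℝ)} [IsProbabilityMeasure μ] {R : ℝ}

/-- the score difference `v = ∇_θ log M_g` -/
noncomputable def vv (μ : Measure (Fin n → ℝ)) (g : (Fin n → ℝ) → ℝ) (i : Fin n)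
    (p : ℝ × (Fin n → ℝ)) : ℝ := (Mf μ g p)⁻¹ * dI i (Mf μ g) p

/-- the Fisher integrand -/
noncomputable def Fj (μ : Measure (Fin n → ℝ)) (g : (Fin n → ℝ) → ℝ)
    (p : ℝ × (Fin n → ℝ)) : ℝ := ∑ k, Mf μ g p * (vv μ g k p * vv μ g k p)

/-- the second order integrand -/
noncomputable def Fh (μ : Measure (Fin n → ℝ)) (g : (Fin n → ℝ) → ℝ)
    (p : ℝ × (Fin n → ℝ)) : ℝ := Mf μ g p * ∑ k, ∑ i, dI i (vv μ g k) p ^ 2

theorem B2_inv (h : CSupp μ R) {g : (Fin n → ℝ) → ℝ} (hg : Adm μ g) {ε : ℝ} (hε : 0 < ε)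
    (hgε : ∀ᵐ x ∂μ, ε ≤ g x) (T : ℝ) : B2 T fun p => (Mf μ g p)⁻¹ := by
  have hM0 : ∀ p, 0 < Mf μ g p := fun p => hε.trans_le (Mf_ge h hg hgε p)
  have hinv : Bd T fun p => (Mf μ g p)⁻¹ := by
    refine ⟨ε⁻¹, by positivity, fun p _ _ => ?_⟩
    rw [abs_of_pos (inv_pos.2 (hM0 p))]
    exact inv_anti₀ hε (Mf_ge h hg hgε p)
  refine (B2_Mf h hg T).comp (φ := fun t => t⁻¹) (φ' := fun t => -(t⁻¹ * t⁻¹))
    (φ'' := fun t => 2 * (t⁻¹ * (t⁻¹ * t⁻¹))) (fun p => ?_) (fun p => ?_) ?_ hinv ?_ ?_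
  · have := hasDerivAt_inv (hM0 p).ne'
    refine this.congr_deriv ?_
    rw [← mul_inv, ← sq]
  · have h1 := hasDerivAt_inv (hM0 p).ne'
    have h2 := (h1.mul h1).neg
    refine h2.congr_deriv ?_
    have := (hM0 p).ne'
    field_simp
    ring
  · exact (cd2_Mf h hg).inv fun p => (hM0 p).ne'
  · have := ((Bd.const (n := n) T (-1)).mul (hinv.mul hinv))
    have e : (fun p => -1 * ((Mf μ g p)⁻¹ * (Mf μ g p)⁻¹))
        = fun p => -((Mf μ g p)⁻¹ * (Mf μ g p)⁻¹) := by funext p; ring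
    rwa [e] at this
  · exact (Bd.const T 2).mul (hinv.mul (hinv.mul hinv))

theorem B2_dI_Mf (h : CSupp μ R) {g : (Fin n → ℝ) → ℝ} (hg : Adm μ g) (T : ℝ) (i : Fin n) :
    B2 T (dI i (Mf μ g)) := by
  rw [dI_Mf h hg]
  exact (B2_Mf h (hg.xmul h i) T).sub ((B2_Mf h hg T).mul (B2_Mf h (h.adm_coord i) T))

theorem B2_vv (h : CSupp μ R) {g : (Fin n → ℝ) → ℝ} (hg : Adm μ g) {ε : ℝ} (hε : 0 < ε)
    (hgε : ∀ᵐ x ∂μ, ε ≤ g x) (T : ℝ) (i : Fin n) : B2 T (vv μ g i) :=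
  (B2_inv h hg hε hgε T).mul (B2_dI_Mf h hg T i)

theorem B2_Fj (h : CSupp μ R) {g : (Fin n → ℝ) → ℝ} (hg : Adm μ g) {ε : ℝ} (hε : 0 < ε)
    (hgε : ∀ᵐ x ∂μ, ε ≤ g x) (T : ℝ) : B2 T (Fj μ g) :=
  B2.sum _ fun k _ => (B2_Mf h hg T).mul ((B2_vv h hg hε hgε T k).mul (B2_vv h hg hε hgε T k))

theorem M_mul_vv (h : CSupp μ R) {g : (Fin n → ℝ) → ℝ} (hg : Adm μ g) {ε : ℝ} (hε : 0 < ε)
    (hgε : ∀ᵐ x ∂μ, ε ≤ g x) (i : Fin n) (p : ℝ × (Fin n → ℝ)) :
    Mf μ g p * vv μ g i p = dI i (Mf μ g) p := by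
  have hM0 : 0 < Mf μ g p := hε.trans_le (Mf_ge h hg hgε p)
  unfold vv
  rw [← mul_assoc, mul_inv_cancel₀ hM0.ne', one_mul]

/-- the generator applied to the gradient of a posterior mean -/
theorem Lop_dI_Mf (h : CSupp μ R) {g : (Fin n → ℝ) → ℝ} (hg : Adm μ g) (k : Fin n)
    (p : ℝ × (Fin n → ℝ)) :
    Lop μ (dI k (Mf μ g)) p = -∑ i, dI i (Mf μ g) p * Am μ p i k := by
  rw [dI_Mf h hg k, Lop_sub (F := Mf μ fun x => x k * g x)
    (G := fun p => Mf μ g p * Mf μ (fun x => x k) p) (cd2_Mf h (hg.xmul h k))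
    ((cd2_Mf h hg).mul (cd2_Mf h (h.adm_coord k))),
    Lop_mul (cd2_Mf h hg) (cd2_Mf h (h.adm_coord k)), Lop_Mf h (hg.xmul h k), Lop_Mf h hg,
    Lop_Mf h (h.adm_coord k)]
  simp_rw [dI_Mf_coord h]
  ring

theorem Lop_vv (h : CSupp μ R) {g : (Fin n → ℝ) → ℝ} (hg : Adm μ g) {ε : ℝ} (hε : 0 < ε)
    (hgε : ∀ᵐ x ∂μ, ε ≤ g x) (k : Fin n) (p : ℝ × (Fin n → ℝ)) :
    Lop μ (vv μ g k) p = -∑ i, vv μ g i p * Am μ p i k - ∑ i, vv μ g i p * dI i (vv μ g k) p := by
  have hM0 : 0 < Mf μ g p := hε.trans_le (Mf_ge h hg hgε p)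
  have hv := (B2_vv h hg hε hgε 1 k).cd
  have h1 := Lop_mul (μ := μ) (cd2_Mf h hg) hv p
  have e : (fun p => Mf μ g p * vv μ g k p) = dI k (Mf μ g) := by
    funext q; exact M_mul_vv h hg hε hgε k q
  rw [e, Lop_dI_Mf h hg, Lop_Mf h hg, mul_zero, add_zero] at h1
  simp_rw [← M_mul_vv h hg hε hgε _ p] at h1
  have h2 : Mf μ g p * Lop μ (vv μ g k) p
      = Mf μ g p * (-∑ i, vv μ g i p * Am μ p i k - ∑ i, vv μ g i p * dI i (vv μ g k) p) := by
    rw [mul_sub, mul_neg, Finset.mul_sum, Finset.mul_sum]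
    simp_rw [← mul_assoc]
    linarith only [h1]
  exact mul_left_cancel₀ hM0.ne' h2

theorem Lop_Fj (h : CSupp μ R) {g : (Fin n → ℝ) → ℝ} (hg : Adm μ g) {ε : ℝ} (hε : 0 < ε)
    (hgε : ∀ᵐ x ∂μ, ε ≤ g x) (p : ℝ × (Fin n → ℝ)) :
    Lop μ (Fj μ g) p = Fh μ g p
      - 2 * (Mf μ g p * ∑ k, ∑ i, vv μ g i p * Am μ p i k * vv μ g k p) := by
  have hv : ∀ k, ContDiff ℝ 2 (vv μ g k) := fun k => (B2_vv h hg hε hgε 1 k).cd
  have hvd : ∀ k, Differentiable ℝ (vv μ g k) := fun k => (hv k).differentiable (by norm_num)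
  have e : Fj μ g = fun p => ∑ k ∈ Finset.univ, Mf μ g p * (vv μ g k p * vv μ g k p) := rfl
  rw [e, Lop_sum (F := fun k p => Mf μ g p * (vv μ g k p * vv μ g k p)) Finset.univ
    (fun k _ => (cd2_Mf h hg).mul ((hv k).mul (hv k)))]
  unfold Fh
  rw [← mul_assoc, Finset.mul_sum, Finset.mul_sum, ← Finset.sum_sub_distrib]
  apply Finset.sum_congr rfl
  intro k _
  rw [Lop_mul (F := Mf μ g) (G := fun p => vv μ g k p * vv μ g k p) (cd2_Mf h hg)
    ((hv k).mul (hv k)), Lop_mul (hv k) (hv k), Lop_Mf h hg, Lop_vv h hg hε hgε]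
  simp_rw [dI_mul (hvd k) (hvd k), ← M_mul_vv h hg hε hgε _ p]
  have s1 : ∑ i, vv μ g i p * Am μ p i k * vv μ g k p
      = vv μ g k p * ∑ i, vv μ g i p * Am μ p i k := by
    rw [Finset.mul_sum]; apply Finset.sum_congr rfl; intro i _; ring
  have s2 : ∑ i, dI i (vv μ g k) p * dI i (vv μ g k) p = ∑ i, dI i (vv μ g k) p ^ 2 := by
    apply Finset.sum_congr rfl; intro i _; ring
  have s3 : ∑ i, Mf μ g p * vv μ g i p
        * (vv μ g k p * dI i (vv μ g k) p + vv μ g k p * dI i (vv μ g k) p)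
      = 2 * Mf μ g p * vv μ g k p * ∑ i, vv μ g i p * dI i (vv μ g k) p := by
    rw [Finset.mul_sum]; apply Finset.sum_congr rfl; intro i _; ring
  rw [s1, s2, s3]
  ring

theorem quad_Am (h : CSupp μ R) (p : ℝ × (Fin n → ℝ)) (u : Fin n → ℝ) :
    ∑ k, ∑ i, u i * Am μ p i k * u k = Vf μ (fun x => ∑ i, u i * x i) p := by
  rw [← Cf_self, Cf_lin h (Adm.lin h u), Finset.sum_comm]
  apply Finset.sum_congr rfl
  intro i _
  rw [Cf_comm, Cf_lin h (h.adm_coord i), Finset.mul_sum]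
  apply Finset.sum_congr rfl
  intro k _
  have : Am μ p i k = Cf μ (fun x => x k) (fun x => x i) p := by
    rw [← dI_Mf_coord h, dI_Mf' h (h.adm_coord k), Cf_comm]
  rw [this]
  ring

theorem Lop_Fj_ge (h : CSupp μ R) {g : (Fin n → ℝ) → ℝ} (hg : Adm μ g) {ε : ℝ} (hε : 0 < ε)
    (hgε : ∀ᵐ x ∂μ, ε ≤ g x) {p : ℝ × (Fin n → ℝ)} {c : ℝ}
    (hcov : ∀ u : Fin n → ℝ, Vf μ (fun x => ∑ i, u i * x i) p ≤ c * ∑ i, u i ^ 2) :
    Fh μ g p - 2 * c * Fj μ g p ≤ Lop μ (Fj μ g) p := by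
  have hM0 : 0 < Mf μ g p := hε.trans_le (Mf_ge h hg hgε p)
  rw [Lop_Fj h hg hε hgε]
  rw [quad_Am h p fun i => vv μ g i p]
  have h1 := mul_le_mul_of_nonneg_left (hcov fun i => vv μ g i p) hM0.le
  have e : Fj μ g p = Mf μ g p * ∑ i, vv μ g i p ^ 2 := by
    unfold Fj
    rw [Finset.mul_sum]; apply Finset.sum_congr rfl; intro i _; ring
  rw [e]
  linarith

/-! ### the channel expectation -/

/-- channel expectation in the variable `r = √t` -/
noncomputable def chE (μ : Measure (Fin n → ℝ)) (F : ℝ × (Fin n → ℝ) → ℝ) (r : ℝ) : ℝ :=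
  ∫ z, Zo μ (r ^ 2, r • z) * F (r ^ 2, r • z) ∂(gsn n)

theorem chE_int (h : CSupp μ R) {F : ℝ × (Fin n → ℝ) → ℝ} (hF : Continuous F) {r : ℝ}
    (hb : Bd (r ^ 2) F) :
    Integrable (fun z : Fin n → ℝ => Zo μ (r ^ 2, r • z) * F (r ^ 2, r • z)) (gsn n) := by
  apply EG1.int
  · exact (eg1_Zf h (Adm.const μ 1) r).mul (eg1_of_Bd hb)
  · exact ((cont_Zf h (Adm.const μ 1)).comp (cpath r)).mul (hF.comp (cpath r))

theorem Bd_Fh (h : CSupp μ R) {g : (Fin n → ℝ) → ℝ} (hg : Adm μ g) {ε : ℝ} (hε : 0 < ε)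
    (hgε : ∀ᵐ x ∂μ, ε ≤ g x) (T : ℝ) : Bd T (Fh μ g) ∧ Continuous (Fh μ g) := by
  have hv : ∀ k, B2 T (vv μ g k) := fun k => B2_vv h hg hε hgε T k
  have bsum : ∀ {ι : Type} (s : Finset ι) (F : ι → ℝ × (Fin n → ℝ) → ℝ), (∀ k, Bd T (F k)) →
      Bd T fun p => ∑ k ∈ s, F k p := by
    intro ι s F hF
    classical
    induction s using Finset.induction_on with
    | empty => simpa using Bd.const (n := n) T 0
    | insert i s hi ih =>
      simp only [Finset.sum_insert hi]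
      exact (hF i).add ih
  constructor
  · unfold Fh
    refine (Bd_Mf h hg T).mul (bsum _ _ fun k => bsum _ _ fun i => ?_)
    simpa [sq] using ((hv k).bd2 i).mul ((hv k).bd2 i)
  · unfold Fh
    refine (cont_Mf h hg).mul (continuous_finsetSum _ fun k _ => continuous_finsetSum _ fun i _ => ?_)
    exact ((diff_dI (hv k).cd i).continuous).pow 2

theorem chE_Fj_deriv (h : CSupp μ R) {g : (Fin n → ℝ) → ℝ} (hg : Adm μ g) {ε : ℝ} (hε : 0 < ε)
    (hgε : ∀ᵐ x ∂μ, ε ≤ g x) (r : ℝ) :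
    HasDerivAt (chE μ (Fj μ g)) (2 * r * chE μ (Lop μ (Fj μ g)) r) r :=
  chan_deriv h (B2_Fj h hg hε hgε (r ^ 2 + 1)) (r := r) (by linarith)

theorem chE_Lop_ge (h : CSupp μ R) {g : (Fin n → ℝ) → ℝ} (hg : Adm μ g) {ε : ℝ} (hε : 0 < ε)
    (hgε : ∀ᵐ x ∂μ, ε ≤ g x) {r : ℝ} (hr : 0 < r)
    (hcov : ∀ p : ℝ × (Fin n → ℝ), 0 < p.1 → ∀ u : Fin n → ℝ,
      Vf μ (fun x => ∑ i, u i * x i) p ≤ 1 / p.1 * ∑ i, u i ^ 2) :
    chE μ (Fh μ g) r - 2 / r ^ 2 * chE μ (Fj μ g) r ≤ chE μ (Lop μ (Fj μ g)) r := by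
  have hr2 : 0 < r ^ 2 := by (clear * - hr; positivity)
  obtain ⟨bh, ch⟩ := Bd_Fh h hg hε hgε (r ^ 2)
  have hF := B2_Fj h hg hε hgε (r ^ 2)
  have i1 := chE_int h ch bh
  have i2 := chE_int h hF.cd.continuous hF.bd0
  -- the generator is bounded and continuous
  have cL : Continuous (Lop μ (Fj μ g)) := by
    unfold Lop
    refine (continuous_Dop hF.cd).add (continuous_finsetSum _ fun i _ => ?_)
    exact (cont_Mf h (h.adm_coord i)).mul (diff_dI hF.cd i).continuous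
  have bL : Bd (r ^ 2) (Lop μ (Fj μ g)) := by
    have bsum : ∀ (F : Fin n → ℝ × (Fin n → ℝ) → ℝ), (∀ k, Bd (r ^ 2) (F k)) →
        Bd (r ^ 2) fun p => ∑ k, F k p := by
      intro F hF
      have : ∀ s : Finset (Fin n), Bd (r ^ 2) fun p => ∑ k ∈ s, F k p := by
        intro s
        classical
        induction s using Finset.induction_on with
        | empty => simpa using Bd.const (n := n) (r ^ 2) 0
        | insert i s hi ih =>
          simp only [Finset.sum_insert hi]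
          exact (hF i).add ih
      exact this _
    unfold Lop Dop
    exact (hF.bd1.add ((Bd.const _ _).mul (bsum _ fun i => hF.bd3 i))).add
      (bsum _ fun i => (Bd_Mf h (h.adm_coord i) _).mul (hF.bd2 i))
  have i3 := chE_int h cL bL
  unfold chE
  rw [← integral_const_mul, ← integral_sub i1 (i2.const_mul _)]
  apply integral_mono (i1.sub (i2.const_mul _)) i3
  intro z
  simp only [Pi.sub_apply]
  have hZ := Zo_pos h (r ^ 2, r • z)
  have h1 := Lop_Fj_ge h hg hε hgε (p := (r ^ 2, r • z)) (c := 1 / r ^ 2) (hcov _ hr2)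
  have h2 := mul_le_mul_of_nonneg_left h1 hZ.le
  have e : Zo μ (r ^ 2, r • z) * (Fh μ g (r ^ 2, r • z)
      - 2 * (1 / r ^ 2) * Fj μ g (r ^ 2, r • z))
      = Zo μ (r ^ 2, r • z) * Fh μ g (r ^ 2, r • z)
        - 2 / r ^ 2 * (Zo μ (r ^ 2, r • z) * Fj μ g (r ^ 2, r • z)) := by ring
  rw [e] at h2
  exact h2

/-- monotonicity of the Fisher information -/
theorem fisher_mono (h : CSupp μ R) {g : (Fin n → ℝ) → ℝ} (hg : Adm μ g) {ε : ℝ} (hε : 0 < ε)
    (hgε : ∀ᵐ x ∂μ, ε ≤ g x)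
    (hcov : ∀ p : ℝ × (Fin n → ℝ), 0 < p.1 → ∀ u : Fin n → ℝ,
      Vf μ (fun x => ∑ i, u i * x i) p ≤ 1 / p.1 * ∑ i, u i ^ 2)
    {r₁ r₂ c : ℝ} (h1 : 0 < r₁) (h12 : r₁ < r₂)
    (hc : ∀ r, r₁ < r → r < r₂ → c ≤ r ^ 8 * chE μ (Fh μ g) r) :
    c * ((r₁ ^ 2)⁻¹ - (r₂ ^ 2)⁻¹)
      ≤ r₂ ^ 4 * chE μ (Fj μ g) r₂ - r₁ ^ 4 * chE μ (Fj μ g) r₁ := by
  set ψ : ℝ → ℝ := fun r => r ^ 4 * chE μ (Fj μ g) r + c * (r ^ 2)⁻¹ with hψ
  have hd : ∀ r, 0 < r → HasDerivAt ψ (4 * r ^ 3 * chE μ (Fj μ g) r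
      + r ^ 4 * (2 * r * chE μ (Lop μ (Fj μ g)) r) - 2 * c * (r ^ 3)⁻¹) r := by
    intro r hr
    have d1 := (hasDerivAt_pow 4 r).mul (chE_Fj_deriv h hg hε hgε r)
    have d2 : HasDerivAt (fun r : ℝ => c * (r ^ 2)⁻¹) (-(2 * c * (r ^ 3)⁻¹)) r := by
      have := ((hasDerivAt_pow 2 r).inv (by (clear * - hr; positivity))).const_mul c
      refine this.congr_deriv ?_
      have := hr.ne'
      field_simp
      simp only [Nat.cast_ofNat, Nat.add_one_sub_one, pow_one, neg_inj]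
      ring
    refine (d1.add d2).congr_deriv ?_
    simp only [Nat.cast_ofNat, Nat.add_one_sub_one]
    ring
  have hmono : MonotoneOn ψ (Set.Icc r₁ r₂) := by
    apply monotoneOn_of_deriv_nonneg (convex_Icc _ _)
    · exact fun r hr => (hd r (h1.trans_le hr.1)).continuousAt.continuousWithinAt
    · intro r hr
      rw [interior_Icc] at hr
      exact (hd r (h1.trans hr.1)).differentiableAt.differentiableWithinAt
    · intro r hr
      rw [interior_Icc] at hr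
      have hr0 : 0 < r := h1.trans hr.1
      rw [(hd r hr0).deriv]
      have k1 := chE_Lop_ge h hg hε hgε hr0 hcov
      have k2 := hc r hr.1 hr.2
      have k3 : r ^ 4 * (2 * r * (chE μ (Fh μ g) r - 2 / r ^ 2 * chE μ (Fj μ g) r))
          ≤ r ^ 4 * (2 * r * chE μ (Lop μ (Fj μ g)) r) := by
        apply mul_le_mul_of_nonneg_left _ (by (clear * - hr0; positivity))
        exact mul_le_mul_of_nonneg_left k1 (by (clear * - hr0; positivity))
      have e1 : r ^ 4 * (2 * r * (chE μ (Fh μ g) r - 2 / r ^ 2 * chE μ (Fj μ g) r))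
          = 2 * (r ^ 3)⁻¹ * (r ^ 8 * chE μ (Fh μ g) r) - 4 * r ^ 3 * chE μ (Fj μ g) r := by
        have := hr0.ne'
        field_simp
        ring
      have k4 : 2 * (r ^ 3)⁻¹ * c ≤ 2 * (r ^ 3)⁻¹ * (r ^ 8 * chE μ (Fh μ g) r) :=
        mul_le_mul_of_nonneg_left k2 (by positivity)
      rw [e1] at k3
      linarith only [k3, k4]
  have := hmono (Set.left_mem_Icc.2 h12.le) (Set.right_mem_Icc.2 h12.le) h12.le
  simp only [hψ] at this
  linarith

/-! ### translation to the `y` variable -/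

theorem EY_eq_chE (h : CSupp μ R) {F : ℝ × (Fin n → ℝ) → ℝ} (hF : Continuous F) {σ : ℝ}
    (hσ : 0 < σ) (hb : Bd (((√σ)⁻¹) ^ 2) F) :
    EY μ σ (fun y => F (1 / σ, (1 / σ) • y)) = chE μ F (√σ)⁻¹ := by
  set r := (√σ)⁻¹ with hr
  have hsq : 0 < √σ := sqrt_pos.2 hσ
  have hr2 : r ^ 2 = 1 / σ := by
    rw [hr, inv_pow, sq_sqrt hσ.le, one_div]
  obtain ⟨C, hC0, hC⟩ := hb
  have hEG : EG1 fun θ => F (r ^ 2, θ) := by
    refine ⟨C, hC0, fun z => (hC (r ^ 2, z) (sq_nonneg r) le_rfl).trans ?_⟩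
    have hS0 : 0 ≤ ∑ i, |z i| := Finset.sum_nonneg fun j _ => abs_nonneg _
    exact le_mul_of_one_le_right hC0 (one_le_exp (by (clear * - hC0; positivity)))
  have hcont : Continuous fun θ : Fin n → ℝ => F (r ^ 2, θ) := hF.comp (by fun_prop)
  have key := tower h (Adm.const μ 1) hcont.measurable hEG r
  unfold chE EY
  have e1 : ∀ z : Fin n → ℝ, Zo μ (r ^ 2, r • z) = Zf μ (fun _ => 1) (r ^ 2, r • z) := fun _ => rfl
  simp_rw [e1]
  rw [key]
  congr 1
  funext x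
  rw [one_mul]
  unfold PH
  congr 1
  funext z
  rw [hr2]
  have e2 : (1 / σ) • (x + √σ • z) = (1 / σ) • x + r • z := by
    rw [smul_add, smul_smul]
    congr 2
    rw [← hr2, hr]
    field_simp
  simp only [e2]

theorem pd_comp_path {F : ℝ × (Fin n → ℝ) → ℝ} (hF : Differentiable ℝ F) (t c : ℝ) (i : Fin n)
    (y : Fin n → ℝ) : pd (fun y => F (t, c • y)) i y = c * dI i F (t, c • y) := by
  unfold pd dI
  have hL : HasFDerivAt (fun z : Fin n → ℝ => ((t, c • z) : ℝ × (Fin n → ℝ)))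
      ((0 : (Fin n → ℝ) →L[ℝ] ℝ).prod (c • ContinuousLinearMap.id ℝ (Fin n → ℝ))) y :=
    (hasFDerivAt_const t y).prodMk ((hasFDerivAt_id y).const_smul c)
  have h1 : HasFDerivAt (fun y => F (t, c • y)) _ y := (hF (t, c • y)).hasFDerivAt.comp y hL
  rw [h1.fderiv]
  simp only [ContinuousLinearMap.comp_apply]
  have e2 : ((0 : (Fin n → ℝ) →L[ℝ] ℝ).prod (c • ContinuousLinearMap.id ℝ (Fin n → ℝ)))
      (Pi.single i 1) = c • ((0 : ℝ), (Pi.single i 1 : Fin n → ℝ)) := by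
    apply Prod.ext <;> simp
  rw [e2, map_smul, smul_eq_mul]

theorem FI_UP (h : CSupp μ R) {g : (Fin n → ℝ) → ℝ} (hg : Adm μ g) {ε : ℝ} (hε : 0 < ε)
    (hgε : ∀ᵐ x ∂μ, ε ≤ g x) {σ : ℝ} (hσ : 0 < σ) :
    FI μ σ (UP μ σ g) = ((√σ)⁻¹) ^ 4 * chE μ (Fj μ g) (√σ)⁻¹ := by
  have hsq : 0 < √σ := sqrt_pos.2 hσ
  have hr2 : ((√σ)⁻¹) ^ 2 = 1 / σ := by rw [inv_pow, sq_sqrt hσ.le, one_div]
  have hF := B2_Fj h hg hε hgε (((√σ)⁻¹) ^ 2)
  have hM0 : ∀ p, 0 < Mf μ g p := fun p => hε.trans_le (Mf_ge h hg hgε p)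
  have hp : ∀ y, (∑ i, pd (UP μ σ g) i y ^ 2) / UP μ σ g y
      = (1 / σ) ^ 2 * Fj μ g (1 / σ, (1 / σ) • y) := by
    intro y
    have h1 : ∀ i, pd (UP μ σ g) i y = 1 / σ * dI i (Mf μ g) (1 / σ, (1 / σ) • y) := fun i =>
      pd_comp_path (diff_Mf h hg) _ _ i y
    simp_rw [h1, ← M_mul_vv h hg hε hgε _ (1 / σ, (1 / σ) • y)]
    unfold UP Fj
    rw [div_eq_iff (hM0 _).ne', Finset.mul_sum, Finset.sum_mul]
    apply Finset.sum_congr rfl
    intro i _
    ring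
  unfold FI
  simp_rw [hp]
  have e1 : EY μ σ (fun y => (1 / σ) ^ 2 * Fj μ g (1 / σ, (1 / σ) • y))
      = (1 / σ) ^ 2 * EY μ σ (fun y => Fj μ g (1 / σ, (1 / σ) • y)) := by
    unfold EY PH
    simp_rw [integral_const_mul]
  rw [e1, EY_eq_chE h hF.cd.continuous hσ hF.bd0, ← hr2]
  ring

theorem GA_UP (h : CSupp μ R) {g : (Fin n → ℝ) → ℝ} (hg : Adm μ g) {ε : ℝ} (hε : 0 < ε)
    (hgε : ∀ᵐ x ∂μ, ε ≤ g x) {σ : ℝ} (hσ : 0 < σ) :
    GA μ σ (UP μ σ g) = ((√σ)⁻¹) ^ 8 * chE μ (Fh μ g) (√σ)⁻¹ := by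
  have hsq : 0 < √σ := sqrt_pos.2 hσ
  have hr2 : ((√σ)⁻¹) ^ 2 = 1 / σ := by rw [inv_pow, sq_sqrt hσ.le, one_div]
  obtain ⟨bh, ch⟩ := Bd_Fh h hg hε hgε (((√σ)⁻¹) ^ 2)
  have hM0 : ∀ p, 0 < Mf μ g p := fun p => hε.trans_le (Mf_ge h hg hgε p)
  have hlog : ∀ i, pd (fun y => log (UP μ σ g y)) i
      = fun y => 1 / σ * vv μ g i (1 / σ, (1 / σ) • y) := by
    intro i
    funext y
    have hd : Differentiable ℝ (UP μ σ g) := by
      unfold UP
      exact (diff_Mf h hg).comp (by fun_prop)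
    have h1 : pd (fun y => log (UP μ σ g y)) i y = (UP μ σ g y)⁻¹ * pd (UP μ σ g) i y := by
      unfold pd
      have h2 := (Real.hasDerivAt_log (x := UP μ σ g y) (hM0 _).ne').comp_hasFDerivAt y
        (hd y).hasFDerivAt
      have h3 : fderiv ℝ (fun y => log (UP μ σ g y)) y
          = (UP μ σ g y)⁻¹ • fderiv ℝ (UP μ σ g) y := h2.fderiv
      rw [h3]; simp only [smul_apply, smul_eq_mul]
    have h2 : pd (UP μ σ g) i y = 1 / σ * dI i (Mf μ g) (1 / σ, (1 / σ) • y) :=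
      pd_comp_path (diff_Mf h hg) _ _ i y
    rw [h1, h2]
    unfold UP vv
    ring
  have hlog2 : ∀ i j y, pd (pd (fun y => log (UP μ σ g y)) i) j y
      = (1 / σ) ^ 2 * dI j (vv μ g i) (1 / σ, (1 / σ) • y) := by
    intro i j y
    rw [hlog i]
    have hv := (B2_vv h hg hε hgε 1 i).diff
    have h1 : pd (fun y => 1 / σ * vv μ g i (1 / σ, (1 / σ) • y)) j y
        = 1 / σ * pd (fun y => vv μ g i (1 / σ, (1 / σ) • y)) j y := by
      unfold pd
      have hd : DifferentiableAt ℝ (fun y : Fin n → ℝ => vv μ g i (1 / σ, (1 / σ) • y)) y :=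
        (hv _).comp y (by fun_prop)
      rw [fderiv_const_mul hd]
      simp only [one_div, smul_apply, smul_eq_mul]
    rw [h1, pd_comp_path hv]
    ring
  have hp : ∀ y, UP μ σ g y * ∑ i, ∑ j, pd (pd (fun y => log (UP μ σ g y)) i) j y ^ 2
      = (1 / σ) ^ 4 * Fh μ g (1 / σ, (1 / σ) • y) := by
    intro y
    simp_rw [hlog2]
    unfold UP Fh
    rw [Finset.mul_sum, Finset.mul_sum, Finset.mul_sum]
    apply Finset.sum_congr rfl
    intro i _
    rw [Finset.mul_sum, Finset.mul_sum, Finset.mul_sum]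
    apply Finset.sum_congr rfl
    intro j _
    ring
  unfold GA
  simp_rw [hp]
  have e1 : EY μ σ (fun y => (1 / σ) ^ 4 * Fh μ g (1 / σ, (1 / σ) • y))
      = (1 / σ) ^ 4 * EY μ σ (fun y => Fh μ g (1 / σ, (1 / σ) • y)) := by
    unfold EY PH
    simp_rw [integral_const_mul]
  rw [e1, EY_eq_chE h ch hσ bh, ← hr2]
  ring

omit [IsProbabilityMeasure μ] in
theorem P2.adm' (h : CSupp μ R) {f : (Fin n → ℝ) → ℝ} (hf : P2 f) : Adm μ f :=
  Adm.of_continuous h hf.cd.continuous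

/-- module C3, given the sharp covariance bound for the posteriors -/
theorem c3 (h : CSupp μ R)
    (hcov : ∀ p : ℝ × (Fin n → ℝ), 0 < p.1 → ∀ u : Fin n → ℝ,
      Vf μ (fun x => ∑ i, u i * x i) p ≤ 1 / p.1 * ∑ i, u i ^ 2)
    {f : (Fin n → ℝ) → ℝ} (hf : P2 f) (a b c : ℝ) (ha : 0 < a) (hab : a < b)
    (hc : ∀ σ, a < σ → σ < b → c ≤ GA μ σ (UP μ σ f)) :
    c * (b - a) ≤ FI μ a (UP μ a f) - FI μ b (UP μ b f) := by
  obtain ⟨ε, hε, hfε⟩ := hf.lb
  have hfA := hf.adm' h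
  have hfae : ∀ᵐ x ∂μ, ε ≤ f x := Eventually.of_forall hfε
  have hb : 0 < b := ha.trans hab
  have hsa : 0 < √a := sqrt_pos.2 ha
  have hsb : 0 < √b := sqrt_pos.2 hb
  have hlt : (√b)⁻¹ < (√a)⁻¹ := inv_strictAnti₀ hsa (sqrt_lt_sqrt ha.le hab)
  have key := fisher_mono h hfA hε hfae hcov (r₁ := (√b)⁻¹) (r₂ := (√a)⁻¹) (c := c)
    (inv_pos.2 hsb) hlt (by
      intro r hr1 hr2
      have hr0 : 0 < r := (inv_pos.2 hsb).trans hr1
      have hs : √((r ^ 2)⁻¹) = r⁻¹ := by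
        rw [sqrt_inv, sqrt_sq hr0.le]
      have hσ0 : 0 < (r ^ 2)⁻¹ := by positivity
      have h1 : a < (r ^ 2)⁻¹ := by
        rw [lt_inv_comm₀ ha (by (clear * - hr0; positivity))]
        have : r ^ 2 < ((√a)⁻¹) ^ 2 := pow_lt_pow_left₀ hr2 hr0.le two_ne_zero
        rwa [inv_pow, sq_sqrt ha.le] at this
      have h2 : (r ^ 2)⁻¹ < b := by
        rw [inv_lt_comm₀ (by (clear * - hr0; positivity)) hb]
        have : ((√b)⁻¹) ^ 2 < r ^ 2 := pow_lt_pow_left₀ hr1 (inv_pos.2 hsb).le two_ne_zero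
        rwa [inv_pow, sq_sqrt hb.le] at this
      have h3 := hc _ h1 h2
      rw [GA_UP h hfA hε hfae hσ0, hs, inv_inv] at h3
      exact h3)
  rw [FI_UP h hfA hε hfae ha, FI_UP h hfA hε hfae hb]
  rw [inv_pow, inv_inv, sq_sqrt hb.le, inv_pow (√a) 2, inv_inv, sq_sqrt ha.le] at key
  exact key

end Vale.Agent.P245.LS
end
end

section

section

open MeasureTheory Real Set Filter Topology
open scoped ENNReal ContDiff

/-! # Module C, part 3, and assembly -/

namespace Vale.Agent.P245.LS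

variable {n : ℕ} {μ : Measure (Fin n → ℝ)} [IsProbabilityMeasure μ] {R : ℝ}

theorem Fj_eq (h : CSupp μ R) {g : (Fin n → ℝ) → ℝ} (hg : Adm μ g) {ε : ℝ} (hε : 0 < ε)
    (hgε : ∀ᵐ x ∂μ, ε ≤ g x) (p : ℝ × (Fin n → ℝ)) :
    Fj μ g p = (Mf μ g p)⁻¹ * ∑ i, dI i (Mf μ g) p ^ 2 := by
  have hM0 : 0 < Mf μ g p := hε.trans_le (Mf_ge h hg hgε p)
  unfold Fj
  rw [Finset.mul_sum]
  apply Finset.sum_congr rfl
  intro i _
  rw [← M_mul_vv h hg hε hgε i p]
  field_simp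

theorem HE_UP (h : CSupp μ R) {g : (Fin n → ℝ) → ℝ} (hg : Adm μ g) {ε : ℝ} (hε : 0 < ε)
    (hgε : ∀ᵐ x ∂μ, ε ≤ g x) {σ : ℝ} (hσ : 0 < σ) :
    HE μ σ (UP μ σ g) = eC μ g (√σ)⁻¹ := by
  have hB := B2_MlogM h hg hε hgε (((√σ)⁻¹) ^ 2)
  exact EY_eq_chE h hB.cd.continuous hσ hB.bd0

theorem eC_deriv' (h : CSupp μ R) {g : (Fin n → ℝ) → ℝ} (hg : Adm μ g) {ε : ℝ} (hε : 0 < ε)
    (hgε : ∀ᵐ x ∂μ, ε ≤ g x) (r : ℝ) :
    HasDerivAt (eC μ g) (r * chE μ (Fj μ g) r) r := by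
  refine (eC_deriv h hg hε hgε r).congr_deriv ?_
  unfold chE
  simp_rw [Fj_eq h hg hε hgε]

theorem chE_Fh_nonneg (h : CSupp μ R) {g : (Fin n → ℝ) → ℝ} (hg : Adm μ g) {ε : ℝ} (hε : 0 < ε)
    (hgε : ∀ᵐ x ∂μ, ε ≤ g x) (r : ℝ) : 0 ≤ chE μ (Fh μ g) r := by
  have hM0 : ∀ p, 0 < Mf μ g p := fun p => hε.trans_le (Mf_ge h hg hgε p)
  unfold chE Fh
  apply integral_nonneg
  intro z
  exact mul_nonneg (Zo_pos h _).le (mul_nonneg (hM0 _).le
    (Finset.sum_nonneg fun _ _ => Finset.sum_nonneg fun _ _ => sq_nonneg _))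

/-- part 3 of `StC` from the others -/
theorem c2_of (h : CSupp μ R)
    (hcov : ∀ p : ℝ × (Fin n → ℝ), 0 < p.1 → ∀ u : Fin n → ℝ,
      Vf μ (fun x => ∑ i, u i * x i) p ≤ 1 / p.1 * ∑ i, u i ^ 2)
    {f : (Fin n → ℝ) → ℝ} (hf : P2 f)
    (h1 : ∀ s, 0 < s → HE μ 0 f - s / 2 * FI μ 0 f ≤ HE μ s (UP μ s f))
    (h2 : ∀ s, 0 < s → HE μ s (UP μ s f) ≤ HE μ 0 f) (s : ℝ) (hs : 0 < s) :
    FI μ s (UP μ s f) ≤ FI μ 0 f := by
  obtain ⟨ε, hε, hfε⟩ := hf.lb
  have hfA := hf.adm' h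
  have hfae : ∀ᵐ x ∂μ, ε ≤ f x := Eventually.of_forall hfε
  rw [FI_UP h hfA hε hfae hs]
  set r := (√s)⁻¹ with hr
  have hsq : 0 < √s := sqrt_pos.2 hs
  have hr0 : 0 < r := inv_pos.2 hsq
  have hr2 : (r ^ 2)⁻¹ = s := by rw [hr, inv_pow, sq_sqrt hs.le, inv_inv]
  set Φ := r ^ 4 * chE μ (Fj μ f) r with hΦ
  have hmonoΦ : ∀ ρ, r ≤ ρ → Φ ≤ ρ ^ 4 * chE μ (Fj μ f) ρ := by
    intro ρ hρ
    rcases hρ.eq_or_lt with h0 | h0
    · rw [← h0]
    · have := fisher_mono h hfA hε hfae hcov (c := 0) hr0 h0 (fun r' hr1 _ =>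
        mul_nonneg (by (clear * -; positivity)) (chE_Fh_nonneg h hfA hε hfae r'))
      rw [zero_mul] at this
      linarith only [this]
  set ψ : ℝ → ℝ := fun ρ => eC μ f ρ + Φ / 2 * (ρ ^ 2)⁻¹ with hψ
  have hd : ∀ ρ, 0 < ρ → HasDerivAt ψ (ρ * chE μ (Fj μ f) ρ - Φ * (ρ ^ 3)⁻¹) ρ := by
    intro ρ hρ
    have d2 : HasDerivAt (fun r : ℝ => Φ / 2 * (r ^ 2)⁻¹) (-(Φ * (ρ ^ 3)⁻¹)) ρ := by
      have := ((hasDerivAt_pow 2 ρ).inv (by (clear * - hρ; positivity))).const_mul (Φ / 2)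
      refine this.congr_deriv ?_
      have := hρ.ne'
      field_simp
      simp only [Nat.cast_ofNat, Nat.add_one_sub_one, pow_one]
    exact ((eC_deriv' h hfA hε hfae ρ).add d2).congr_deriv (by ring)
  have hmono : MonotoneOn ψ (Set.Ici r) := by
    apply monotoneOn_of_deriv_nonneg (convex_Ici _)
    · exact fun ρ hρ => (hd ρ (hr0.trans_le hρ)).continuousAt.continuousWithinAt
    · intro ρ hρ
      rw [interior_Ici] at hρ
      exact (hd ρ (hr0.trans hρ)).differentiableAt.differentiableWithinAt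
    · intro ρ hρ
      rw [interior_Ici] at hρ
      have hρ0 : 0 < ρ := hr0.trans hρ
      rw [(hd ρ hρ0).deriv]
      have k := mul_le_mul_of_nonneg_right (hmonoΦ ρ hρ.le) (by (clear * - hρ0; positivity) : 0 ≤ (ρ ^ 3)⁻¹)
      have e : ρ ^ 4 * chE μ (Fj μ f) ρ * (ρ ^ 3)⁻¹ = ρ * chE μ (Fj μ f) ρ := by
        have := hρ0.ne'
        (clear * - this; field_simp)
      rw [e] at k
      linarith only [k]
  have hH : HE μ s (UP μ s f) = eC μ f r := HE_UP h hfA hε hfae hs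
  have main : ∀ ρ, r ≤ ρ → Φ / 2 * s ≤ s / 2 * FI μ 0 f + Φ / 2 * (ρ ^ 2)⁻¹ := by
    intro ρ hρ
    have hρ0 : 0 < ρ := hr0.trans_le hρ
    have k1 := hmono (Set.mem_Ici.2 le_rfl) (Set.mem_Ici.2 hρ) hρ
    simp only [hψ] at k1
    rw [hr2] at k1
    have k2 := h2 ((ρ ^ 2)⁻¹) (by (clear * - hρ0; positivity))
    rw [HE_UP h hfA hε hfae (by (clear * - hρ0; positivity)), sqrt_inv, sqrt_sq hρ0.le, inv_inv] at k2
    have k3 := h1 s hs
    rw [hH] at k3
    linarith only [k1, k2, k3]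
  have hlim : Tendsto (fun ρ : ℝ => s / 2 * FI μ 0 f + Φ / 2 * (ρ ^ 2)⁻¹) atTop
      (𝓝 (s / 2 * FI μ 0 f + Φ / 2 * 0)) := by
    refine tendsto_const_nhds.add (Tendsto.const_mul _ ?_)
    exact tendsto_inv_atTop_zero.comp (tendsto_pow_atTop two_ne_zero)
  have := ge_of_tendsto hlim (by
    filter_upwards [eventually_ge_atTop r] with ρ hρ using main ρ hρ)
  rw [mul_zero, add_zero] at this
  have h5 : Φ * (s / 2) ≤ FI μ 0 f * (s / 2) := by linarith only [this]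
  exact le_of_mul_le_mul_right h5 (by positivity)

/-- assembly of module C -/
theorem thC_of (n : ℕ)
    (hcov : ∀ (ρ : (Fin n → ℝ) → ℝ) (R : ℝ), LCd ρ → IsProbabilityMeasure (mu ρ) →
      CSupp (mu ρ) R → ∀ p : ℝ × (Fin n → ℝ), 0 < p.1 → ∀ u : Fin n → ℝ,
      Vf (mu ρ) (fun x => ∑ i, u i * x i) p ≤ 1 / p.1 * ∑ i, u i ^ 2)
    (h1 : ∀ (ρ : (Fin n → ℝ) → ℝ) (R : ℝ), LCd ρ → IsProbabilityMeasure (mu ρ) →
      CSupp (mu ρ) R → ∀ f : (Fin n → ℝ) → ℝ, P2 f → EY (mu ρ) 0 f = 1 →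
      ∀ s, 0 < s → HE (mu ρ) 0 f - s / 2 * FI (mu ρ) 0 f ≤ HE (mu ρ) s (UP (mu ρ) s f))
    (h2 : ∀ (ρ : (Fin n → ℝ) → ℝ) (R : ℝ), LCd ρ → IsProbabilityMeasure (mu ρ) →
      CSupp (mu ρ) R → ∀ f : (Fin n → ℝ) → ℝ, P2 f → EY (mu ρ) 0 f = 1 →
      ∀ s, 0 < s → HE (mu ρ) s (UP (mu ρ) s f) ≤ HE (mu ρ) 0 f) : StC n := by
  intro ρ R hρ hp h f hf hf1
  have a1 := h1 ρ R hρ hp h f hf hf1
  have a2 := h2 ρ R hρ hp h f hf hf1
  exact ⟨a1, a2, c2_of h (hcov ρ R hρ hp h) hf a1 a2, c3 h (hcov ρ R hρ hp h) hf⟩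

end Vale.Agent.P245.LS
end
end

section

section

set_option linter.all false

open MeasureTheory Real Set Filter Topology
open scoped ENNReal ContDiff

namespace Vale.Agent.P245.LS.UpA

/-! ### a sharp variance bound from the entropy -/

theorem log_pt {x : ℝ} (hx : |x| ≤ 1 / 2) : log (1 + x) ≤ x - x ^ 2 / 2 + 2 * |x| ^ 3 := by
  have h1 : |(-x)| < 1 := by rw [abs_neg]; linarith
  have h2 := Real.abs_log_sub_add_sum_range_le h1 2
  simp only [Finset.sum_range_succ, Finset.sum_range_zero, abs_neg] at h2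
  norm_num at h2
  have h3 : |x| ^ 3 / (1 - |x|) ≤ 2 * |x| ^ 3 := by
    rw [div_le_iff₀ (by linarith only [hx])]
    linarith only [mul_nonneg (sub_nonneg.2 hx) (sub_nonneg.2 (pow_nonneg (abs_nonneg x) 3))]
  have h4 := (abs_le.1 (h2.trans h3)).2
  linarith only [h4]

theorem pt_sharp {p q δ : ℝ} (hp : 0 < p) (hq : 0 < q) (hδ : δ ≤ 1 / 2) (h : |q - p| ≤ δ * p) :
    (2 - 4 * δ) * (p - q) ^ 2 ≤ p ^ 2 * log (p ^ 2) - p ^ 2 * log (q ^ 2) - p ^ 2 + q ^ 2 := by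
  set x := q / p - 1 with hx
  have hqp : q = p * (1 + x) := by rw [hx]; field_simp; ring
  have hxa : |x| ≤ δ := by
    have : x = (q - p) / p := by rw [hx]; field_simp
    rw [this, abs_div, abs_of_pos hp, div_le_iff₀ hp]
    exact h
  have hx2 : |x| ≤ 1 / 2 := hxa.trans hδ
  have h1 := log_pt hx2
  have hx1 : 0 < 1 + x := by
    have := (abs_le.1 hx2).1
    linarith only [this]
  rw [Real.log_pow, Real.log_pow]
  have h2 : log q = log p + log (1 + x) := by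
    rw [hqp, log_mul hp.ne' hx1.ne']
  rw [h2, hqp]
  push_cast
  have h3 : |x| ^ 3 = x ^ 2 * |x| := by
    rw [pow_succ, sq_abs]
  have h4 : |x| ^ 3 ≤ x ^ 2 * δ := by
    rw [h3]; exact mul_le_mul_of_nonneg_left hxa (sq_nonneg _)
  have h5 : log (1 + x) ≤ x - x ^ 2 / 2 + 2 * (x ^ 2 * δ) := by linarith only [h1, h4]
  have h6 := mul_le_mul_of_nonneg_left h5 (by positivity : 0 ≤ 2 * p ^ 2)
  linarith only [h6]

theorem variance_le_ent_sharp {Ω : Type*} [MeasurableSpace Ω] (μ : Measure Ω)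
    [IsProbabilityMeasure μ] {f : Ω → ℝ}
    (hf : Measurable f) {K : ℝ} (hK0 : 0 < K) (hK : ∀ x, |f x| ≤ K) {L : ℝ} (hL : 5 * K ≤ L) :
    (2 - 8 * K / (L - K)) * ∫ x, (f x - ∫ y, f y ∂μ) ^ 2 ∂μ ≤ ent μ (fun x => (f x + L) ^ 2) := by
  have hfi : Integrable f μ := integrable_of_bdd μ hf hK
  have hLK : 0 < L - K := by linarith
  set δ := 2 * K / (L - K) with hδ
  have hδ0 : 0 < δ := by (clear * - hK0 hLK; positivity)
  have hδ1 : δ ≤ 1 / 2 := by
    rw [hδ, div_le_iff₀ hLK]; linarith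
  have h0 : ∀ x, 0 ≤ (f x + L) ^ 2 := fun x => sq_nonneg _
  have hB : ∀ x, (f x + L) ^ 2 ≤ (K + L) ^ 2 := by
    intro x
    have := abs_le.1 (hK x)
    apply pow_le_pow_left₀ <;> linarith only [hL, this]
  have hB' : ∀ x, (L - K) ^ 2 ≤ (f x + L) ^ 2 := by
    intro x
    have := abs_le.1 (hK x)
    apply pow_le_pow_left₀ <;> linarith only [hK0, hL, this]
  have hFm : Measurable fun x => (f x + L) ^ 2 := by (clear * - hf; fun_prop)
  have hFi : Integrable (fun x => (f x + L) ^ 2) μ := integrable_of_bdd μ hFm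
    (fun x => by rw [abs_of_nonneg (h0 x)]; exact hB x)
  have hFl := integrable_mul_log μ hFm h0 hB
  set m := ∫ x, (f x + L) ^ 2 ∂μ with hm
  have hm1 : m ≤ (K + L) ^ 2 := by
    have := integral_mono hFi (integrable_const ((K + L) ^ 2)) hB
    simpa only [ge_iff_le, integral_const, probReal_univ, smul_eq_mul, one_mul] using this
  have hm2 : (L - K) ^ 2 ≤ m := by
    have := integral_mono (integrable_const ((L - K) ^ 2)) hFi hB'
    simpa only [ge_iff_le, integral_const, probReal_univ, smul_eq_mul, one_mul] using this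
  have hm0 : 0 < m := lt_of_lt_of_le (by positivity) hm2
  set q := √m with hq
  have hq0 : 0 < q := Real.sqrt_pos.2 hm0
  have hqm : q ^ 2 = m := Real.sq_sqrt hm0.le
  have hq1 : q ≤ K + L := by
    rw [hq]; exact (Real.sqrt_le_sqrt hm1).trans (by rw [Real.sqrt_sq (by linarith only [hK0, hL])])
  have hq2 : L - K ≤ q := by
    rw [hq]
    calc L - K = √((L - K) ^ 2) := (Real.sqrt_sq hLK.le).symm
      _ ≤ √m := Real.sqrt_le_sqrt hm2
  have hpt : ∀ x, (2 - 4 * δ) * (f x + L - q) ^ 2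
      ≤ (f x + L) ^ 2 * log ((f x + L) ^ 2) - (f x + L) ^ 2 * log m - (f x + L) ^ 2 + m := by
    intro x
    have h1 := abs_le.1 (hK x)
    have h2 := pt_sharp (p := f x + L) (q := q) (δ := δ) (by linarith only [hK0, hL, h1]) hq0 hδ1 (by
      have h3 : |q - (f x + L)| ≤ 2 * K := by rw [abs_le]; constructor <;> linarith only [hq1, h1, hq2]
      refine h3.trans ?_
      have h4 : δ * (L - K) = 2 * K := by rw [hδ]; field_simp
      nlinarith only [h4, hδ0, h1])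
    rw [hqm] at h2
    exact h2
  have hint1 : Integrable (fun x => (2 - 4 * δ) * (f x + L - q) ^ 2) μ := by
    apply Integrable.const_mul
    refine integrable_of_bdd μ (by fun_prop) (K := (2 * K) ^ 2) (fun x => ?_)
    have h1 := abs_le.1 (hK x)
    rw [abs_of_nonneg (sq_nonneg _), ← sq_abs]
    apply pow_le_pow_left₀ (abs_nonneg _)
    rw [abs_le]; constructor <;> linarith only [hq1, h1, hq2]
  have key := integral_mono hint1
    (((hFl.sub' (hFi.mul_const _)).sub' hFi).fun_add (integrable_const m)) hpt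
  rw [integral_add ((hFl.sub' (hFi.mul_const _)).sub' hFi) (integrable_const _),
      integral_sub (hFl.sub' (hFi.mul_const _)) hFi, integral_sub hFl (hFi.mul_const _),
      integral_mul_const, integral_const, integral_const_mul] at key
  simp only [probReal_univ, smul_eq_mul, one_mul] at key
  rw [← hm] at key
  have he : ent μ (fun x => (f x + L) ^ 2)
      = ∫ x, (f x + L) ^ 2 * log ((f x + L) ^ 2) ∂μ - m * log m := by
    rw [ent, ← hm]
  rw [he]
  set M := ∫ y, f y ∂μ with hM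
  have hf2 : Integrable (fun x => f x ^ 2) μ := by
    refine integrable_of_bdd μ (by fun_prop) (K := K ^ 2) (fun x => ?_)
    rw [abs_of_nonneg (sq_nonneg _), ← sq_abs]
    exact pow_le_pow_left₀ (abs_nonneg _) (hK x) 2
  have e2 : ∀ r : ℝ, ∫ x, (f x - r) ^ 2 ∂μ = ∫ x, f x ^ 2 ∂μ - 2 * r * M + r ^ 2 := by
    intro r
    have : ∀ x, (f x - r) ^ 2 = f x ^ 2 - 2 * r * f x + r ^ 2 := fun x => by ring
    simp_rw [this]
    rw [integral_add (hf2.sub' (hfi.const_mul _)) (integrable_const _),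
      integral_sub hf2 (hfi.const_mul _), integral_const_mul, integral_const]
    simp only [probReal_univ, smul_eq_mul, one_mul, hM]
  have e3 : ∫ x, (f x + L - q) ^ 2 ∂μ = ∫ x, (f x - (q - L)) ^ 2 ∂μ := by
    congr 1; funext x; ring
  have e4 : ∫ x, (f x - M) ^ 2 ∂μ ≤ ∫ x, (f x + L - q) ^ 2 ∂μ := by
    rw [e3, e2, e2]
    nlinarith only [sq_nonneg (M - (q - L))]
  have e5 : (2 - 8 * K / (L - K)) = 2 - 4 * δ := by rw [hδ]; ring
  rw [e5]
  have h7 : 0 ≤ 2 - 4 * δ := by linarith only [hδ1]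
  have h8 := mul_le_mul_of_nonneg_left e4 h7
  linarith only [key, h8]

variable {n : ℕ}

/-- sharp Poincaré inequality for `κ`-uniformly log-concave measures. -/
theorem poincare_sharp {κ : ℝ} (hκ : 0 < κ) {ρ : (Fin n → ℝ) → ℝ} (hρ : LCd ρ)
    {ν : Measure (Fin n → ℝ)} [IsProbabilityMeasure ν]
    (hν : ν = volume.withDensity fun x => ENNReal.ofReal (gwt κ ρ x))
    {f : (Fin n → ℝ) → ℝ} (hf : ContDiff ℝ 2 f) {R c : ℝ} (hc : ∀ x, R < ‖x‖ → f x = c) :
    ∫ x, (f x - ∫ y, f y ∂ν) ^ 2 ∂ν ≤ 1 / κ * ∑ i, ∫ x, pd f i x ^ 2 ∂ν := by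
  obtain ⟨K', hK'⟩ := bdd_of_const_outside hf.continuous hc
  set K := |K'| + 1 with hKdef
  have hK0 : 0 < K := by positivity
  have hK : ∀ x, |f x| ≤ K := fun x => (hK' x).trans (by
    rw [hKdef]; linarith only [le_abs_self K'])
  set V := ∫ x, (f x - ∫ y, f y ∂ν) ^ 2 ∂ν with hV
  have key : ∀ L : ℝ, 5 * K ≤ L → (2 - 8 * K / (L - K)) * V
      ≤ 2 / κ * ∑ i, ∫ x, pd f i x ^ 2 ∂ν := by
    intro L hL
    have h := lsi_slc hκ hρ hν (f := fun x => f x + L) (hf.add contDiff_const) (R := R) (c := c + L)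
      (fun x hx => by rw [hc x hx])
    have e : ∀ i x, pd (fun x => f x + L) i x = pd f i x := by
      intro i x
      unfold pd
      rw [fderiv_add_const]
    simp only [e] at h
    exact (variance_le_ent_sharp ν hf.continuous.measurable hK0 hK hL).trans h
  have lim : Tendsto (fun L : ℝ => (2 - 8 * K / (L - K)) * V) atTop (𝓝 ((2 - 0) * V)) := by
    apply Tendsto.mul_const
    apply Tendsto.const_sub
    apply Tendsto.div_atTop tendsto_const_nhds
    exact tendsto_atTop_add_const_right _ _ tendsto_id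
  have h2 : (2 - 0) * V ≤ 2 / κ * ∑ i, ∫ x, pd f i x ^ 2 ∂ν :=
    le_of_tendsto lim (by filter_upwards [eventually_ge_atTop (5 * K)] with L hL using key L hL)
  have h3 : 2 / κ * ∑ i, ∫ x, pd f i x ^ 2 ∂ν = 2 * (1 / κ * ∑ i, ∫ x, pd f i x ^ 2 ∂ν) := by ring
  rw [h3] at h2
  linarith only [h2]

section

variable {ρ : (Fin n → ℝ) → ℝ} [IsProbabilityMeasure (mu ρ)] {R : ℝ}

/-- sharp Poincaré inequality for posteriors -/
theorem poin_sharp (hρ : LCd ρ) (h : CSupp (mu ρ) R) {p : ℝ × (Fin n → ℝ)} (hp : 0 < p.1) :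
    Poin (post ρ p) (1 / p.1) := by
  intro f hf
  obtain ⟨g, hg, ⟨R', hR'⟩, hgf⟩ := exists_cutoff hf R
  have ip := isProb_post hρ h p
  have hZ := Zo_pos h p
  have hg1 : ContDiff ℝ 1 g := hg.of_le (by norm_num)
  have key := poincare_sharp hp (hρ.mul_expL p.2 (inv_pos.2 hZ)) (ν := post ρ p) rfl hg hR'
  have hpi : ∀ i ∈ (Finset.univ : Finset (Fin n)), Integrable (fun x => pd g i x ^ 2) (post ρ p) := by
    intro i _
    obtain ⟨P, hP⟩ := bdd_of_const_outside (continuous_pd hg1 i) (pd_const_outside hR' i)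
    exact integrable_of_bdd _ ((continuous_pd hg1 i).measurable.pow_const 2) (K := P ^ 2) fun x => by
        rw [abs_of_nonneg (sq_nonneg _), ← sq_abs]; exact pow_le_pow_left₀ (abs_nonneg _) (hP x) 2
  rw [← integral_finsetSum _ hpi, integral_post hρ h, integral_post hρ h, integral_post hρ h,
    Vf_eq h (Adm.of_continuous h hg.continuous), sub_self, zero_pow two_ne_zero, add_zero] at key
  have hae : ∀ᵐ x ∂(mu ρ), g x = f x ∧ ∀ i, pd g i x = pd f i x := by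
    filter_upwards [h.supp] with x hx using hgf x hx
  rw [Vf_congr_ae (g' := f) (hae.mono fun x hx => hx.1),
    Mf_congr_ae (g' := fun x => ∑ i, pd f i x ^ 2) (hae.mono fun x hx => by simp only [hx.2]),
    Vf_eq_post hρ h, ← integral_post hρ h] at key
  exact key

/-- **C5**: the covariance of a posterior at time `t` is at most `1/t` -/
theorem c5 (hρ : LCd ρ) (h : CSupp (mu ρ) R) {p : ℝ × (Fin n → ℝ)} (hp : 0 < p.1) :
    CovLe (post ρ p) (1 / p.1) := by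
  have := isProb_post hρ h p
  exact covLe_of_poin (poin_sharp hρ h hp)

/-- **C5** in terms of the posterior variance -/
theorem c5' (hρ : LCd ρ) (h : CSupp (mu ρ) R) {p : ℝ × (Fin n → ℝ)} (hp : 0 < p.1)
    (u : Fin n → ℝ) :
    Vf (mu ρ) (fun x => ∑ i, u i * x i) p ≤ 1 / p.1 * ∑ i, u i ^ 2 :=
  Vf_lin_le hρ h (c5 hρ h hp) u

end

/-! ### regularity of the test functions -/

theorem pos_cd {f : (Fin n → ℝ) → ℝ} (hf : P2 f) : ContDiff ℝ 2 f := hf.cd

theorem pos_pos {f : (Fin n → ℝ) → ℝ} (hf : P2 f) (x : Fin n → ℝ) : 0 < f x := by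
  obtain ⟨ε, h0, h1⟩ := hf.lb
  exact h0.trans_le (h1 x)

section

variable {μ : Measure (Fin n → ℝ)} {R : ℝ}

theorem pos_adm (h : CSupp μ R) {f : (Fin n → ℝ) → ℝ} (hf : P2 f) : Adm μ f :=
  Adm.of_continuous h (pos_cd hf).continuous

theorem pos_adm_log (h : CSupp μ R) {f : (Fin n → ℝ) → ℝ} (hf : P2 f) :
    Adm μ fun x => f x * log (f x) :=
  Adm.of_continuous h ((pos_cd hf).continuous.mul
    ((pos_cd hf).continuous.log fun x => (pos_pos hf x).ne'))

theorem pos_adm_fi (h : CSupp μ R) {f : (Fin n → ℝ) → ℝ} (hf : P2 f) :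
    Adm μ fun x => (∑ i, pd f i x ^ 2) / f x :=
  Adm.of_continuous h ((continuous_finsetSum _ fun i _ =>
    (continuous_pd ((pos_cd hf).of_le (by (clear * -; norm_num))) i).pow 2).div (pos_cd hf).continuous
      fun x => (pos_pos hf x).ne')

theorem Zf_congr_ae {g g' : (Fin n → ℝ) → ℝ} (hg : ∀ᵐ x ∂μ, g x = g' x) (p : ℝ × (Fin n → ℝ)) :
    Zf μ g p = Zf μ g' p := by
  unfold Zf
  refine integral_congr_ae ?_
  filter_upwards [hg] with x hx
  rw [hx]

/-- Jensen's inequality for posteriors -/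
theorem jensen_pt [IsProbabilityMeasure μ] (h : CSupp μ R) {f : (Fin n → ℝ) → ℝ} (hf : P2 f)
    (p : ℝ × (Fin n → ℝ)) :
    Zf μ f p * log (Mf μ f p) ≤ Zf μ (fun x => f x * log (f x)) p := by
  have hfA := pos_adm h hf
  have hlA := pos_adm_log h hf
  have hM : 0 < Mf μ f p := by
    obtain ⟨ε, h0, h1⟩ := hf.lb
    exact h0.trans_le (Mf_ge h hfA (Eventually.of_forall h1) p)
  set b := Mf μ f p with hb
  have hE := h.adm_exp_lx p
  have hpt : ∀ x, f x * exp (lx x p) * log b ≤ f x * log (f x) * exp (lx x p)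
      - f x * exp (lx x p) + b * exp (lx x p) := by
    intro x
    have h1 := mul_le_mul_log_add_exp (a := f x) (b := log b) (pos_pos hf x).le
    rw [exp_log hM] at h1
    have h2 := mul_le_mul_of_nonneg_right h1 (exp_pos (lx x p)).le
    linarith
  have i1 : Integrable (fun x => f x * exp (lx x p)) μ := (hfA.mul hE).integrable
  have i2 : Integrable (fun x => f x * log (f x) * exp (lx x p)) μ := (hlA.mul hE).integrable
  have i3 : Integrable (fun x => b * exp (lx x p)) μ := (hE.const_mul b).integrable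
  have key := integral_mono (i1.mul_const (log b)) ((i2.sub i1).add i3) hpt
  have e1 : ∫ x, ((f x * log (f x) * exp (lx x p) - f x * exp (lx x p)) + b * exp (lx x p)) ∂μ
      = Zf μ (fun x => f x * log (f x)) p - Zf μ f p + b * Zo μ p := by
    have a1 : ∫ x, ((f x * log (f x) * exp (lx x p) - f x * exp (lx x p)) + b * exp (lx x p)) ∂μ
        = ∫ x, (f x * log (f x) * exp (lx x p) - f x * exp (lx x p)) ∂μ
          + ∫ x, b * exp (lx x p) ∂μ := integral_add (i2.sub i1) i3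
    rw [a1, integral_sub i2 i1, integral_const_mul]
    unfold Zo Zf
    simp only [one_mul]
  have e2 : b * Zo μ p = Zf μ f p := by rw [Zf_eq_mul h f p, ← hb, mul_comm]
  have e3 : ∫ x, f x * exp (lx x p) * log b ∂μ = Zf μ f p * log b := by
    rw [integral_mul_const]; rfl
  have key2 : Zf μ f p * log b ≤ Zf μ (fun x => f x * log (f x)) p - Zf μ f p + b * Zo μ p := by
    rw [← e1, ← e3]; exact key
  rw [e2] at key2
  linarith only [key2]

end

section

variable {ρ : (Fin n → ℝ) → ℝ} [IsProbabilityMeasure (mu ρ)] {R : ℝ}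

theorem pd_sqrt {f : (Fin n → ℝ) → ℝ} (hf : P2 f) (i : Fin n) (x : Fin n → ℝ) :
    pd (fun x => √(f x)) i x ^ 2 = 1 / 4 * (pd f i x ^ 2 / f x) := by
  have hd : Differentiable ℝ f := (pos_cd hf).differentiable (by norm_num)
  have h0 := pos_pos hf x
  unfold pd
  have h2 := (hd x).hasFDerivAt.sqrt h0.ne'
  rw [h2.fderiv]
  simp only [_root_.smul_apply, smul_eq_mul]
  rw [mul_pow, div_pow, mul_pow, sq_sqrt h0.le]
  field_simp
  norm_num
  ring

/-- log-Sobolev inequality for posteriors in density form -/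
theorem lsi_pt (hρ : LCd ρ) (h : CSupp (mu ρ) R) {f : (Fin n → ℝ) → ℝ} (hf : P2 f)
    {p : ℝ × (Fin n → ℝ)} (hp : 0 < p.1) :
    Zf (mu ρ) (fun x => f x * log (f x)) p - Zf (mu ρ) f p * log (Mf (mu ρ) f p)
      ≤ 1 / (2 * p.1) * Zf (mu ρ) (fun x => (∑ i, pd f i x ^ 2) / f x) p := by
  have hg : ContDiff ℝ 2 fun x => √(f x) := (pos_cd hf).sqrt fun x => (pos_pos hf x).ne'
  obtain ⟨g, hgc, ⟨R', hR'⟩, hgf⟩ := exists_cutoff hg R
  have key := lsi_post hρ h hgc hR' p hp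
  have hae : ∀ᵐ x ∂(mu ρ), g x = √(f x) ∧ ∀ i, pd g i x = pd (fun x => √(f x)) i x := by
    filter_upwards [h.supp] with x hx using hgf x hx
  have e1 : Zf (mu ρ) (fun x => g x ^ 2 * log (g x ^ 2)) p
      = Zf (mu ρ) (fun x => f x * log (f x)) p := by
    apply Zf_congr_ae
    filter_upwards [hae] with x hx
    rw [hx.1, sq_sqrt (pos_pos hf x).le]
  have e2 : Zf (mu ρ) (fun x => g x ^ 2) p = Zf (mu ρ) f p := by
    apply Zf_congr_ae
    filter_upwards [hae] with x hx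
    rw [hx.1, sq_sqrt (pos_pos hf x).le]
  have e3 : Mf (mu ρ) (fun x => g x ^ 2) p = Mf (mu ρ) f p := by
    unfold Mf; rw [e2]
  have e4 : Zf (mu ρ) (fun x => ∑ i, pd g i x ^ 2) p
      = 1 / 4 * Zf (mu ρ) (fun x => (∑ i, pd f i x ^ 2) / f x) p := by
    rw [← Zf_const_mul]
    apply Zf_congr_ae
    filter_upwards [hae] with x hx
    rw [Finset.sum_div, Finset.mul_sum]
    refine Finset.sum_congr rfl fun i _ => ?_
    rw [hx.2, pd_sqrt hf]
  rw [e1, e2, e3, e4] at key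
  refine key.trans (le_of_eq ?_)
  field_simp
  ring

end

/-! ### the channel in the `EY` notation -/

section

variable {μ : Measure (Fin n → ℝ)} {R : ℝ}

theorem PH_zero (Φ : (Fin n → ℝ) → ℝ) (x : Fin n → ℝ) : PH 0 Φ x = Φ x := by
  unfold PH
  simp

theorem EY_zero (μ : Measure (Fin n → ℝ)) (Φ : (Fin n → ℝ) → ℝ) : EY μ 0 Φ = ∫ x, Φ x ∂μ := by
  unfold EY
  simp only [PH_zero]

/-- change of variables between `EY` and the channel notation -/
theorem EY_chan [IsProbabilityMeasure μ] (h : CSupp μ R) {G : ℝ × (Fin n → ℝ) → ℝ}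
    (hc : Continuous G) {s : ℝ} (hs : 0 < s) (hb : Bd ((√(1 / s)) ^ 2) G) :
    EY μ s (fun y => G (1 / s, (1 / s) • y))
      = ∫ z, Zo μ ((√(1 / s)) ^ 2, √(1 / s) • z) * G ((√(1 / s)) ^ 2, √(1 / s) • z) ∂(gsn n) := by
  set r := √(1 / s) with hr
  have hr2 : r ^ 2 = 1 / s := sq_sqrt (by positivity)
  obtain ⟨C, hC0, hC⟩ := hb
  have hE : EG1 fun w : Fin n → ℝ => G (r ^ 2, w) := by
    obtain ⟨D, hD0, hD⟩ := EG1.const (n := n) C
    refine ⟨D, hD0, fun z => ?_⟩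
    exact ((hC (r ^ 2, z) (sq_nonneg _) le_rfl).trans (le_abs_self C)).trans (hD z)
  have hm : Measurable fun w : Fin n → ℝ => G (r ^ 2, w) :=
    (hc.comp (by fun_prop : Continuous fun w : Fin n → ℝ => ((r ^ 2, w) : ℝ × (Fin n → ℝ)))).measurable
  have key := tower h (Adm.const μ 1) hm hE r
  have e0 : Zf μ (fun _ => (1 : ℝ)) = Zo μ := rfl
  rw [e0] at key
  rw [key]
  unfold EY PH
  congr 1
  funext x
  rw [one_mul]
  congr 1
  funext z
  have e1 : (1 / s) • (x + √s • z) = r ^ 2 • x + r • z := by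
    rw [smul_add, smul_smul, hr2]
    congr 2
    rw [hr, Real.sqrt_div zero_le_one, Real.sqrt_one]
    have h1 : √s ≠ 0 := (Real.sqrt_pos.2 hs).ne'
    have h2 : √s * √s = s := Real.mul_self_sqrt hs.le
    field_simp
    linarith
  change G (1 / s, (1 / s) • (x + √s • z)) = _
  rw [e1, hr2]

variable [IsProbabilityMeasure μ]

theorem HE_UP (h : CSupp μ R) {f : (Fin n → ℝ) → ℝ} (hf : P2 f) {s : ℝ} (hs : 0 < s) :
    HE μ s (UP μ s f) = ∫ z, Zo μ ((√(1 / s)) ^ 2, √(1 / s) • z) *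
      (Mf μ f ((√(1 / s)) ^ 2, √(1 / s) • z) * log (Mf μ f ((√(1 / s)) ^ 2, √(1 / s) • z)))
        ∂(gsn n) := by
  obtain ⟨ε, hε, h1⟩ := hf.lb
  have hB2 := B2_MlogM h (pos_adm h hf) hε (Eventually.of_forall h1) ((√(1 / s)) ^ 2)
  exact EY_chan h (G := fun p => Mf μ f p * log (Mf μ f p)) hB2.cd.continuous hs hB2.bd0

/-- integrability along the channel -/
theorem int_Zf (h : CSupp μ R) {g : (Fin n → ℝ) → ℝ} (hg : Adm μ g) (r : ℝ) :
    Integrable (fun z => Zf μ g (r ^ 2, r • z)) (gsn n) :=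
  (eg1_Zf h hg r).int ((cont_Zf h hg).comp (cpath r))

theorem int_Zo_mul (h : CSupp μ R) {G : ℝ × (Fin n → ℝ) → ℝ} (hc : Continuous G) {r : ℝ}
    (hb : Bd (r ^ 2) G) : Integrable (fun z => Zo μ (r ^ 2, r • z) * G (r ^ 2, r • z)) (gsn n) :=
  ((eg1_Zf h (Adm.const μ 1) r).mul (eg1_of_Bd hb)).int
    (((cont_Zf h (Adm.const μ 1)).comp (cpath r)).mul (hc.comp (cpath r)))

/-- **C4** (Jensen) -/
theorem c4 (h : CSupp μ R) {f : (Fin n → ℝ) → ℝ} (hf : P2 f) {s : ℝ} (hs : 0 < s) :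
    HE μ s (UP μ s f) ≤ HE μ 0 f := by
  obtain ⟨ε, hε, h1⟩ := hf.lb
  have hB2 := B2_MlogM h (pos_adm h hf) hε (Eventually.of_forall h1) ((√(1 / s)) ^ 2)
  rw [HE_UP h hf hs]
  unfold HE
  rw [EY_zero, ← tower_one h (pos_adm_log h hf) (√(1 / s))]
  apply integral_mono (int_Zo_mul h (G := fun p => Mf μ f p * log (Mf μ f p))
    hB2.cd.continuous hB2.bd0) (int_Zf h (pos_adm_log h hf) _)
  intro z
  have := jensen_pt h hf ((√(1 / s)) ^ 2, √(1 / s) • z)
  rw [Zf_eq_mul h f] at this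
  change Zo μ ((√(1 / s)) ^ 2, √(1 / s) • z) *
      (Mf μ f ((√(1 / s)) ^ 2, √(1 / s) • z) * log (Mf μ f ((√(1 / s)) ^ 2, √(1 / s) • z))) ≤ _
  rw [← mul_assoc]
  exact this

end

section

variable {ρ : (Fin n → ℝ) → ℝ} [IsProbabilityMeasure (mu ρ)] {R : ℝ}

/-- **C1** -/
theorem c1 (hρ : LCd ρ) (h : CSupp (mu ρ) R) {f : (Fin n → ℝ) → ℝ} (hf : P2 f) {s : ℝ}
    (hs : 0 < s) :
    HE (mu ρ) 0 f - s / 2 * FI (mu ρ) 0 f ≤ HE (mu ρ) s (UP (mu ρ) s f) := by
  obtain ⟨ε, hε, h1⟩ := hf.lb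
  have hB2 := B2_MlogM h (pos_adm h hf) hε (Eventually.of_forall h1) ((√(1 / s)) ^ 2)
  rw [HE_UP h hf hs]
  unfold HE FI
  rw [EY_zero, EY_zero, ← tower_one h (pos_adm_log h hf) (√(1 / s)),
    ← tower_one h (pos_adm_fi h hf) (√(1 / s))]
  have i1 := int_Zf h (pos_adm_log h hf) (√(1 / s))
  have i2 := int_Zo_mul h (r := √(1 / s)) (G := fun p => Mf (mu ρ) f p * log (Mf (mu ρ) f p))
    hB2.cd.continuous hB2.bd0
  have i3 := int_Zf h (pos_adm_fi h hf) (√(1 / s))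
  have hr2 : (√(1 / s)) ^ 2 = 1 / s := sq_sqrt (by positivity)
  have key := integral_mono (i1.sub i2) (i3.const_mul (s / 2)) (fun z => by
    have h2 := lsi_pt hρ h hf (p := ((√(1 / s)) ^ 2, √(1 / s) • z)) (by
      change 0 < (√(1 / s)) ^ 2
      rw [hr2]; (clear * - hs; positivity))
    rw [Zf_eq_mul h f] at h2
    have e : 1 / (2 * (((√(1 / s)) ^ 2, √(1 / s) • z) : ℝ × (Fin n → ℝ)).1) = s / 2 := by
      change 1 / (2 * (√(1 / s)) ^ 2) = s / 2
      rw [hr2]; field_simp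
    rw [e, mul_assoc] at h2
    exact h2)
  rw [integral_const_mul] at key
  have e2 := integral_sub i1 i2
  have key2 : ∫ z, Zf (mu ρ) (fun x => f x * log (f x)) ((√(1 / s)) ^ 2, √(1 / s) • z) ∂(gsn n)
      - ∫ z, Zo (mu ρ) ((√(1 / s)) ^ 2, √(1 / s) • z) *
      (Mf (mu ρ) f ((√(1 / s)) ^ 2, √(1 / s) • z) *
        log (Mf (mu ρ) f ((√(1 / s)) ^ 2, √(1 / s) • z))) ∂(gsn n)
      ≤ s / 2 * ∫ z, Zf (mu ρ) (fun x => (∑ i, pd f i x ^ 2) / f x)
        ((√(1 / s)) ^ 2, √(1 / s) • z) ∂(gsn n) := by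
    rw [← e2]; exact key
  linarith only [key2]

end

end Vale.Agent.P245.LS.UpA

namespace Vale.Agent.P245.LS

/-- **Module C** -/
theorem thC (n : ℕ) : StC n :=
  thC_of n (fun ρ R hρ hp h p hp0 u => UpA.c5' hρ h hp0 u)
    (fun ρ R hρ hp h f hf _ s hs => UpA.c1 hρ h hf hs)
    (fun ρ R hρ hp h f hf _ s hs => UpA.c4 h hf hs)

end Vale.Agent.P245.LS
end
end

section

section

open MeasureTheory Real Set Filter Topology
open scoped ENNReal ContDiff

/-! # The heat semigroup and the lift `UP` as paths of levels; the score of `p_σ` -/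

namespace Vale.Agent.P245.E1

open LS LS.Down

variable {n : ℕ}

/-! ### the heat semigroup (K4) -/

theorem UE_PH {N : (Fin n → ℝ) → ℝ} (hN : SB N) (c : ℝ) (I : Set ℝ) :
    UE I (fun σ => PH (c - σ) N) := by
  obtain ⟨C, hC0, hC⟩ := cbd_bound (sb_cbd hN)
  refine UE.of_bdd (K := C) ?_ hC0 fun σ _ y => PH_bound hC _ y
  exact ((PH_cont (sb_cbd hN)).comp (f := fun p : ℝ × (Fin n → ℝ) => (c - p.1, p.2))
    (by fun_prop)).continuousOn

theorem hasDerivAt_PH {N : (Fin n → ℝ) → ℝ} (hN : SB N) {c σ : ℝ} (hσ : σ < c)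
    (y : Fin n → ℝ) : HasDerivAt (fun σ => PH (c - σ) N y)
      (-(1 / 2) * ∑ i, PH (c - σ) (pd (pd N i) i) y) σ := by
  have h1 := path hN (s := c - σ + 1) (r := 1) one_pos (by linarith) y 0
  simp only [smul_zero, add_zero, Pi.zero_apply, zero_mul, Finset.sum_const_zero, one_mul] at h1
  have h2 : HasDerivAt (fun τ : ℝ => √(1 + (τ - σ))) (1 / 2) σ := by
    have h3 : HasDerivAt (fun τ : ℝ => 1 + (τ - σ)) 1 σ := by
      simpa using ((hasDerivAt_id σ).sub_const σ).const_add 1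
    have h4 := h3.sqrt (by simp)
    simpa only [one_div, sub_self, add_zero, sqrt_one, mul_one] using h4
  have h5 : HasDerivAt (fun r : ℝ => PH (c - σ + 1 - r ^ 2) N y)
      (-∑ i, PH (c - σ + 1 - 1 ^ 2) (pd (pd N i) i) y) ((fun τ : ℝ => √(1 + (τ - σ))) σ) := by
    simpa only [one_pow, add_sub_cancel_right, sub_self, add_zero, sqrt_one] using h1
  have h6 := h5.comp σ h2
  have e : (fun τ => PH (c - τ) N y) =ᶠ[𝓝 σ]
      (fun r : ℝ => PH (c - σ + 1 - r ^ 2) N y) ∘ (fun τ : ℝ => √(1 + (τ - σ))) := by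
    have : ∀ᶠ τ in 𝓝 σ, σ - 1 < τ := lt_mem_nhds (by linarith only [])
    filter_upwards [this] with τ hτ
    simp only [Function.comp_apply]
    rw [Real.sq_sqrt (by linarith only [hτ])]
    congr 1; ring
  refine (h6.congr_of_eventuallyEq e).congr_deriv ?_
  have e2 : c - σ + 1 - 1 ^ 2 = c - σ := by ring
  rw [e2]
  ring

/-- the heat semigroup run backwards -/
theorem H1_PH {N : (Fin n → ℝ) → ℝ} (hN : SB N) (c : ℝ) :
    H1 (Iio c) (fun σ => PH (c - σ) N) (fun σ y => -(1 / 2) * ∑ i, PH (c - σ) (pd (pd N i) i) y)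
      (fun i σ => PH (c - σ) (pd N i)) where
  uf := UE_PH hN c _
  ud := (UE.sum _ fun i _ => UE_PH (sb_pd (sb_pd hN i) i) c _).const_mul _
  ua := fun i => UE_PH (sb_pd hN i) c _
  fd := fun _ _ y => PH_hasFDerivAt hN _ y
  td := fun _ hσ y => hasDerivAt_PH hN hσ y

/-! ### the lift `UP` from level `0` (K3) -/

/-- the gradient of `UP μ σ g` -/
noncomputable def gU (μ : Measure (Fin n → ℝ)) (g : (Fin n → ℝ) → ℝ) (i : Fin n) (σ : ℝ)
    (y : Fin n → ℝ) : ℝ :=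
  1 / σ * (UP μ σ (fun x => x i * g x) y - UP μ σ g y * UP μ σ (fun x => x i) y)

/-- the Hessian of `UP μ σ g` -/
noncomputable def hU (μ : Measure (Fin n → ℝ)) (g : (Fin n → ℝ) → ℝ) (i j : Fin n) (σ : ℝ)
    (y : Fin n → ℝ) : ℝ :=
  1 / σ * (gU μ (fun x => x i * g x) j σ y - (gU μ g j σ y * UP μ σ (fun x => x i) y
    + UP μ σ g y * gU μ (fun x => x i) j σ y))

/-- the score `∂_i log p_σ` of `p_σ = μ * γ_σ` -/
noncomputable def sc (μ : Measure (Fin n → ℝ)) (i : Fin n) (σ : ℝ) (y : Fin n → ℝ) : ℝ :=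
  (UP μ σ (fun x => x i) y - y i) / σ

/-- minus the Hessian of `log p_σ` -/
noncomputable def Pv (μ : Measure (Fin n → ℝ)) (i j : Fin n) (σ : ℝ) (y : Fin n → ℝ) : ℝ :=
  ((if j = i then 1 else 0) - gU μ (fun x => x i) j σ y) / σ

/-- the time derivative of `UP μ σ g` -/
noncomputable def tU (μ : Measure (Fin n → ℝ)) (g : (Fin n → ℝ) → ℝ) (σ : ℝ)
    (y : Fin n → ℝ) : ℝ :=
  1 / 2 * ∑ i, hU μ g i i σ y + ∑ i, sc μ i σ y * gU μ g i σ y

variable {μ : Measure (Fin n → ℝ)} [IsProbabilityMeasure μ] {R : ℝ}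

theorem cont_path_inv :
    ContinuousOn (fun p : ℝ × (Fin n → ℝ) => ((1 / p.1, (1 / p.1) • p.2) : ℝ × (Fin n → ℝ)))
      (Ioi 0 ×ˢ univ) := by
  have h1 : ContinuousOn (fun p : ℝ × (Fin n → ℝ) => 1 / p.1) (Ioi 0 ×ˢ univ) :=
    continuousOn_const.div continuousOn_fst fun p hp => (ne_of_gt hp.1)
  exact h1.prodMk (h1.smul continuousOn_snd)

theorem UE_UP (h : CSupp μ R) {g : (Fin n → ℝ) → ℝ} (hg : Adm μ g) :
    UE (Ioi 0) (fun σ => UP μ σ g) := by
  obtain ⟨G, hG0, hG⟩ := hg.bdd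
  exact UE.of_bdd (K := G) ((cont_Mf h hg).comp_continuousOn cont_path_inv) hG0
    fun σ _ y => Mf_abs_le h hg hG _

theorem UE_gU (h : CSupp μ R) {g : (Fin n → ℝ) → ℝ} (hg : Adm μ g) (i : Fin n) :
    UE (Ioi 0) (gU μ g i) := by
  have h1 : UE (n := n) (Ioi 0) (fun σ _ => 1 / σ) :=
    UE.time (continuousOn_const.div continuousOn_id fun σ hσ => ne_of_gt hσ)
  exact h1.mul ((UE_UP h (hg.xmul h i)).sub ((UE_UP h hg).mul (UE_UP h (h.adm_coord i))))

theorem UE_hU (h : CSupp μ R) {g : (Fin n → ℝ) → ℝ} (hg : Adm μ g) (i j : Fin n) :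
    UE (Ioi 0) (hU μ g i j) := by
  have h1 : UE (n := n) (Ioi 0) (fun σ _ => 1 / σ) :=
    UE.time (continuousOn_const.div continuousOn_id fun σ hσ => ne_of_gt hσ)
  exact h1.mul ((UE_gU h (hg.xmul h i) j).sub (((UE_gU h hg j).mul (UE_UP h (h.adm_coord i))).add
    ((UE_UP h hg).mul (UE_gU h (h.adm_coord i) j))))

theorem UE_sc (h : CSupp μ R) (i : Fin n) : UE (Ioi 0) (sc μ i) := by
  have h1 : UE (n := n) (Ioi 0) (fun σ _ => σ⁻¹) :=
    UE.time (continuousOn_id.inv₀ fun σ hσ => ne_of_gt hσ)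
  exact (((UE_UP h (h.adm_coord i)).sub (UE.coord i)).mul h1).congr fun σ _ y => by
    unfold sc; rw [div_eq_mul_inv]

theorem UE_tU (h : CSupp μ R) {g : (Fin n → ℝ) → ℝ} (hg : Adm μ g) :
    UE (Ioi 0) (tU μ g) :=
  ((UE.sum _ fun i _ => UE_hU h hg i i).const_mul _).add
    (UE.sum _ fun i _ => (UE_sc h i).mul (UE_gU h hg i))

theorem gU_eq (h : CSupp μ R) {g : (Fin n → ℝ) → ℝ} (hg : Adm μ g) (i : Fin n) (σ : ℝ)
    (y : Fin n → ℝ) : gU μ g i σ y = 1 / σ * dI i (Mf μ g) (1 / σ, (1 / σ) • y) := by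
  rw [dI_Mf h hg]; rfl

theorem hU_eq (h : CSupp μ R) {g : (Fin n → ℝ) → ℝ} (hg : Adm μ g) (i j : Fin n) (σ : ℝ)
    (y : Fin n → ℝ) :
    hU μ g i j σ y = (1 / σ) ^ 2 * dI j (dI i (Mf μ g)) (1 / σ, (1 / σ) • y) := by
  have e : dI j (dI i (Mf μ g)) (1 / σ, (1 / σ) • y) =
      dI j (Mf μ (fun x => x i * g x)) (1 / σ, (1 / σ) • y) -
      (Mf μ g (1 / σ, (1 / σ) • y) * dI j (Mf μ fun x => x i) (1 / σ, (1 / σ) • y)
      + Mf μ (fun x => x i) (1 / σ, (1 / σ) • y) * dI j (Mf μ g) (1 / σ, (1 / σ) • y)) := by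
    rw [dI_Mf h hg i]
    have hF := diff_Mf h (hg.xmul h i)
    have hG := diff_Mf h hg
    have hH := diff_Mf h (h.adm_coord i)
    have e1 : (fun p => Mf μ (fun x => x i * g x) p - Mf μ g p * Mf μ (fun x => x i) p)
        = fun p => Mf μ (fun x => x i * g x) p + (-1) * (Mf μ g p * Mf μ (fun x => x i) p) := by
      funext p; ring
    have hGH : Differentiable ℝ fun p => Mf μ g p * Mf μ (fun x => x i) p := hG.mul hH
    rw [e1, dI_add (F := Mf μ (fun x => x i * g x))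
      (G := fun p => (-1) * (Mf μ g p * Mf μ (fun x => x i) p)) hF (hGH.const_mul (-1)),
      dI_const_mul (F := fun p => Mf μ g p * Mf μ (fun x => x i) p) hGH, dI_mul hG hH]
    simp only
    ring
  unfold hU
  rw [gU_eq h (hg.xmul h i), gU_eq h hg, gU_eq h (h.adm_coord i), e]
  unfold UP
  ring

theorem fd_UP (h : CSupp μ R) {g : (Fin n → ℝ) → ℝ} (hg : Adm μ g) (σ : ℝ) (y : Fin n → ℝ) :
    HasFDerivAt (UP μ σ g) (lf fun i => gU μ g i σ y) y := by
  have hd : Differentiable ℝ (UP μ σ g) := (UP_sb h hg σ).differentiable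
  have h1 := hasFDerivAt_lf (hd y)
  have e : (fun i => pd (UP μ σ g) i y) = fun i => gU μ g i σ y := by
    funext i
    exact congrFun (pd_Mf_scale h hg (1 / σ) (1 / σ) i) y
  rwa [e] at h1

theorem td_UP (h : CSupp μ R) {g : (Fin n → ℝ) → ℝ} (hg : Adm μ g) {σ : ℝ} (hσ : 0 < σ)
    (y : Fin n → ℝ) : HasDerivAt (fun σ => UP μ σ g y) (tU μ g σ y) σ := by
  have hd := (diff_Mf h hg (1 / σ, (1 / σ) • y)).hasFDerivAt
  have h1 : HasDerivAt (fun σ : ℝ => 1 / σ) (-(1 / σ ^ 2)) σ := by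
    simpa [one_div] using hasDerivAt_inv hσ.ne'
  have h2 : HasDerivAt (fun σ : ℝ => ((1 / σ, (1 / σ) • y) : ℝ × (Fin n → ℝ)))
      (-(1 / σ ^ 2), (-(1 / σ ^ 2)) • y) σ := h1.prodMk (h1.smul_const y)
  have h3 := hd.comp_hasDerivAt σ h2
  refine h3.congr_deriv ?_
  rw [fderiv_expand (Mf μ g) (1 / σ, (1 / σ) • y)]
  have hL := Lop_Mf h hg (1 / σ, (1 / σ) • y)
  unfold Lop Dop at hL
  unfold tU
  simp_rw [hU_eq h hg, gU_eq h hg]
  rw [← Finset.mul_sum]
  have hS : dS (Mf μ g) (1 / σ, (1 / σ) • y)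
      = -(1 / 2 * ∑ i, dI i (dI i (Mf μ g)) (1 / σ, (1 / σ) • y))
        - ∑ i, Mf μ (fun x => x i) (1 / σ, (1 / σ) • y) * dI i (Mf μ g) (1 / σ, (1 / σ) • y) := by
    linarith only [hL]
  rw [hS]
  have e2 : ∑ i, sc μ i σ y * (1 / σ * dI i (Mf μ g) (1 / σ, (1 / σ) • y))
      = 1 / σ ^ 2 * ∑ i, Mf μ (fun x => x i) (1 / σ, (1 / σ) • y)
          * dI i (Mf μ g) (1 / σ, (1 / σ) • y)
        - 1 / σ ^ 2 * ∑ i, y i * dI i (Mf μ g) (1 / σ, (1 / σ) • y) := by
    rw [Finset.mul_sum, Finset.mul_sum, ← Finset.sum_sub_distrib]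
    apply Finset.sum_congr rfl
    intro i _
    unfold sc UP
    (clear * - hσ; field_simp)
  rw [e2]
  have e3 : ∑ i, (-(1 / σ ^ 2) • y) i * dI i (Mf μ g) (1 / σ, (1 / σ) • y)
      = -(1 / σ ^ 2) * ∑ i, y i * dI i (Mf μ g) (1 / σ, (1 / σ) • y) := by
    rw [Finset.mul_sum]
    apply Finset.sum_congr rfl
    intro i _
    simp only [Pi.smul_apply, smul_eq_mul]
    ring
  rw [e3]
  ring

/-- the lift as a path of levels -/
theorem H1_UP (h : CSupp μ R) {g : (Fin n → ℝ) → ℝ} (hg : Adm μ g) :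
    H1 (Ioi 0) (fun σ => UP μ σ g) (tU μ g) (gU μ g) where
  uf := UE_UP h hg
  ud := UE_tU h hg
  ua := fun i => UE_gU h hg i
  fd := fun σ _ y => fd_UP h hg σ y
  td := fun _ hσ y => td_UP h hg hσ y

/-- time derivative of the gradient of the lift -/
noncomputable def tgU (μ : Measure (Fin n → ℝ)) (g : (Fin n → ℝ) → ℝ) (i : Fin n) (σ : ℝ)
    (y : Fin n → ℝ) : ℝ :=
  1 / σ * (tU μ (fun x => x i * g x) σ y - (tU μ g σ y * UP μ σ (fun x => x i) y
    + UP μ σ g y * tU μ (fun x => x i) σ y)) - 1 / σ * gU μ g i σ y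

theorem H1_inv_time : H1 (n := n) (Ioi 0) (fun σ _ => 1 / σ) (fun σ _ => -(1 / σ ^ 2))
    (fun _ _ _ => 0) :=
  H1.time (c := fun σ => 1 / σ) (c' := fun σ => -(1 / σ ^ 2))
    ((continuousOn_const.div (continuousOn_id.pow 2) fun σ hσ => by
      have : (0 : ℝ) < σ := hσ
      exact (pow_pos this 2).ne').neg)
    (fun σ hσ => by simpa only [one_div] using hasDerivAt_inv (ne_of_gt hσ))

/-- the gradient of the lift as a path of levels -/
theorem H1_gU (h : CSupp μ R) {g : (Fin n → ℝ) → ℝ} (hg : Adm μ g) (i : Fin n) :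
    H1 (Ioi 0) (gU μ g i) (tgU μ g i) (hU μ g i) := by
  have h1 := H1_UP h (hg.xmul h i)
  have h2 := H1_UP h hg
  have h3 := H1_UP h (h.adm_coord i)
  refine ((H1_inv_time (n := n)).mul (h1.sub (h2.mul h3))).congr isOpen_Ioi
    (fun σ hσ y => rfl) (fun σ hσ y => ?_) (fun j σ hσ y => ?_)
  · have hσ' : (σ : ℝ) ≠ 0 := ne_of_gt hσ
    unfold tgU gU
    field_simp
    ring
  · unfold hU
    ring

/-! ### the score -/

/-- time derivative of the score -/
noncomputable def tsc (μ : Measure (Fin n → ℝ)) (i : Fin n) (σ : ℝ) (y : Fin n → ℝ) : ℝ :=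
  1 / 2 * ∑ j, hU μ (fun x => x i) j j σ y / σ - ∑ j, sc μ j σ y * Pv μ i j σ y

theorem H1_sc (h : CSupp μ R) (i : Fin n) :
    H1 (Ioi 0) (sc μ i) (tsc μ i) (fun j σ y => -Pv μ i j σ y) := by
  have h1 := H1_UP h (h.adm_coord i)
  refine ((H1_inv_time (n := n)).mul (h1.sub (H1.coord i))).congr isOpen_Ioi
    (fun σ hσ y => ?_) (fun σ hσ y => ?_) (fun j σ hσ y => ?_)
  · unfold sc; rw [div_eq_mul_inv]; ring
  · have hσ' : (σ : ℝ) ≠ 0 := ne_of_gt hσ
    unfold tsc tU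
    rw [← Finset.sum_div]
    have e : ∑ j, sc μ j σ y * Pv μ i j σ y
        = sc μ i σ y / σ - (∑ j, sc μ j σ y * gU μ (fun x => x i) j σ y) / σ := by
      rw [Finset.sum_div]
      have e1 : sc μ i σ y / σ = ∑ j, sc μ j σ y * (if j = i then 1 else 0) / σ := by
        simp only [mul_ite, mul_one, mul_zero, ite_div, zero_div, Finset.sum_ite_eq', Finset.mem_univ, ↓reduceIte]
      rw [e1, ← Finset.sum_sub_distrib]
      apply Finset.sum_congr rfl
      intro j _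
      unfold Pv
      ring
    rw [e]
    unfold sc
    field_simp
    ring
  · unfold Pv
    ring

theorem H1_Pv (h : CSupp μ R) (i j : Fin n) :
    H1 (Ioi 0) (Pv μ i j) (fun σ y => -(1 / σ ^ 2) * ((if j = i then 1 else 0)
      - gU μ (fun x => x i) j σ y) - 1 / σ * tgU μ (fun x => x i) j σ y)
      (fun l σ y => -(1 / σ * hU μ (fun x => x i) j l σ y)) := by
  have h1 := H1_gU h (h.adm_coord i) j
  refine ((H1_inv_time (n := n)).mul ((H1.const (if j = i then 1 else 0)).sub h1)).congr isOpen_Ioi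
    (fun σ hσ y => ?_) (fun σ hσ y => ?_) (fun l σ hσ y => ?_)
  · unfold Pv; rw [div_eq_mul_inv]; ring
  · ring
  · ring

/-! ### the quadratic form of the Hessian -/

/-- the bilinear form `⟨P u, w⟩` -/
noncomputable def Pq (μ : Measure (Fin n → ℝ)) (σ : ℝ) (y u w : Fin n → ℝ) : ℝ :=
  ∑ i, ∑ j, Pv μ i j σ y * u i * w j

theorem gU_coord (h : CSupp μ R) (i j : Fin n) (σ : ℝ) (y : Fin n → ℝ) :
    gU μ (fun x => x i) j σ y = 1 / σ * Am μ (1 / σ, (1 / σ) • y) j i := by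
  rw [gU_eq h (h.adm_coord i), dI_Mf_coord h]

theorem Pv_symm (h : CSupp μ R) (i j : Fin n) (σ : ℝ) (y : Fin n → ℝ) :
    Pv μ i j σ y = Pv μ j i σ y := by
  unfold Pv
  rw [gU_coord h, gU_coord h, Am_symm (μ := μ) _ j i]
  simp only [eq_comm (a := i) (b := j)]

theorem Pq_symm (h : CSupp μ R) (σ : ℝ) (y u w : Fin n → ℝ) : Pq μ σ y u w = Pq μ σ y w u := by
  unfold Pq
  rw [Finset.sum_comm]
  apply Finset.sum_congr rfl; intro j _
  apply Finset.sum_congr rfl; intro i _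
  rw [Pv_symm h i j]; ring

theorem Pq_self (h : CSupp μ R) (σ : ℝ) (y u : Fin n → ℝ) :
    Pq μ σ y u u = 1 / σ * ∑ i, u i ^ 2
      - 1 / σ ^ 2 * Vf μ (fun x => ∑ i, u i * x i) (1 / σ, (1 / σ) • y) := by
  rw [← quad_Am h]
  unfold Pq Pv
  simp_rw [gU_coord h]
  have e : ∀ i j, (((if j = i then (1 : ℝ) else 0) - 1 / σ * Am μ (1 / σ, (1 / σ) • y) j i) / σ)
      * u i * u j = 1 / σ * ((if j = i then u i * u j else 0))
        - 1 / σ ^ 2 * (u j * Am μ (1 / σ, (1 / σ) • y) j i * u i) := by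
    intro i j
    split_ifs <;> ring
  simp_rw [e, Finset.sum_sub_distrib, ← Finset.mul_sum]
  congr 1
  simp only [one_div, Finset.sum_ite_eq', Finset.mem_univ, ↓reduceIte, sq]

theorem Pq_le (h : CSupp μ R) (σ : ℝ) (y u : Fin n → ℝ) :
    Pq μ σ y u u ≤ 1 / σ * ∑ i, u i ^ 2 := by
  rw [Pq_self h]
  have : 0 ≤ Vf μ (fun x => ∑ i, u i * x i) (1 / σ, (1 / σ) • y) := Vf_nonneg h (Adm.lin h u) _
  have h2 : 0 ≤ 1 / σ ^ 2 * Vf μ (fun x => ∑ i, u i * x i) (1 / σ, (1 / σ) • y) := by positivity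
  linarith only [h2]

theorem Pq_smul_add (σ : ℝ) (y u w : Fin n → ℝ) (t : ℝ) (h : CSupp μ R) :
    Pq μ σ y (u + t • w) (u + t • w)
      = Pq μ σ y u u + 2 * t * Pq μ σ y u w + t ^ 2 * Pq μ σ y w w := by
  have e1 : Pq μ σ y (u + t • w) (u + t • w) = Pq μ σ y u u + t * Pq μ σ y u w
      + t * Pq μ σ y w u + t ^ 2 * Pq μ σ y w w := by
    unfold Pq
    simp_rw [Finset.mul_sum, ← Finset.sum_add_distrib]
    apply Finset.sum_congr rfl; intro i _
    apply Finset.sum_congr rfl; intro j _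
    simp only [Pi.add_apply, Pi.smul_apply, smul_eq_mul]
    ring
  rw [e1, Pq_symm h σ y w u]; ring

/-- Cauchy-Schwarz for a nonnegative quadratic polynomial -/
theorem cs_of_quad {A B C : ℝ} (h : ∀ t : ℝ, 0 ≤ A + 2 * t * B + t ^ 2 * C) : B ^ 2 ≤ A * C := by
  have hC : 0 ≤ C := by
    by_contra hC
    push Not at hC
    have h1 := h (|A| + |B| + 1 + (|A| + 2 * |B| + 1) / (-C))
    set t := |A| + |B| + 1 + (|A| + 2 * |B| + 1) / (-C) with ht
    have hC' : 0 < -C := by linarith only [hC]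
    have ht1 : 1 ≤ t := by
      rw [ht]
      have : 0 ≤ (|A| + 2 * |B| + 1) / (-C) := by (clear * - hC'; positivity)
      linarith only [this, abs_nonneg A, abs_nonneg B]
    have ht2 : (|A| + 2 * |B| + 1) ≤ t * (-C) := by
      have : (|A| + 2 * |B| + 1) / (-C) ≤ t := by
        rw [ht]; linarith only [abs_nonneg A, abs_nonneg B]
      rwa [div_le_iff₀ hC'] at this
    have h3 : t ^ 2 * C ≤ -(t * (|A| + 2 * |B| + 1)) := by (by_contra nlg; linarith only [nlg, mul_nonneg (le_of_lt (sub_pos.2 (not_le.1 nlg))) (sub_nonneg.2 ht1), mul_nonneg (sq_nonneg (t : ℝ)) (sub_nonneg.2 ht2)])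
    have h4 : 2 * t * B ≤ 2 * t * |B| := by
      have := le_abs_self B
      nlinarith only [this, ht1]
    have h5 : A ≤ t * |A| := by linarith only [mul_nonneg (sub_nonneg.2 ht1) (sub_nonneg.2 (abs_nonneg A)), le_abs_self A]
    linarith
  rcases hC.eq_or_lt with hC0 | hC0
  · rw [← hC0]
    have : B = 0 := by
      by_contra hB
      have h1 := h (-(A + 1) / (2 * B))
      have e : A + 2 * (-(A + 1) / (2 * B)) * B + (-(A + 1) / (2 * B)) ^ 2 * C = -1 := by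
        rw [← hC0]; field_simp; ring
      linarith
    rw [this]; simp
  · have h1 := h (-B / C)
    have e : A + 2 * (-B / C) * B + (-B / C) ^ 2 * C = A - B ^ 2 / C := by
      field_simp; ring
    rw [e] at h1
    have h2 : B ^ 2 / C ≤ A := by linarith only [h1]
    rwa [div_le_iff₀ hC0] at h2

section

variable {ρ : (Fin n → ℝ) → ℝ} [IsProbabilityMeasure (mu ρ)]

theorem Pq_nonneg (hρ : LCd ρ) (h : CSupp (mu ρ) R) {σ : ℝ} (hσ : 0 < σ) (y u : Fin n → ℝ) :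
    0 ≤ Pq (mu ρ) σ y u u := by
  rw [Pq_self h]
  have h1 := UpA.c5' hρ h (p := (1 / σ, (1 / σ) • y)) (by positivity) u
  have e : 1 / (((1 / σ, (1 / σ) • y) : ℝ × (Fin n → ℝ)).1) = σ := by simp
  rw [e] at h1
  have h2 := mul_le_mul_of_nonneg_left h1 (by positivity : 0 ≤ 1 / σ ^ 2)
  have e2 : 1 / σ ^ 2 * (σ * ∑ i, u i ^ 2) = 1 / σ * ∑ i, u i ^ 2 := by
    field_simp
  rw [e2] at h2
  linarith only [h2]

theorem Pq_cs (hρ : LCd ρ) (h : CSupp (mu ρ) R) {σ : ℝ} (hσ : 0 < σ) (y u w : Fin n → ℝ) :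
    Pq (mu ρ) σ y u w ^ 2 ≤ Pq (mu ρ) σ y u u * Pq (mu ρ) σ y w w := by
  apply cs_of_quad
  intro t
  rw [← Pq_smul_add σ y u w t h]
  exact Pq_nonneg hρ h hσ y _

/-- `|P u|² ≤ ⟨P u, u⟩ / σ` -/
theorem Pu_sq_le (hρ : LCd ρ) (h : CSupp (mu ρ) R) {σ : ℝ} (hσ : 0 < σ) (y u : Fin n → ℝ) :
    ∑ j, (∑ i, Pv (mu ρ) i j σ y * u i) ^ 2 ≤ 1 / σ * Pq (mu ρ) σ y u u := by
  set w : Fin n → ℝ := fun j => ∑ i, Pv (mu ρ) i j σ y * u i with hw
  have e : Pq (mu ρ) σ y u w = ∑ j, w j ^ 2 := by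
    unfold Pq
    rw [Finset.sum_comm]
    apply Finset.sum_congr rfl; intro j _
    rw [← Finset.sum_mul, sq]
  have h1 := Pq_cs hρ h hσ y u w
  have h2 := Pq_le h σ y w
  have h3 := Pq_nonneg hρ h hσ y u
  rw [e] at h1
  set S := ∑ j, w j ^ 2 with hS
  have hS0 : 0 ≤ S := Finset.sum_nonneg fun j _ => sq_nonneg _
  have h4 : S * S ≤ (1 / σ * Pq (mu ρ) σ y u u) * S := by
    have := mul_le_mul_of_nonneg_left h2 h3
    linarith
  rcases hS0.eq_or_lt with h0 | h0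
  · rw [← h0]; (clear * - hσ h3; positivity)
  · exact le_of_mul_le_mul_right h4 h0

end

end Vale.Agent.P245.E1
end
end

section

section

open MeasureTheory Real Set Filter Topology
open scoped ENNReal ContDiff

/-! Regularity in the level of the lift `UL` (statement). -/

namespace Vale.Agent.P245.E1

open LS

/-- gradient of `UL μ s ρ h` -/
noncomputable def gL {n : ℕ} (μ : Measure (Fin n → ℝ)) (s : ℝ) (h : (Fin n → ℝ) → ℝ) (i : Fin n)
    (ρ : ℝ) (y : Fin n → ℝ) : ℝ :=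
  1 / ρ * (UL μ s ρ (fun y' => h y' * XB μ s i y') y - UL μ s ρ h y * XB μ ρ i y
    + s * UL μ s ρ (pd h i) y)

/-- time derivative of `UL μ s ρ h` -/
noncomputable def tL {n : ℕ} (μ : Measure (Fin n → ℝ)) (s : ℝ) (h : (Fin n → ℝ) → ℝ)
    (ρ : ℝ) (y : Fin n → ℝ) : ℝ :=
  1 / 2 * ∑ i, pd (gL μ s h i ρ) i y + ∑ i, sc μ i ρ y * gL μ s h i ρ y

/-- UL: regularity of `ρ ↦ UL μ s ρ h` and its equation -/
def StUL (n : ℕ) : Prop :=
  ∀ (μ : Measure (Fin n → ℝ)) [IsProbabilityMeasure μ] (R : ℝ), CSupp μ R →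
    ∀ (s : ℝ) (h : (Fin n → ℝ) → ℝ), 0 < s → SB h →
      UE (Ici s) (fun ρ => UL μ s ρ h) ∧ H1 (Ioi s) (fun ρ => UL μ s ρ h) (tL μ s h) (gL μ s h)

end Vale.Agent.P245.E1
end
end

section

section

open MeasureTheory Real Set Filter Topology
open scoped ENNReal ContDiff

/-! # The class `HK` (`k`-fold `H1`), parametric integrals, symmetry of mixed derivatives -/

namespace Vale.Agent.P245.E1

open LS LS.Down

variable {n : ℕ} {I : Set ℝ} {f g d d' : ℝ → (Fin n → ℝ) → ℝ}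
  {a a' : Fin n → ℝ → (Fin n → ℝ) → ℝ}

/-- all level/space derivatives up to order `k` exist in the class `UE` -/
def HK (I : Set ℝ) : ℕ → (ℝ → (Fin n → ℝ) → ℝ) → Prop
  | 0, f => UE I f
  | k + 1, f => ∃ d a, H1 I f d a ∧ HK I k d ∧ ∀ i, HK I k (a i)

theorem HK.ue : ∀ {k : ℕ} {f : ℝ → (Fin n → ℝ) → ℝ}, HK I k f → UE I f
  | 0, _, h => h
  | _ + 1, _, ⟨_, _, h, _⟩ => h.uf

theorem HK.pred : ∀ {k : ℕ} {f : ℝ → (Fin n → ℝ) → ℝ}, HK I (k + 1) f → HK I k f
  | 0, _, ⟨_, _, h, _⟩ => h.uf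
  | _ + 1, _, ⟨d, a, h, hd, ha⟩ => ⟨d, a, h, hd.pred, fun i => (ha i).pred⟩

theorem HK.mono {I' : Set ℝ} (hI : I' ⊆ I) : ∀ {k : ℕ} {f : ℝ → (Fin n → ℝ) → ℝ},
    HK I k f → HK I' k f
  | 0, _, h => UE.mono h hI
  | _ + 1, _, ⟨d, a, h, hd, ha⟩ => ⟨d, a, h.mono hI, hd.mono hI, fun i => (ha i).mono hI⟩

theorem HK.congr (hI : IsOpen I) : ∀ {k : ℕ} {f g : ℝ → (Fin n → ℝ) → ℝ},
    HK I k f → (∀ σ ∈ I, ∀ y, g σ y = f σ y) → HK I k g
  | 0, _, _, h, hg => UE.congr h hg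
  | _ + 1, _, _, ⟨d, a, h, hd, ha⟩, hg =>
    ⟨d, a, h.congr hI hg (fun _ _ _ => rfl) (fun _ _ _ _ => rfl), hd, ha⟩

theorem HK.const (c : ℝ) : ∀ k : ℕ, HK (n := n) I k (fun _ _ => c)
  | 0 => UE.const c
  | k + 1 => ⟨_, _, H1.const c, HK.const 0 k, fun _ => HK.const 0 k⟩

theorem HK.add : ∀ {k : ℕ} {f g : ℝ → (Fin n → ℝ) → ℝ}, HK I k f → HK I k g →
    HK I k (fun σ y => f σ y + g σ y)
  | 0, _, _, hf, hg => UE.add hf hg
  | _ + 1, _, _, ⟨_, _, hf, hd, ha⟩, ⟨_, _, hg, hd', ha'⟩ =>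
    ⟨_, _, hf.add hg, hd.add hd', fun i => (ha i).add (ha' i)⟩

theorem HK.mul : ∀ {k : ℕ} {f g : ℝ → (Fin n → ℝ) → ℝ}, HK I k f → HK I k g →
    HK I k (fun σ y => f σ y * g σ y)
  | 0, _, _, hf, hg => UE.mul hf hg
  | k + 1, f, g, ⟨d, a, hf, hd, ha⟩, ⟨d', a', hg, hd', ha'⟩ => by
    have h1 : HK I k f := HK.pred ⟨d, a, hf, hd, ha⟩
    have h2 : HK I k g := HK.pred ⟨d', a', hg, hd', ha'⟩
    exact ⟨_, _, hf.mul hg, (hd.mul h2).add (h1.mul hd'),
      fun i => ((ha i).mul h2).add (h1.mul (ha' i))⟩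

theorem HK.const_mul {k : ℕ} (c : ℝ) (hf : HK I k f) : HK I k (fun σ y => c * f σ y) :=
  (HK.const c k).mul hf

theorem HK.neg {k : ℕ} (hf : HK I k f) : HK I k (fun σ y => -f σ y) := by
  simpa using hf.const_mul (-1)

theorem HK.sub {k : ℕ} (hf : HK I k f) (hg : HK I k g) : HK I k (fun σ y => f σ y - g σ y) := by
  simpa [sub_eq_add_neg] using hf.add hg.neg

theorem HK.sum {k : ℕ} {ι : Type*} (s : Finset ι) {f : ι → ℝ → (Fin n → ℝ) → ℝ}
    (hf : ∀ i ∈ s, HK I k (f i)) : HK I k (fun σ y => ∑ i ∈ s, f i σ y) := by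
  classical
  induction s using Finset.induction_on with
  | empty => simpa using HK.const (n := n) (I := I) 0 k
  | insert i s hi ih =>
    simp only [Finset.sum_insert hi]
    exact (hf i (Finset.mem_insert_self _ _)).add
      (ih fun j hj => hf j (Finset.mem_insert_of_mem hj))

theorem HK.coord (i : Fin n) : ∀ k : ℕ, HK I k (fun _ y => y i)
  | 0 => UE.coord i
  | k + 1 => ⟨_, _, H1.coord i, HK.const 0 k, fun _ => HK.const _ k⟩

/-- inverse, when it is known to be in the class `UE` -/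
theorem H1.inv' (hg : H1 I g d a) (hi : UE I (fun σ y => (g σ y)⁻¹))
    (hne : ∀ σ ∈ I, ∀ y, g σ y ≠ 0) :
    H1 I (fun σ y => (g σ y)⁻¹) (fun σ y => -(d σ y * ((g σ y)⁻¹ * (g σ y)⁻¹)))
      (fun i σ y => -(a i σ y * ((g σ y)⁻¹ * (g σ y)⁻¹))) := by
  refine ⟨hi, (hg.ud.mul (hi.mul hi)).neg, fun i => ((hg.ua i).mul (hi.mul hi)).neg,
    fun σ hσ y => ?_, fun σ hσ y => ?_⟩
  · have h0 := hne σ hσ y
    refine ((hasDerivAt_inv h0).comp_hasFDerivAt y (hg.fd σ hσ y)).congr_fderiv ?_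
    rw [lf_smul]
    apply lf_congr; intro i
    field_simp
  · have h0 := hne σ hσ y
    refine ((hg.td σ hσ y).inv h0).congr_deriv ?_
    (clear * - h0; field_simp)

theorem HK.inv' : ∀ {k : ℕ} {g : ℝ → (Fin n → ℝ) → ℝ}, HK I k g →
    UE I (fun σ y => (g σ y)⁻¹) → (∀ σ ∈ I, ∀ y, g σ y ≠ 0) → HK I k (fun σ y => (g σ y)⁻¹)
  | 0, _, _, hi, _ => hi
  | k + 1, g, ⟨d, a, h, hd, ha⟩, hi, hne => by
    have h1 : HK I k g := HK.pred ⟨d, a, h, hd, ha⟩
    have h2 := h1.inv' hi hne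
    exact ⟨_, _, h.inv' hi hne, (hd.mul (h2.mul h2)).neg, fun i => ((ha i).mul (h2.mul h2)).neg⟩

theorem HK.inv {k : ℕ} (hg : HK I k g) {ε : ℝ} (hε : 0 < ε) (h : ∀ σ ∈ I, ∀ y, ε ≤ g σ y) :
    HK I k (fun σ y => (g σ y)⁻¹) :=
  hg.inv' (hg.ue.inv hε h) fun σ hσ y => (hε.trans_le (h σ hσ y)).ne'

theorem HK.div {k : ℕ} (hf : HK I k f) (hg : HK I k g) {ε : ℝ} (hε : 0 < ε)
    (h : ∀ σ ∈ I, ∀ y, ε ≤ g σ y) : HK I k (fun σ y => f σ y / g σ y) := by
  simpa only [div_eq_mul_inv] using hf.mul (hg.inv hε h)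

theorem HK.log : ∀ {k : ℕ} {g : ℝ → (Fin n → ℝ) → ℝ}, HK I k g → ∀ {ε : ℝ}, 0 < ε →
    (∀ σ ∈ I, ∀ y, ε ≤ g σ y) → HK I k (fun σ y => Real.log (g σ y))
  | 0, _, hg, _, hε, h => UE.log hg hε h
  | k + 1, g, ⟨d, a, hg, hd, ha⟩, ε, hε, h => by
    have h1 : HK I k g := HK.pred ⟨d, a, hg, hd, ha⟩
    exact ⟨_, _, hg.log hε h, hd.div h1 hε h, fun i => (ha i).div h1 hε h⟩

/-- `1/σ` -/
theorem HK.inv_time : ∀ k : ℕ, HK (n := n) (Ioi 0) k (fun σ _ => 1 / σ)
  | 0 => (H1_inv_time (n := n)).uf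
  | k + 1 => by
    refine ⟨_, _, H1_inv_time, ?_, fun _ => HK.const 0 k⟩
    refine ((HK.inv_time k).mul (HK.inv_time k)).neg.congr isOpen_Ioi fun σ _ y => ?_
    rw [one_div, one_div, sq, mul_inv]

/-- the time derivative -/
noncomputable def tdv (f : ℝ → (Fin n → ℝ) → ℝ) (σ : ℝ) (y : Fin n → ℝ) : ℝ :=
  deriv (fun τ => f τ y) σ

theorem H1.tdv_eq (h : H1 I f d a) {σ : ℝ} (hσ : σ ∈ I) (y : Fin n → ℝ) :
    tdv f σ y = d σ y := (h.td σ hσ y).deriv

theorem HK.tdv' {k : ℕ} (h : HK I (k + 1) f) (hI : IsOpen I) : HK I k (tdv f) := by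
  obtain ⟨d, a, h1, hd, ha⟩ := h
  exact hd.congr hI fun σ hσ y => h1.tdv_eq hσ y

theorem HK.h1 {k : ℕ} (h : HK I (k + 1) f) (hI : IsOpen I) :
    H1 I f (tdv f) (fun i σ => pd (f σ) i) := by
  obtain ⟨d, a, h1, hd, ha⟩ := h
  exact h1.congr hI (fun _ _ _ => rfl) (fun σ hσ y => h1.tdv_eq hσ y)
    (fun i σ hσ y => by rw [h1.pd_eq hσ])

/-- `H1` data for one derivative, `HK` for the rest, gives `HK` -/
theorem HK.of_H1 {k : ℕ} (h : H1 I f d a) (hd : HK I k d) (ha : ∀ i, HK I k (a i)) :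
    HK I (k + 1) f := ⟨d, a, h, hd, ha⟩

/-- symmetry of the mixed derivatives: the level derivative of `∂_i f` is `∂_i` of the level
derivative of `f` -/
theorem H1.mixed (hI : IsOpen I) (h : H1 I f d a) {dd : ℝ → (Fin n → ℝ) → ℝ}
    {da : Fin n → ℝ → (Fin n → ℝ) → ℝ} (hd : H1 I d dd da)
    {ad : Fin n → ℝ → (Fin n → ℝ) → ℝ} {aa : Fin n → Fin n → ℝ → (Fin n → ℝ) → ℝ}
    (ha : ∀ i, H1 I (a i) (ad i) (aa i)) (i : Fin n) {σ : ℝ} (hσ : σ ∈ I) (y : Fin n → ℝ) :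
    ad i σ y = da i σ y := by
  -- the joint derivative
  set L : ℝ × (Fin n → ℝ) → ((ℝ × (Fin n → ℝ)) →L[ℝ] ℝ) := fun p =>
    (ContinuousLinearMap.toSpanSingleton ℝ (d p.1 p.2)).coprod (lf fun i => a i p.1 p.2) with hL
  have e1 : ∀ᶠ p in 𝓝 ((σ, y) : ℝ × (Fin n → ℝ)),
      HasFDerivAt (fun p : ℝ × (Fin n → ℝ) => f p.1 p.2) (L p) p := by
    have hnh : ∀ᶠ v : ℝ × (Fin n → ℝ) in 𝓝 (σ, y), v.1 ∈ I :=
      (continuous_fst.tendsto (σ, y)).eventually (hI.mem_nhds hσ)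
    filter_upwards [hnh] with p hp
    exact h.hasFDerivAt hI hp p.2
  -- derivative of the joint derivative
  have hDd := hd.hasFDerivAt hI hσ y
  have hDa : ∀ i, HasFDerivAt (fun p : ℝ × (Fin n → ℝ) => a i p.1 p.2)
      (((ContinuousLinearMap.toSpanSingleton ℝ (ad i σ y))).coprod (lf fun j => aa i j σ y))
      (σ, y) := fun i => (ha i).hasFDerivAt hI hσ y
  obtain ⟨L', hL'⟩ : ∃ L', HasFDerivAt L L' (σ, y) := by
    have h1 : L = fun p => (d p.1 p.2) •
        (ContinuousLinearMap.fst ℝ ℝ (Fin n → ℝ))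
        + ∑ i, a i p.1 p.2 • ((ContinuousLinearMap.proj (R := ℝ) (φ := fun _ : Fin n => ℝ) i).comp
          (ContinuousLinearMap.snd ℝ ℝ (Fin n → ℝ))) := by
      funext p
      ext v
      · simp only [hL, ContinuousLinearMap.coprod_comp_inl, ContinuousLinearMap.toSpanSingleton_apply, smul_eq_mul, one_mul, ContinuousLinearMap.add_comp, ContinuousLinearMap.smul_comp, ContinuousLinearMap.fst_comp_inl, add_apply, smul_apply, ContinuousLinearMap.id_apply, mul_one, ContinuousLinearMap.comp_apply, ContinuousLinearMap.inl_apply, sum_apply, ContinuousLinearMap.coe_snd', ContinuousLinearMap.proj_apply, Pi.zero_apply, mul_zero, Finset.sum_const_zero, add_zero]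
      · simp only [hL, ContinuousLinearMap.coprod_comp_inr, lf_apply, ContinuousLinearMap.add_comp, ContinuousLinearMap.smul_comp, ContinuousLinearMap.fst_comp_inr, smul_zero, zero_add, ContinuousLinearMap.comp_apply, ContinuousLinearMap.inr_apply, sum_apply, smul_apply, ContinuousLinearMap.coe_snd', ContinuousLinearMap.proj_apply, smul_eq_mul]
    rw [h1]
    refine ⟨_, (hDd.smul_const (ContinuousLinearMap.fst ℝ ℝ (Fin n → ℝ))).add
      (HasFDerivAt.fun_sum fun i _ => (hDa i).smul_const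
        ((ContinuousLinearMap.proj (R := ℝ) (φ := fun _ : Fin n => ℝ) i).comp
          (ContinuousLinearMap.snd ℝ ℝ (Fin n → ℝ))))⟩
  have hsym := second_derivative_symmetric_of_eventually e1 hL'
    ((1 : ℝ), (0 : Fin n → ℝ)) ((0 : ℝ), (Pi.single i 1 : Fin n → ℝ))
  -- evaluate
  have ev : ∀ v w : ℝ × (Fin n → ℝ), HasFDerivAt (fun p => L p w)
      (L'.flip w) (σ, y) := by
    intro v w
    have := hL'.clm_apply (hasFDerivAt_const w (σ, y))
    simpa only [ContinuousLinearMap.comp_zero, zero_add] using this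
  have c1 : L' ((1 : ℝ), (0 : Fin n → ℝ)) ((0 : ℝ), (Pi.single i 1 : Fin n → ℝ)) = ad i σ y := by
    have h2 := ev ((1 : ℝ), (0 : Fin n → ℝ)) ((0 : ℝ), (Pi.single i 1 : Fin n → ℝ))
    have h3 : (fun p : ℝ × (Fin n → ℝ) => L p ((0 : ℝ), (Pi.single i 1 : Fin n → ℝ)))
        = fun p => a i p.1 p.2 := by
      funext p
      simp only [hL, ContinuousLinearMap.coprod_apply, ContinuousLinearMap.toSpanSingleton_apply, smul_eq_mul, zero_mul, lf_apply, Pi.single_apply, mul_ite, mul_one, mul_zero, Finset.sum_ite_eq', Finset.mem_univ, ↓reduceIte, zero_add]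
    rw [h3] at h2
    have h4 := h2.unique (hDa i)
    have h5 := congrArg (fun M : (ℝ × (Fin n → ℝ)) →L[ℝ] ℝ => M ((1 : ℝ), (0 : Fin n → ℝ))) h4
    simpa only [ContinuousLinearMap.flip_apply, ContinuousLinearMap.coprod_apply,     ContinuousLinearMap.toSpanSingleton_apply, smul_eq_mul, one_mul, lf_apply, Pi.zero_apply, mul_zero,     Finset.sum_const_zero, add_zero] using h5
  have c2 : L' ((0 : ℝ), (Pi.single i 1 : Fin n → ℝ)) ((1 : ℝ), (0 : Fin n → ℝ)) = da i σ y := by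
    have h2 := ev ((1 : ℝ), (0 : Fin n → ℝ)) ((1 : ℝ), (0 : Fin n → ℝ))
    have h3 : (fun p : ℝ × (Fin n → ℝ) => L p ((1 : ℝ), (0 : Fin n → ℝ)))
        = fun p => d p.1 p.2 := by
      funext p
      simp only [hL, ContinuousLinearMap.coprod_apply, ContinuousLinearMap.toSpanSingleton_apply, smul_eq_mul, one_mul, lf_apply, Pi.zero_apply, mul_zero, Finset.sum_const_zero, add_zero]
    rw [h3] at h2
    have h4 := h2.unique hDd
    have h5 := congrArg (fun M : (ℝ × (Fin n → ℝ)) →L[ℝ] ℝ =>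
      M ((0 : ℝ), (Pi.single i 1 : Fin n → ℝ))) h4
    simpa [lf_apply, Pi.single_apply] using h5
  rw [← c1, ← c2]
  exact hsym

/-! ### parametric integrals -/

section param

variable {X : Type*} [MeasurableSpace X]

/-- functions with a parameter, uniformly controlled for parameters in `B` -/
structure UX (B : Set X) (I : Set ℝ) (f : X → ℝ → (Fin n → ℝ) → ℝ) : Prop where
  meas : ∀ σ ∈ I, ∀ y, Measurable fun x => f x σ y
  cont : ∀ x ∈ B, ContinuousOn (fun p : ℝ × (Fin n → ℝ) => f x p.1 p.2) (I ×ˢ univ)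
  bd : ∀ p q, Icc p q ⊆ I → ∃ K, 0 ≤ K ∧ ∀ x ∈ B, ∀ σ ∈ Icc p q, ∀ y,
    |f x σ y| ≤ K * exp (K * ∑ i, |y i|)

variable {B : Set X} {u v : X → ℝ → (Fin n → ℝ) → ℝ}

theorem UX.add (hu : UX B I u) (hv : UX B I v) : UX B I (fun x σ y => u x σ y + v x σ y) := by
  refine ⟨fun σ hσ y => (hu.meas σ hσ y).add (hv.meas σ hσ y),
    fun x hx => (hu.cont x hx).add (hv.cont x hx), fun p q hpq => ?_⟩
  obtain ⟨K, hK0, hK⟩ := hu.bd p q hpq
  obtain ⟨L, hL0, hL⟩ := hv.bd p q hpq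
  refine ⟨K + L, by positivity, fun x hx σ hσ y => ?_⟩
  have hS := sum_abs_nonneg y
  calc |u x σ y + v x σ y| ≤ |u x σ y| + |v x σ y| := abs_add_le _ _
    _ ≤ K * exp ((K + L) * ∑ i, |y i|) + L * exp ((K + L) * ∑ i, |y i|) := by
        apply add_le_add
        · exact (hK x hx σ hσ y).trans (mul_le_mul_of_nonneg_left (exp_le_exp.2
            (mul_le_mul_of_nonneg_right (by linarith only [hL0]) hS)) hK0)
        · exact (hL x hx σ hσ y).trans (mul_le_mul_of_nonneg_left (exp_le_exp.2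
            (mul_le_mul_of_nonneg_right (by linarith only [hK0]) hS)) hL0)
    _ = (K + L) * exp ((K + L) * ∑ i, |y i|) := by ring

theorem UX.mul (hu : UX B I u) (hv : UX B I v) : UX B I (fun x σ y => u x σ y * v x σ y) := by
  refine ⟨fun σ hσ y => (hu.meas σ hσ y).mul (hv.meas σ hσ y),
    fun x hx => (hu.cont x hx).mul (hv.cont x hx), fun p q hpq => ?_⟩
  obtain ⟨K, hK0, hK⟩ := hu.bd p q hpq
  obtain ⟨L, hL0, hL⟩ := hv.bd p q hpq
  refine ⟨max (K * L) (K + L), by (clear * - hK0 hL0; positivity), fun x hx σ hσ y => ?_⟩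
  have hS := sum_abs_nonneg y
  rw [abs_mul]
  calc |u x σ y| * |v x σ y| ≤ (K * exp (K * ∑ i, |y i|)) * (L * exp (L * ∑ i, |y i|)) :=
        mul_le_mul (hK x hx σ hσ y) (hL x hx σ hσ y) (abs_nonneg _) (by (clear * - hK0; positivity))
    _ = (K * L) * exp ((K + L) * ∑ i, |y i|) := by rw [add_mul, exp_add]; ring
    _ ≤ max (K * L) (K + L) * exp (max (K * L) (K + L) * ∑ i, |y i|) := by
        apply mul_le_mul (le_max_left _ _) _ (exp_pos _).le (by (clear * - hK0 hL0; positivity))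
        exact exp_le_exp.2 (mul_le_mul_of_nonneg_right (le_max_right _ _) hS)

/-- functions of the parameter only -/
theorem UX.param {w : X → ℝ} (hw : Measurable w) {K : ℝ} (hK0 : 0 ≤ K) (hK : ∀ x ∈ B, |w x| ≤ K) :
    UX (n := n) B I (fun x _ _ => w x) := by
  refine ⟨fun _ _ _ => hw, fun x _ => continuousOn_const, fun p q _ => ⟨K, hK0,
    fun x hx σ _ y => (hK x hx).trans ?_⟩⟩
  exact le_mul_of_one_le_right hK0 (one_le_exp (mul_nonneg hK0 (sum_abs_nonneg y)))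

/-- functions not depending on the parameter -/
theorem UX.free (hf : UE I f) : UX B I (fun _ => f) :=
  ⟨fun _ _ _ => measurable_const, fun _ _ => hf.1, fun p q hpq => by
    obtain ⟨K, hK0, hK⟩ := hf.2 p q hpq
    exact ⟨K, hK0, fun _ _ => hK⟩⟩

theorem UX.neg (hu : UX B I u) : UX B I (fun x σ y => -u x σ y) := by
  simpa only [neg_mul, one_mul] using (UX.free (B := B) (UE.const (n := n) (I := I) (-1))).mul hu

theorem UX.sum {ι : Type*} (s : Finset ι) {u : ι → X → ℝ → (Fin n → ℝ) → ℝ}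
    (hu : ∀ i ∈ s, UX B I (u i)) : UX B I (fun x σ y => ∑ i ∈ s, u i x σ y) := by
  classical
  induction s using Finset.induction_on with
  | empty => simpa only [Finset.sum_empty] using UX.free (B := B) (UE.const (n := n) (I := I) 0)
  | insert i s hi ih =>
    simp only [Finset.sum_insert hi]
    exact (hu i (Finset.mem_insert_self _ _)).add
      (ih fun j hj => hu j (Finset.mem_insert_of_mem hj))

variable {ν : Measure X} [IsFiniteMeasure ν]

theorem UX.integrable (hu : UX B I u) (hB : ∀ᵐ x ∂ν, x ∈ B) {σ : ℝ} (hσ : σ ∈ I)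
    (y : Fin n → ℝ) : Integrable (fun x => u x σ y) ν := by
  obtain ⟨K, hK0, hK⟩ := hu.bd σ σ (by simpa using hσ)
  refine Integrable.of_bound (hu.meas σ hσ y).aestronglyMeasurable (K * exp (K * ∑ i, |y i|)) ?_
  filter_upwards [hB] with x hx
  rw [norm_eq_abs]
  exact hK x hx σ ⟨le_rfl, le_rfl⟩ y

theorem exists_Icc (hI : IsOpen I) {σ : ℝ} (hσ : σ ∈ I) :
    ∃ p q, σ ∈ Ioo p q ∧ Icc p q ⊆ I := by
  obtain ⟨ε, hε, hb⟩ := Metric.isOpen_iff.1 hI σ hσ
  refine ⟨σ - ε / 2, σ + ε / 2, ⟨by linarith, by linarith only [hε]⟩, fun τ hτ => hb ?_⟩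
  rw [Metric.mem_ball, Real.dist_eq, abs_lt]
  constructor <;> [linarith only [hε, hτ.1]; linarith [hτ.2]]

theorem sum_abs_le_of_near {y z : Fin n → ℝ} (h : z ∈ Metric.ball y 1) :
    ∑ i, |z i| ≤ ∑ i, |y i| + n := by
  have h1 : ∀ i, |z i| ≤ |y i| + 1 := by
    intro i
    have h2 : dist (z i) (y i) ≤ dist z y := dist_le_pi_dist z y i
    rw [Real.dist_eq] at h2
    have h3 : dist z y < 1 := Metric.mem_ball.1 h
    have h4 := abs_sub_abs_le_abs_sub (z i) (y i)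
    linarith only [h2, h3, h4]
  calc ∑ i, |z i| ≤ ∑ i, (|y i| + 1) := Finset.sum_le_sum fun i _ => h1 i
    _ = _ := by simp only [Finset.sum_add_distrib, Finset.sum_const, Finset.card_univ, Fintype.card_fin, nsmul_eq_mul, mul_one]

theorem UX.integral (hu : UX B I u) (hB : ∀ᵐ x ∂ν, x ∈ B) (hI : IsOpen I) :
    UE I (fun σ y => ∫ x, u x σ y ∂ν) := by
  constructor
  · intro P hP
    obtain ⟨σ, y⟩ := P
    have hσ : σ ∈ I := hP.1
    apply ContinuousAt.continuousWithinAt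
    obtain ⟨p, q, hpq, hpqI⟩ := exists_Icc hI hσ
    obtain ⟨K, hK0, hK⟩ := hu.bd p q hpqI
    have hnh : ∀ᶠ v : ℝ × (Fin n → ℝ) in 𝓝 (σ, y), v.1 ∈ Ioo p q ∧ v.2 ∈ Metric.ball y 1 := by
      have h1 : Ioo p q ×ˢ Metric.ball y 1 ∈ 𝓝 ((σ, y) : ℝ × (Fin n → ℝ)) :=
        prod_mem_nhds (Ioo_mem_nhds hpq.1 hpq.2) (Metric.ball_mem_nhds y one_pos)
      filter_upwards [h1] with v hv using hv
    refine continuousAt_of_dominated (bound := fun _ => K * exp (K * (∑ i, |y i| + n)))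
      ?_ ?_ (integrable_const _) ?_
    · filter_upwards [hnh] with v hv
      exact (hu.meas v.1 (hpqI ⟨hv.1.1.le, hv.1.2.le⟩) v.2).aestronglyMeasurable
    · filter_upwards [hnh] with v hv
      filter_upwards [hB] with x hx
      rw [norm_eq_abs]
      refine (hK x hx v.1 ⟨hv.1.1.le, hv.1.2.le⟩ v.2).trans ?_
      exact mul_le_mul_of_nonneg_left (exp_le_exp.2
        (mul_le_mul_of_nonneg_left (sum_abs_le_of_near hv.2) hK0)) hK0
    · filter_upwards [hB] with x hx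
      exact (hu.cont x hx).continuousAt ((hI.prod isOpen_univ).mem_nhds ⟨hσ, mem_univ _⟩)
  · intro p q hpq
    obtain ⟨K, hK0, hK⟩ := hu.bd p q hpq
    set m := (ν univ).toReal with hm
    have hm0 : 0 ≤ m := ENNReal.toReal_nonneg
    refine ⟨max K (K * m), le_max_of_le_left hK0, fun σ hσ y => ?_⟩
    have hS := sum_abs_nonneg y
    have h1 : ‖∫ x, u x σ y ∂ν‖ ≤ (K * exp (K * ∑ i, |y i|)) * ν.real univ := by
      apply norm_integral_le_of_norm_le_const
      filter_upwards [hB] with x hx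
      rw [norm_eq_abs]
      exact hK x hx σ hσ y
    rw [norm_eq_abs] at h1
    refine h1.trans ?_
    have e : ν.real univ = m := rfl
    rw [e]
    calc K * exp (K * ∑ i, |y i|) * m = (K * m) * exp (K * ∑ i, |y i|) := by ring
      _ ≤ _ := mul_le_mul (le_max_right _ _) (exp_le_exp.2
          (mul_le_mul_of_nonneg_right (le_max_left _ _) hS)) (exp_pos _).le
          (le_max_of_le_left hK0)

/-- parametric version of `H1` -/
structure HX (B : Set X) (I : Set ℝ) (f d : X → ℝ → (Fin n → ℝ) → ℝ)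
    (a : Fin n → X → ℝ → (Fin n → ℝ) → ℝ) : Prop where
  uf : UX B I f
  ud : UX B I d
  ua : ∀ i, UX B I (a i)
  fd : ∀ x ∈ B, ∀ σ ∈ I, ∀ y, HasFDerivAt (f x σ) (lf fun i => a i x σ y) y
  td : ∀ x ∈ B, ∀ σ ∈ I, ∀ y, HasDerivAt (fun σ => f x σ y) (d x σ y) σ

variable {du dv : X → ℝ → (Fin n → ℝ) → ℝ} {au av : Fin n → X → ℝ → (Fin n → ℝ) → ℝ}

theorem HX.mul (hu : HX B I u du au) (hv : HX B I v dv av) :
    HX B I (fun x σ y => u x σ y * v x σ y) (fun x σ y => du x σ y * v x σ y + u x σ y * dv x σ y)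
      (fun i x σ y => au i x σ y * v x σ y + u x σ y * av i x σ y) where
  uf := hu.uf.mul hv.uf
  ud := (hu.ud.mul hv.uf).add (hu.uf.mul hv.ud)
  ua := fun i => ((hu.ua i).mul hv.uf).add (hu.uf.mul (hv.ua i))
  fd := by
    intro x hx σ hσ y
    refine ((hu.fd x hx σ hσ y).mul (hv.fd x hx σ hσ y)).congr_fderiv ?_
    rw [lf_smul, lf_smul, lf_add]
    apply lf_congr; intro i; ring
  td := fun x hx σ hσ y => (hu.td x hx σ hσ y).mul (hv.td x hx σ hσ y)

theorem HX.param {w : X → ℝ} (hw : Measurable w) {K : ℝ} (hK0 : 0 ≤ K) (hK : ∀ x ∈ B, |w x| ≤ K) :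
    HX (n := n) B I (fun x _ _ => w x) (fun _ _ _ => 0) (fun _ _ _ _ => 0) where
  uf := UX.param hw hK0 hK
  ud := UX.free (UE.const 0)
  ua := fun _ => UX.free (UE.const 0)
  fd := by
    intro x _ σ _ y
    refine (hasFDerivAt_const (w x) y).congr_fderiv ?_
    ext v; simp only [zero_apply, lf_apply, zero_mul, Finset.sum_const_zero]
  td := fun x _ σ _ _ => hasDerivAt_const σ (w x)

theorem HX.integral (hu : HX B I u du au) (hB : ∀ᵐ x ∂ν, x ∈ B) (hI : IsOpen I) :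
    H1 I (fun σ y => ∫ x, u x σ y ∂ν) (fun σ y => ∫ x, du x σ y ∂ν)
      (fun i σ y => ∫ x, au i x σ y ∂ν) where
  uf := hu.uf.integral hB hI
  ud := hu.ud.integral hB hI
  ua := fun i => (hu.ua i).integral hB hI
  fd := by
    intro σ hσ y
    choose K hK0 hK using fun i => (hu.ua i).bd σ σ (by simpa only [Icc_self, singleton_subset_iff] using hσ)
    have key := hasFDerivAt_integral_of_dominated_of_fderiv_le (μ := ν)
      (F := fun y x => u x σ y) (F' := fun y x => lf fun i => au i x σ y)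
      (x₀ := y) (s := Metric.ball y 1)
      (bound := fun _ => ∑ i, K i * exp (K i * (∑ i, |y i| + n))) (Metric.ball_mem_nhds y one_pos)
      (Eventually.of_forall fun y' => (hu.uf.meas σ hσ y').aestronglyMeasurable)
      (hu.uf.integrable hB hσ y)
      (by
        have h1 : Measurable fun x => fun i => au i x σ y :=
          measurable_pi_lambda _ fun i => (hu.ua i).meas σ hσ y
        exact (continuous_lf.measurable.comp h1).aestronglyMeasurable)
      (by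
        filter_upwards [hB] with x hx y' hy'
        refine (lf_norm _).trans (Finset.sum_le_sum fun i _ => ?_)
        refine (hK i x hx σ ⟨le_rfl, le_rfl⟩ y').trans ?_
        exact mul_le_mul_of_nonneg_left (exp_le_exp.2
          (mul_le_mul_of_nonneg_left (sum_abs_le_of_near hy') (hK0 i))) (hK0 i))
      (integrable_const _)
      (by
        filter_upwards [hB] with x hx y' _
        exact hu.fd x hx σ hσ y')
    rw [integral_lf fun i => (hu.ua i).integrable hB hσ y] at key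
    exact key
  td := by
    intro σ hσ y
    obtain ⟨p, q, hpq, hpqI⟩ := exists_Icc hI hσ
    obtain ⟨K, hK0, hK⟩ := hu.ud.bd p q hpqI
    have key := hasDerivAt_integral_of_dominated_loc_of_deriv_le (μ := ν)
      (F := fun τ x => u x τ y) (F' := fun τ x => du x τ y)
      (x₀ := σ) (s := Ioo p q) (bound := fun _ => K * exp (K * ∑ i, |y i|))
      (Ioo_mem_nhds hpq.1 hpq.2)
      (by
        filter_upwards [Ioo_mem_nhds hpq.1 hpq.2] with τ hτ
        exact (hu.uf.meas τ (hpqI ⟨hτ.1.le, hτ.2.le⟩) y).aestronglyMeasurable)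
      (hu.uf.integrable hB hσ y) (hu.ud.meas σ hσ y).aestronglyMeasurable
      (by
        filter_upwards [hB] with x hx τ hτ
        rw [norm_eq_abs]
        exact hK x hx τ ⟨hτ.1.le, hτ.2.le⟩ y)
      (integrable_const _)
      (by
        filter_upwards [hB] with x hx τ hτ
        exact hu.td x hx τ (hpqI ⟨hτ.1.le, hτ.2.le⟩) y)
    exact key.2

end param

/-! ### continuity of expectations in the level -/

end Vale.Agent.P245.E1
end
end

section

section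

set_option linter.unusedSectionVars false

open MeasureTheory Real Set Filter Topology
open scoped ENNReal ContDiff

/-! # Generic flows of levels: integration by parts at a level and derivative formulas -/

namespace Vale.Agent.P245.E1

open LS LS.Down

variable {n : ℕ} {μ : Measure (Fin n → ℝ)} [IsProbabilityMeasure μ] {R : ℝ}

/-! ### tower property and integration by parts -/

theorem _root_.Vale.Agent.P245.EG1.smul_arg {Φ : (Fin n → ℝ) → ℝ} (hΦ : EG1 Φ) (c : ℝ) :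
    EG1 fun w => Φ (c • w) := by
  have := hΦ.comp_path 0 c
  simpa using this

theorem _root_.Vale.Agent.P245.EG1.mul' {Φ Ψ : (Fin n → ℝ) → ℝ} (hΦ : EG1 Φ) (hΨ : EG1 Ψ) :
    EG1 fun w => Φ w * Ψ w := by
  obtain ⟨K, hK0, hK⟩ := hΦ
  obtain ⟨L, hL0, hL⟩ := hΨ
  refine ⟨max (K * L) (K + L), by (clear * - hK0 hL0; positivity), fun y => ?_⟩
  have hS := sum_abs_nonneg y
  rw [abs_mul]
  calc |Φ y| * |Ψ y| ≤ (K * exp (K * ∑ i, |y i|)) * (L * exp (L * ∑ i, |y i|)) :=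
        mul_le_mul (hK y) (hL y) (abs_nonneg _) (by (clear * - hK0; positivity))
    _ = (K * L) * exp ((K + L) * ∑ i, |y i|) := by rw [add_mul, exp_add]; ring
    _ ≤ max (K * L) (K + L) * exp (max (K * L) (K + L) * ∑ i, |y i|) := by
        apply mul_le_mul (le_max_left _ _) _ (exp_pos _).le (by (clear * - hK0 hL0; positivity))
        exact exp_le_exp.2 (mul_le_mul_of_nonneg_right (le_max_right _ _) hS)

theorem _root_.Vale.Agent.P245.EG1.of_bdd' {Φ : (Fin n → ℝ) → ℝ} {C : ℝ} (hC : ∀ y, |Φ y| ≤ C) :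
    EG1 Φ := by
  have hC0 : 0 ≤ C := (abs_nonneg _).trans (hC 0)
  refine ⟨C, hC0, fun y => (hC y).trans ?_⟩
  exact le_mul_of_one_le_right hC0 (one_le_exp (mul_nonneg hC0 (sum_abs_nonneg y)))

/-- the tower property -/
theorem EY_tower (h : CSupp μ R) {g : (Fin n → ℝ) → ℝ} (hg : Adm μ g) {Φ : (Fin n → ℝ) → ℝ}
    (hc : Continuous Φ) (hΦ : EG1 Φ) {σ : ℝ} (hσ : 0 < σ) :
    EY μ σ (fun y => UP μ σ g y * Φ y) = ∫ x, g x * PH σ Φ x ∂μ := by
  set r := (√σ)⁻¹ with hr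
  have hsq : 0 < √σ := sqrt_pos.2 hσ
  have hr2 : r ^ 2 = 1 / σ := by rw [hr, inv_pow, sq_sqrt hσ.le, one_div]
  have hrs : σ * r = √σ := by
    rw [hr]
    have : σ = √σ * √σ := (Real.mul_self_sqrt hσ.le).symm
    field_simp
    linarith
  have hΦ' : EG1 fun w => Φ (σ • w) := hΦ.smul_arg σ
  obtain ⟨G, hG0, hG⟩ := hg.bdd
  have hM : EG1 fun w : Fin n → ℝ => Mf μ g (r ^ 2, w) :=
    EG1.of_bdd' (C := G) fun w => Mf_abs_le h hg hG _
  have hMc : Continuous fun w : Fin n → ℝ => Mf μ g (r ^ 2, w) :=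
    (cont_Mf h hg).comp (by fun_prop)
  have hΦc : Continuous fun w : Fin n → ℝ => Φ (σ • w) := hc.comp (by fun_prop)
  have k1 := tower h (Adm.const μ 1) (hMc.mul hΦc).measurable (hM.mul' hΦ') r
  have k2 := tower h hg hΦc.measurable hΦ' r
  have e0 : ∀ z : Fin n → ℝ, Zf μ (fun _ => 1) (r ^ 2, r • z) *
      (Mf μ g (r ^ 2, r • z) * Φ (σ • (r • z))) = Zf μ g (r ^ 2, r • z) * Φ (σ • (r • z)) := by
    intro z
    rw [Zf_eq_mul h g]
    unfold Zo
    ring
  have k1' : ∫ z, Zf μ (fun _ => 1) (r ^ 2, r • z) *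
      (Mf μ g (r ^ 2, r • z) * Φ (σ • (r • z))) ∂(gsn n) =
      ∫ x, 1 * ∫ z, Mf μ g (r ^ 2, r ^ 2 • x + r • z) * Φ (σ • (r ^ 2 • x + r • z)) ∂(gsn n) ∂μ :=
    k1
  rw [integral_congr_ae (Eventually.of_forall e0), k2] at k1'
  have ea : ∀ x z : Fin n → ℝ, σ • (r ^ 2 • x + r • z) = x + √σ • z := by
    intro x z
    rw [smul_add, smul_smul, smul_smul, hrs, hr2, mul_one_div_cancel hσ.ne', one_smul]
  have eb : ∀ x z : Fin n → ℝ, r ^ 2 • x + r • z = (1 / σ) • (x + √σ • z) := by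
    intro x z
    rw [← ea x z, smul_smul, one_div, inv_mul_cancel₀ hσ.ne', one_smul]
  simp only [ea, one_mul] at k1'
  unfold EY PH
  rw [k1']
  congr 1
  funext x
  congr 1
  funext z
  rw [eb, hr2]
  rfl

theorem EG1.int_PH (h : CSupp μ R) {Φ : (Fin n → ℝ) → ℝ} (hc : Continuous Φ) (hΦ : EG1 Φ)
    (σ : ℝ) : Integrable (PH σ Φ) μ :=
  (EG1.int_prod h hc hΦ (√σ)).integral_prod_left

theorem EY_add' (h : CSupp μ R) {Φ Ψ : (Fin n → ℝ) → ℝ} (hc : Continuous Φ) (hΦ : EG1 Φ)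
    (hc' : Continuous Ψ) (hΨ : EG1 Ψ) (σ : ℝ) :
    EY μ σ (fun y => Φ y + Ψ y) = EY μ σ Φ + EY μ σ Ψ := by
  have e : PH σ (fun y => Φ y + Ψ y) = fun x => PH σ Φ x + PH σ Ψ x := by
    funext x
    exact integral_add ((hΦ.comp_path x _).integrable (hc.comp (by (clear * -; fun_prop))).aestronglyMeasurable)
      ((hΨ.comp_path x _).integrable (hc'.comp (by fun_prop)).aestronglyMeasurable)
  unfold EY
  rw [e]
  exact integral_add (EG1.int_PH h hc hΦ σ) (EG1.int_PH h hc' hΨ σ)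

theorem EY_sum' (h : CSupp μ R) {ι : Type*} (s : Finset ι) {Φ : ι → (Fin n → ℝ) → ℝ}
    (hc : ∀ i ∈ s, Continuous (Φ i)) (hΦ : ∀ i ∈ s, EG1 (Φ i)) (σ : ℝ) :
    EY μ σ (fun y => ∑ i ∈ s, Φ i y) = ∑ i ∈ s, EY μ σ (Φ i) := by
  have e : PH σ (fun y => ∑ i ∈ s, Φ i y) = fun x => ∑ i ∈ s, PH σ (Φ i) x := by
    funext x
    exact integral_finsetSum s fun i hi => (((hΦ i hi).comp_path x _).integrable
      ((hc i hi).comp (by (clear * -; fun_prop))).aestronglyMeasurable)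
  unfold EY
  rw [e]
  exact integral_finsetSum s fun i hi => EG1.int_PH h (hc i hi) (hΦ i hi) σ

/-- integration by parts at level `σ` -/
theorem EY_ibp (h : CSupp μ R) {σ : ℝ} (hσ : 0 < σ) (j : Fin n) {G : (Fin n → ℝ) → ℝ}
    {c : Fin n → (Fin n → ℝ) → ℝ} (hd : ∀ y, HasFDerivAt G (lf fun i => c i y) y) (hG : EG1 G)
    (hcc : Continuous (c j)) (hcj : EG1 (c j)) :
    EY μ σ (fun y => sc μ j σ y * G y) = -EY μ σ (c j) := by
  have hGc : Continuous G := continuous_iff_continuousAt.2 fun y => (hd y).continuousAt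
  have h1 := EY_tower h (h.adm_coord j) hGc hG hσ
  -- EY (y_j G)
  have hyG : EG1 fun y : Fin n → ℝ => y j * G y := hG.mul_coord j
  have hyc : Continuous fun y : Fin n → ℝ => y j * G y := (continuous_apply j).mul hGc
  have h2 : EY μ σ (fun y => y j * G y) = ∫ x, x j * PH σ G x ∂μ + σ * EY μ σ (c j) := by
    have e : ∀ x, PH σ (fun y => y j * G y) x = x j * PH σ G x + σ * PH σ (c j) x := by
      intro x
      unfold PH
      have i1 : Integrable (fun z => G (x + √σ • z)) (gsn n) :=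
        (hG.comp_path x _).integrable (hGc.comp (by fun_prop)).aestronglyMeasurable
      have i2 : Integrable (fun z : Fin n → ℝ => z j * G (x + √σ • z)) (gsn n) :=
        ((hG.comp_path x _).mul_coord j).integrable
          ((continuous_apply j).mul (hGc.comp (by fun_prop))).aestronglyMeasurable
      have e1 : ∀ z : Fin n → ℝ, (x + √σ • z) j * G (x + √σ • z)
          = x j * G (x + √σ • z) + √σ * (z j * G (x + √σ • z)) := by
        intro z
        simp only [Pi.add_apply, Pi.smul_apply, smul_eq_mul]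
        ring
      simp_rw [e1]
      rw [integral_add (i1.const_mul _) (i2.const_mul _), integral_const_mul, integral_const_mul,
        ibp_exp hd hG j hcc hcj x _, ← mul_assoc √σ √σ, Real.mul_self_sqrt hσ.le]
    unfold EY
    simp_rw [e]
    have a1 : Integrable (fun x => x j * PH σ G x) μ := by
      obtain ⟨B, hB0, hB⟩ := (h.adm_coord j).bdd
      exact (EG1.int_PH h hGc hG σ).bdd_mul (c := B)
        (measurable_pi_apply j).aestronglyMeasurable
        (hB.mono fun x hx => by simpa only [norm_eq_abs] using hx)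
    rw [integral_add a1 ((EG1.int_PH h hcc hcj σ).const_mul σ), integral_const_mul]
  have hUc : Continuous fun y => UP μ σ (fun x => x j) y * G y :=
    ((UE_UP h (h.adm_coord j)).cont (show σ ∈ Ioi (0 : ℝ) from hσ)).mul hGc
  have hUE : EG1 fun y => UP μ σ (fun x => x j) y * G y :=
    ((UE_UP h (h.adm_coord j)).eg1 (show σ ∈ Ioi (0 : ℝ) from hσ)).mul' hG
  have e3 : ∀ y, sc μ j σ y * G y = σ⁻¹ * ((UP μ σ (fun x => x j) y * G y) + (-1) * (y j * G y)) := by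
    intro y
    unfold sc
    rw [div_eq_mul_inv]
    ring
  simp_rw [e3]
  have e4 : EY μ σ (fun y => UP μ σ (fun x => x j) y * G y + (-1) * (y j * G y))
      = EY μ σ (fun y => UP μ σ (fun x => x j) y * G y) + EY μ σ (fun y => (-1) * (y j * G y)) :=
    EY_add' h hUc hUE (continuous_const.mul hyc)
      ((EG1.of_bdd' (C := |(-1 : ℝ)|) fun _ => le_rfl).mul' hyG) σ
  rw [EY_const_mul, e4, EY_const_mul, h1, h2]
  field_simp
  ring

/-! ### the two calculi -/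

section calculi

variable {I : Set ℝ} {f g e e' : ℝ → (Fin n → ℝ) → ℝ} {a a' : Fin n → ℝ → (Fin n → ℝ) → ℝ}

/-- down calculus: `f` is regular with gradient `a` and `(∂_σ + Δ/2) f = e` -/
structure Dn (I : Set ℝ) (f e : ℝ → (Fin n → ℝ) → ℝ) (a : Fin n → ℝ → (Fin n → ℝ) → ℝ) :
    Prop where
  ex : ∃ (d : ℝ → (Fin n → ℝ) → ℝ) (da : Fin n → ℝ → (Fin n → ℝ) → ℝ)
    (a2 : Fin n → Fin n → ℝ → (Fin n → ℝ) → ℝ), H1 I f d a ∧ (∀ i, H1 I (a i) (da i) (a2 i)) ∧
      ∀ σ ∈ I, ∀ y, e σ y = d σ y + 1 / 2 * ∑ i, a2 i i σ y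

/-- up calculus: `f` is regular with gradient `a` and `(∂_σ - Δ/2 - ⟨∇ log p_σ, ∇⟩) f = e` -/
structure Um (μ : Measure (Fin n → ℝ)) (I : Set ℝ) (f e : ℝ → (Fin n → ℝ) → ℝ)
    (a : Fin n → ℝ → (Fin n → ℝ) → ℝ) : Prop where
  ex : ∃ (d : ℝ → (Fin n → ℝ) → ℝ) (da : Fin n → ℝ → (Fin n → ℝ) → ℝ)
    (a2 : Fin n → Fin n → ℝ → (Fin n → ℝ) → ℝ), H1 I f d a ∧ (∀ i, H1 I (a i) (da i) (a2 i)) ∧
      ∀ σ ∈ I, ∀ y, e σ y = d σ y - 1 / 2 * ∑ i, a2 i i σ y - ∑ i, sc μ i σ y * a i σ y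

theorem Dn.fd (h : Dn I f e a) {σ : ℝ} (hσ : σ ∈ I) (y : Fin n → ℝ) :
    HasFDerivAt (f σ) (lf fun i => a i σ y) y := by
  obtain ⟨d, da, a2, h1, -, -⟩ := h.ex; exact h1.fd σ hσ y

theorem Dn.ue (h : Dn I f e a) : UE I e := by
  obtain ⟨d, da, a2, h1, h2, h3⟩ := h.ex
  exact (h1.ud.add ((UE.sum _ fun i _ => (h2 i).ua i).const_mul _)).congr h3

theorem Um.uf (h : Um μ I f e a) : UE I f := by
  obtain ⟨d, da, a2, h1, -, -⟩ := h.ex; exact h1.uf

theorem Um.ua (h : Um μ I f e a) (i : Fin n) : UE I (a i) := by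
  obtain ⟨d, da, a2, h1, -, -⟩ := h.ex; exact h1.ua i

theorem Um.fd (h : Um μ I f e a) {σ : ℝ} (hσ : σ ∈ I) (y : Fin n → ℝ) :
    HasFDerivAt (f σ) (lf fun i => a i σ y) y := by
  obtain ⟨d, da, a2, h1, -, -⟩ := h.ex; exact h1.fd σ hσ y

theorem Um.ue (hμ : CSupp μ R) (hI0 : I ⊆ Ioi 0) (h : Um μ I f e a) : UE I e := by
  obtain ⟨d, da, a2, h1, h2, h3⟩ := h.ex
  exact ((h1.ud.sub ((UE.sum _ fun i _ => (h2 i).ua i).const_mul _)).sub
    (UE.sum _ fun i _ => ((UE_sc hμ i).mono hI0).mul (h1.ua i))).congr h3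

theorem Dn.const (c : ℝ) : Dn (n := n) I (fun _ _ => c) (fun _ _ => 0) (fun _ _ _ => 0) :=
  ⟨_, fun _ _ _ => 0, fun _ _ _ _ => 0, H1.const c, fun _ => H1.const 0, fun _ _ _ => by simp only [one_div, Finset.sum_const_zero, mul_zero, add_zero]⟩

theorem Um.const (c : ℝ) : Um μ I (fun _ _ => c) (fun _ _ => 0) (fun _ _ _ => 0) :=
  ⟨_, fun _ _ _ => 0, fun _ _ _ _ => 0, H1.const c, fun _ => H1.const 0, fun _ _ _ => by simp only [one_div, Finset.sum_const_zero, mul_zero, sub_self]⟩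

theorem Dn.add (hf : Dn I f e a) (hg : Dn I g e' a') :
    Dn I (fun σ y => f σ y + g σ y) (fun σ y => e σ y + e' σ y)
      (fun i σ y => a i σ y + a' i σ y) := by
  obtain ⟨d, da, a2, h1, h2, h3⟩ := hf.ex
  obtain ⟨d', da', a2', h1', h2', h3'⟩ := hg.ex
  refine ⟨_, _, _, h1.add h1', fun i => (h2 i).add (h2' i), fun σ hσ y => ?_⟩
  rw [h3 σ hσ, h3' σ hσ, Finset.sum_add_distrib]
  ring

theorem Um.add (hf : Um μ I f e a) (hg : Um μ I g e' a') :
    Um μ I (fun σ y => f σ y + g σ y) (fun σ y => e σ y + e' σ y)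
      (fun i σ y => a i σ y + a' i σ y) := by
  obtain ⟨d, da, a2, h1, h2, h3⟩ := hf.ex
  obtain ⟨d', da', a2', h1', h2', h3'⟩ := hg.ex
  refine ⟨_, _, _, h1.add h1', fun i => (h2 i).add (h2' i), fun σ hσ y => ?_⟩
  rw [h3 σ hσ, h3' σ hσ, Finset.sum_add_distrib]
  simp_rw [mul_add]
  rw [Finset.sum_add_distrib]
  ring

theorem Dn.mul (hf : Dn I f e a) (hg : Dn I g e' a') :
    Dn I (fun σ y => f σ y * g σ y)
      (fun σ y => e σ y * g σ y + f σ y * e' σ y + ∑ i, a i σ y * a' i σ y)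
      (fun i σ y => a i σ y * g σ y + f σ y * a' i σ y) := by
  obtain ⟨d, da, a2, h1, h2, h3⟩ := hf.ex
  obtain ⟨d', da', a2', h1', h2', h3'⟩ := hg.ex
  refine ⟨_, _, _, h1.mul h1', fun i => ((h2 i).mul h1').add (h1.mul (h2' i)), fun σ hσ y => ?_⟩
  rw [h3 σ hσ, h3' σ hσ]
  simp only [Finset.sum_add_distrib, ← Finset.sum_mul, ← Finset.mul_sum]
  ring

theorem Um.mul (hf : Um μ I f e a) (hg : Um μ I g e' a') :
    Um μ I (fun σ y => f σ y * g σ y)
      (fun σ y => e σ y * g σ y + f σ y * e' σ y - ∑ i, a i σ y * a' i σ y)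
      (fun i σ y => a i σ y * g σ y + f σ y * a' i σ y) := by
  obtain ⟨d, da, a2, h1, h2, h3⟩ := hf.ex
  obtain ⟨d', da', a2', h1', h2', h3'⟩ := hg.ex
  refine ⟨_, _, _, h1.mul h1', fun i => ((h2 i).mul h1').add (h1.mul (h2' i)), fun σ hσ y => ?_⟩
  rw [h3 σ hσ, h3' σ hσ]
  have e1 : ∑ i, sc μ i σ y * (a i σ y * g σ y + f σ y * a' i σ y)
      = (∑ i, sc μ i σ y * a i σ y) * g σ y + f σ y * ∑ i, sc μ i σ y * a' i σ y := by
    rw [Finset.sum_mul, Finset.mul_sum, ← Finset.sum_add_distrib]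
    apply Finset.sum_congr rfl; intro i _; ring
  rw [e1]
  simp only [Finset.sum_add_distrib, ← Finset.sum_mul, ← Finset.mul_sum]
  ring

theorem Um.sum {ι : Type*} (s : Finset ι) {f e : ι → ℝ → (Fin n → ℝ) → ℝ}
    {a : ι → Fin n → ℝ → (Fin n → ℝ) → ℝ} (hf : ∀ j ∈ s, Um μ I (f j) (e j) (a j)) :
    Um μ I (fun σ y => ∑ j ∈ s, f j σ y) (fun σ y => ∑ j ∈ s, e j σ y)
      (fun i σ y => ∑ j ∈ s, a j i σ y) := by
  classical
  induction s using Finset.induction_on with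
  | empty => simpa only [Finset.sum_empty] using Um.const (n := n) (μ := μ) (I := I) 0
  | insert i s hi ih =>
    simp only [Finset.sum_insert hi]
    exact (hf i (Finset.mem_insert_self _ _)).add
      (ih fun j hj => hf j (Finset.mem_insert_of_mem hj))

theorem Dn.sum {ι : Type*} (s : Finset ι) {f e : ι → ℝ → (Fin n → ℝ) → ℝ}
    {a : ι → Fin n → ℝ → (Fin n → ℝ) → ℝ} (hf : ∀ j ∈ s, Dn I (f j) (e j) (a j)) :
    Dn I (fun σ y => ∑ j ∈ s, f j σ y) (fun σ y => ∑ j ∈ s, e j σ y)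
      (fun i σ y => ∑ j ∈ s, a j i σ y) := by
  classical
  induction s using Finset.induction_on with
  | empty => simpa using Dn.const (n := n) (I := I) 0
  | insert i s hi ih =>
    simp only [Finset.sum_insert hi]
    exact (hf i (Finset.mem_insert_self _ _)).add
      (ih fun j hj => hf j (Finset.mem_insert_of_mem hj))

/-- the heat semigroup run backwards is killed by the down operator -/
theorem Dn_PH {N : (Fin n → ℝ) → ℝ} (hN : SB N) (c : ℝ) :
    Dn (Iio c) (fun σ => PH (c - σ) N) (fun _ _ => 0) (fun i σ => PH (c - σ) (pd N i)) :=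
  ⟨_, _, _, H1_PH hN c, fun i => H1_PH (sb_pd hN i) c, fun σ _ y => by ring⟩

theorem Um.mono {I' : Set ℝ} (h : Um μ I f e a) (hI : I' ⊆ I) : Um μ I' f e a := by
  obtain ⟨d, da, a2, h1, h2, h3⟩ := h.ex
  exact ⟨d, da, a2, h1.mono hI, fun i => (h2 i).mono hI, fun σ hσ y => h3 σ (hI hσ) y⟩

theorem Dn.mono {I' : Set ℝ} (h : Dn I f e a) (hI : I' ⊆ I) : Dn I' f e a := by
  obtain ⟨d, da, a2, h1, h2, h3⟩ := h.ex
  exact ⟨d, da, a2, h1.mono hI, fun i => (h2 i).mono hI, fun σ hσ y => h3 σ (hI hσ) y⟩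

theorem Um.inv (hf : Um μ I f e a) {ε : ℝ} (hε : 0 < ε) (h : ∀ σ ∈ I, ∀ y, ε ≤ f σ y)
    (hI : IsOpen I) :
    Um μ I (fun σ y => (f σ y)⁻¹)
      (fun σ y => -(e σ y / f σ y ^ 2) - (∑ i, a i σ y ^ 2) / f σ y ^ 3)
      (fun i σ y => -(a i σ y / f σ y ^ 2)) := by
  obtain ⟨d, da, a2, h1, h2, h3⟩ := hf.ex
  have hinv := h1.inv hε h
  have hsq := hinv.mul hinv
  have key : ∀ i, H1 I (fun σ y => -(a i σ y / f σ y ^ 2))
      (fun σ y => -(da i σ y / f σ y ^ 2 - 2 * a i σ y * d σ y / f σ y ^ 3))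
      (fun j σ y => -(a2 i j σ y / f σ y ^ 2 - 2 * a i σ y * a j σ y / f σ y ^ 3)) := by
    intro i
    refine (((h2 i).mul hsq).neg).congr hI (fun σ hσ y => ?_) (fun σ hσ y => ?_)
      (fun j σ hσ y => ?_)
    · have hne := (hε.trans_le (h σ hσ y)).ne'
      (clear * - hne; field_simp)
    · have hne := (hε.trans_le (h σ hσ y)).ne'
      field_simp
      ring
    · have hne := (hε.trans_le (h σ hσ y)).ne'
      field_simp
      ring
  refine ⟨_, _, _, hinv, key, fun σ hσ y => ?_⟩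
  have hne := (hε.trans_le (h σ hσ y)).ne'
  rw [h3 σ hσ]
  have e1 : ∑ i, -(a2 i i σ y / f σ y ^ 2 - 2 * a i σ y * a i σ y / f σ y ^ 3)
      = -(∑ i, a2 i i σ y) / f σ y ^ 2 + 2 * (∑ i, a i σ y ^ 2) / f σ y ^ 3 := by
    rw [← Finset.sum_neg_distrib, Finset.sum_div, Finset.mul_sum, Finset.sum_div,
      ← Finset.sum_add_distrib]
    apply Finset.sum_congr rfl; intro i _; ring
  have e2 : ∑ i, sc μ i σ y * -(a i σ y / f σ y ^ 2)
      = -(∑ i, sc μ i σ y * a i σ y) / f σ y ^ 2 := by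
    rw [← Finset.sum_neg_distrib, Finset.sum_div]
    apply Finset.sum_congr rfl; intro i _; ring
  rw [e1, e2]
  field_simp
  ring

theorem Um.log (hf : Um μ I f e a) {ε : ℝ} (hε : 0 < ε) (h : ∀ σ ∈ I, ∀ y, ε ≤ f σ y)
    (hI : IsOpen I) :
    Um μ I (fun σ y => Real.log (f σ y))
      (fun σ y => e σ y / f σ y + 1 / 2 * (∑ i, a i σ y ^ 2) / f σ y ^ 2)
      (fun i σ y => a i σ y / f σ y) := by
  obtain ⟨d, da, a2, h1, h2, h3⟩ := hf.ex
  refine ⟨_, _, _, h1.log hε h, fun i => (h2 i).div h1 hε h hI, fun σ hσ y => ?_⟩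
  have hne := (hε.trans_le (h σ hσ y)).ne'
  rw [h3 σ hσ]
  have e1 : ∑ i, (a2 i i σ y / f σ y - a i σ y * a i σ y / f σ y ^ 2)
      = (∑ i, a2 i i σ y) / f σ y - (∑ i, a i σ y ^ 2) / f σ y ^ 2 := by
    rw [Finset.sum_div, Finset.sum_div, ← Finset.sum_sub_distrib]
    apply Finset.sum_congr rfl; intro i _; ring
  have e2 : ∑ i, sc μ i σ y * (a i σ y / f σ y)
      = (∑ i, sc μ i σ y * a i σ y) / f σ y := by
    rw [Finset.sum_div]
    apply Finset.sum_congr rfl; intro i _; ring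
  rw [e1, e2]
  field_simp
  ring

/-- **duality**: the derivative of `EY (U w)` -/
theorem EY_dual (hμ : CSupp μ R) (hI : IsOpen I) (hI0 : I ⊆ Ioi 0) (hf : Um μ I f e a)
    (hg : Dn I g e' a') {σ : ℝ} (hσ : σ ∈ I) :
    HasDerivAt (fun σ => EY μ σ (fun y => f σ y * g σ y))
      (EY μ σ (fun y => e σ y * g σ y + f σ y * e' σ y)) σ := by
  have hσ0 : 0 < σ := hI0 hσ
  have hue := hf.ue hμ hI0
  have hge := hg.ue
  obtain ⟨d, da, a2, h1, h2, h3⟩ := hf.ex
  obtain ⟨d', da', a2', h1', h2', h3'⟩ := hg.ex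
  have key := EY_deriv hμ hI hI0 (h1.mul h1') (fun i => ((h2 i).mul h1').add (h1.mul (h2' i))) hσ
  refine key.congr_deriv ?_
  -- the integration by parts term
  have hG : ∀ i, H1 I (fun σ y => a i σ y * g σ y) _ _ := fun i => (h2 i).mul h1'
  have ibp1 : ∀ i, EY μ σ (fun y => sc μ i σ y * (a i σ y * g σ y))
      = -EY μ σ (fun y => a2 i i σ y * g σ y + a i σ y * a' i σ y) := fun i =>
    EY_ibp hμ hσ0 i (fun y => (hG i).fd σ hσ y) ((hG i).uf.eg1 hσ) (((hG i).ua i).cont hσ)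
      (((hG i).ua i).eg1 hσ)
  have hT : ∀ i, UE I (fun σ y => sc μ i σ y * (a i σ y * g σ y)
      + (a2 i i σ y * g σ y + a i σ y * a' i σ y)) := fun i =>
    (((UE_sc hμ i).mono hI0).mul ((hG i).uf)).add ((hG i).ua i)
  have hM : UE I (fun σ y => e σ y * g σ y + f σ y * e' σ y) :=
    (hue.mul h1'.uf).add (h1.uf.mul hge)
  have eq1 : ∀ y, (d σ y * g σ y + f σ y * d' σ y) + 1 / 2 * ∑ i,
      ((a2 i i σ y * g σ y + a i σ y * a' i σ y) + (a i σ y * a' i σ y + f σ y * a2' i i σ y))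
      = (e σ y * g σ y + f σ y * e' σ y) + ∑ i, (sc μ i σ y * (a i σ y * g σ y)
      + (a2 i i σ y * g σ y + a i σ y * a' i σ y)) := by
    intro y
    rw [h3 σ hσ, h3' σ hσ]
    have s1 : ∑ i, sc μ i σ y * (a i σ y * g σ y) = (∑ i, sc μ i σ y * a i σ y) * g σ y := by
      rw [Finset.sum_mul]; apply Finset.sum_congr rfl; intro i _; ring
    simp only [Finset.sum_add_distrib, ← Finset.sum_mul, ← Finset.mul_sum]
    rw [s1]
    ring
  have eq2 : EY μ σ (fun y => (d σ y * g σ y + f σ y * d' σ y) + 1 / 2 * ∑ i,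
      ((a2 i i σ y * g σ y + a i σ y * a' i σ y) + (a i σ y * a' i σ y + f σ y * a2' i i σ y)))
      = EY μ σ (fun y => e σ y * g σ y + f σ y * e' σ y) + ∑ i, EY μ σ (fun y =>
        sc μ i σ y * (a i σ y * g σ y) + (a2 i i σ y * g σ y + a i σ y * a' i σ y)) := by
    simp_rw [eq1]
    rw [EY_add' hμ (hM.cont hσ) (hM.eg1 hσ) ((UE.sum _ fun i _ => hT i).cont hσ)
      ((UE.sum _ fun i _ => hT i).eg1 hσ), EY_sum' hμ _ (fun i _ => (hT i).cont hσ)
      (fun i _ => (hT i).eg1 hσ)]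
  have eq3 : ∀ i, EY μ σ (fun y =>
        sc μ i σ y * (a i σ y * g σ y) + (a2 i i σ y * g σ y + a i σ y * a' i σ y)) = 0 := by
    intro i
    have u1 := ((UE_sc hμ i).mono hI0).mul ((hG i).uf)
    have u2 := (hG i).ua i
    rw [EY_add' hμ (u1.cont hσ) (u1.eg1 hσ) (u2.cont hσ) (u2.eg1 hσ), ibp1 i]
    ring
  refine eq2.trans ?_
  rw [Finset.sum_eq_zero fun i _ => eq3 i, add_zero]

/-- derivative of the expectation in the up calculus -/
theorem EY_um (hμ : CSupp μ R) (hI : IsOpen I) (hI0 : I ⊆ Ioi 0) (hf : Um μ I f e a)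
    {σ : ℝ} (hσ : σ ∈ I) : HasDerivAt (fun σ => EY μ σ (f σ)) (EY μ σ (e σ)) σ := by
  have := EY_dual hμ hI hI0 hf (Dn.const (n := n) 1) hσ
  simpa using this

end calculi

end Vale.Agent.P245.E1
end
end

section

section

set_option linter.unusedSectionVars false

open MeasureTheory Real Set Filter Topology
open scoped ENNReal ContDiff

/-! # Derivative formulas along an up path -/

namespace Vale.Agent.P245.E1

open LS LS.Down

variable {n : ℕ}

/-- `E N ⟨P ∇ log N, ∇ log N⟩` at level `σ` -/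
noncomputable def BA (μ : Measure (Fin n → ℝ)) (σ : ℝ) (N : (Fin n → ℝ) → ℝ) : ℝ :=
  EY μ σ fun y => Pq μ σ y (fun i => pd N i y) (fun i => pd N i y) / N y

/-- a positive up flow with its first and second space derivatives -/
structure UpF (μ : Measure (Fin n → ℝ)) (I : Set ℝ) (F : ℝ → (Fin n → ℝ) → ℝ)
    (F1 : Fin n → ℝ → (Fin n → ℝ) → ℝ) (F2 : Fin n → Fin n → ℝ → (Fin n → ℝ) → ℝ) : Prop where
  u0 : Um μ I F (fun _ _ => 0) F1
  u1 : ∀ k, Um μ I (F1 k) (fun σ y => -∑ i, Pv μ i k σ y * F1 i σ y) (F2 k)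
  lb : ∃ ε, 0 < ε ∧ ∀ σ ∈ I, ∀ y, ε ≤ F σ y

variable {μ : Measure (Fin n → ℝ)} [IsProbabilityMeasure μ] {R : ℝ} {I : Set ℝ}
  {F : ℝ → (Fin n → ℝ) → ℝ} {F1 : Fin n → ℝ → (Fin n → ℝ) → ℝ}
  {F2 : Fin n → Fin n → ℝ → (Fin n → ℝ) → ℝ}

theorem Um.pd_eq {f e : ℝ → (Fin n → ℝ) → ℝ} {a : Fin n → ℝ → (Fin n → ℝ) → ℝ}
    (h : Um μ I f e a) {σ : ℝ} (hσ : σ ∈ I) (i : Fin n) : pd (f σ) i = a i σ := by
  funext y; exact pd_of_hasFDerivAt (h.fd hσ y) i

theorem UpF.HE_deriv (h : UpF μ I F F1 F2) (hμ : CSupp μ R) (hI : IsOpen I) (hI0 : I ⊆ Ioi 0)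
    {σ : ℝ} (hσ : σ ∈ I) :
    HasDerivAt (fun σ => HE μ σ (F σ)) (-(1 / 2) * FI μ σ (F σ)) σ := by
  obtain ⟨ε, hε, hlb⟩ := h.lb
  have hlog := h.u0.log hε hlb hI
  have key := EY_um hμ hI hI0 (h.u0.mul hlog) hσ
  refine key.congr_deriv ?_
  unfold FI
  rw [← EY_const_mul]
  congr 1
  funext y
  have hne := (hε.trans_le (hlb σ hσ y)).ne'
  simp only [h.u0.pd_eq hσ]
  have e1 : ∑ i, F1 i σ y * (F1 i σ y / F σ y) = (∑ i, F1 i σ y ^ 2) / F σ y := by
    rw [Finset.sum_div]; apply Finset.sum_congr rfl; intro i _; ring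
  rw [e1]
  field_simp
  ring

theorem pd_log_F (h : UpF μ I F F1 F2) {σ : ℝ} (hσ : σ ∈ I) (hI : IsOpen I) (i j : Fin n)
    (y : Fin n → ℝ) : pd (pd (fun y => Real.log (F σ y)) i) j y
      = F2 i j σ y / F σ y - F1 i σ y * F1 j σ y / F σ y ^ 2 := by
  obtain ⟨ε, hε, hlb⟩ := h.lb
  have h1 : pd (fun y => Real.log (F σ y)) i = fun y => F1 i σ y / F σ y :=
    (h.u0.log hε hlb hI).pd_eq hσ i
  rw [h1]
  have hinv := h.u0.inv hε hlb hI
  have h2 := ((h.u1 i).mul hinv).pd_eq hσ j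
  have e : (fun y => F1 i σ y / F σ y) = fun y => F1 i σ y * (F σ y)⁻¹ := by
    funext y; rw [div_eq_mul_inv]
  rw [e, h2]
  have hne := (hε.trans_le (hlb σ hσ y)).ne'
  field_simp
  ring

theorem UpF.FI_deriv (h : UpF μ I F F1 F2) (hμ : CSupp μ R) (hI : IsOpen I) (hI0 : I ⊆ Ioi 0)
    {σ : ℝ} (hσ : σ ∈ I) :
    HasDerivAt (fun σ => FI μ σ (F σ)) (-(GA μ σ (F σ) + 2 * BA μ σ (F σ))) σ := by
  obtain ⟨ε, hε, hlb⟩ := h.lb
  have hinv := h.u0.inv hε hlb hI
  have hk : ∀ k, Um μ I (fun σ y => F1 k σ y * F1 k σ y * (F σ y)⁻¹) _ _ := fun k =>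
    ((h.u1 k).mul (h.u1 k)).mul hinv
  have hs := Um.sum Finset.univ fun k _ => hk k
  have hue := hs.ue hμ hI0
  have key := EY_um hμ hI hI0 hs hσ
  have hcongr : (fun σ => FI μ σ (F σ)) =ᶠ[𝓝 σ]
      fun σ => EY μ σ (fun y => ∑ k, F1 k σ y * F1 k σ y * (F σ y)⁻¹) := by
    filter_upwards [hI.mem_nhds hσ] with τ hτ
    unfold FI
    congr 1
    funext y
    simp only [h.u0.pd_eq hτ]
    rw [Finset.sum_div]
    apply Finset.sum_congr rfl; intro k _; ring
  refine (key.congr_of_eventuallyEq hcongr).congr_deriv ?_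
  -- regularity of the two integrands
  have uGA : UE I (fun σ y => F σ y * ∑ i, ∑ j, (F2 i j σ y / F σ y
      - F1 i σ y * F1 j σ y / F σ y ^ 2) ^ 2) := by
    have hF2 : UE I (fun σ y => F σ y ^ 2) := by simpa [sq] using h.u0.uf.mul h.u0.uf
    have hlb2 : ∀ σ ∈ I, ∀ y, ε ^ 2 ≤ F σ y ^ 2 := fun σ hσ y =>
      pow_le_pow_left₀ hε.le (hlb σ hσ y) 2
    refine h.u0.uf.mul (UE.sum _ fun i _ => UE.sum _ fun j _ => ?_)
    have h1 := (((h.u1 i).ua j).div h.u0.uf hε hlb).sub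
      (((h.u0.ua i).mul (h.u0.ua j)).div hF2 (by (clear * - hε; positivity) : 0 < ε ^ 2) hlb2)
    simpa only [sq] using h1.mul h1
  have uBA : UE I (fun σ y => Pq μ σ y (fun i => F1 i σ y) (fun i => F1 i σ y) / F σ y) := by
    unfold Pq
    refine (UE.sum _ fun i _ => UE.sum _ fun j _ => ?_).div h.u0.uf hε hlb
    exact (((H1_Pv hμ i j).uf.mono hI0).mul (h.u0.ua i)).mul (h.u0.ua j)
  have eGA : GA μ σ (F σ) = EY μ σ (fun y => F σ y * ∑ i, ∑ j, (F2 i j σ y / F σ y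
      - F1 i σ y * F1 j σ y / F σ y ^ 2) ^ 2) := by
    unfold GA
    congr 1
    funext y
    simp only [pd_log_F h hσ hI]
  have eBA : BA μ σ (F σ) = EY μ σ (fun y => Pq μ σ y (fun i => F1 i σ y) (fun i => F1 i σ y)
      / F σ y) := by
    unfold BA
    simp only [h.u0.pd_eq hσ]
  rw [eGA, eBA]
  have e2 : -(EY μ σ (fun y => F σ y * ∑ i, ∑ j, (F2 i j σ y / F σ y
      - F1 i σ y * F1 j σ y / F σ y ^ 2) ^ 2) + 2 * EY μ σ (fun y =>
        Pq μ σ y (fun i => F1 i σ y) (fun i => F1 i σ y) / F σ y))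
      = EY μ σ (fun y => (-1) * (F σ y * ∑ i, ∑ j, (F2 i j σ y / F σ y
      - F1 i σ y * F1 j σ y / F σ y ^ 2) ^ 2) +
        (-2) * (Pq μ σ y (fun i => F1 i σ y) (fun i => F1 i σ y) / F σ y)) := by
    have c1 := uGA.const_mul (-1)
    have c2 := uBA.const_mul (-2)
    have k := EY_add' hμ (c1.cont hσ) (c1.eg1 hσ) (c2.cont hσ) (c2.eg1 hσ) σ
    rw [EY_const_mul, EY_const_mul] at k
    rw [k]
    ring
  rw [e2]
  congr 1
  funext y
  have hne := (hε.trans_le (hlb σ hσ y)).ne'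
  have hPq : Pq μ σ y (fun i => F1 i σ y) (fun i => F1 i σ y)
      = ∑ k, (∑ i, Pv μ i k σ y * F1 i σ y) * F1 k σ y := by
    unfold Pq
    rw [Finset.sum_comm]
    apply Finset.sum_congr rfl; intro k _
    rw [Finset.sum_mul]
  have hr : ∀ X Y : Fin n → ℝ, (-1) * (F σ y * ∑ k, X k) + (-2) * ((∑ k, Y k) / F σ y)
      = ∑ k, ((-1) * (F σ y * X k) + (-2) * (Y k / F σ y)) := by
    intro X Y
    rw [Finset.sum_add_distrib, ← Finset.mul_sum, ← Finset.mul_sum, ← Finset.mul_sum,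
      ← Finset.sum_div]
  rw [hPq, hr]
  apply Finset.sum_congr rfl
  intro k _
  have s1 : F σ y * ∑ j, (F2 k j σ y / F σ y - F1 k σ y * F1 j σ y / F σ y ^ 2) ^ 2
      = (∑ j, F2 k j σ y ^ 2) / F σ y - 2 * F1 k σ y * (∑ j, F2 k j σ y * F1 j σ y) / F σ y ^ 2
        + F1 k σ y ^ 2 * (∑ j, F1 j σ y ^ 2) / F σ y ^ 3 := by
    rw [Finset.mul_sum, Finset.sum_div, Finset.mul_sum, Finset.sum_div, Finset.mul_sum,
      Finset.sum_div, ← Finset.sum_sub_distrib, ← Finset.sum_add_distrib]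
    apply Finset.sum_congr rfl; intro j _
    field_simp
    ring
  rw [s1]
  have s2 : ∑ i, (F2 k i σ y * F1 k σ y + F1 k σ y * F2 k i σ y) * -(F1 i σ y / F σ y ^ 2)
      = -(2 * F1 k σ y * (∑ j, F2 k j σ y * F1 j σ y) / F σ y ^ 2) := by
    rw [Finset.mul_sum, Finset.sum_div, ← Finset.sum_neg_distrib]
    apply Finset.sum_congr rfl; intro j _; ring
  have s3 : ∑ i, F2 k i σ y * F2 k i σ y = ∑ j, F2 k j σ y ^ 2 := by
    apply Finset.sum_congr rfl; intro j _; ring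
  rw [s2, s3]
  field_simp
  ring

/-- formula (ii): pairing with a vector field transported by the heat semigroup -/
theorem UpF.pair_deriv (h : UpF μ I F F1 F2) (hμ : CSupp μ R) (hI : IsOpen I) (hI0 : I ⊆ Ioi 0)
    {ψ : Fin n → (Fin n → ℝ) → ℝ} (hψ : ∀ i, SB (ψ i)) {c σ : ℝ} (hσ : σ ∈ I) (hc : σ < c) :
    HasDerivAt (fun σ => EY μ σ (fun y => ∑ i, PH (c - σ) (ψ i) y * pd (F σ) i y))
      (-EY μ σ (fun y => Pq μ σ y (fun i => pd (F σ) i y) (fun i => PH (c - σ) (ψ i) y))) σ := by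
  have hJ : IsOpen (I ∩ Iio c) := hI.inter isOpen_Iio
  have hJ0 : I ∩ Iio c ⊆ Ioi 0 := fun x hx => hI0 hx.1
  have hσJ : σ ∈ I ∩ Iio c := ⟨hσ, hc⟩
  have hk : ∀ k, HasDerivAt (fun σ => EY μ σ (fun y => F1 k σ y * PH (c - σ) (ψ k) y))
      (EY μ σ (fun y => (-∑ i, Pv μ i k σ y * F1 i σ y) * PH (c - σ) (ψ k) y
        + F1 k σ y * 0)) σ := fun k =>
    EY_dual hμ hJ hJ0 ((h.u1 k).mono inter_subset_left)
      ((Dn_PH (hψ k) c).mono inter_subset_right) hσJ
  have hsum := HasDerivAt.fun_sum (u := Finset.univ) fun k _ => hk k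
  have uP : ∀ k, UE (I ∩ Iio c) (fun σ => PH (c - σ) (ψ k)) := fun k => UE_PH (hψ k) c _
  have uF : ∀ k, UE (I ∩ Iio c) (F1 k) := fun k => (h.u0.ua k).mono inter_subset_left
  have uV : ∀ i k, UE (I ∩ Iio c) (Pv μ i k) := fun i k => (H1_Pv hμ i k).uf.mono hJ0
  have hcongr : (fun σ => EY μ σ (fun y => ∑ i, PH (c - σ) (ψ i) y * pd (F σ) i y))
      =ᶠ[𝓝 σ] fun σ => ∑ k, EY μ σ (fun y => F1 k σ y * PH (c - σ) (ψ k) y) := by
    filter_upwards [hJ.mem_nhds hσJ] with τ hτ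
    rw [← EY_sum' hμ Finset.univ (fun k _ => ((uF k).mul (uP k)).cont hτ)
      (fun k _ => ((uF k).mul (uP k)).eg1 hτ)]
    congr 1
    funext y
    simp only [h.u0.pd_eq hτ.1]
    apply Finset.sum_congr rfl; intro k _; ring
  refine (hsum.congr_of_eventuallyEq hcongr).congr_deriv ?_
  have uG : ∀ k, UE (I ∩ Iio c) (fun σ y => (-∑ i, Pv μ i k σ y * F1 i σ y) * PH (c - σ) (ψ k) y
        + F1 k σ y * 0) := fun k =>
    ((UE.sum _ fun i _ => (uV i k).mul (uF i)).neg.mul (uP k)).add ((uF k).mul (UE.const 0))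
  rw [← EY_sum' hμ Finset.univ (fun k _ => (uG k).cont hσJ) (fun k _ => (uG k).eg1 hσJ)]
  have e : -EY μ σ (fun y => Pq μ σ y (fun i => pd (F σ) i y) (fun i => PH (c - σ) (ψ i) y))
      = EY μ σ (fun y => (-1) * Pq μ σ y (fun i => pd (F σ) i y)
        (fun i => PH (c - σ) (ψ i) y)) := by
    rw [EY_const_mul]; ring
  rw [e]
  congr 1
  funext y
  simp only [h.u0.pd_eq hσ]
  unfold Pq
  rw [Finset.sum_comm, Finset.mul_sum]
  apply Finset.sum_congr rfl; intro k _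
  rw [mul_zero, add_zero, ← Finset.sum_mul]
  ring

/-- the squared norm of a transported field along the up path -/
theorem UpF.sq_deriv (h : UpF μ I F F1 F2) (hμ : CSupp μ R) (hI : IsOpen I) (hI0 : I ⊆ Ioi 0)
    {ψ : Fin n → (Fin n → ℝ) → ℝ} (hψ : ∀ i, SB (ψ i)) {c σ : ℝ} (hσ : σ ∈ I) (hc : σ < c) :
    HasDerivAt (fun σ => EY μ σ (fun y => F σ y * ∑ i, PH (c - σ) (ψ i) y ^ 2))
      (EY μ σ (fun y => F σ y * ∑ i, ∑ j, PH (c - σ) (pd (ψ i) j) y ^ 2)) σ := by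
  have hJ : IsOpen (I ∩ Iio c) := hI.inter isOpen_Iio
  have hJ0 : I ∩ Iio c ⊆ Ioi 0 := fun x hx => hI0 hx.1
  have hd : ∀ i, Dn (I ∩ Iio c) (fun σ => PH (c - σ) (ψ i)) (fun _ _ => 0) _ := fun i =>
    (Dn_PH (hψ i) c).mono inter_subset_right
  have key := EY_dual hμ hJ hJ0 (h.u0.mono inter_subset_left)
      (Dn.sum Finset.univ fun i _ => (hd i).mul (hd i)) ⟨hσ, hc⟩
  have e0 : (fun σ => EY μ σ (fun y => F σ y * ∑ i, PH (c - σ) (ψ i) y ^ 2))
      = fun σ => EY μ σ (fun y => F σ y * ∑ i, PH (c - σ) (ψ i) y * PH (c - σ) (ψ i) y) := by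
    funext τ; congr 1; funext y; congr 1
    apply Finset.sum_congr rfl; intro i _; ring
  rw [e0]
  refine key.congr_deriv ?_
  congr 1
  funext y
  rw [zero_mul, zero_add]
  congr 1
  apply Finset.sum_congr rfl; intro i _
  rw [zero_mul, mul_zero, zero_add, zero_add]
  apply Finset.sum_congr rfl; intro j _; ring

/-- down path: squared norm of a lifted field -/
theorem down_sq_deriv {U : Fin n → ℝ → (Fin n → ℝ) → ℝ} {U1 : Fin n → Fin n → ℝ → (Fin n → ℝ) → ℝ}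
    (h : ∀ k, Um μ I (U k) (fun _ _ => 0) (U1 k)) (hμ : CSupp μ R) (hI : IsOpen I)
    (hI0 : I ⊆ Ioi 0) {N : (Fin n → ℝ) → ℝ} (hN : SB N) {c σ : ℝ} (hσ : σ ∈ I) (hc : σ < c) :
    HasDerivAt (fun σ => EY μ σ (fun y => PH (c - σ) N y * ∑ i, U i σ y ^ 2))
      (-EY μ σ (fun y => PH (c - σ) N y * ∑ i, ∑ j, U1 i j σ y ^ 2)) σ := by
  have hJ : IsOpen (I ∩ Iio c) := hI.inter isOpen_Iio
  have hJ0 : I ∩ Iio c ⊆ Ioi 0 := fun x hx => hI0 hx.1
  have hd : ∀ i, Um μ (I ∩ Iio c) (U i) (fun _ _ => 0) (U1 i) := fun i =>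
    (h i).mono inter_subset_left
  have key := EY_dual hμ hJ hJ0 (Um.sum Finset.univ fun i _ => (hd i).mul (hd i))
      ((Dn_PH hN c).mono inter_subset_right) ⟨hσ, hc⟩
  have e0 : (fun σ => EY μ σ (fun y => PH (c - σ) N y * ∑ i, U i σ y ^ 2))
      = fun σ => EY μ σ (fun y => (∑ i, U i σ y * U i σ y) * PH (c - σ) N y) := by
    funext τ; congr 1; funext y; rw [mul_comm]; congr 1
    apply Finset.sum_congr rfl; intro i _; ring
  rw [e0]
  refine key.congr_deriv ?_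
  have e1 : -EY μ σ (fun y => PH (c - σ) N y * ∑ i, ∑ j, U1 i j σ y ^ 2)
      = EY μ σ (fun y => (-1) * (PH (c - σ) N y * ∑ i, ∑ j, U1 i j σ y ^ 2)) := by
    rw [EY_const_mul]; ring
  rw [e1]
  congr 1
  funext y
  rw [mul_zero, add_zero]
  have e2 : ∑ i, (0 * U i σ y + U i σ y * 0 - ∑ j, U1 i j σ y * U1 i j σ y)
      = -∑ i, ∑ j, U1 i j σ y ^ 2 := by
    rw [← Finset.sum_neg_distrib]
    apply Finset.sum_congr rfl; intro i _
    rw [zero_mul, mul_zero, zero_add, zero_sub]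
    congr 1
    apply Finset.sum_congr rfl; intro j _; ring
  rw [e2]
  ring

end Vale.Agent.P245.E1
end
end

section

section

set_option linter.unusedSectionVars false

open MeasureTheory Real Set Filter Topology
open scoped ENNReal ContDiff

/-! Module P: positivity of the bilinear form of `D²V_r`. -/

namespace Vale.Agent.P245.E1

open LS LS.Down

variable {n : ℕ}

section

variable {μ : Measure (Fin n → ℝ)} [IsProbabilityMeasure μ] {R : ℝ}

theorem XB_eq_UP (r : ℝ) (i : Fin n) : XB μ r i = UP μ r (fun x => x i) := rfl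

theorem DV_eq (r : ℝ) (i : Fin n) : DV μ r i = fun y => -sc μ i r y := by
  funext y
  unfold DV sc
  rw [XB_eq_UP]
  ring

theorem XB_sb' (h : CSupp μ R) (r : ℝ) (i : Fin n) : SB (XB μ r i) :=
  UP_sb h (h.adm_coord i) r

theorem PV_eq' (h : CSupp μ R) {r : ℝ} (hr : 0 < r) (i j : Fin n) (y : Fin n → ℝ) :
    PV μ r i j y = Pv μ i j r y := by
  unfold PV
  have h1 := (H1_sc h i).neg.pd_eq (mem_Ioi.2 hr) j
  rw [DV_eq, h1]
  simp

theorem PV_sb' (h : CSupp μ R) (r : ℝ) (i j : Fin n) : SB (PV μ r i j) := by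
  have e : PV μ r i j = fun y => (1 / r) * ((if j = i then 1 else 0) - pd (XB μ r i) j y) := by
    funext y
    unfold PV
    have h1 : HasFDerivAt (fun y : Fin n → ℝ => y i)
        (ContinuousLinearMap.proj i : (Fin n → ℝ) →L[ℝ] ℝ) y :=
      (ContinuousLinearMap.proj i : (Fin n → ℝ) →L[ℝ] ℝ).hasFDerivAt
    have h2 : HasFDerivAt (XB μ r i) (fderiv ℝ (XB μ r i) y) y :=
      ((XB_sb' h r i).differentiable y).hasFDerivAt
    have h3 := (h1.sub h2).const_mul (1 / r)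
    have e1 : DV μ r i = fun y => 1 / r * (y i - XB μ r i y) := by
      funext y; unfold DV; ring
    have h4 : fderiv ℝ (fun y => 1 / r * (y i - XB μ r i y)) y
        = (1 / r) • ((ContinuousLinearMap.proj i : (Fin n → ℝ) →L[ℝ] ℝ) - fderiv ℝ (XB μ r i) y) :=
      h3.fderiv
    rw [e1]
    unfold pd
    rw [h4]
    simp only [one_div, smul_apply, sub_apply, ContinuousLinearMap.proj_apply, Pi.single_apply, smul_eq_mul, eq_comm]
  rw [e]
  exact ((SB.const _).sub ((XB_sb' h r i).pd j)).const_mul _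

theorem BI_eq (h : CSupp μ R) {r : ℝ} (hr : 0 < r) (N : (Fin n → ℝ) → ℝ)
    (φ ψ : Fin n → (Fin n → ℝ) → ℝ) :
    BI μ r N φ ψ = EY μ r fun y => N y * Pq μ r y (fun i => φ i y) (fun i => ψ i y) := by
  unfold BI Pq
  congr 1
  funext y
  congr 1
  apply Finset.sum_congr rfl; intro i _
  apply Finset.sum_congr rfl; intro j _
  rw [PV_eq' h hr]

theorem Pq_sb (h : CSupp μ R) {r : ℝ} (hr : 0 < r) {φ ψ : Fin n → (Fin n → ℝ) → ℝ}
    (hφ : ∀ i, SB (φ i)) (hψ : ∀ i, SB (ψ i)) :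
    SB fun y => Pq μ r y (fun i => φ i y) (fun i => ψ i y) := by
  have e : (fun y => Pq μ r y (fun i => φ i y) (fun i => ψ i y))
      = fun y => ∑ i, ∑ j, PV μ r i j y * φ i y * ψ j y := by
    funext y
    unfold Pq
    apply Finset.sum_congr rfl; intro i _
    apply Finset.sum_congr rfl; intro j _
    rw [PV_eq' h hr]
  rw [e]
  exact SB.sum _ fun i _ => SB.sum _ fun j _ => ((PV_sb' h r i j).mul (hφ i)).mul (hψ j)

end

theorem thP (n : ℕ) : StP n := by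
  intro ρ0 R hρ hprob h r N φ ψ hr hN hφ hψ
  have := hprob
  have hNφψ := Pq_sb h hr hφ hψ
  have hNψψ := Pq_sb h hr hψ hψ
  refine ⟨?_, ?_, ?_, ?_⟩
  · rw [BI_eq h hr]
    exact EY_nonneg _ _ fun y => mul_nonneg (hN.pos y).le (Pq_nonneg hρ h hr y _)
  · rw [BI_eq h hr, BI_eq h hr]
    simp_rw [Pq_symm h r _ (fun i => φ i _) (fun i => ψ i _)]
  · have key : BI (mu ρ0) r N φ ψ ^ 2
        ≤ IP (mu ρ0) r N φ φ * (1 / r * BI (mu ρ0) r N ψ ψ) := by
      apply cs_of_quad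
      intro t
      rw [BI_eq h hr, BI_eq h hr, IP]
      have hS : SB fun y => ∑ i, φ i y * φ i y := SB.sum _ fun i _ => (hφ i).mul (hφ i)
      have e : EY (mu ρ0) r (fun y => N y * ∑ i, φ i y * φ i y)
          + 2 * t * EY (mu ρ0) r (fun y => N y * Pq (mu ρ0) r y (fun i => φ i y) (fun i => ψ i y))
          + t ^ 2 * (1 / r
            * EY (mu ρ0) r (fun y => N y * Pq (mu ρ0) r y (fun i => ψ i y) (fun i => ψ i y)))
          = EY (mu ρ0) r (fun y => (N y * ∑ i, φ i y * φ i y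
              + 2 * t * (N y * Pq (mu ρ0) r y (fun i => φ i y) (fun i => ψ i y)))
            + (t ^ 2 * (1 / r)) * (N y * Pq (mu ρ0) r y (fun i => ψ i y) (fun i => ψ i y))) := by
        rw [EY_add _ _ ((hN.sb.mul hS).add ((hN.sb.mul hNφψ).const_mul _))
          ((hN.sb.mul hNψψ).const_mul _), EY_add _ _ (hN.sb.mul hS) ((hN.sb.mul hNφψ).const_mul _),
          EY_const_mul, EY_const_mul]
        ring
      rw [e]
      refine EY_nonneg _ _ fun y => ?_
      have hNp := (hN.pos y).le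
      have hp := Pu_sq_le hρ h hr y (fun i => ψ i y)
      have hq : 0 ≤ ∑ j, (φ j y + t * ∑ i, Pv (mu ρ0) i j r y * ψ i y) ^ 2 :=
        Finset.sum_nonneg fun j _ => sq_nonneg _
      have e2 : ∑ j, (φ j y + t * ∑ i, Pv (mu ρ0) i j r y * ψ i y) ^ 2
          = ∑ i, φ i y * φ i y + 2 * t * Pq (mu ρ0) r y (fun i => φ i y) (fun i => ψ i y)
            + t ^ 2 * ∑ j, (∑ i, Pv (mu ρ0) i j r y * ψ i y) ^ 2 := by
        have e3 : Pq (mu ρ0) r y (fun i => φ i y) (fun i => ψ i y)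
            = ∑ j, φ j y * ∑ i, Pv (mu ρ0) i j r y * ψ i y := by
          rw [Pq_symm h]
          unfold Pq
          rw [Finset.sum_comm]
          apply Finset.sum_congr rfl; intro j _
          rw [Finset.mul_sum]
          apply Finset.sum_congr rfl; intro i _
          ring
        rw [e3, Finset.mul_sum, Finset.mul_sum, ← Finset.sum_add_distrib, ← Finset.sum_add_distrib]
        apply Finset.sum_congr rfl; intro j _
        ring
      rw [e2] at hq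
      have h3 : t ^ 2 * ∑ j, (∑ i, Pv (mu ρ0) i j r y * ψ i y) ^ 2
          ≤ t ^ 2 * (1 / r * Pq (mu ρ0) r y (fun i => ψ i y) (fun i => ψ i y)) :=
        mul_le_mul_of_nonneg_left hp (sq_nonneg t)
      have h4 : 0 ≤ ∑ i, φ i y * φ i y
          + 2 * t * Pq (mu ρ0) r y (fun i => φ i y) (fun i => ψ i y)
          + t ^ 2 * (1 / r * Pq (mu ρ0) r y (fun i => ψ i y) (fun i => ψ i y)) := by linarith only [h3, hq]
      have h5 := mul_nonneg hNp h4
      calc (0 : ℝ) ≤ _ := h5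
        _ = _ := by ring
    calc BI (mu ρ0) r N φ ψ ^ 2 ≤ IP (mu ρ0) r N φ φ * (1 / r * BI (mu ρ0) r N ψ ψ) := key
      _ = 1 / r * IP (mu ρ0) r N φ φ * BI (mu ρ0) r N ψ ψ := by ring
  · intro θ a b hθ
    rw [BI_eq h hr, BI_eq h hr, BI_eq h hr, ← EY_const_mul, ← EY_const_mul,
      ← EY_add _ _ ((hN.sb.mul (Pq_sb h hr hφ hθ)).const_mul _)
        ((hN.sb.mul (Pq_sb h hr hψ hθ)).const_mul _)]
    congr 1
    funext y
    unfold Pq
    simp only [Finset.mul_sum, ← Finset.sum_add_distrib]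
    apply Finset.sum_congr rfl; intro i _
    apply Finset.sum_congr rfl; intro j _
    ring

end Vale.Agent.P245.E1
end
end

section

section

open MeasureTheory Real Set Filter Topology
open scoped ENNReal ContDiff

/-! Module E: the Gibbs bound for the posterior mean of the score. -/

namespace Vale.Agent.P245.LS

section GA

variable {n : ℕ} {μ : Measure (Fin n → ℝ)} [IsProbabilityMeasure μ] {R : ℝ}

/-! ### closure properties of `SBk` -/

namespace GibbsE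

/-! ### the lift of admissible functions -/

end GibbsE

end GA

section GB

namespace GibbsE

variable {n : ℕ} {μ : Measure (Fin n → ℝ)} [IsProbabilityMeasure μ] {R : ℝ}

/-! ### `PH` and `EY` on bounded continuous functions -/

/-! ### Gaussian tilts -/

end GibbsE

end GB

section GC

namespace GibbsE

variable {n : ℕ} {μ : Measure (Fin n → ℝ)} [IsProbabilityMeasure μ] {R : ℝ}

theorem young_UP (h : CSupp μ R) {g : (Fin n → ℝ) → ℝ} (hg : Adm μ g) {ε : ℝ} (hε : 0 < ε)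
    (hgε : ∀ x, ε ≤ g x) (s : ℝ) (c : Fin n → ℝ) (L : ℝ) {w : ℝ} (hw : 0 < w) (y : Fin n → ℝ) :
    w * ∑ i, c i * UP μ s (fun x => x i * g x) y
      ≤ w * L * UP μ s g y + w * UP μ s (fun x => g x * log (g x)) y + w * log w * UP μ s g y
        - w * UP μ s g y + exp (-L) * UP μ s (fun x => exp (∑ i, c i * x i)) y := by
  unfold UP
  set p : ℝ × (Fin n → ℝ) := (1 / s, (1 / s) • y)
  have hl := hg.log hε (Eventually.of_forall hgε)
  have hgl : Adm μ fun x => g x * log (g x) := hg.mul hl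
  have hx : ∀ i, Adm μ fun x => x i * g x := fun i => hg.xmul h i
  have he : Adm μ fun x => exp (∑ i, c i * x i) := Adm.of_continuous h (by fun_prop)
  have hL : Adm μ fun x => w * ∑ i, c i * (x i * g x) :=
    (Adm.sum _ fun i _ => (hx i).const_mul (c i)).const_mul w
  have hR : Adm μ fun x => (w * L + w * log w - w) * g x
      + (w * (g x * log (g x)) + exp (-L) * exp (∑ i, c i * x i)) :=
    (hg.const_mul _).add ((hgl.const_mul _).add (he.const_mul _))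
  have hpt : ∀ x : Fin n → ℝ, w * ∑ i, c i * (x i * g x) ≤ (w * L + w * log w - w) * g x
      + (w * (g x * log (g x)) + exp (-L) * exp (∑ i, c i * x i)) := by
    intro x
    have hg0 : 0 < g x := hε.trans_le (hgε x)
    have hy := mul_le_mul_log_add_exp (a := g x * w) (b := ∑ i, c i * x i - L) (by (clear * - hg0 hw; positivity))
    rw [log_mul hg0.ne' hw.ne'] at hy
    have e1 : w * ∑ i, c i * (x i * g x) = g x * w * ∑ i, c i * x i := by
      rw [Finset.mul_sum, Finset.mul_sum]; apply Finset.sum_congr rfl; intro i _; ring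
    have e2 : exp (-L) * exp (∑ i, c i * x i) = exp (∑ i, c i * x i - L) := by
      rw [← exp_add]; congr 1; ring
    rw [e1, e2]
    linarith only [hy]
  have key := Mf_mono h hL hR (Eventually.of_forall hpt) p
  rw [Mf_const_mul, Mf_sum h _ (fun i _ => (hx i).const_mul (c i)), Mf_add h (hg.const_mul _)
    ((hgl.const_mul _).add (he.const_mul _)), Mf_add h (hgl.const_mul _) (he.const_mul _),
    Mf_const_mul, Mf_const_mul, Mf_const_mul] at key
  simp_rw [Mf_const_mul] at key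
  linarith only [key]

/-- mean value of the lift -/
theorem gb_EY_UP (h : CSupp μ R) {g : (Fin n → ℝ) → ℝ} (hg : Adm μ g) {s : ℝ} (hs : 0 < s) :
    EY μ s (UP μ s g) = ∫ x, g x ∂μ := by
  obtain ⟨G, hG0, hG⟩ := hg.bdd
  set r := 1 / √s with hr
  have hss : √s ^ 2 = s := sq_sqrt hs.le
  have hs0 : 0 < √s := sqrt_pos.2 hs
  have hr2 : r ^ 2 = 1 / s := by rw [hr, div_pow, hss, one_pow]
  set Φ : (Fin n → ℝ) → ℝ := fun θ => Mf μ g (1 / s, θ) with hΦ
  have hΦc : Continuous Φ := (contDiff_Mf h hg 0).continuous.comp (by fun_prop)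
  have hΦe : EG1 Φ := by
    refine ⟨G, hG0, fun z => ?_⟩
    have hS0 : 0 ≤ ∑ i, |z i| := Finset.sum_nonneg fun j _ => abs_nonneg _
    have h1 : 1 ≤ exp (G * ∑ i, |z i|) := one_le_exp (by (clear * - hG0; positivity))
    calc |Φ z| ≤ G := Mf_abs_le h hg hG _
      _ = G * 1 := (mul_one _).symm
      _ ≤ _ := mul_le_mul_of_nonneg_left h1 hG0
  have ht := tower h (Adm.const μ 1) hΦc.measurable hΦe r
  have e1 : ∀ z : Fin n → ℝ, Zf μ (fun _ => 1) (r ^ 2, r • z) * Φ (r • z)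
      = Zf μ g (r ^ 2, r • z) := by
    intro z
    rw [Zf_eq_mul h g, hΦ]
    simp only
    rw [← hr2]
    rfl
  simp_rw [e1] at ht
  rw [tower_one h hg r] at ht
  rw [ht]
  unfold EY PH UP
  apply integral_congr_ae
  filter_upwards with x
  rw [one_mul]
  apply integral_congr_ae
  filter_upwards with z
  simp only [hΦ]
  congr 2
  rw [smul_add, smul_smul, hr2]
  congr 2
  rw [hr]
  field_simp
  rw [hss]

end GibbsE

open GibbsE

end GC

end Vale.Agent.P245.LS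
end
end

section

section

open MeasureTheory Real Set Filter Topology
open scoped ENNReal ContDiff

/-! Module Lv: change of level for the defective log-Sobolev inequality. -/

namespace Vale.Agent.P245.E1

open LS

/-- **Module Lv** -/
theorem thLv (n : ℕ) : StLv n := by
  intro ρ0 R hρ hp hR r κ D hr hκ
  have := hp
  constructor
  · intro hDB N hN h1
    obtain ⟨hσ, hH, -⟩ := thB n (mu ρ0) N r hN hr
    have hF : FI (mu ρ0) 0 (PH r N) ≤ FI (mu ρ0) r N := by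
      have := (hσ 0 le_rfl hr.le).2.1
      simpa only [ge_iff_le, sub_zero] using this
    have hPos : Pos (PH r N) := PH_pos hN r
    have h1' : EY (mu ρ0) 0 (PH r N) = 1 := by
      rw [EY_zero]; exact h1
    have h := hDB (PH r N) (Pos.p2 hPos) h1'
    have h2 : κ * FI (mu ρ0) 0 (PH r N) ≤ κ * FI (mu ρ0) r N := mul_le_mul_of_nonneg_left hF hκ
    have : (κ + r / 2) * FI (mu ρ0) r N = κ * FI (mu ρ0) r N + r / 2 * FI (mu ρ0) r N := by ring
    (clear * - hH h h2; linarith)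
  · intro hDBL f hf h1
    obtain ⟨hH, -, hF, -⟩ := thC n ρ0 R hρ hp hR f hf h1
    have hU := thA2 n (mu ρ0) R hR f r hf hr
    have h := hDBL (UP (mu ρ0) r f) hU.1 (hU.2.trans h1)
    have h2 : κ * FI (mu ρ0) r (UP (mu ρ0) r f) ≤ κ * FI (mu ρ0) 0 f :=
      mul_le_mul_of_nonneg_left (hF r hr) hκ
    have h3 := hH r hr
    have : (κ + r / 2) * FI (mu ρ0) 0 f = κ * FI (mu ρ0) 0 f + r / 2 * FI (mu ρ0) 0 f := by ring
    linarith only [h, h2, h3]

end Vale.Agent.P245.E1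
end
end

section

section

open MeasureTheory Real Set Filter Topology
open scoped ENNReal ContDiff

namespace Vale.Agent.P245.LS

variable {n : ℕ}

theorem top_PH_zero (Φ : (Fin n → ℝ) → ℝ) (x : Fin n → ℝ) : PH 0 Φ x = Φ x := by
  unfold PH
  simp only [sqrt_zero, zero_smul, add_zero, integral_const, probReal_univ, smul_eq_mul, one_mul]

theorem top_EY_zero (μ : Measure (Fin n → ℝ)) (Φ : (Fin n → ℝ) → ℝ) : EY μ 0 Φ = ∫ x, Φ x ∂μ := by
  unfold EY
  simp only [top_PH_zero]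

theorem Zf_congr_ae' {μ : Measure (Fin n → ℝ)} {g g' : (Fin n → ℝ) → ℝ}
    (hg : ∀ᵐ x ∂μ, g x = g' x) (p : ℝ × (Fin n → ℝ)) : Zf μ g p = Zf μ g' p := by
  unfold Zf
  exact integral_congr_ae (by filter_upwards [hg] with x hx; rw [hx])

/-- LSI for the posteriors, arbitrary `C²` functions -/
theorem lsi_post_gen {ρ : (Fin n → ℝ) → ℝ} {R : ℝ} (hρ : LCd ρ) [IsProbabilityMeasure (mu ρ)]
    (h : CSupp (mu ρ) R) {F : (Fin n → ℝ) → ℝ} (hF : ContDiff ℝ 2 F)
    (p : ℝ × (Fin n → ℝ)) (hp : 0 < p.1) :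
    Zf (mu ρ) (fun x => F x ^ 2 * log (F x ^ 2)) p
        - Zf (mu ρ) (fun x => F x ^ 2) p * log (Mf (mu ρ) (fun x => F x ^ 2) p)
      ≤ 2 / p.1 * Zf (mu ρ) (fun x => ∑ i, pd F i x ^ 2) p := by
  obtain ⟨g, hg, ⟨R', hR'⟩, hgc⟩ := exists_cutoff hF R
  have key := lsi_post hρ h hg hR' p hp
  have e1 : ∀ᵐ x ∂(mu ρ), g x = F x := by
    filter_upwards [h.supp] with x hx using (hgc x hx).1
  have e2 : ∀ᵐ x ∂(mu ρ), ∀ i, pd g i x = pd F i x := by
    filter_upwards [h.supp] with x hx using (hgc x hx).2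
  rw [Zf_congr_ae' (g' := fun x => F x ^ 2 * log (F x ^ 2))
      (by filter_upwards [e1] with x hx; rw [hx]),
    Zf_congr_ae' (g := fun x => g x ^ 2) (g' := fun x => F x ^ 2)
      (by filter_upwards [e1] with x hx; rw [hx]),
    Mf_congr_ae (g := fun x => g x ^ 2) (g' := fun x => F x ^ 2)
      (by filter_upwards [e1] with x hx; rw [hx]),
    Zf_congr_ae' (g := fun x => ∑ i, pd g i x ^ 2) (g' := fun x => ∑ i, pd F i x ^ 2)
      (by filter_upwards [e2] with x hx; exact Finset.sum_congr rfl fun i _ => by rw [hx i])]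
    at key
  exact key

theorem pd_sqrt {f : (Fin n → ℝ) → ℝ} (hf : Differentiable ℝ f) {x : Fin n → ℝ}
    (hx : 0 < f x) (i : Fin n) : pd (fun x => √(f x)) i x ^ 2 = 1 / 4 * (pd f i x ^ 2 / f x) := by
  have h2 := (hf x).hasFDerivAt.sqrt hx.ne'
  have e : pd (fun x => √(f x)) i x = 1 / (2 * √(f x)) * pd f i x := by
    unfold pd
    rw [h2.fderiv]
    simp only [one_div, mul_inv_rev, smul_apply, smul_eq_mul]
  rw [e, mul_pow, div_pow, mul_pow, sq_sqrt hx.le]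
  field_simp
  ring

theorem sum_pd_sqrt {f : (Fin n → ℝ) → ℝ} (hf : Differentiable ℝ f)
    (hpos : ∀ x, 0 < f x) (x : Fin n → ℝ) :
    ∑ i, pd (fun x => √(f x)) i x ^ 2 = 1 / 4 * ((∑ i, pd f i x ^ 2) / f x) := by
  rw [Finset.sum_div, Finset.mul_sum]
  exact Finset.sum_congr rfl fun i _ => pd_sqrt hf (hpos x) i

theorem thH1 (n : ℕ) : StH1 n := by
  intro ρ R hn hρ hprob h hexp f hf h1
  obtain ⟨ε, hε, hfε⟩ := hf.lb
  have hfpos : ∀ x, 0 < f x := fun x => hε.trans_le (hfε x)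
  have hfd : Differentiable ℝ f := hf.cd.differentiable (by norm_num)
  have hF2 : ∀ x, √(f x) ^ 2 = f x := fun x => sq_sqrt (hfpos x).le
  have hFc : ContDiff ℝ 2 fun x => √(f x) := hf.cd.sqrt fun x => (hfpos x).ne'
  have hFε : ∀ x, √ε ≤ √(f x) := fun x => sqrt_le_sqrt (hfε x)
  have hEA : Adm (mu ρ) fun x => ∑ i, pd (fun x => √(f x)) i x ^ 2 := adm_pd h hFc
  have hn1 : (1 : ℝ) ≤ n := by exact_mod_cast hn
  have hd := defective_cs hn h hexp (Adm.of_continuous h hFc.continuous) (sqrt_pos.2 hε) hFε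
    hEA (fun x => Finset.sum_nonneg fun i _ => sq_nonneg _)
    (fun p hp => lsi_post_gen hρ h hFc p hp) (β := n) hn1
  simp_rw [hF2, sum_pd_sqrt hfd hfpos] at hd
  rw [top_EY_zero] at h1
  rw [integral_const_mul, div_self (by (clear * - hn; positivity)), sqrt_one, ent, h1, log_one] at hd
  unfold HE FI
  rw [top_EY_zero, top_EY_zero]
  have hI : 0 ≤ ∫ x, (∑ i, pd f i x ^ 2) / f x ∂(mu ρ) :=
    integral_nonneg fun x => div_nonneg (Finset.sum_nonneg fun i _ => sq_nonneg _) (hfpos x).le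
  linarith only [hI, hd]

theorem thH3 (n : ℕ) : StH3 n := by
  intro ρ R hn hρ hprob h hexp
  refine ⟨exp (n * R ^ 2 / 2) / 2, by positivity, ?_⟩
  intro f hf h1
  obtain ⟨ε, hε, hfε⟩ := hf.lb
  have hfpos : ∀ x, 0 < f x := fun x => hε.trans_le (hfε x)
  have hfd : Differentiable ℝ f := hf.cd.differentiable (by norm_num)
  have hF2 : ∀ x, √(f x) ^ 2 = f x := fun x => sq_sqrt (hfpos x).le
  have hFc : ContDiff ℝ 2 fun x => √(f x) := hf.cd.sqrt fun x => (hfpos x).ne'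
  set p : ℝ × (Fin n → ℝ) := (1, 0) with hp
  have hp1 : (0 : ℝ) < p.1 := by simp only [hp, zero_lt_one]
  have hfA : Adm (mu ρ) f := Adm.of_continuous h hf.cd.continuous
  have hE : ContDiff ℝ 1 f := hf.cd.of_le (by norm_num)
  have hEc : Continuous fun x => (∑ i, pd f i x ^ 2) / f x :=
    (continuous_finsetSum _ fun i _ => (continuous_pd hE i).pow 2).div hf.cd.continuous
      fun x => (hfpos x).ne'
  have hEA : Adm (mu ρ) fun x => (∑ i, pd f i x ^ 2) / f x := Adm.of_continuous h hEc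
  have hlA : Adm (mu ρ) fun x => log (f x) := hfA.log hε (Eventually.of_forall hfε)
  have hflA : Adm (mu ρ) fun x => f x * log (f x) := hfA.mul hlA
  have key := lsi_post_gen hρ h hFc p hp1
  simp_rw [hF2, sum_pd_sqrt hfd hfpos] at key
  have hZ := Zo_pos h p
  set t := Mf (mu ρ) f p with ht
  have ht0 : 0 < t := hε.trans_le (Mf_ge h hfA (Eventually.of_forall hfε) p)
  have hlx : ∀ x : Fin n → ℝ, lx x p = -(1 / 2 * ∑ i, x i ^ 2) := by
    intro x
    unfold lx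
    simp only [hp, Pi.zero_apply, zero_mul, Finset.sum_const_zero, one_div, zero_sub]
  have hup : ∀ x : Fin n → ℝ, exp (lx x p) ≤ 1 := by
    intro x
    rw [hlx, exp_le_one_iff]
    have : 0 ≤ ∑ i, x i ^ 2 := Finset.sum_nonneg fun i _ => sq_nonneg _
    linarith only [this]
  have hlo : ∀ᵐ x ∂(mu ρ), exp (-(n * R ^ 2 / 2)) ≤ exp (lx x p) := by
    filter_upwards [h.supp] with x hx
    rw [hlx]
    apply exp_le_exp.2
    have h1 : ∑ i, x i ^ 2 ≤ n * R ^ 2 := by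
      have : ∀ i ∈ (Finset.univ : Finset (Fin n)), x i ^ 2 ≤ R ^ 2 := fun i _ => by
        rw [← sq_abs]; exact pow_le_pow_left₀ (abs_nonneg _) (hx i) 2
      refine (Finset.sum_le_sum this).trans (le_of_eq ?_)
      simp only [Finset.sum_const, Finset.card_univ, Fintype.card_fin, nsmul_eq_mul]
    linarith only [h1]
  -- the function `k`
  set k : (Fin n → ℝ) → ℝ := fun x => f x * log (f x) - log t * f x - f x + t with hk
  have hkA : Adm (mu ρ) k :=
    ((hflA.sub (hfA.const_mul (log t))).sub hfA).add (Adm.const _ t)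
  have hk0 : ∀ x, 0 ≤ k x := by
    intro x
    have := mul_le_mul_log_add_exp (a := f x) (b := log t) (hfpos x).le
    rw [exp_log ht0] at this
    simp only [hk]
    linarith only [this]
  -- entropy under `mu ρ`
  have hent : HE (mu ρ) 0 f ≤ ∫ x, k x ∂(mu ρ) := by
    unfold HE
    rw [top_EY_zero] at h1 ⊢
    simp only [hk]
    rw [integral_add ((hflA.sub (hfA.const_mul (log t))).sub hfA).integrable (integrable_const _),
      integral_sub (hflA.sub (hfA.const_mul (log t))).integrable hfA.integrable,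
      integral_sub hflA.integrable (hfA.const_mul (log t)).integrable, integral_const_mul, h1]
    simp only [integral_const, probReal_univ, smul_eq_mul, one_mul, mul_one]
    have := log_le_sub_one_of_pos ht0
    linarith only [this]
  have hZk : Zf (mu ρ) k p ≤ 2 * (1 / 4 * ∫ x, (∑ i, pd f i x ^ 2) / f x ∂(mu ρ)) := by
    have e : Zf (mu ρ) k p = Zf (mu ρ) (fun x => f x * log (f x)) p - Zf (mu ρ) f p * log t := by
      have e1 : Zf (mu ρ) k p = Zf (mu ρ) (fun x => f x * log (f x)) p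
          + ((-(log t) - 1) * Zf (mu ρ) f p + t * Zo (mu ρ) p) := by
        have e0 : ∀ x, k x = f x * log (f x) + ((-(log t) - 1) * f x + t * 1) := by
          intro x; simp only [hk]; ring
        rw [Zf_congr e0, Zf_add h hflA ((hfA.const_mul _).add ((Adm.const _ 1).const_mul t)),
          Zf_add h (hfA.const_mul _) ((Adm.const _ 1).const_mul t), Zf_const_mul, Zf_const_mul]
        rfl
      rw [e1]
      have e2 : Zf (mu ρ) f p = Zo (mu ρ) p * t := Zf_eq_mul h f p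
      rw [e2]; ring
    rw [e]
    refine key.trans ?_
    have hp1' : p.1 = 1 := rfl
    rw [hp1', div_one, Zf_const_mul]
    have h3 : Zf (mu ρ) (fun x => (∑ i, pd f i x ^ 2) / f x) p
        ≤ ∫ x, (∑ i, pd f i x ^ 2) / f x ∂(mu ρ) := by
      unfold Zf
      refine integral_mono_ae (hEA.mul (h.adm_exp_lx p)).integrable hEA.integrable ?_
      filter_upwards with x
      exact mul_le_of_le_one_right
        (div_nonneg (Finset.sum_nonneg fun i _ => sq_nonneg _) (hfpos x).le) (hup x)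
    linarith only [h3]
  have h2 : ∫ x, k x ∂(mu ρ) ≤ exp (n * R ^ 2 / 2) * Zf (mu ρ) k p := by
    unfold Zf
    rw [← integral_const_mul]
    refine integral_mono_ae hkA.integrable
      ((hkA.mul (h.adm_exp_lx p)).const_mul _).integrable ?_
    filter_upwards [hlo] with x hx
    have h3 : 1 ≤ exp (n * R ^ 2 / 2) * exp (lx x p) := by
      calc (1 : ℝ) = exp (n * R ^ 2 / 2) * exp (-(n * R ^ 2 / 2)) := by
            rw [← exp_add]; simp only [add_neg_cancel, exp_zero]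
        _ ≤ _ := mul_le_mul_of_nonneg_left hx (exp_pos _).le
    calc k x ≤ k x * (exp (n * R ^ 2 / 2) * exp (lx x p)) :=
          le_mul_of_one_le_right (hk0 x) h3
      _ = _ := by ring
  have h5 := mul_le_mul_of_nonneg_left hZk (exp_pos (n * R ^ 2 / 2)).le
  unfold FI
  rw [top_EY_zero]
  calc HE (mu ρ) 0 f ≤ _ := hent.trans (h2.trans h5)
    _ = _ := by ring

end Vale.Agent.P245.LS
end
end

section

section

open MeasureTheory Real Set Filter Topology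
open scoped ENNReal ContDiff

/-!
# Module D: the extra noise channel, conclusion
-/

namespace Vale.Agent.P245.LS

variable {n : ℕ}

section abstr

variable {Ω : Type*} [MeasurableSpace Ω] {P : Measure Ω} [IsProbabilityMeasure P] {N : Ω → ℝ}
  {V : Ω → Fin n → ℝ}

theorem AD.pw_cont (h : LS.AD P N V) (t : ℝ) : Continuous (pw P N V t) := (h.pw_cd t).continuous

theorem AD.pw_int_log (h : LS.AD P N V) {t : ℝ} (ht : 0 ≤ t) :
    Integrable (fun z => pw P N V t z * log (pw P N V t z)) (gsn n) := by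
  obtain ⟨C, hC0, hC⟩ := h.pw_log ht
  have hp := h.pw_pos t
  have hc : Continuous fun z => pw P N V t z * log (pw P N V t z) :=
    (h.pw_cont t).mul ((h.pw_cont t).log fun z => (hp z).ne')
  refine (integrable_exp_one_add (n := n) (2 * C + 1)).mono' hc.aestronglyMeasurable
    (Eventually.of_forall fun z => ?_)
  have h0 := one_add_sum_nonneg z
  have h1 : pw P N V t z ≤ exp (C * (1 + ∑ i, |z i|)) := by
    rw [← exp_log (hp z)]
    exact exp_le_exp.2 ((le_abs_self _).trans (hC z))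
  have h2 : C * (1 + ∑ i, |z i|) ≤ exp (C * (1 + ∑ i, |z i|)) := by
    linarith only [add_one_le_exp (C * (1 + ∑ i, |z i|))]
  rw [norm_mul, norm_eq_abs, norm_eq_abs, abs_of_pos (hp z)]
  calc pw P N V t z * |log (pw P N V t z)|
      ≤ exp (C * (1 + ∑ i, |z i|)) * exp (C * (1 + ∑ i, |z i|)) :=
        mul_le_mul h1 ((hC z).trans h2) (abs_nonneg _) (exp_pos _).le
    _ = exp (2 * C * (1 + ∑ i, |z i|)) := by rw [← exp_add]; congr 1; ring
    _ ≤ _ := exp_le_exp.2 (by linarith)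

theorem AD.pw_integrable (h : LS.AD P N V) {t : ℝ} (ht : 0 ≤ t) :
    Integrable (pw P N V t) (gsn n) := by
  have h1 := ((h.egp_N.mul (h.egp_lr ht)).integrable (P := P)
    ((h.Nm.comp measurable_snd).mul (h.meas_lr t))).integral_prod_left
  exact h1

/-- D3 -/
theorem AD.pw_log_nonneg (h : LS.AD P N V) {t : ℝ} (ht : 0 ≤ t) :
    0 ≤ ∫ z, pw P N V t z * log (pw P N V t z) ∂(gsn n) := by
  have h1 : ∫ z, (pw P N V t z - 1) ∂(gsn n) = 0 := by
    rw [integral_sub (h.pw_integrable ht) (integrable_const _), h.int_pw ht]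
    simp
  rw [← h1]
  apply integral_mono ((h.pw_integrable ht).sub (integrable_const _)) (h.pw_int_log ht)
  intro z
  have hp := h.pw_pos t z
  have := one_sub_inv_le_log_of_pos hp
  have h2 := mul_le_mul_of_nonneg_left this hp.le
  rw [mul_sub, mul_inv_cancel₀ hp.ne'] at h2
  change pw P N V t z - 1 ≤ pw P N V t z * log (pw P N V t z)
  linarith

/-- D2 -/
theorem AD.pw_lsi (h : LS.AD P N V) {t : ℝ} (ht : 0 ≤ t) :
    ∫ z, pw P N V t z * log (pw P N V t z) ∂(gsn n)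
      ≤ t / 2 * ∫ z, (∑ i, xw P N V t i z ^ 2) / pw P N V t z ∂(gsn n) := by
  have := gauss_lsi (h.pw_LG ht)
  rw [h.int_pw ht, log_one, mul_zero, sub_zero] at this
  refine this.trans (le_of_eq ?_)
  have e : ∀ z, (pw P N V t z)⁻¹ * ∑ i, pd (pw P N V t) i z ^ 2
      = t * ((∑ i, xw P N V t i z ^ 2) / pw P N V t z) := by
    intro z
    simp_rw [h.pd_pw, mul_pow, sq_sqrt ht]
    rw [← Finset.mul_sum]
    ring
  simp_rw [e]
  rw [integral_const_mul]
  ring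

end abstr

/-! ### translation -/

variable {μ : Measure (Fin n → ℝ)} [IsProbabilityMeasure μ] {N : (Fin n → ℝ) → ℝ} {σ t : ℝ}

theorem Pos.FI_eq (hN : Pos N) :
    FI μ σ N = ∫ y, N y * ∑ i, vN N y i ^ 2 ∂(lw μ σ) := by
  unfold FI
  rw [EY_eq_lw_sb μ σ (hN.div (SB.sum _ fun i _ => (hN.sb.pd i).pow 2))]
  congr 1
  funext y
  unfold vN
  simp_rw [div_pow]
  rw [← Finset.sum_div]
  have := (hN.pos y).ne'
  field_simp

theorem Pos.HE_eq (hN : Pos N) : HE μ σ N = ∫ y, N y * Real.log (N y) ∂(lw μ σ) := by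
  unfold HE
  rw [EY_eq_lw_sb μ σ (hN.sb.mul hN.log)]

omit [IsProbabilityMeasure μ] in
theorem wch_EY_const_mul (c : ℝ) (Φ : (Fin n → ℝ) → ℝ) :
    EY μ σ (fun y => c * Φ y) = c * EY μ σ Φ := by
  unfold EY PH
  simp_rw [integral_const_mul]

end Vale.Agent.P245.LS
end
end

section

section

open MeasureTheory Real Set Filter Topology
open scoped ENNReal ContDiff

/-!
# E1, module Rv: the reveal channel `W = √t φ(Y) + G` for a general vector field `φ`
-/

namespace Vale.Agent.P245.E1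

open LS

variable {n : ℕ}

theorem integral_lr_fisher2 {t : ℝ} (ht : 0 ≤ t) (v V : Fin n → ℝ) (w : Fin n → Fin n → ℝ) :
    ∫ z, lr t z V * ∑ i, (v i + √t * ∑ j, (z j - √t * V j) * w i j) ^ 2 ∂(gsn n)
      = ∑ i, v i ^ 2 + t * ∑ i, ∑ j, w i j ^ 2 := by
  rw [integral_lr ht V]
  have e : ∀ z : Fin n → ℝ, ∑ i, (v i + √t * ∑ j, ((z j + √t * V j) - √t * V j) * w i j) ^ 2
      = ∑ i, (v i + ∑ j, z j * (√t * w i j)) ^ 2 := by
    intro z
    apply Finset.sum_congr rfl; intro i _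
    congr 2
    rw [Finset.mul_sum]
    apply Finset.sum_congr rfl; intro j _; ring
  simp_rw [e]
  have hi : ∀ i, Integrable (fun z : Fin n → ℝ => (v i + ∑ j, z j * (√t * w i j)) ^ 2)
      (gsn n) := by
    intro i
    have hl : EG1 fun z : Fin n → ℝ => v i + ∑ j, z j * (√t * w i j) := by
      refine (EG1.const _).add (EG1.sum (n := n) Finset.univ
        (φ := fun j z => z j * (√t * w i j)) fun j _ => ?_)
      have := (EG1.coord (n := n) j).const_mul (√t * w i j)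
      simpa [mul_comm] using this
    have := (hl.mul hl).integrable (by (clear * -; exact Continuous.aestronglyMeasurable (by fun_prop)))
    simpa only [sq] using this
  rw [integral_finsetSum _ fun i _ => hi i]
  simp_rw [gauss_affine_sq]
  rw [Finset.sum_add_distrib, Finset.mul_sum]
  congr 1
  apply Finset.sum_congr rfl; intro i _
  rw [Finset.mul_sum]
  apply Finset.sum_congr rfl; intro j _
  rw [mul_pow, sq_sqrt ht]

section abstr

variable {Ω : Type*} [MeasurableSpace Ω] {P : Measure Ω} {N : Ω → ℝ}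
  {V : Ω → Fin n → ℝ}

theorem egp_fisher {S : Ω → Fin n → ℝ} {W : Ω → Fin n → Fin n → ℝ} (h : LS.AD P N V)
    {B0 : ℝ} (hSb : ∀ y i, |S y i| ≤ B0) {B' : ℝ} (hWb : ∀ y i j, |W y i j| ≤ B') {t : ℝ}
    (ht : 0 ≤ t) :
    EGP fun q : (Fin n → ℝ) × Ω => N q.2 * (lr t q.1 (V q.2) *
      ∑ i, (S q.2 i + √t * ∑ j, (q.1 j - √t * V q.2 j) * W q.2 i j) ^ 2) := by
  have eW : ∀ i j, EGP fun q : (Fin n → ℝ) × Ω => W q.2 i j := fun i j =>
    EGP.of_bdd fun q => hWb q.2 i j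
  have eS : ∀ i, EGP fun q : (Fin n → ℝ) × Ω => S q.2 i := fun i =>
    EGP.of_bdd fun q => hSb q.2 i
  have e0 : ∀ i, EGP fun q : (Fin n → ℝ) × Ω =>
      S q.2 i + √t * ∑ j, (q.1 j - √t * V q.2 j) * W q.2 i j := by
    intro i
    refine (eS i).add ((EGP.const _).mul (EGP.sum _ fun j _ => EGP.mul ?_ (eW i j)))
    have := (EGP.coord (Ω := Ω) j).add ((EGP.const (-√t)).mul (h.egp_V j))
    convert this using 2 with q
    ring
  refine h.egp_N.mul ((h.egp_lr ht).mul (EGP.sum _ fun i _ => ?_))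
  have := (e0 i).mul (e0 i)
  convert this using 2 with q
  ring

theorem meas_fisher {S : Ω → Fin n → ℝ} {W : Ω → Fin n → Fin n → ℝ} (h : LS.AD P N V)
    (hSm : ∀ i, Measurable fun y => S y i) (hWm : ∀ i j, Measurable fun y => W y i j) (t : ℝ) :
    Measurable fun q : (Fin n → ℝ) × Ω => N q.2 * (lr t q.1 (V q.2) *
      ∑ i, (S q.2 i + √t * ∑ j, (q.1 j - √t * V q.2 j) * W q.2 i j) ^ 2) := by
  have m1 : ∀ i, Measurable fun q : (Fin n → ℝ) × Ω => V q.2 i := fun i =>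
    (h.Vm i).comp measurable_snd
  have m2 : ∀ i, Measurable fun q : (Fin n → ℝ) × Ω => q.1 i := fun i =>
    (measurable_pi_apply i).comp measurable_fst
  have m3 : ∀ i j, Measurable fun q : (Fin n → ℝ) × Ω => W q.2 i j := fun i j =>
    (hWm i j).comp measurable_snd
  have m4 : ∀ i, Measurable fun q : (Fin n → ℝ) × Ω => S q.2 i := fun i =>
    (hSm i).comp measurable_snd
  have mN : Measurable fun q : (Fin n → ℝ) × Ω => N q.2 := h.Nm.comp measurable_snd
  have m0 : ∀ i, Measurable fun q : (Fin n → ℝ) × Ω =>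
      S q.2 i + √t * ∑ j, (q.1 j - √t * V q.2 j) * W q.2 i j := fun i =>
    (m4 i).add ((Finset.measurable_sum _ fun j _ =>
      ((m2 j).sub ((m1 j).const_mul _)).mul (m3 i j)).const_mul _)
  exact mN.mul ((h.meas_lr t).mul (Finset.measurable_sum _ fun i _ => (m0 i).pow_const 2))

variable [IsProbabilityMeasure P]

/-- average Fisher information, general field -/
theorem avg_fisher2 {S : Ω → Fin n → ℝ} {W : Ω → Fin n → Fin n → ℝ} (h : LS.AD P N V)
    (hSm : ∀ i, Measurable fun y => S y i) {B0 : ℝ} (hSb : ∀ y i, |S y i| ≤ B0)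
    (hWm : ∀ i j, Measurable fun y => W y i j) {B' : ℝ} (hWb : ∀ y i j, |W y i j| ≤ B')
    {t : ℝ} (ht : 0 ≤ t) :
    ∫ z, ∫ y, N y * (lr t z (V y) *
        ∑ i, (S y i + √t * ∑ j, (z j - √t * V y j) * W y i j) ^ 2) ∂P ∂(gsn n)
      = ∫ y, N y * ∑ i, S y i ^ 2 ∂P + t * ∫ y, N y * ∑ i, ∑ j, W y i j ^ 2 ∂P := by
  obtain ⟨G, hG⟩ := h.Nb
  rw [(egp_fisher h hSb hWb ht).fubini (meas_fisher h hSm hWm t)]
  simp_rw [integral_const_mul, integral_lr_fisher2 ht, mul_add]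
  have i1 : Integrable (fun y => N y * ∑ i, S y i ^ 2) P := by
    refine Integrable.of_bound (h.Nm.mul (Finset.measurable_sum _ fun i _ =>
      (hSm i).pow_const 2)).aestronglyMeasurable (G * ∑ i : Fin n, B0 ^ 2)
      (Eventually.of_forall fun y => ?_)
    rw [norm_mul, norm_eq_abs, norm_eq_abs]
    refine mul_le_mul (hG y) ?_ (abs_nonneg _) ((abs_nonneg _).trans (hG y))
    rw [abs_of_nonneg (by (clear * -; positivity))]
    apply Finset.sum_le_sum; intro i _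
    rw [← sq_abs]; exact pow_le_pow_left₀ (abs_nonneg _) (hSb y i) 2
  have i2 : Integrable (fun y => N y * (t * ∑ i, ∑ j, W y i j ^ 2)) P := by
    refine Integrable.of_bound (h.Nm.mul ((Finset.measurable_sum _ fun i _ =>
      Finset.measurable_sum _ fun j _ => (hWm i j).pow_const 2).const_mul _)).aestronglyMeasurable
      (G * (t * ∑ i : Fin n, ∑ j : Fin n, B' ^ 2)) (Eventually.of_forall fun y => ?_)
    rw [norm_mul, norm_eq_abs, norm_eq_abs]
    refine mul_le_mul (hG y) ?_ (abs_nonneg _) ((abs_nonneg _).trans (hG y))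
    rw [abs_of_nonneg (by (clear * - ht; positivity))]
    apply mul_le_mul_of_nonneg_left _ ht
    apply Finset.sum_le_sum; intro i _
    apply Finset.sum_le_sum; intro j _
    rw [← sq_abs]; exact pow_le_pow_left₀ (abs_nonneg _) (hWb y i j) 2
  rw [integral_add i1 i2, ← integral_const_mul]
  congr 1
  congr 1
  funext y
  ring

/-- averaging of a family of inequalities, general field -/
theorem average2 {S : Ω → Fin n → ℝ} {W : Ω → Fin n → Fin n → ℝ} (h : LS.AD P N V)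
    (hSm : ∀ i, Measurable fun y => S y i) {B0 : ℝ} (hSb : ∀ y i, |S y i| ≤ B0)
    (hWm : ∀ i j, Measurable fun y => W y i j) {B' : ℝ} (hWb : ∀ y i j, |W y i j| ≤ B')
    {t : ℝ} (ht : 0 ≤ t) {c D : ℝ}
    (hz : ∀ z, ∫ y, N y * (lr t z (V y) *
        (log (N y) + (√t * ∑ i, z i * V y i - t / 2 * ∑ i, V y i ^ 2))) ∂P
        - pw P N V t z * log (pw P N V t z)
        - c * ∫ y, N y * (lr t z (V y) *
          ∑ i, (S y i + √t * ∑ j, (z j - √t * V y j) * W y i j) ^ 2) ∂P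
        ≤ D * pw P N V t z) :
    (∫ y, N y * log (N y) ∂P + t / 2 * ∫ y, N y * ∑ i, V y i ^ 2 ∂P)
      - ∫ z, pw P N V t z * log (pw P N V t z) ∂(gsn n)
      - c * (∫ y, N y * ∑ i, S y i ^ 2 ∂P + t * ∫ y, N y * ∑ i, ∑ j, W y i j ^ 2 ∂P) ≤ D := by
  obtain ⟨L, hL⟩ := h.log_bd
  have m1 : ∀ i, Measurable fun q : (Fin n → ℝ) × Ω => V q.2 i := fun i =>
    (h.Vm i).comp measurable_snd
  have m2 : ∀ i, Measurable fun q : (Fin n → ℝ) × Ω => q.1 i := fun i =>
    (measurable_pi_apply i).comp measurable_fst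
  have mN : Measurable fun q : (Fin n → ℝ) × Ω => N q.2 := h.Nm.comp measurable_snd
  have hF1 : EGP fun q : (Fin n → ℝ) × Ω => N q.2 * (lr t q.1 (V q.2) *
      (log (N q.2) + (√t * ∑ i, q.1 i * V q.2 i - t / 2 * ∑ i, V q.2 i ^ 2))) := by
    refine h.egp_N.mul ((h.egp_lr ht).mul ?_)
    refine (EGP.of_bdd fun q => hL q.2).add ?_
    have e1 : EGP fun q : (Fin n → ℝ) × Ω => √t * ∑ i, q.1 i * V q.2 i :=
      (EGP.const _).mul (EGP.sum _ fun i _ => (EGP.coord i).mul (h.egp_V i))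
    have e2 : EGP fun q : (Fin n → ℝ) × Ω => -(t / 2) * ∑ i, V q.2 i * V q.2 i :=
      (EGP.const _).mul (EGP.sum _ fun i _ => (h.egp_V i).mul (h.egp_V i))
    have := e1.add e2
    convert this using 2 with q
    simp only [sq]; ring
  have hm1 : Measurable fun q : (Fin n → ℝ) × Ω => N q.2 * (lr t q.1 (V q.2) *
      (log (N q.2) + (√t * ∑ i, q.1 i * V q.2 i - t / 2 * ∑ i, V q.2 i ^ 2))) := by
    refine mN.mul ((h.meas_lr t).mul (mN.log.add ?_))
    exact ((Finset.measurable_sum _ fun i _ => (m2 i).mul (m1 i)).const_mul _).sub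
      ((Finset.measurable_sum _ fun i _ => (m1 i).pow_const 2).const_mul _)
  have I1 := (hF1.integrable (P := P) hm1).integral_prod_left
  have I2 := ((egp_fisher h hSb hWb ht).integrable (P := P)
    (meas_fisher h hSm hWm t)).integral_prod_left
  have I3 := h.pw_int_log ht
  have I4 := h.pw_integrable ht
  have key := integral_mono ((I1.sub I3).sub (I2.const_mul c)) (I4.const_mul D) hz
  rw [integral_const_mul, h.int_pw ht, mul_one] at key
  have e1 : ∫ z, (∫ y, N y * (lr t z (V y) *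
        (log (N y) + (√t * ∑ i, z i * V y i - t / 2 * ∑ i, V y i ^ 2))) ∂P
        - pw P N V t z * log (pw P N V t z)
        - c * ∫ y, N y * (lr t z (V y) *
          ∑ i, (S y i + √t * ∑ j, (z j - √t * V y j) * W y i j) ^ 2) ∂P) ∂(gsn n)
      = (∫ y, N y * log (N y) ∂P + t / 2 * ∫ y, N y * ∑ i, V y i ^ 2 ∂P)
      - ∫ z, pw P N V t z * log (pw P N V t z) ∂(gsn n)
      - c * (∫ y, N y * ∑ i, S y i ^ 2 ∂P + t * ∫ y, N y * ∑ i, ∑ j, W y i j ^ 2 ∂P) := by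
    rw [← h.avg_ent ht, ← avg_fisher2 h hSm hSb hWm hWb ht, ← integral_const_mul,
      ← integral_sub I1 I3]
    exact integral_sub (I1.sub I3) (I2.const_mul c)
  rw [← e1]
  exact key

/-- average of `l log l` -/
theorem avg_lrlog (h : LS.AD P N V) {t : ℝ} (ht : 0 ≤ t) :
    ∫ z, ∫ y, N y * (lr t z (V y) * log (lr t z (V y))) ∂P ∂(gsn n)
      = t / 2 * ∫ y, N y * ∑ i, V y i ^ 2 ∂P ∧
    Integrable (fun z => ∫ y, N y * (lr t z (V y) * log (lr t z (V y))) ∂P) (gsn n) := by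
  have m1 : ∀ i, Measurable fun q : (Fin n → ℝ) × Ω => V q.2 i := fun i =>
    (h.Vm i).comp measurable_snd
  have m2 : ∀ i, Measurable fun q : (Fin n → ℝ) × Ω => q.1 i := fun i =>
    (measurable_pi_apply i).comp measurable_fst
  have mN : Measurable fun q : (Fin n → ℝ) × Ω => N q.2 := h.Nm.comp measurable_snd
  have hl : ∀ z y, log (lr t z (V y)) = 0 + (√t * ∑ i, z i * V y i - t / 2 * ∑ i, V y i ^ 2) := by
    intro z y; unfold lr; rw [log_exp]; ring
  have hF1 : EGP fun q : (Fin n → ℝ) × Ω => N q.2 * (lr t q.1 (V q.2) *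
      (0 + (√t * ∑ i, q.1 i * V q.2 i - t / 2 * ∑ i, V q.2 i ^ 2))) := by
    refine h.egp_N.mul ((h.egp_lr ht).mul ?_)
    have e1 : EGP fun q : (Fin n → ℝ) × Ω => √t * ∑ i, q.1 i * V q.2 i :=
      (EGP.const _).mul (EGP.sum _ fun i _ => (EGP.coord i).mul (h.egp_V i))
    have e2 : EGP fun q : (Fin n → ℝ) × Ω => -(t / 2) * ∑ i, V q.2 i * V q.2 i :=
      (EGP.const _).mul (EGP.sum _ fun i _ => (h.egp_V i).mul (h.egp_V i))
    have := e1.add e2
    convert this using 2 with q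
    simp only [sq]; ring
  have hm1 : Measurable fun q : (Fin n → ℝ) × Ω => N q.2 * (lr t q.1 (V q.2) *
      (0 + (√t * ∑ i, q.1 i * V q.2 i - t / 2 * ∑ i, V q.2 i ^ 2))) := by
    refine mN.mul ((h.meas_lr t).mul (measurable_const.add ?_))
    exact ((Finset.measurable_sum _ fun i _ => (m2 i).mul (m1 i)).const_mul _).sub
      ((Finset.measurable_sum _ fun i _ => (m1 i).pow_const 2).const_mul _)
  simp_rw [hl]
  refine ⟨?_, (hF1.integrable (P := P) hm1).integral_prod_left⟩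
  rw [hF1.fubini hm1]
  simp_rw [integral_const_mul, integral_lr_log ht]
  rw [← integral_const_mul]
  congr 1
  funext y
  ring

end abstr

/-! ### translation -/

section tr

variable {μ : Measure (Fin n → ℝ)} [IsProbabilityMeasure μ] {N : (Fin n → ℝ) → ℝ} {r t : ℝ}
  {φ : Fin n → (Fin n → ℝ) → ℝ}

/-- the field in vector form -/
def fv (φ : Fin n → (Fin n → ℝ) → ℝ) (y : Fin n → ℝ) (i : Fin n) : ℝ := φ i y

omit [IsProbabilityMeasure μ] in
theorem RL_eq (t : ℝ) (φ : Fin n → (Fin n → ℝ) → ℝ) (z y : Fin n → ℝ) :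
    RL t φ z y = lr t z (fv φ y) := rfl

theorem fv_bdd (hφ : ∀ i, SB (φ i)) : ∃ B, 0 ≤ B ∧ ∀ y i, |fv φ y i| ≤ B := by
  have h : ∀ i, ∃ C, 0 ≤ C ∧ ∀ y, |φ i y| ≤ C := fun i => (hφ i).bdd'
  choose C hC0 hC using h
  exact ⟨∑ i, C i, Finset.sum_nonneg fun i _ => hC0 i, fun y i =>
    (hC i y).trans (Finset.single_le_sum (f := C) (fun j _ => hC0 j) (Finset.mem_univ i))⟩

theorem adR (hN : Pos N) (h1 : EY μ r N = 1) (hφ : ∀ i, SB (φ i)) :
    LS.AD (lw μ r) N (fv φ) where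
  Nm := hN.sb.measurable
  Vm i := (hφ i).measurable
  Nb := hN.sb.bdd
  Nl := hN.lb
  Vb := fv_bdd hφ
  N1 := by rw [← EY_eq_lw_sb μ r hN.sb]; exact h1

theorem RL_expo_sb (hφ : ∀ i, SB (φ i)) (t : ℝ) (z : Fin n → ℝ) :
    SB fun y => √t * ∑ i, z i * φ i y - t / 2 * ∑ i, φ i y ^ 2 :=
  (((SB.sum _ fun i _ => (hφ i).const_mul (z i))).const_mul _).sub
    ((SB.sum _ fun i _ => (hφ i).pow 2).const_mul _)

theorem RL_pos (hφ : ∀ i, SB (φ i)) (t : ℝ) (z : Fin n → ℝ) : Pos (RL t φ z) :=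
  (RL_expo_sb hφ t z).exp_pos

/-- the reveal channel is a channel -/
theorem ch_RL (hφ : ∀ i, SB (φ i)) {t : ℝ} (ht : 0 ≤ t) : Ch (RL t φ) where
  meas := by
    have h1 : ∀ i, Measurable fun q : (Fin n → ℝ) × (Fin n → ℝ) => φ i q.2 := fun i =>
      (hφ i).measurable.comp measurable_snd
    have h2 : ∀ i, Measurable fun q : (Fin n → ℝ) × (Fin n → ℝ) => q.1 i := fun i =>
      (measurable_pi_apply i).comp measurable_fst
    unfold RL Function.uncurry
    apply Measurable.exp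
    exact ((Finset.measurable_sum _ fun i _ => (h2 i).mul (h1 i)).const_mul _).sub
      ((Finset.measurable_sum _ fun i _ => (h1 i).pow_const 2).const_mul _)
  bd := by
    obtain ⟨B, hB0, hB⟩ := fv_bdd hφ
    refine ⟨√t * B + t / 2 * (n * B ^ 2), by positivity, fun w y => ?_⟩
    have hS : 0 ≤ ∑ i, |w i| := Finset.sum_nonneg fun i _ => abs_nonneg _
    have h1 : |∑ i, w i * φ i y| ≤ B * ∑ i, |w i| := by
      refine (Finset.abs_sum_le_sum_abs _ _).trans ?_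
      rw [Finset.mul_sum]
      apply Finset.sum_le_sum; intro i _
      rw [abs_mul, mul_comm]
      exact mul_le_mul_of_nonneg_right (hB y i) (abs_nonneg _)
    have h2 : ∑ i, φ i y ^ 2 ≤ n * B ^ 2 := by
      calc ∑ i, φ i y ^ 2 ≤ ∑ _i : Fin n, B ^ 2 := by
            apply Finset.sum_le_sum; intro i _
            rw [← sq_abs]; exact pow_le_pow_left₀ (abs_nonneg _) (hB y i) 2
        _ = n * B ^ 2 := by simp only [Finset.sum_const, Finset.card_univ, Fintype.card_fin, nsmul_eq_mul]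
    have h2' : 0 ≤ ∑ i, φ i y ^ 2 := Finset.sum_nonneg fun i _ => sq_nonneg _
    have h3 := mul_le_mul_of_nonneg_left (abs_le.1 h1).1 (sqrt_nonneg t)
    have h3' := mul_le_mul_of_nonneg_left (abs_le.1 h1).2 (sqrt_nonneg t)
    have h4 := mul_le_mul_of_nonneg_left h2 (by (clear * - ht; positivity) : 0 ≤ t / 2)
    have h4' := mul_nonneg (by positivity : 0 ≤ t / 2) h2'
    have c1 : 0 ≤ √t * B := by (clear * - hB0; positivity)
    have c2 : 0 ≤ t / 2 * (n * B ^ 2) := by (clear * - ht; positivity)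
    have c3 := mul_nonneg c2 hS
    constructor
    · unfold RL
      apply exp_le_exp.2
      linarith only [c3, c1, h4, h3]
    · unfold RL
      apply exp_le_exp.2
      linarith only [c3, c2, c1, h4', h3']
  one y := integral_lr_one ht (fv φ y)

theorem ms_RL (hN : Pos N) (hφ : ∀ i, SB (φ i)) (z : Fin n → ℝ) :
    ms μ r N (RL t φ) z = pw (lw μ r) N (fv φ) t z := by
  unfold ms
  rw [EY_eq_lw_sb μ r (hN.mul (RL_pos hφ t z)).sb]
  rfl

theorem IP_eq_lw (hN : Pos N) (hφ : ∀ i, SB (φ i)) :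
    IP μ r N φ φ = ∫ y, N y * ∑ i, fv φ y i ^ 2 ∂(lw μ r) := by
  unfold IP
  rw [EY_eq_lw_sb μ r (hN.sb.mul (SB.sum _ fun i _ => (hφ i).mul (hφ i)))]
  congr 1
  funext y
  simp only [fv, sq]

theorem DE_eq_lw (hN : Pos N) (hφ : ∀ i, SB (φ i)) :
    DE μ r N φ = ∫ y, N y * ∑ i, ∑ j, pd (φ j) i y ^ 2 ∂(lw μ r) := by
  unfold DE
  rw [EY_eq_lw_sb μ r (hN.sb.mul (SB.sum _ fun i _ => SB.sum _ fun j _ =>
    ((hφ i).pd j).pow 2))]
  congr 1
  funext y
  rw [Finset.sum_comm]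

theorem Inf_RL (hN : Pos N) (h1 : EY μ r N = 1) (hφ : ∀ i, SB (φ i)) (ht : 0 ≤ t) :
    Inf μ r N (RL t φ) = t / 2 * IP μ r N φ φ
      - ∫ z, pw (lw μ r) N (fv φ) t z * Real.log (pw (lw μ r) N (fv φ) t z) ∂(gsn n) := by
  have hA := adR (φ := φ) hN h1 hφ
  obtain ⟨e1, i1⟩ := avg_lrlog hA ht
  have i2 := hA.pw_int_log ht
  unfold Inf
  simp_rw [ms_RL hN hφ]
  have e : ∀ z, (EY μ r fun y => N y * (RL t φ z y * Real.log (RL t φ z y)))
      = ∫ y, N y * (lr t z (fv φ y) * Real.log (lr t z (fv φ y))) ∂(lw μ r) := by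
    intro z
    rw [EY_eq_lw_sb μ r (hN.sb.mul ((RL_pos hφ t z).sb.mul (RL_pos hφ t z).log))]
    rfl
  simp_rw [e]
  rw [integral_sub i1 i2, e1, IP_eq_lw hN hφ]

theorem Co_RL (hN : Pos N) (hφ : ∀ i, SB (φ i)) :
    Co μ r N φ (RL t φ) = ∫ z, (∑ i, xw (lw μ r) N (fv φ) t i z ^ 2) / pw (lw μ r) N (fv φ) t z
      ∂(gsn n) := by
  unfold Co
  simp_rw [ms_RL hN hφ]
  have e : ∀ z i, (EY μ r fun y => N y * φ i y * RL t φ z y) = xw (lw μ r) N (fv φ) t i z := by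
    intro z i
    rw [EY_eq_lw_sb μ r ((hN.sb.mul (hφ i)).mul (RL_pos hφ t z).sb)]
    unfold xw
    congr 1
    funext y
    rw [mul_assoc]
    rfl
  simp_rw [e]

/-- the posterior density at `z` -/
theorem post_pos (hN : Pos N) (hφ : ∀ i, SB (φ i)) (t : ℝ) (z : Fin n → ℝ) {c : ℝ} (hc : 0 < c) :
    Pos fun y => c * (N y * RL t φ z y) := (hN.mul (RL_pos hφ t z)).const_mul hc

omit [IsProbabilityMeasure μ] in
theorem pd_post (hN : Pos N) (hφ : ∀ i, SB (φ i)) (ht : 0 ≤ t) (z : Fin n → ℝ) (c : ℝ)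
    (i : Fin n) (y : Fin n → ℝ) :
    pd (fun y => c * (N y * RL t φ z y)) i y = c * (N y * RL t φ z y) *
      (vN N y i + √t * ∑ j, (z j - √t * φ j y) * pd (φ j) i y) := by
  set E : (Fin n → ℝ) → ℝ := fun y => √t * ∑ i, z i * φ i y - t / 2 * ∑ i, φ i y ^ 2
    with hE
  have hEsb : SB E := RL_expo_sb hφ t z
  have hLR : RL t φ z = fun y => exp (E y) := rfl
  have hv : ∀ j, HasFDerivAt (φ j) (fderiv ℝ (φ j) y) y := fun j =>
    ((hφ j).differentiable y).hasFDerivAt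
  have hpdE : pd E i y = √t * ∑ j, (z j - √t * φ j y) * pd (φ j) i y := by
    have h1 : HasFDerivAt E (√t • ∑ j, z j • fderiv ℝ (φ j) y
        - (t / 2) • ∑ j, (2 • φ j y ^ (2 - 1)) • fderiv ℝ (φ j) y) y := by
      refine HasFDerivAt.sub ?_ ?_
      · exact (HasFDerivAt.fun_sum fun j _ => (hv j).const_mul (z j)).const_mul _
      · exact (HasFDerivAt.fun_sum fun j _ => (hv j).pow 2).const_mul _
    unfold pd
    rw [h1.fderiv]
    simp only [_root_.sub_apply, _root_.smul_apply, _root_.sum_apply, smul_eq_mul]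
    rw [Finset.mul_sum, Finset.mul_sum, Finset.mul_sum, ← Finset.sum_sub_distrib]
    apply Finset.sum_congr rfl
    intro j _
    have h3 : √t * √t = t := mul_self_sqrt ht
    norm_num
    linear_combination (φ j y * (fderiv ℝ (φ j) y) (Pi.single i 1)) * h3
  have hNd := hN.sb.differentiable
  have hexpd : Differentiable ℝ fun y => exp (E y) := hEsb.exp.differentiable
  have e1 : pd (fun y => exp (E y)) i = fun y => exp (E y) * pd E i y :=
    LS.pd_comp (φ' := Real.exp) hEsb.differentiable (fun y => Real.hasDerivAt_exp _) i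
  have e2 : pd (fun y => N y * exp (E y)) i = _ := LS.pd_mul hNd hexpd i
  have e3 : pd (fun y => c * (N y * exp (E y))) i y = c * pd (fun y => N y * exp (E y)) i y := by
    have := congrFun (LS.pd_mul (N := fun _ => c) (M := fun y => N y * exp (E y))
      (differentiable_const c) (hNd.mul hexpd) i) y
    rw [this]
    have : pd (fun _ : Fin n → ℝ => c) i y = 0 := by
      unfold pd; rw [fderiv_const_apply]; rfl
    rw [this]; ring
  rw [hLR, e3, e2, e1, ← hpdE]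
  simp only
  have : vN N y i = pd N i y / N y := rfl
  rw [this]
  have := (hN.pos y).ne'
  field_simp
  ring

end tr

/-- Module Rv. -/
theorem thRv (n : ℕ) : StRv n := by
  intro μ _ r t κ D N φ hr ht hN hN1 hφ
  have hA := adR (φ := φ) hN hN1 hφ
  refine ⟨ch_RL hφ ht.le, ?_, ?_, ?_⟩
  · rw [Inf_RL hN hN1 hφ ht.le]
    have := hA.pw_log_nonneg ht.le
    (clear * - this; linarith)
  · rw [Inf_RL hN hN1 hφ ht.le, Co_RL hN hφ]
    have := hA.pw_lsi ht.le
    linarith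
  · intro hDB
    set W : (Fin n → ℝ) → Fin n → Fin n → ℝ := fun y i j => pd (φ j) i y with hW
    have hWb : ∃ B', ∀ y i j, |W y i j| ≤ B' := by
      have h : ∀ i j, ∃ C, 0 ≤ C ∧ ∀ y, |W y i j| ≤ C := fun i j => ((hφ j).pd i).bdd'
      choose C hC0 hC using h
      refine ⟨∑ i, ∑ j, C i j, fun y i j => (hC i j y).trans ?_⟩
      exact (Finset.single_le_sum (f := fun j => C i j) (fun j _ => hC0 i j)
        (Finset.mem_univ j)).trans (Finset.single_le_sum (f := fun i => ∑ j, C i j)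
        (fun i _ => Finset.sum_nonneg fun j _ => hC0 i j) (Finset.mem_univ i))
    obtain ⟨B', hB'⟩ := hWb
    have hWm : ∀ i j, Measurable fun y => W y i j := fun i j => ((hφ j).pd i).measurable
    have hSm : ∀ i, Measurable fun y => vN N y i := fun i => (hN.vN_sb i).measurable
    have hSb : ∃ B0, 0 ≤ B0 ∧ ∀ y i, |vN N y i| ≤ B0 := (hN.AD hN1).Vb
    obtain ⟨B0, -, hB0⟩ := hSb
    have key := average2 hA hSm hB0 hWm hB' ht.le (c := κ) (D := D) (fun z => by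
      set p := pw (lw μ r) N (fv φ) t z with hp
      have hp0 : 0 < p := hA.pw_pos t z
      have hM := post_pos hN hφ t z (inv_pos.2 hp0)
      have hM1 : EY μ r (fun y => p⁻¹ * (N y * RL t φ z y)) = 1 := by
        rw [wch_EY_const_mul]
        have : EY μ r (fun y => N y * RL t φ z y) = p := ms_RL hN hφ z
        rw [this, inv_mul_cancel₀ hp0.ne']
      have h1 := hDB _ hM hM1
      have hFI : p * LS.FI μ r (fun y => p⁻¹ * (N y * RL t φ z y))
          = ∫ y, N y * (lr t z (fv φ y) *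
          ∑ i, (vN N y i + √t * ∑ j, (z j - √t * fv φ y j) * W y i j) ^ 2) ∂(lw μ r) := by
        unfold LS.FI
        rw [EY_eq_lw_sb μ r (hM.div (SB.sum _ fun i _ => (hM.sb.pd i).pow 2)),
          ← integral_const_mul]
        congr 1
        funext y
        simp_rw [pd_post hN hφ ht.le z p⁻¹]
        have hy := (hN.pos y).ne'
        have hl := (lr_pos t z (fv φ y)).ne'
        simp_rw [mul_pow, ← Finset.mul_sum, RL_eq]
        have hsum : ∑ i, (vN N y i + √t * ∑ j, (z j - √t * φ j y) * pd (φ j) i y) ^ 2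
            = ∑ i, (vN N y i + √t * ∑ j, (z j - √t * fv φ y j) * W y i j) ^ 2 := rfl
        rw [hsum]
        (clear * - hp0 hl hy; field_simp)
      have hHE : p * HE μ r (fun y => p⁻¹ * (N y * RL t φ z y))
          = ∫ y, N y * (lr t z (fv φ y) *
        (log (N y) + (√t * ∑ i, z i * fv φ y i - t / 2 * ∑ i, fv φ y i ^ 2))) ∂(lw μ r)
          - p * log p := by
        unfold HE
        rw [EY_eq_lw_sb μ r (hM.sb.mul hM.log), ← integral_const_mul]
        have e : ∀ y, p * (p⁻¹ * (N y * RL t φ z y) * log (p⁻¹ * (N y * RL t φ z y)))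
            = N y * (lr t z (fv φ y) *
            (log (N y) + (√t * ∑ i, z i * fv φ y i - t / 2 * ∑ i, fv φ y i ^ 2)))
              - log p * (N y * lr t z (fv φ y)) := by
          intro y
          have hy := (hN.pos y)
          have hl := (lr_pos t z (fv φ y))
          rw [RL_eq, log_mul (inv_pos.2 hp0).ne' (mul_pos hy hl).ne', log_inv,
            log_mul hy.ne' hl.ne']
          have : log (lr t z (fv φ y))
              = √t * ∑ i, z i * fv φ y i - t / 2 * ∑ i, fv φ y i ^ 2 := by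
            unfold lr; rw [log_exp]
          rw [this]
          field_simp
          ring
        simp_rw [e]
        have j2 : Integrable (fun y => N y * lr t z (fv φ y)) (lw μ r) :=
          (hN.mul (RL_pos hφ t z)).sb.integrable _
        have j1 : Integrable (fun y => N y * (lr t z (fv φ y) *
            (log (N y) + (√t * ∑ i, z i * fv φ y i - t / 2 * ∑ i, fv φ y i ^ 2)))) (lw μ r) :=
          (hN.sb.mul ((RL_pos hφ t z).sb.mul (hN.log.add (RL_expo_sb hφ t z)))).integrable _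
        rw [integral_sub j1 (j2.const_mul _), integral_const_mul]
        have : ∫ y, N y * lr t z (fv φ y) ∂(lw μ r) = p := rfl
        rw [this]
        ring
      have h2 := mul_le_mul_of_nonneg_left h1 hp0.le
      rw [mul_add, hHE] at h2
      have h3 : p * (κ * LS.FI μ r (fun y => p⁻¹ * (N y * RL t φ z y)))
          = κ * (p * LS.FI μ r (fun y => p⁻¹ * (N y * RL t φ z y))) := by ring
      rw [h3, hFI] at h2
      linarith only [h2])
    rw [Inf_RL hN hN1 hφ ht.le]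
    rw [← hN.HE_eq, ← IP_eq_lw hN hφ, ← hN.FI_eq, ← DE_eq_lw hN hφ] at key
    linarith only [key]

end Vale.Agent.P245.E1
end
end

section

section

open MeasureTheory Real Set Filter Topology
open scoped ENNReal ContDiff

/-!
# E1, module Boot: the bootstrap for the coherence of the score of a near-maximiser
(steps 3-6; steps 1, 2 are `StPathA`)
-/

namespace Vale.Agent.P245.E1

open LS

variable {n : ℕ}

theorem bm_of_pos {N : (Fin n → ℝ) → ℝ} (h : Pos N) : BM N := ⟨h.sb.measurable, h.sb.bdd⟩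

/-- the constant channel -/
theorem ch_one : Ch (fun _ _ : Fin n → ℝ => (1 : ℝ)) where
  meas := measurable_const
  bd := ⟨0, le_rfl, fun w y => by simp only [zero_mul, neg_zero, exp_zero, Std.le_refl, and_self]⟩
  one y := by simp

theorem inf_one {μ : Measure (Fin n → ℝ)} {r : ℝ} {N : (Fin n → ℝ) → ℝ} (h1 : EY μ r N = 1) :
    Inf μ r N (fun _ _ => 1) = 0 := by
  have e1 : (EY μ r fun _ => (0 : ℝ)) = 0 := by
    simp [EY, PH]
  have e2 : ∀ w : Fin n → ℝ, ms μ r N (fun _ _ => 1) w = 1 := by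
    intro w
    unfold ms
    simpa using h1
  unfold Inf
  simp only [log_one, mul_zero, e1, e2, sub_self, integral_zero]

/-- the reveal inequality in the form used in the bootstrap -/
theorem reveal_ineq (hRv : StRv n) {μ : Measure (Fin n → ℝ)} [IsProbabilityMeasure μ]
    {r δ κ D K x : ℝ} {N : (Fin n → ℝ) → ℝ} {φ : Fin n → (Fin n → ℝ) → ℝ} (hr : 0 ≤ r)
    (hδ : 0 < δ) (hN : Pos N) (h1 : EY μ r N = 1) (hφ : ∀ i, SB (φ i)) (hD : DBL μ r κ D)
    (hK : Pred μ r N φ x K) (hx : δ / 2 * IP μ r N φ φ ≤ x) :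
    IP μ r N φ φ ≤ 2 * κ * DE μ r N φ + K + 2 * (D - LS.HE μ r N + κ * LS.FI μ r N) / δ := by
  obtain ⟨hch, hI1, hI2, hI3⟩ := hRv μ r δ κ D N φ hr hδ hN h1 hφ
  have h2 := hK _ hch (hI1.trans hx)
  have h3 := hI3 hD
  have h4 : δ / 2 * (IP μ r N φ φ - K) ≤ δ / 2 * (IP μ r N φ φ - Co μ r N φ (RL δ φ)) :=
    mul_le_mul_of_nonneg_left (by linarith only [h2]) (by positivity)
  have h5 : δ / 2 * (IP μ r N φ φ - K)
      ≤ D - LS.HE μ r N + κ * LS.FI μ r N + κ * δ * DE μ r N φ := by linarith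
  have h6 : IP μ r N φ φ - K
      ≤ (D - LS.HE μ r N + κ * LS.FI μ r N + κ * δ * DE μ r N φ) / (δ / 2) := by
    rw [le_div_iff₀ (by positivity)]; linarith only [hI2, h3, h4]
  have e : (D - LS.HE μ r N + κ * LS.FI μ r N + κ * δ * DE μ r N φ) / (δ / 2)
      = 2 * κ * DE μ r N φ + 2 * (D - LS.HE μ r N + κ * LS.FI μ r N) / δ := by
    field_simp
    ring
  rw [e] at h6
  linarith only [h6]

/-- step 3: Gibbs bound at the top level of the up leg -/
theorem boot_gibbs (hR : StR n) (hCo : StCo n) (hG0 : StG0 n) {μ : Measure (Fin n → ℝ)}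
    [IsProbabilityMeasure μ] {R A δ s r x h m : ℝ} (hcs : CSupp μ R) (hA1 : 1 ≤ A)
    (hexp : ExpM μ A) {V : (Fin n → ℝ) → ℝ} (hδ : 0 < δ) (hs : s = 2 * δ) (hr : r = 3 * δ)
    (hV : Pos V) (hV1 : EY μ s V = 1) (hVH : LS.HE μ s V ≤ h)
    (hUp : Pos (UL μ s r V)) (hU1 : EY μ r (UL μ s r V) = 1)
    (hmm : IP μ r (UL μ s r V) (mm μ s r V) (mm μ s r V) ≤ m) :
    Pred μ r (UL μ s r V) (sN (UL μ s r V)) x (16 / δ ^ 2 * (h + x + log A) + 8 * m) ∧
      0 ≤ LS.HE μ s V + log A := by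
  have hs0 : 0 < s := by rw [hs]; positivity
  have hsr : s ≤ r := by rw [hs, hr]; linarith only [hδ]
  obtain ⟨_, hreg⟩ := (hR μ R hcs).2.2 s r hs0 hsr
  obtain ⟨_, hsb, hid⟩ := hreg V hV
  have hco := (hCo μ r _ hUp).2.2 hU1
  have e : sN (UL μ s r V) = fun i y => 1 / δ * dx μ s r V i y + 2 * mm μ s r V i y := by
    funext i y
    have h1 := hid i y
    have e1 : r - s = δ := by rw [hs, hr]; ring
    rw [e1, hs] at h1
    rw [hs]
    field_simp
    linarith only [h1]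
  constructor
  · intro l hl hI
    obtain ⟨_, hc⟩ := hco l hl
    have h1 := (hc (dx μ s r V) fun i => (hsb i).2.2.2).2.2 (mm μ s r V) (fun i => (hsb i).2.2.1)
      (1 / δ) 2
    have h2 := hG0 μ R A hcs hA1 hexp s r V hs0 hsr hV hV1 l hl
    have h3 := (hc (mm μ s r V) fun i => (hsb i).2.2.1).2.1
    rw [← e] at h1
    have h4 : Co μ r (UL μ s r V) (dx μ s r V) l ≤ 8 * (h + x + log A) := h2.trans (by linarith only [hVH, hI])
    have h5 : 2 * (1 / δ) ^ 2 * Co μ r (UL μ s r V) (dx μ s r V) l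
        ≤ 2 * (1 / δ) ^ 2 * (8 * (h + x + log A)) :=
      mul_le_mul_of_nonneg_left h4 (by positivity)
    have e2 : 2 * (1 / δ) ^ 2 * (8 * (h + x + log A)) = 16 / δ ^ 2 * (h + x + log A) := by
      field_simp; ring
    rw [e2] at h5
    linarith only [hmm, h1, h3, h5]
  · obtain ⟨_, hc⟩ := hco _ ch_one
    have h2 := hG0 μ R A hcs hA1 hexp s r V hs0 hsr hV hV1 _ ch_one
    have h3 := (hc (dx μ s r V) fun i => (hsb i).2.2.2).1
    rw [inf_one hU1] at h2
    linarith only [h2, h3]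

/-- steps 4-6 -/
theorem boot_core (hK : StK n) (hR : StR n) (hT : StT n) (hCo : StCo n) (hRv : StRv n)
    (hU : StU n) (hDn : StDn n) (hP : StP n) {ρ0 : (Fin n → ℝ) → ℝ} {R δ κ σ s r x X D M K1 : ℝ}
    (hρ : LCd ρ0) (hprob : IsProbabilityMeasure (mu ρ0)) (hcs : CSupp (mu ρ0) R)
    {N V : (Fin n → ℝ) → ℝ} (hδ : 0 < δ) (hδκ : 2000 * δ ≤ κ) (hs : s = 2 * δ) (hr : r = 3 * δ)
    (hDB : ∀ ρ ∈ Icc s r, DBL (mu ρ0) ρ κ D) (hσ : σ ∈ Icc s r) (hN : Pos N)
    (hN1 : EY (mu ρ0) σ N = 1) (hX0 : 0 ≤ X) (hXJ : X ≤ LS.FI (mu ρ0) σ N)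
    (hx : 2 * δ * LS.FI (mu ρ0) σ N ≤ x) (hM0 : 0 ≤ M)
    (hMJ : M / κ ≤ 6 / 1000 * LS.FI (mu ρ0) σ N) (hVe : V = PH (σ - s) N)
    (hVpos : Pos V)
    (hdn : ∀ ρ ∈ Icc s σ, Pos (PH (σ - ρ) N) ∧ EY (mu ρ0) ρ (PH (σ - ρ) N) = 1 ∧
        LS.HE (mu ρ0) ρ (PH (σ - ρ) N) - κ * LS.FI (mu ρ0) ρ (PH (σ - ρ) N) ≤ D ∧
        D - M ≤ LS.HE (mu ρ0) ρ (PH (σ - ρ) N) - κ * LS.FI (mu ρ0) ρ (PH (σ - ρ) N) ∧
        LS.FI (mu ρ0) ρ (PH (σ - ρ) N) ≤ LS.FI (mu ρ0) σ N ∧
        98 / 100 * LS.FI (mu ρ0) σ N ≤ LS.FI (mu ρ0) ρ (PH (σ - ρ) N) ∧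
        Pred (mu ρ0) ρ (PH (σ - ρ) N) (sN (PH (σ - ρ) N)) x X)
    (hup : ∀ ρ ∈ Icc s r, Pos (UL (mu ρ0) s ρ V) ∧
        EY (mu ρ0) ρ (UL (mu ρ0) s ρ V) = 1 ∧
        LS.HE (mu ρ0) ρ (UL (mu ρ0) s ρ V) - κ * LS.FI (mu ρ0) ρ (UL (mu ρ0) s ρ V) ≤ D ∧
        D - M ≤ LS.HE (mu ρ0) ρ (UL (mu ρ0) s ρ V) - κ * LS.FI (mu ρ0) ρ (UL (mu ρ0) s ρ V) ∧
        LS.FI (mu ρ0) ρ (UL (mu ρ0) s ρ V) ≤ LS.FI (mu ρ0) σ N ∧
        98 / 100 * LS.FI (mu ρ0) σ N ≤ LS.FI (mu ρ0) ρ (UL (mu ρ0) s ρ V) ∧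
        IP (mu ρ0) ρ (UL (mu ρ0) s ρ V) (mm (mu ρ0) s ρ V) (mm (mu ρ0) s ρ V) ≤ M / κ ∧
        Pred (mu ρ0) ρ (UL (mu ρ0) s ρ V) (us (mu ρ0) s ρ V) x X)
    (hJpos : 0 < LS.FI (mu ρ0) σ N) (hK0 : 0 ≤ K1) (hK1J : 10 * K1 ≤ LS.FI (mu ρ0) σ N)
    (hK1 : Pred (mu ρ0) r (UL (mu ρ0) s r V) (sN (UL (mu ρ0) s r V)) x K1) :
    Pred (mu ρ0) σ N (sN N) x (41 / 10 * K1 + 42 * (M / κ)) := by
  have := hprob
  set μ := mu ρ0 with hμ
  set J0 := LS.FI μ σ N with hJ0def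
  have hκ : 0 < κ := by linarith only [hδ, hδκ]
  have hs0 : 0 < s := by rw [hs]; positivity
  have hsr : s ≤ r := by rw [hs, hr]; linarith only [hδ]
  have hrs : r - s = δ := by rw [hs, hr]; ring
  have hss : s ∈ Icc s r := ⟨le_rfl, hsr⟩
  have hrr : r ∈ Icc s r := ⟨hsr, le_rfl⟩
  have hMκ0 : 0 ≤ M / κ := div_nonneg hM0 hκ.le
  have hδκ' : δ / κ ≤ 1 / 2000 := by rw [div_le_iff₀ hκ]; linarith only [hδκ]
  have hx0 : δ / 2 * J0 ≤ x := by
    have : 0 ≤ δ * J0 := by (clear * - hδ hJpos; positivity)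
    linarith only [hx, this]
  obtain ⟨hKa, hKb, hKc⟩ := hK μ R hcs
  obtain ⟨_, _, hRb⟩ := hR μ R hcs
  have hUs : UL μ s s V = V := hKb s V hs0
  set U1 := UL μ s r V with hU1def
  have hsnU : ∀ ρ ∈ Icc s r, ∀ i, SB (sN (UL μ s ρ V) i) := fun ρ hρI i =>
    (hup ρ hρI).1.div ((hup ρ hρI).1.sb.pd i)
  have hφ : ∀ i, SB (sN U1 i) := hsnU r hrr
  have hG : ∀ ρ : ℝ, ∀ i, SB (PH (r - ρ) (sN U1 i)) := fun ρ i => PH_sb (hφ i) _
  -- predictability of `G`
  have hPG : ∀ ρ ∈ Icc s r, Pred μ ρ (UL μ s ρ V) (fun i => PH (r - ρ) (sN U1 i)) x K1 := by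
    intro ρ hρI
    have hρ0 : 0 < ρ := hs0.trans_le hρI.1
    have h1 := (hT μ R hcs (UL μ s ρ V) ρ r x K1 (hup ρ hρI).1 hρ0 hρI.2).2.2.1
      (hup ρ hρI).2.1 (sN U1) hφ
    rw [hKc s ρ r V hs0 hρI.1 hρI.2 (bm_of_pos hVpos)] at h1
    exact h1 hK1
  -- calculus on the up leg
  obtain ⟨cH, cJ, dH, dJ, hUφ⟩ := hU μ R hcs V s r hVpos hs0 hsr
  obtain ⟨cg2, cc, dg2, dc⟩ := hUφ (sN U1) hφ
  set H : ℝ → ℝ := fun ρ => LS.HE μ ρ (UL μ s ρ V) with hHdef
  set J : ℝ → ℝ := fun ρ => LS.FI μ ρ (UL μ s ρ V) with hJdef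
  set g2 : ℝ → ℝ := fun ρ => IP μ ρ (UL μ s ρ V) (fun i => PH (r - ρ) (sN U1 i))
    (fun i => PH (r - ρ) (sN U1 i)) with hg2def
  set c : ℝ → ℝ := fun ρ => IP μ ρ (UL μ s ρ V) (fun i => PH (r - ρ) (sN U1 i))
    (sN (UL μ s ρ V)) with hcdef
  set DG : ℝ → ℝ := fun ρ => DE μ ρ (UL μ s ρ V) (fun i => PH (r - ρ) (sN U1 i)) with hDGdef
  set e : ℝ → ℝ := fun ρ => BI μ ρ (UL μ s ρ V) (fun i => PH (r - ρ) (sN U1 i))
    (sN (UL μ s ρ V)) with hedef
  set B : ℝ → ℝ := fun ρ => BI μ ρ (UL μ s ρ V) (sN (UL μ s ρ V)) (sN (UL μ s ρ V)) with hBdef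
  set Γ : ℝ → ℝ := fun ρ => LS.GA μ ρ (UL μ s ρ V) with hΓdef
  set al : ℝ → ℝ := fun ρ => D - H ρ + κ * J ρ with haldef
  set al' : ℝ → ℝ := fun ρ => 1 / 2 * J ρ - κ * (Γ ρ + 2 * B ρ) with hal'def
  have cal : ContinuousOn al (Icc s r) :=
    (continuousOn_const.sub cH).add (continuousOn_const.mul cJ)
  have dal : ∀ v ∈ Ioo s r, HasDerivAt al (al' v) v := by
    intro v hv
    have h1 := (((dH v hv).const_sub D).add ((dJ v hv).const_mul κ))
    refine h1.congr_deriv ?_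
    show -(-(1 / 2) * J v) + κ * -(Γ v + 2 * B v) = 1 / 2 * J v - κ * (Γ v + 2 * B v)
    ring
  have hal0 : ∀ v ∈ Icc s r, 0 ≤ al v := fun v hv => by
    have := (hup v hv).2.2.1
    show 0 ≤ D - H v + κ * J v
    have h2 : H v - κ * J v ≤ D := this
    linarith only [this]
  have halM : ∀ v ∈ Icc s r, al v ≤ M := fun v hv => by
    have := (hup v hv).2.2.2.1
    show D - H v + κ * J v ≤ M
    have h2 : D - M ≤ H v - κ * J v := this
    linarith only [this]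
  have hB0 : ∀ v ∈ Ioo s r, 0 ≤ B v := fun v hv =>
    (hP ρ0 R hρ hprob hcs v (UL μ s v V) _ _ (hs0.trans hv.1) (hup v ⟨hv.1.le, hv.2.le⟩).1
      (hsnU v ⟨hv.1.le, hv.2.le⟩) (hsnU v ⟨hv.1.le, hv.2.le⟩)).1
  have hJJ0 : ∀ v ∈ Icc s r, J v ≤ J0 := fun v hv => (hup v hv).2.2.2.2.1
  have hFI : ∀ v ∈ Icc s r, J v = IP μ v (UL μ s v V) (sN (UL μ s v V)) (sN (UL μ s v V)) :=
    fun v hv => (hCo μ v _ (hup v hv).1).1.1
  have hGAe : ∀ v ∈ Icc s r, Γ v = DE μ v (UL μ s v V) (sN (UL μ s v V)) :=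
    fun v hv => (hCo μ v _ (hup v hv).1).1.2
  have hg2e : ∀ v ∈ Icc s r, 0 ≤ g2 v ∧ 0 ≤ DG v ∧ c v ^ 2 ≤ g2 v * J v := fun v hv => by
    have h1 := (hCo μ v _ (hup v hv).1).2.1 (fun i => PH (r - v) (sN U1 i)) (sN (UL μ s v V))
      (hG v) (hsnU v hv)
    refine ⟨h1.1, h1.2.1, ?_⟩
    rw [hFI v hv]
    exact h1.2.2.2.1
  -- `J` decreases, `g2` increases
  have hJanti : ∀ v ∈ Icc s r, J r ≤ J v := by
    have h1 := mono_of_deriv (f := fun v => -J v) (f' := fun v => Γ v + 2 * B v) (a := s) (b := r)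
      cJ.neg (fun v hv => ((dJ v hv).neg).congr_deriv (by
        show - -(Γ v + 2 * B v) = _
        ring)) (fun v hv => by
        have hv' : v ∈ Icc s r := ⟨hv.1.le, hv.2.le⟩
        have h2 : 0 ≤ Γ v := by
          rw [hGAe v hv']
          exact ((hCo μ v _ (hup v hv').1).2.1 _ _ (hsnU v hv') (hsnU v hv')).2.1
        have h3 := hB0 v hv
        show 0 ≤ Γ v + 2 * B v
        linarith only [h2, h3])
    intro v hv
    have h2 := h1 hv hrr hv.2
    simp only at h2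
    linarith only [h2]
  have hg2mono : ∀ v ∈ Icc s r, g2 v ≤ g2 r := by
    have h1 := mono_of_deriv (f := g2) (f' := DG) (a := s) (b := r) cg2 dg2
      (fun v hv => (hg2e v ⟨hv.1.le, hv.2.le⟩).2.1)
    intro v hv
    exact h1 hv hrr hv.2
  have hGr : (fun i => PH (r - r) (sN U1 i)) = sN U1 := by
    funext i
    rw [sub_self, PH_zero]
  have hg2r : g2 r = J r := by
    show IP μ r (UL μ s r V) (fun i => PH (r - r) (sN U1 i)) (fun i => PH (r - r) (sN U1 i)) = J r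
    rw [hGr, hFI r hrr]
  have hcr : c r = J r := by
    show IP μ r (UL μ s r V) (fun i => PH (r - r) (sN U1 i)) (sN (UL μ s r V)) = J r
    rw [hGr, hFI r hrr]
  -- the reveal inequalities on the up leg
  set C : ℝ := 2 * X + 2 * (M / κ) with hCdef
  have hRsN : ∀ v ∈ Ioo s r, J v ≤ 2 * κ * Γ v + C + 2 * al v / δ := by
    intro v hv
    have hvI : v ∈ Icc s r := ⟨hv.1.le, hv.2.le⟩
    have hv0 : 0 < v := hs0.trans hv.1
    obtain ⟨hUp, hUE, _, _, _, _, hmm, hPu⟩ := hup v hvI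
    obtain ⟨_, hreg⟩ := hRb s v hs0 hv.1.le
    obtain ⟨_, hsb, _⟩ := hreg V hVpos
    have hPc : Pred μ v (UL μ s v V) (sN (UL μ s v V)) x C := by
      intro l hl hI
      obtain ⟨_, hc⟩ := (hCo μ v _ hUp).2.2 hUE l hl
      have h1 := (hc (us μ s v V) fun i => (hsb i).2.1).2.2 (mm μ s v V)
        (fun i => (hsb i).2.2.1) 1 (-1)
      have h3 := (hc (mm μ s v V) fun i => (hsb i).2.2.1).2.1
      have h4 := hPu l hl hI
      have e1 : (fun i y => 1 * us μ s v V i y + -1 * mm μ s v V i y) = sN (UL μ s v V) := by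
        funext i y
        unfold mm
        ring
      rw [e1] at h1
      linarith only [hmm, h1, h3, h4]
    have h1 := reveal_ineq hRv hv0.le hδ hUp hUE (hsnU v hvI) (hDB v hvI) hPc (by
      rw [← hFI v hvI]
      exact (mul_le_mul_of_nonneg_left (hJJ0 v hvI) (by positivity)).trans hx0)
    rw [← hFI v hvI, ← hGAe v hvI] at h1
    exact h1
  have hRG : ∀ v ∈ Ioo s r, g2 v ≤ 2 * κ * DG v + K1 + 2 * al v / δ := by
    intro v hv
    have hvI : v ∈ Icc s r := ⟨hv.1.le, hv.2.le⟩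
    have hv0 : 0 < v := hs0.trans hv.1
    have h1 := reveal_ineq hRv hv0.le hδ (hup v hvI).1 (hup v hvI).2.1 (hG v) (hDB v hvI)
      (hPG v hvI) (by
        have h2 : g2 v ≤ J0 := (hg2mono v hvI).trans (hg2r.le.trans (hJJ0 r hrr))
        exact (mul_le_mul_of_nonneg_left h2 (by positivity)).trans hx0)
    exact h1
  have hBal : ∀ v ∈ Ioo s r, 2 * κ * B v ≤ C / 2 + al v / δ - al' v := by
    intro v hv
    have h1 := hRsN v hv
    show 2 * κ * B v ≤ C / 2 + al v / δ - (1 / 2 * J v - κ * (Γ v + 2 * B v))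
    have e1 : 2 * al v / δ = 2 * (al v / δ) := by ring
    rw [e1] at h1
    linarith only [h1]
  -- the real-variable lemmas
  have hlen : r - s ≤ δ := hrs.le
  have hδκ1 : δ ≤ κ / 1000 := by linarith only [hδ, hδκ]
  set E1 : ℝ := δ / (2 * κ) * K1 + M / κ with hE1def
  set η : ℝ := 11 / 10 * (M / κ) with hηdef
  have hJ1l : 98 / 100 * J0 ≤ J r := (hup r hrr).2.2.2.2.2.1
  have hJ1pos : 0 < J r := by linarith only [hJpos, hJ1l]
  have hη0 : 0 ≤ η := by (clear * - hM0 hκ; positivity)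
  have hη1 : η ≤ J r / 100 := by
    rw [hηdef]; linarith only [hMJ, hJ1l, hJ1pos]
  have hE10 : 0 ≤ E1 := by (clear * - hδ hκ hK0 hM0; positivity)
  have hE1a : δ / (2 * κ) * K1 ≤ 1 / 4000 * K1 := by
    have e1 : δ / (2 * κ) = 1 / 2 * (δ / κ) := by (clear * - hκ hδ; field_simp)
    rw [e1]
    exact mul_le_mul_of_nonneg_right (by linarith only [hδκ']) hK0
  have hE11 : E1 ≤ J r / 100 := by
    rw [hE1def]; linarith only [hMJ, hK1J, hJ1l, hJ1pos, hE1a]
  have hC0 : 0 ≤ C := by (clear * - hX0 hM0 hκ; positivity)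
  have hC3 : C ≤ 3 * J r := by
    rw [hCdef]; linarith only [hXJ, hMJ, hJ1l, hJ1pos]
  have b1 := g2_bound (g2 := g2) (DG := DG) hκ hδ hlen hK0 hM0 halM cg2 dg2 hRG
  rw [hg2r] at b1
  have hdu : ∀ v ∈ Ioo s r, HasDerivAt (fun v => κ * J v - al v) (-J v / 2) v := by
    intro v hv
    have e1 : (fun v => κ * J v - al v) = fun v => H v - D := by
      funext v
      show κ * J v - (D - H v + κ * J v) = H v - D
      ring
    rw [e1]
    refine ((dH v hv).sub_const D).congr_deriv ?_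
    show -(1 / 2) * J v = -J v / 2
    ring
  have b2 := J_bound (J := J) hκ hlen hδκ1 hM0 hsr hal0 halM cal cJ hdu
  have hesq : ∀ v ∈ Ioo s r, ∀ lam : ℝ,
      (e v - lam * B v) ^ 2 ≤ (g2 v - 2 * lam * c v + lam ^ 2 * J v) * (B v / v) := by
    intro v hv lam
    have hvI : v ∈ Icc s r := ⟨hv.1.le, hv.2.le⟩
    have hv0 : 0 < v := hs0.trans hv.1
    have hsbc : ∀ i, SB fun y => 1 * PH (r - v) (sN U1 i) y + -lam * sN (UL μ s v V) i y :=
      fun i => ((hG v i).const_mul _).add ((hsnU v hvI i).const_mul _)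
    obtain ⟨_, _, hlin1, hlin2⟩ := hP ρ0 R hρ hprob hcs v (UL μ s v V)
      (fun i y => 1 * PH (r - v) (sN U1 i) y + -lam * sN (UL μ s v V) i y) (sN (UL μ s v V))
      hv0 (hup v hvI).1 hsbc (hsnU v hvI)
    obtain ⟨_, _, _, hlin3⟩ := hP ρ0 R hρ hprob hcs v (UL μ s v V)
      (fun i => PH (r - v) (sN U1 i)) (sN (UL μ s v V))
      hv0 (hup v hvI).1 (hG v) (hsnU v hvI)
    have h2 := hlin3 (sN (UL μ s v V)) 1 (-lam) (hsnU v hvI)
    have h3 := ((hCo μ v _ (hup v hvI).1).2.1 (fun i => PH (r - v) (sN U1 i)) (sN (UL μ s v V))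
      (hG v) (hsnU v hvI)).2.2.2.2 1 (-lam)
    rw [h2, h3] at hlin1
    have h4 : (1 * e v + -lam * B v) ^ 2 ≤ 1 / v * (1 ^ 2 * g2 v + 2 * 1 * -lam * c v
      + (-lam) ^ 2 * IP μ v (UL μ s v V) (sN (UL μ s v V)) (sN (UL μ s v V))) * B v := hlin1
    rw [← hFI v hvI] at h4
    calc (e v - lam * B v) ^ 2 = (1 * e v + -lam * B v) ^ 2 := by ring
      _ ≤ _ := h4
      _ = _ := by ring
  have b3 := c_bound (α := al) (α' := al') (J := J) (g2 := g2) (c := c) (e := e) (B := B)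
    (M := M) (J1 := J r) (E1 := E1) (η := η) (C := C) hs0 hκ hδ hsr hlen (by rw [hs]; linarith only [])
    hδκ1 hC0 hJ1pos hE10 hη0 (by rw [hηdef]; linarith only [hMκ0]) hη1 hE11 hC3 cal dal hal0 halM hB0 hBal
    cc dc hcr hesq b1 hJanti (fun v hv => (b2 v hv).trans (by rw [hηdef]; linarith only [hMκ0]))
    (fun v hv => (hg2e v hv).2.2)
  -- down leg
  have hdn' : ∀ ρ ∈ Icc s σ, ρ ∈ Icc s r := fun ρ hρI => ⟨hρI.1, hρI.2.trans hσ.2⟩
  have hssσ : s ∈ Icc s σ := ⟨le_rfl, hσ.1⟩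
  have hσσ : σ ∈ Icc s σ := ⟨hσ.1, le_rfl⟩
  have hψ : ∀ i, SB (PH (r - s) (sN U1 i)) := hG s
  obtain ⟨cHd, cJd, dHd, dJd, hDφ⟩ := hDn μ R hcs N s σ hN hs0 hσ.1
  obtain ⟨cr2, dr2, hpair⟩ := hDφ (fun i => PH (r - s) (sN U1 i)) hψ
  have hsbR : ∀ ρ ∈ Icc s σ, ∀ i, SB (UL μ s ρ (PH (r - s) (sN U1 i))) := fun ρ hρI i =>
    (hRb s ρ hs0 hρI.1).1 _ (hψ i)
  have hPR : ∀ ρ ∈ Icc s σ, Pred μ ρ (PH (σ - ρ) N)
      (fun i => UL μ s ρ (PH (r - s) (sN U1 i))) x K1 := by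
    intro ρ hρI
    have h1 := (hT μ R hcs (PH (σ - ρ) N) s ρ x K1 (hdn ρ hρI).1 hs0 hρI.1).2.2.2
      (hdn ρ hρI).2.1 (fun i => PH (r - s) (sN U1 i)) hψ
    have e1 : PH (ρ - s) (PH (σ - ρ) N) = V := by
      rw [PH_PH hN.sb (by linarith only [hρI.1]) (by linarith only [hρI.2]), hVe]
      congr 1
      ring
    rw [e1] at h1
    apply h1
    have h2 := hPG s hss
    rwa [hUs] at h2
  set Jd : ℝ → ℝ := fun ρ => LS.FI μ ρ (PH (σ - ρ) N) with hJddef
  set Hd : ℝ → ℝ := fun ρ => LS.HE μ ρ (PH (σ - ρ) N) with hHddef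
  set r2 : ℝ → ℝ := fun ρ => IP μ ρ (PH (σ - ρ) N) (fun i => UL μ s ρ (PH (r - s) (sN U1 i)))
    (fun i => UL μ s ρ (PH (r - s) (sN U1 i))) with hr2def
  set DR : ℝ → ℝ := fun ρ => DE μ ρ (PH (σ - ρ) N) (fun i => UL μ s ρ (PH (r - s) (sN U1 i)))
    with hDRdef
  set ald : ℝ → ℝ := fun ρ => D - Hd ρ + κ * Jd ρ with halddef
  have cald : ContinuousOn ald (Icc s σ) :=
    (continuousOn_const.sub cHd).add (continuousOn_const.mul cJd)
  have hald0 : ∀ v ∈ Icc s σ, 0 ≤ ald v := fun v hv => by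
    have h2 : Hd v - κ * Jd v ≤ D := (hdn v hv).2.2.1
    show 0 ≤ D - Hd v + κ * Jd v
    linarith only [h2]
  have haldM : ∀ v ∈ Icc s σ, ald v ≤ M := fun v hv => by
    have h2 : D - M ≤ Hd v - κ * Jd v := (hdn v hv).2.2.2.1
    show D - Hd v + κ * Jd v ≤ M
    linarith only [h2]
  have hDR0 : ∀ v ∈ Icc s σ, 0 ≤ DR v := fun v hv =>
    ((hCo μ v _ (hdn v hv).1).2.1 (fun i => UL μ s v (PH (r - s) (sN U1 i))) _ (hsbR v hv)
      (hsbR v hv)).2.1
  have hr2anti : ∀ v ∈ Icc s σ, r2 v ≤ r2 s := by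
    have h1 := mono_of_deriv (f := fun v => -r2 v) (f' := DR) (a := s) (b := σ)
      cr2.neg (fun v hv => ((dr2 v hv).neg).congr_deriv (by
        show - -(DR v) = DR v
        ring)) (fun v hv => hDR0 v ⟨hv.1.le, hv.2.le⟩)
    intro v hv
    have h2 := h1 hssσ hv hv.1
    simp only at h2
    linarith only [h2]
  have hVs : PH (σ - s) N = V := hVe.symm
  have hKs : ∀ h : (Fin n → ℝ) → ℝ, UL μ s s h = h := fun h => hKb s h hs0
  have hr2s : r2 s = g2 s := by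
    show IP μ s (PH (σ - s) N) (fun i => UL μ s s (PH (r - s) (sN U1 i)))
      (fun i => UL μ s s (PH (r - s) (sN U1 i))) = IP μ s (UL μ s s V)
        (fun i => PH (r - s) (sN U1 i)) (fun i => PH (r - s) (sN U1 i))
    simp only [hKs, hVs]
  have hRR : ∀ v ∈ Ioo s σ, r2 v ≤ 2 * κ * DR v + K1 + 2 * ald v / δ := by
    intro v hv
    have hvI : v ∈ Icc s σ := ⟨hv.1.le, hv.2.le⟩
    have hv0 : 0 < v := hs0.trans hv.1
    have h1 := reveal_ineq hRv hv0.le hδ (hdn v hvI).1 (hdn v hvI).2.1 (hsbR v hvI)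
      (hDB v (hdn' v hvI)) (hPR v hvI) (by
        have h2 : r2 v ≤ J0 := (hr2anti v hvI).trans (hr2s.le.trans ((hg2mono s hss).trans
          (hg2r.le.trans (hJJ0 r hrr))))
        exact (mul_le_mul_of_nonneg_left h2 (by positivity)).trans hx0)
    exact h1
  have hlenσ : σ - s ≤ δ := by linarith only [hs, hr, hσ.2]
  have b4 := r2_bound (r2 := r2) (DR := DR) hκ hδ hσ.1 hlenσ hK0 hM0 haldM cr2 dr2 hRR
  have hdud : ∀ v ∈ Ioo s σ, HasDerivAt (fun v => κ * Jd v - ald v) (Jd v / 2) v := by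
    intro v hv
    have e1 : (fun v => κ * Jd v - ald v) = fun v => Hd v - D := by
      funext v
      show κ * Jd v - (D - Hd v + κ * Jd v) = Hd v - D
      ring
    rw [e1]
    refine ((dHd v hv).sub_const D).congr_deriv ?_
    show 1 / 2 * Jd v = Jd v / 2
    ring
  have b5 := Jstar_bound (J := Jd) hκ hlenσ hδκ1 hM0 hσ.1 hald0 haldM cald cJd hdud
  have hPH0 : PH (σ - σ) N = N := by rw [sub_self, PH_zero]
  have hJdσ : Jd σ = J0 := by
    show LS.FI μ σ (PH (σ - σ) N) = J0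
    rw [hPH0]
  have hJds : Jd s = J s := by
    show LS.FI μ s (PH (σ - s) N) = LS.FI μ s (UL μ s s V)
    rw [hVs, hUs]
  rw [hJdσ, hJds] at b5
  rw [hr2s] at b4
  -- the exponents
  set a1 : ℝ := 1 / (2 * κ) * (σ - s) with ha1
  set a2 : ℝ := 1 / (2 * κ) * (r - s) with ha2
  have hik : 0 < 1 / (2 * κ) := by positivity
  have ha10 : 0 ≤ a1 := mul_nonneg hik.le (by linarith only [hσ.1])
  have ha20 : 0 ≤ a2 := mul_nonneg hik.le (by linarith only [hδ, hs, hr])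
  have ha1b : a1 ≤ 1 / 4000 := by
    have h1 : a1 ≤ 1 / (2 * κ) * δ := mul_le_mul_of_nonneg_left hlenσ hik.le
    have e1 : 1 / (2 * κ) * δ = 1 / 2 * (δ / κ) := by (clear * - hδ hκ; field_simp)
    linarith only [hδκ', h1, e1]
  have ha2b : a2 ≤ 1 / 4000 := by
    have h1 : a2 ≤ 1 / (2 * κ) * δ := mul_le_mul_of_nonneg_left hlen hik.le
    have e1 : 1 / (2 * κ) * δ = 1 / 2 * (δ / κ) := by (clear * - hδ hκ; field_simp)
    linarith only [hδκ', h1, e1]
  have hexp1 : exp a1 ≤ 1.001 := (exp_le_one_add_two_mul ha10 (by linarith only [ha1b])).trans (by linarith only [ha1b])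
  have hexp2 : exp (-a1) ≤ 1 := exp_le_one_iff.2 (by linarith only [ha10])
  have hbs := b1 s hss
  have hbJ := b2 s hss
  have hz : exp (-(a1 + a2)) = exp (-a1) * exp (-a2) := by rw [← exp_add]; ring_nf
  have hz2 : exp (a1 + a2) = exp a1 * exp a2 := exp_add _ _
  have hr2fin : r2 σ ≤ exp (-(a1 + a2)) * J r + 2 * E1 := by
    have h1 : exp (-a1) * g2 s ≤ exp (-a1) * (exp (-a2) * J r + E1) :=
      mul_le_mul_of_nonneg_left hbs (exp_pos _).le
    have h2 : exp (-a1) * E1 ≤ 1 * E1 := mul_le_mul_of_nonneg_right hexp2 hE10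
    have e1 : exp (-a1) * (exp (-a2) * J r + E1) = exp (-a1) * exp (-a2) * J r + exp (-a1) * E1 := by
      ring
    rw [hz]
    linarith only [b4, h1, h2]
  have hJfin : J0 ≤ exp (a1 + a2) * J r + 4 * η := by
    have h1 : exp a1 * J s ≤ exp a1 * (exp a2 * J r + 2 * (M / κ)) :=
      mul_le_mul_of_nonneg_left hbJ (exp_pos _).le
    have h2 : exp a1 * (2 * (M / κ)) ≤ 1.001 * (2 * (M / κ)) :=
      mul_le_mul_of_nonneg_right hexp1 (by (clear * - hM0 hκ; positivity))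
    have e1 : exp a1 * (exp a2 * J r + 2 * (M / κ)) = exp a1 * exp a2 * J r
      + exp a1 * (2 * (M / κ)) := by ring
    rw [hz2, hηdef]
    linarith only [hMκ0, b5, h1, h2]
  -- pairing at level `σ`
  set Rσ : Fin n → (Fin n → ℝ) → ℝ := fun i => UL μ s σ (PH (r - s) (sN U1 i)) with hRσdef
  have hsbRσ : ∀ i, SB (Rσ i) := hsbR σ hσσ
  have hsbN : ∀ i, SB (sN N i) := fun i => hN.div (hN.sb.pd i)
  have hcs1 : IP μ σ N Rσ (sN N) = c s := by
    have h1 := hpair σ hσσ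
    rw [hPH0] at h1
    rw [h1]
    show IP μ s (PH (σ - s) N) (fun i => PH (r - s) (sN U1 i)) (sN (PH (σ - s) N))
      = IP μ s (UL μ s s V) (fun i => PH (r - s) (sN U1 i)) (sN (UL μ s s V))
    rw [hVs, hUs]
  have hr2σ : IP μ σ N Rσ Rσ = r2 σ := by
    show IP μ σ N Rσ Rσ = IP μ σ (PH (σ - σ) N) Rσ Rσ
    rw [hPH0]
  obtain ⟨⟨hFIσ, _⟩, hquad, hchan⟩ := hCo μ σ N hN
  obtain ⟨_, _, hcomm, hCSσ, hq⟩ := hquad Rσ (sN N) hsbRσ hsbN
  rw [hcs1, hr2σ, ← hFIσ] at hCSσ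
  obtain ⟨f1, f2, f3⟩ := final_deficit (J1 := J r) (cs := c s) (r2 := r2 σ) (Jst := J0)
    (E1 := E1) (η := η) (z := a1 + a2) hJ1pos hE10 hη0 hE11 hη1 (by linarith only [ha10, ha20]) (by linarith only [ha1b, ha2b])
    b3 hr2fin hJfin hJpos.le hCSσ
  have hr2pos : 0 < r2 σ := by linarith only [hJ1pos, f1]
  set cc' : ℝ := c s / r2 σ with hcc'
  -- conclusion
  intro l hl hI
  obtain ⟨_, hcl⟩ := hchan hN1 l hl
  have hdiff : ∀ i, SB fun y => -cc' * Rσ i y + 1 * sN N i y := fun i =>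
    ((hsbRσ i).const_mul _).add ((hsbN i).const_mul _)
  have k1 := (hcl Rσ hsbRσ).2.2 (fun i y => -cc' * Rσ i y + 1 * sN N i y) hdiff cc' 1
  have e2 : (fun i y => cc' * Rσ i y + 1 * (-cc' * Rσ i y + 1 * sN N i y)) = sN N := by
    funext i y
    ring
  rw [e2] at k1
  have k2 := (hcl (fun i y => -cc' * Rσ i y + 1 * sN N i y) hdiff).2.1
  have k3 := hq (-cc') 1
  rw [hcs1, hr2σ, ← hFIσ] at k3
  rw [k3] at k2
  have k4 : (-cc') ^ 2 * r2 σ + 2 * -cc' * 1 * c s + 1 ^ 2 * J0 = J0 - c s ^ 2 / r2 σ := by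
    rw [hcc']
    field_simp
    ring
  have k5 : Co μ σ N (fun i y => -cc' * Rσ i y + 1 * sN N i y) l ≤ 10 * (E1 + η) := by
    refine k2.trans ?_
    have : (-cc') ^ 2 * r2 σ + 2 * -cc' * 1 * c s + 1 ^ 2 * J0 ≤ 10 * (E1 + η) := by
      rw [k4]; exact f2
    exact this
  have k6 : Co μ σ N Rσ l ≤ K1 := by
    have h1 := hPR σ hσσ
    rw [hPH0] at h1
    exact h1 l hl hI
  have k7 : 0 ≤ Co μ σ N Rσ l := (hcl Rσ hsbRσ).1
  have k8 : 2 * cc' ^ 2 * Co μ σ N Rσ l ≤ 4 * K1 := by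
    have h1 : cc' ^ 2 * Co μ σ N Rσ l ≤ 2 * K1 := mul_le_mul f3 k6 k7 (by norm_num)
    linarith only [h1]
  have k9 : Co μ σ N (sN N) l ≤ 4 * K1 + 20 * (E1 + η) := by linarith only [f2, k1, k2, k4, k8]
  rw [hE1def, hηdef] at k9
  linarith only [hK0, hηdef, hE1a, f2, k1, k2, k4, k8]

/-- module Boot -/
theorem boot_of (n : ℕ) (hK : StK n) (hR : StR n) (hT : StT n) (hCo : StCo n) (hRv : StRv n)
    (hG0 : StG0 n) (hU : StU n) (hDn : StDn n) (hP : StP n) (hPA : StPathA n) : StBoot n := by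
  intro ρ0 R A hρ hprob hcs hA1 hexp N δ κ σ α x X D hδ hδκ hDBS hσ hN hN1 hα hαJ hnear hx hX0
    hXJ hPred
  have := hprob
  obtain ⟨⟨hVpos, hV1, hVH⟩, hdn, hup⟩ := hPA ρ0 R hρ hprob hcs N (PH (σ - 2 * δ) N) δ κ σ α x X D
    hδ hδκ hDBS hσ hN hN1 hα hαJ hnear hx hX0 hXJ hPred rfl
  have hκ : 0 < κ := by linarith only [hδ, hδκ]
  have hsr : (2 : ℝ) * δ ≤ 3 * δ := by linarith only [hδ]
  have hrr : 3 * δ ∈ Icc (2 * δ) (3 * δ) := ⟨hsr, le_rfl⟩
  set J0 := LS.FI (mu ρ0) σ N with hJ0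
  have hJ00 : 0 ≤ J0 := hX0.trans hXJ
  set M : ℝ := 10 * α + 8 * δ * X with hM
  have hM0 : 0 ≤ M := by (clear * - hα hδ hX0; positivity)
  have hMκ : M / κ = 10 * (α / κ) + 8 * (δ / κ) * X := by rw [hM]; (clear * - hκ; field_simp)
  have hδκ' : δ / κ ≤ 1 / 2000 := by rw [div_le_iff₀ hκ]; linarith only [hδκ]
  have hδX : δ / κ * X ≤ 1 / 2000 * X := mul_le_mul_of_nonneg_right hδκ' hX0
  have hα' : α / κ ≤ 1 / 10000 * J0 := by rw [div_le_iff₀ hκ]; linarith only [hαJ]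
  have hα0 : 0 ≤ α / κ := div_nonneg hα hκ.le
  have hMJ : M / κ ≤ 6 / 1000 * J0 := by rw [hMκ]; linarith only [hX0, hXJ, hδX, hα']
  obtain ⟨hU1, hU2, _, _, _, _, hmm, _⟩ := hup (3 * δ) hrr
  obtain ⟨hG1, hG2⟩ := boot_gibbs (x := x) hR hCo hG0 hcs hA1 hexp hδ rfl rfl hVpos hV1 hVH hU1
    hU2 hmm
  have hx0 : 0 ≤ x := (by (clear * - hδ hJ00; positivity) : 0 ≤ 2 * δ * J0).trans hx
  set L : ℝ := LS.HE (mu ρ0) σ N + x + log A with hL
  have hL0 : 0 ≤ L := by rw [hL]; linarith only [hVH, hG2, hx0]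
  set K1 : ℝ := 16 / δ ^ 2 * L + 8 * (M / κ) with hK1
  have hLδ : 0 ≤ 1 / δ ^ 2 * L := by (clear * - hδ hL0; positivity)
  have hK1e : K1 = 16 * (1 / δ ^ 2 * L) + 8 * (M / κ) := by rw [hK1]; ring
  have hMκ0 : 0 ≤ M / κ := div_nonneg hM0 hκ.le
  have hK10 : 0 ≤ K1 := by rw [hK1e]; (clear * - hδ hL0 hα hX0 hκ; positivity)
  have hY : 400 / δ ^ 2 * L + 2000 * α / κ + X / 2
      = 400 * (1 / δ ^ 2 * L) + 2000 * (α / κ) + X / 2 := by ring
  rw [hY]
  rcases le_or_gt J0 (10 * K1) with hcase | hcase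
  · -- trivial case
    intro l hl hI
    obtain ⟨⟨hFIσ, _⟩, _, hchan⟩ := hCo (mu ρ0) σ N hN
    obtain ⟨_, hcl⟩ := hchan hN1 l hl
    have h1 := (hcl (sN N) fun i => hN.div (hN.sb.pd i)).2.1
    rw [← hFIσ] at h1
    refine h1.trans ?_
    have h2 : J0 ≤ 10 * K1 := hcase
    rw [hK1e, hMκ] at h2
    show J0 ≤ _
    linarith only [hX0, hMκ, hδX, hα0, hLδ, hK1e, hcase]
  · have hJpos : 0 < J0 := by linarith only [hLδ, hK1e, hMκ0, hcase]
    have h1 := boot_core hK hR hT hCo hRv hU hDn hP (K1 := K1) (M := M) (D := D) (X := X) hρ hprob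
      hcs hδ hδκ rfl rfl (fun ρ hρI => hDBS ρ ⟨hρI.1, hρI.2.trans (by linarith only [])⟩) hσ hN hN1 hX0
      hXJ hx hM0 hMJ rfl hVpos hdn hup hJpos hK10 hcase.le hG1
    intro l hl hI
    refine (h1 l hl hI).trans ?_
    rw [hK1e, hMκ]
    linarith only [hX0, hδX, hα0, hLδ]

end Vale.Agent.P245.E1
end
end

section

section

set_option linter.unusedSectionVars false

open MeasureTheory Real Set Filter Topology
open scoped ENNReal ContDiff

/-! Bridge: from the regularity statement `StUL` of the lift `UL` to the up flows of Flow2. -/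

namespace Vale.Agent.P245.E1

open LS LS.Down

variable {n : ℕ}

/-- symmetry of second derivatives -/
theorem grad_symm {f : (Fin n → ℝ) → ℝ} {a : Fin n → (Fin n → ℝ) → ℝ}
    {a2 : Fin n → Fin n → (Fin n → ℝ) → ℝ}
    (h1 : ∀ y, HasFDerivAt f (lf fun i => a i y) y)
    (h2 : ∀ i y, HasFDerivAt (a i) (lf fun j => a2 i j y) y) (i j : Fin n) (y : Fin n → ℝ) :
    a2 i j y = a2 j i y := by
  have e : (fun y => lf fun i => a i y) = fun y => ∑ i, a i y •
      (ContinuousLinearMap.proj (R := ℝ) (φ := fun _ : Fin n => ℝ) i) := by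
    funext y
    ext v
    simp only [lf_apply, sum_apply, smul_apply, ContinuousLinearMap.proj_apply, smul_eq_mul]
  have h3 : HasFDerivAt (fun y => lf fun i => a i y)
      (∑ i, (lf fun j => a2 i j y).smulRight
        (ContinuousLinearMap.proj (R := ℝ) (φ := fun _ : Fin n => ℝ) i)) y := by
    rw [e]
    exact HasFDerivAt.fun_sum fun i _ => (h2 i y).smul_const
      (ContinuousLinearMap.proj (R := ℝ) (φ := fun _ : Fin n => ℝ) i)
  have hs := second_derivative_symmetric_of_eventually (Eventually.of_forall h1) h3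
    (Pi.single j 1) (Pi.single i 1)
  simpa only [sum_apply, ContinuousLinearMap.smulRight_apply, lf_apply, Pi.single_apply, mul_ite, mul_one,     mul_zero, Finset.sum_ite_eq', Finset.mem_univ, ↓reduceIte, smul_apply, ContinuousLinearMap.proj_apply,     smul_eq_mul] using hs

section

variable {μ : Measure (Fin n → ℝ)} [IsProbabilityMeasure μ] {R : ℝ} {I : Set ℝ}

/-- a regular solution of the up equation and its gradient are up flows -/
theorem Um.of_pde {f d : ℝ → (Fin n → ℝ) → ℝ} {a ad : Fin n → ℝ → (Fin n → ℝ) → ℝ}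
    {a2 : Fin n → Fin n → ℝ → (Fin n → ℝ) → ℝ}
    (h1 : H1 I f d a) (h2 : ∀ i, H1 I (a i) (ad i) (a2 i))
    (pde : ∀ σ ∈ I, ∀ y, d σ y = 1 / 2 * ∑ i, a2 i i σ y + ∑ i, sc μ i σ y * a i σ y) :
    Um μ I f (fun _ _ => 0) a :=
  ⟨d, ad, a2, h1, h2, fun σ hσ y => by rw [pde σ hσ y]; ring⟩

theorem Um.grad_of_pde (hμ : CSupp μ R) (hI : IsOpen I) (hI0 : I ⊆ Ioi 0)
    {f d dd : ℝ → (Fin n → ℝ) → ℝ} {a ad da : Fin n → ℝ → (Fin n → ℝ) → ℝ}
    {a2 ad2 : Fin n → Fin n → ℝ → (Fin n → ℝ) → ℝ}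
    {a3 : Fin n → Fin n → Fin n → ℝ → (Fin n → ℝ) → ℝ}
    (h1 : H1 I f d a) (hd : H1 I d dd da) (h2 : ∀ i, H1 I (a i) (ad i) (a2 i))
    (h3 : ∀ i j, H1 I (a2 i j) (ad2 i j) (a3 i j))
    (pde : ∀ σ ∈ I, ∀ y, d σ y = 1 / 2 * ∑ i, a2 i i σ y + ∑ i, sc μ i σ y * a i σ y)
    (k : Fin n) : Um μ I (a k) (fun σ y => -∑ i, Pv μ i k σ y * a i σ y) (a2 k) := by
  refine ⟨ad k, ad2 k, a3 k, h2 k, h3 k, fun σ hσ y => ?_⟩
  have hmix := H1.mixed hI h1 hd h2 k hσ y
  have sy2 : ∀ i j y, a2 i j σ y = a2 j i σ y := fun i j y =>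
    grad_symm (fun y => h1.fd σ hσ y) (fun i y => (h2 i).fd σ hσ y) i j y
  have sy3 : ∀ i j l y, a3 i j l σ y = a3 i l j σ y := fun i j l y =>
    grad_symm (fun y => (h2 i).fd σ hσ y) (fun j y => (h3 i j).fd σ hσ y) j l y
  have sy3' : ∀ i j l y, a3 i j l σ y = a3 j i l σ y := by
    intro i j l y
    have e : a2 i j σ = a2 j i σ := by funext y; exact sy2 i j y
    have k1 := (h3 i j).pd_eq hσ l
    have k2 := (h3 j i).pd_eq hσ l
    rw [e, k2] at k1
    exact (congrFun k1 y).symm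
  -- gradient of the right-hand side of the equation
  have hR : H1 I (fun σ y => 1 / 2 * ∑ i, a2 i i σ y + ∑ i, sc μ i σ y * a i σ y) _ _ :=
    ((H1.sum Finset.univ fun i _ => h3 i i).const_mul (1 / 2)).add
      (H1.sum Finset.univ fun i _ => ((H1_sc hμ i).mono hI0).mul (h2 i))
  have e0 : d σ = fun y => 1 / 2 * ∑ i, a2 i i σ y + ∑ i, sc μ i σ y * a i σ y := by
    funext y; exact pde σ hσ y
  have k1 := hd.pd_eq hσ k
  have k2 := hR.pd_eq hσ k
  rw [e0, k2] at k1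
  have k3 := congrFun k1 y
  rw [hmix, ← k3]
  have e3 : ∑ i, a3 i i k σ y = ∑ i, a3 k i i σ y := by
    apply Finset.sum_congr rfl; intro i _
    rw [sy3 i i k y, sy3' i k i y]
  have e4 : ∑ i, sc μ i σ y * a2 k i σ y = ∑ i, sc μ i σ y * a2 i k σ y := by
    apply Finset.sum_congr rfl; intro i _
    rw [sy2 k i y]
  rw [e4, ← e3]
  simp only [Finset.sum_add_distrib, neg_mul, Finset.sum_neg_distrib]
  ring

/-! ### `HK` for the lift from level `0` -/

theorem HK_UP (h : CSupp μ R) : ∀ (k : ℕ) {g : (Fin n → ℝ) → ℝ}, Adm μ g →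
    HK (Ioi 0) k (fun σ => UP μ σ g)
  | 0, _, hg => UE_UP h hg
  | k + 1, g, hg => by
    have ih := fun {g : (Fin n → ℝ) → ℝ} (hg : Adm μ g) => HK_UP h k hg
    have hc := fun i => ih (h.adm_coord i)
    have hgU : ∀ {g : (Fin n → ℝ) → ℝ}, Adm μ g → ∀ i, HK (Ioi 0) k (gU μ g i) :=
      fun hg i => (HK.inv_time k).mul ((ih (hg.xmul h i)).sub ((ih hg).mul (hc i)))
    have hhU : ∀ i j, HK (Ioi 0) k (hU μ g i j) := fun i j =>
      (HK.inv_time k).mul ((hgU (hg.xmul h i) j).sub (((hgU hg j).mul (hc i)).add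
        ((ih hg).mul (hgU (h.adm_coord i) j))))
    have hsc : ∀ i, HK (Ioi 0) k (sc μ i) := fun i =>
      ((HK.inv_time k).mul ((hc i).sub (HK.coord i k))).congr isOpen_Ioi fun σ _ y => by
        unfold sc; rw [div_eq_mul_inv]; ring
    exact HK.of_H1 (H1_UP h hg) (((HK.sum _ fun i _ => hhU i i).const_mul _).add
      (HK.sum _ fun i _ => (hsc i).mul (hgU hg i))) (hgU hg)

theorem HK_XB (h : CSupp μ R) (k : ℕ) (i : Fin n) : HK (Ioi 0) k (fun σ => XB μ σ i) :=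
  HK_UP h k (h.adm_coord i)

theorem HK_sc (h : CSupp μ R) (k : ℕ) (i : Fin n) : HK (Ioi 0) k (sc μ i) :=
  ((HK.inv_time k).mul ((HK_XB h k i).sub (HK.coord i k))).congr isOpen_Ioi fun σ _ y => by
    unfold sc; rw [div_eq_mul_inv, XB_eq_UP]; ring

theorem HK_gU (h : CSupp μ R) (k : ℕ) {g : (Fin n → ℝ) → ℝ} (hg : Adm μ g) (i : Fin n) :
    HK (Ioi 0) k (gU μ g i) :=
  (HK.inv_time k).mul ((HK_UP h k (hg.xmul h i)).sub ((HK_UP h k hg).mul
    (HK_UP h k (h.adm_coord i))))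

/-! ### the lift from level `s` -/

variable {s : ℝ}

theorem gL_sub (hs : 0 < s) : Ioi s ⊆ Ioi (0 : ℝ) := fun _ hx => hs.trans hx

/-- Hessian of `UL μ s ρ h` -/
noncomputable def hL (μ : Measure (Fin n → ℝ)) (s : ℝ) (h : (Fin n → ℝ) → ℝ) (i j : Fin n)
    (ρ : ℝ) (y : Fin n → ℝ) : ℝ :=
  1 / ρ * (gL μ s (fun y' => h y' * XB μ s i y') j ρ y
    - (gL μ s h j ρ y * XB μ ρ i y + UL μ s ρ h y * gU μ (fun x => x i) j ρ y)
    + s * gL μ s (pd h i) j ρ y)

/-- time derivative of the gradient -/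
noncomputable def tgL (μ : Measure (Fin n → ℝ)) (s : ℝ) (h : (Fin n → ℝ) → ℝ) (i : Fin n)
    (ρ : ℝ) (y : Fin n → ℝ) : ℝ :=
  1 / ρ * (tL μ s (fun y' => h y' * XB μ s i y') ρ y
    - (tL μ s h ρ y * XB μ ρ i y + UL μ s ρ h y * tU μ (fun x => x i) ρ y)
    + s * tL μ s (pd h i) ρ y) - 1 / ρ * gL μ s h i ρ y

theorem H1_gL (hUL : StUL n) (hμ : CSupp μ R) (hs : 0 < s) {h : (Fin n → ℝ) → ℝ} (hh : SB h)
    (i : Fin n) : H1 (Ioi s) (gL μ s h i) (tgL μ s h i) (hL μ s h i) := by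
  have hX := XB_sb' hμ s i
  have h1 := (hUL μ R hμ s (fun y' => h y' * XB μ s i y') hs (hh.mul hX)).2
  have h2 := (hUL μ R hμ s h hs hh).2
  have h3 := (hUL μ R hμ s (pd h i) hs (hh.pd i)).2
  have h4 := (H1_UP hμ (hμ.adm_coord i)).mono (gL_sub hs)
  have h5 := (H1_inv_time (n := n)).mono (gL_sub hs)
  refine (h5.mul ((h1.sub (h2.mul h4)).add (h3.const_mul s))).congr isOpen_Ioi
    (fun σ hσ y => rfl) (fun σ hσ y => ?_) (fun j σ hσ y => ?_)
  · have hσ' : (σ : ℝ) ≠ 0 := ne_of_gt (hs.trans hσ)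
    unfold tgL gL
    simp only [XB_eq_UP]
    field_simp
    ring
  · unfold hL
    simp only [XB_eq_UP]
    ring

theorem tL_eq (hUL : StUL n) (hμ : CSupp μ R) (hs : 0 < s) {h : (Fin n → ℝ) → ℝ} (hh : SB h)
    {ρ : ℝ} (hρ : ρ ∈ Ioi s) (y : Fin n → ℝ) :
    tL μ s h ρ y = 1 / 2 * ∑ i, hL μ s h i i ρ y + ∑ i, sc μ i ρ y * gL μ s h i ρ y := by
  unfold tL
  congr 2
  apply Finset.sum_congr rfl; intro i _
  rw [(H1_gL hUL hμ hs hh i).pd_eq hρ i]

theorem HK_UL' (hUL : StUL n) (hμ : CSupp μ R) (hs : 0 < s) : ∀ (k : ℕ) {h : (Fin n → ℝ) → ℝ},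
    SB h → HK (Ioi s) k (fun ρ => UL μ s ρ h)
  | 0, h, hh => (hUL μ R hμ s h hs hh).2.uf
  | k + 1, h, hh => by
    have ih := fun {h : (Fin n → ℝ) → ℝ} (hh : SB h) => HK_UL' hUL hμ hs k hh
    have hI := gL_sub hs
    have hX := fun i => (HK_XB hμ k i).mono hI
    have hit := (HK.inv_time (n := n) k).mono hI
    have hgL : ∀ {h : (Fin n → ℝ) → ℝ}, SB h → ∀ i, HK (Ioi s) k (gL μ s h i) := fun hh i =>
      hit.mul (((ih (hh.mul (XB_sb' hμ s i))).sub ((ih hh).mul (hX i))).add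
        ((ih (hh.pd i)).const_mul s))
    have hhL : ∀ i j, HK (Ioi s) k (hL μ s h i j) := fun i j =>
      hit.mul (((hgL (hh.mul (XB_sb' hμ s i)) j).sub (((hgL hh j).mul (hX i)).add
        ((ih hh).mul ((HK_gU hμ k (hμ.adm_coord i) j).mono hI)))).add
        ((hgL (hh.pd i) j).const_mul s))
    refine HK.of_H1 (hUL μ R hμ s h hs hh).2 ?_ (hgL hh)
    exact (((HK.sum _ fun i _ => hhL i i).const_mul (1 / 2)).add
      (HK.sum _ fun i _ => ((HK_sc hμ k i).mono hI).mul (hgL hh i))).congr isOpen_Ioi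
      fun σ hσ y => tL_eq hUL hμ hs hh hσ y

theorem HK_gL (hUL : StUL n) (hμ : CSupp μ R) (hs : 0 < s) (k : ℕ) {h : (Fin n → ℝ) → ℝ}
    (hh : SB h) (i : Fin n) : HK (Ioi s) k (gL μ s h i) :=
  ((HK.inv_time (n := n) k).mono (gL_sub hs)).mul
    (((HK_UL' hUL hμ hs k (hh.mul (XB_sb' hμ s i))).sub ((HK_UL' hUL hμ hs k hh).mul
      ((HK_XB hμ k i).mono (gL_sub hs)))).add ((HK_UL' hUL hμ hs k (hh.pd i)).const_mul s))

theorem HK_hL (hUL : StUL n) (hμ : CSupp μ R) (hs : 0 < s) (k : ℕ) {h : (Fin n → ℝ) → ℝ}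
    (hh : SB h) (i j : Fin n) : HK (Ioi s) k (hL μ s h i j) :=
  ((HK.inv_time (n := n) k).mono (gL_sub hs)).mul
    (((HK_gL hUL hμ hs k (hh.mul (XB_sb' hμ s i)) j).sub
      (((HK_gL hUL hμ hs k hh j).mul ((HK_XB hμ k i).mono (gL_sub hs))).add
        ((HK_UL' hUL hμ hs k hh).mul ((HK_gU hμ k (hμ.adm_coord i) j).mono (gL_sub hs))))).add
        ((HK_gL hUL hμ hs k (hh.pd i) j).const_mul s))

theorem Um_UL (hUL : StUL n) (hμ : CSupp μ R) (hs : 0 < s) {h : (Fin n → ℝ) → ℝ} (hh : SB h) :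
    Um μ (Ioi s) (fun ρ => UL μ s ρ h) (fun _ _ => 0) (gL μ s h) :=
  Um.of_pde (hUL μ R hμ s h hs hh).2 (fun i => H1_gL hUL hμ hs hh i)
    fun _ hσ y => tL_eq hUL hμ hs hh hσ y

theorem Um_gL (hUL : StUL n) (hμ : CSupp μ R) (hs : 0 < s) {h : (Fin n → ℝ) → ℝ} (hh : SB h)
    (k : Fin n) : Um μ (Ioi s) (gL μ s h k) (fun σ y => -∑ i, Pv μ i k σ y * gL μ s h i σ y)
      (hL μ s h k) := by
  have h1 := (hUL μ R hμ s h hs hh).2
  have hd := ((HK_UL' hUL hμ hs 2 hh).tdv' isOpen_Ioi)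
  have hd' : H1 (Ioi s) (tL μ s h) (tdv (tL μ s h)) (fun i σ => pd (tL μ s h σ) i) := by
    have : HK (Ioi s) 1 (tL μ s h) := hd.congr isOpen_Ioi fun σ hσ y => (h1.tdv_eq hσ y).symm
    exact this.h1 isOpen_Ioi
  exact Um.grad_of_pde hμ isOpen_Ioi (gL_sub hs) h1 hd' (fun i => H1_gL hUL hμ hs hh i)
    (fun i j => (HK_hL hUL hμ hs 1 hh i j).h1 isOpen_Ioi) (fun _ hσ y => tL_eq hUL hμ hs hh hσ y) k

/-- the lift of a positive density is a positive up flow -/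
theorem UpF_UL (hUL : StUL n) (hμ : CSupp μ R) (hs : 0 < s) {N : (Fin n → ℝ) → ℝ} (hN : SB N)
    (hlb : ∃ ε, 0 < ε ∧ ∀ ρ ∈ Ioi s, ∀ y, ε ≤ UL μ s ρ N y) :
    UpF μ (Ioi s) (fun ρ => UL μ s ρ N) (gL μ s N) (hL μ s N) :=
  ⟨Um_UL hUL hμ hs hN, Um_gL hUL hμ hs hN, hlb⟩

end

end Vale.Agent.P245.E1
end
end

section

section

set_option linter.unusedSectionVars false

open MeasureTheory Real Set Filter Topology
open scoped ENNReal ContDiff

/-! Module U: calculus on the path up from a positive level. -/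

namespace Vale.Agent.P245.E1

open LS LS.Down

variable {n : ℕ}

section

variable {μ : Measure (Fin n → ℝ)} [IsProbabilityMeasure μ] {R : ℝ} {s : ℝ}

/-- continuity of expectations on a closed interval of levels -/
theorem UE.EY_cont_Icc {f : ℝ → (Fin n → ℝ) → ℝ} (hμ : CSupp μ R) {p q : ℝ}
    (hf : UE (Icc p q) f) : ContinuousOn (fun σ => EY μ σ (f σ)) (Icc p q) := by
  obtain ⟨K, hK0, hK⟩ := hf.2 p q subset_rfl
  have hcongr : ∀ τ ∈ Icc p q, EY μ τ (f τ)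
      = ∫ w, f τ (w.1 + √τ • w.2) ∂(μ.prod (gsn n)) := fun τ hτ =>
    EY_eq_prod hμ (hf.cont hτ) (hf.eg1 hτ) τ
  refine ContinuousOn.congr ?_ hcongr
  intro σ hσ
  have hbint : Integrable (fun w : (Fin n → ℝ) × (Fin n → ℝ) =>
      (K * exp (K * (n * R))) * exp ((K * √q) * ∑ i, |w.2 i|)) (μ.prod (gsn n)) :=
    ((integrable_exp_abs (n := n) (K * √q)).const_mul _).comp_snd μ
  refine continuousWithinAt_of_dominated (bound := fun w : (Fin n → ℝ) × (Fin n → ℝ) =>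
      (K * exp (K * (n * R))) * exp ((K * √q) * ∑ i, |w.2 i|)) ?_ ?_ hbint ?_
  · filter_upwards [self_mem_nhdsWithin] with τ hτ
    exact ((hf.cont hτ).comp (by fun_prop)).aestronglyMeasurable
  · filter_upwards [self_mem_nhdsWithin] with τ hτ
    filter_upwards [ae_fst hμ] with w hw
    have hsq : |√τ| ≤ √q := by
      rw [abs_of_nonneg (Real.sqrt_nonneg _)]; exact Real.sqrt_le_sqrt hτ.2
    rw [norm_eq_abs]
    exact (hK τ hτ _).trans (exp_path_le hw hK0 hsq)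
  · refine Eventually.of_forall fun w => ?_
    have h2 : Continuous (fun τ : ℝ => ((τ, w.1 + √τ • w.2) : ℝ × (Fin n → ℝ))) := by fun_prop
    exact (hf.1 (σ, w.1 + √σ • w.2) ⟨hσ, mem_univ _⟩).comp
      (f := fun τ : ℝ => ((τ, w.1 + √τ • w.2) : ℝ × (Fin n → ℝ)))
      (g := fun p : ℝ × (Fin n → ℝ) => f p.1 p.2) h2.continuousWithinAt
      (fun τ hτ => ⟨hτ, mem_univ _⟩)

theorem UL_self' (h : CSupp μ R) (hs : s ≠ 0) (g : (Fin n → ℝ) → ℝ) : UL μ s s g = g := by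
  funext y
  unfold UL
  have e : (fun x : Fin n → ℝ => PH (s * (s - s) / s) g ((1 - s / s) • x + (s / s) • y))
      = fun _ => g y := by
    funext x
    rw [sub_self, mul_zero, zero_div, LS.PH_zero, div_self hs, sub_self, zero_smul, one_smul,
      zero_add]
  rw [e, Mf_const h]

/-- the gradient of the lift, including the initial level -/
theorem pd_UL' (hUL : StUL n) (hμ : CSupp μ R) (hs : 0 < s) {h : (Fin n → ℝ) → ℝ} (hh : SB h)
    {ρ : ℝ} (hρ : ρ ∈ Ici s) (i : Fin n) : pd (UL μ s ρ h) i = gL μ s h i ρ := by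
  rcases eq_or_lt_of_le (show s ≤ ρ from hρ) with e | e
  · rw [← e]
    funext y
    unfold gL
    rw [UL_self' hμ hs.ne', UL_self' hμ hs.ne', UL_self' hμ hs.ne']
    field_simp
    ring
  · exact (hUL μ R hμ s h hs hh).2.pd_eq e i

theorem UE_gL (hUL : StUL n) (hμ : CSupp μ R) (hs : 0 < s) {h : (Fin n → ℝ) → ℝ} (hh : SB h)
    (i : Fin n) : UE (Ici s) (gL μ s h i) := by
  have hI : Ici s ⊆ Ioi (0 : ℝ) := fun _ hx => hs.trans_le hx
  exact ((H1_inv_time (n := n)).uf.mono hI).mul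
    (((hUL μ R hμ s _ hs (hh.mul (XB_sb' hμ s i))).1.sub ((hUL μ R hμ s h hs hh).1.mul
      ((HK_XB hμ 0 i).mono hI))).add ((hUL μ R hμ s _ hs (hh.pd i)).1.const_mul s))

theorem UE_pdUL (hUL : StUL n) (hμ : CSupp μ R) (hs : 0 < s) {h : (Fin n → ℝ) → ℝ} (hh : SB h)
    (i : Fin n) : UE (Ici s) (fun ρ => pd (UL μ s ρ h) i) :=
  (UE_gL hUL hμ hs hh i).congr fun ρ hρ y => by rw [pd_UL' hUL hμ hs hh hρ i]

theorem bm_of_sb' {h : (Fin n → ℝ) → ℝ} (hh : SB h) : BM h := ⟨hh.measurable, hh.bdd⟩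

theorem UL_lb (hK : StK n) (hμ : CSupp μ R) (hs : 0 < s) {N : (Fin n → ℝ) → ℝ} (hN : Pos N) :
    ∃ ε, 0 < ε ∧ ∀ ρ ∈ Ici s, ∀ y, ε ≤ UL μ s ρ N y := by
  obtain ⟨ε, hε, h⟩ := hN.lb
  refine ⟨ε, hε, fun ρ hρ y => ?_⟩
  obtain ⟨-, -, -, hc, hm, -⟩ := (hK μ R hμ).1 s ρ hs hρ
  have h1 := hm (fun _ => ε) N (bm_of_sb' (SB.const ε)) (bm_of_sb' hN.sb) h y
  rwa [hc ε] at h1

end

theorem IP_sN_eq {μ : Measure (Fin n → ℝ)} {r : ℝ} {N : (Fin n → ℝ) → ℝ} (hN : ∀ y, N y ≠ 0)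
    (φ : Fin n → (Fin n → ℝ) → ℝ) :
    IP μ r N φ (sN N) = EY μ r fun y => ∑ i, φ i y * pd N i y := by
  unfold IP
  congr 1
  funext y
  rw [Finset.mul_sum]
  apply Finset.sum_congr rfl; intro i _
  unfold sN
  have := hN y
  field_simp

theorem thU (n : ℕ) (hUL : StUL n) (hK : StK n) : StU n := by
  intro μ hprob R hμ N s T hN hs hsT
  obtain ⟨ε, hε, hlb⟩ := UL_lb hK hμ hs hN
  have hUp : UpF μ (Ioi s) (fun ρ => UL μ s ρ N) (gL μ s N) (hL μ s N) :=
    UpF_UL hUL hμ hs hN.sb ⟨ε, hε, fun ρ hρ => hlb ρ (Ioi_subset_Ici_self hρ)⟩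
  have hI0 := gL_sub hs
  have hIcc : Icc s T ⊆ Ici s := fun _ hx => hx.1
  have uU : UE (Icc s T) (fun ρ => UL μ s ρ N) := (hUL μ R hμ s N hs hN.sb).1.mono hIcc
  have uG : ∀ i, UE (Icc s T) (fun ρ => pd (UL μ s ρ N) i) := fun i =>
    (UE_pdUL hUL hμ hs hN.sb i).mono hIcc
  have lbI : ∀ ρ ∈ Icc s T, ∀ y, ε ≤ UL μ s ρ N y := fun ρ hρ => hlb ρ hρ.1
  have hne : ∀ ρ ∈ Icc s T, ∀ y, UL μ s ρ N y ≠ 0 := fun ρ hρ y =>
    (hε.trans_le (lbI ρ hρ y)).ne'
  have hIoo : ∀ ρ ∈ Ioo s T, ρ ∈ Ioi s := fun _ h => h.1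
  refine ⟨?_, ?_, ?_, ?_, ?_⟩
  · exact UE.EY_cont_Icc hμ (uU.mul (uU.log hε lbI))
  · refine UE.EY_cont_Icc hμ (UE.div (UE.sum _ fun i _ => ?_) uU hε lbI)
    simpa only [sq] using (uG i).mul (uG i)
  · exact fun ρ hρ => hUp.HE_deriv hμ isOpen_Ioi hI0 (hIoo ρ hρ)
  · intro ρ hρ
    have h1 := hUp.FI_deriv hμ isOpen_Ioi hI0 (hIoo ρ hρ)
    refine h1.congr_deriv ?_
    have hρ0 : 0 < ρ := hs.trans hρ.1
    have e : BA μ ρ (UL μ s ρ N) = BI μ ρ (UL μ s ρ N) (sN (UL μ s ρ N)) (sN (UL μ s ρ N)) := by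
      rw [BI_eq hμ hρ0]
      unfold BA
      congr 1
      funext y
      have hy := hne ρ ⟨hρ.1.le, hρ.2.le⟩ y
      unfold Pq sN
      rw [Finset.mul_sum, Finset.sum_div]
      apply Finset.sum_congr rfl; intro i _
      rw [Finset.mul_sum, Finset.sum_div]
      apply Finset.sum_congr rfl; intro j _
      (clear * - hy; field_simp)
    rw [e]
  · intro φ hφ
    have uP : ∀ i, UE (Icc s T) (fun ρ => PH (T - ρ) (φ i)) := fun i => UE_PH (hφ i) T _
    refine ⟨?_, ?_, ?_, ?_⟩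
    · exact UE.EY_cont_Icc hμ (uU.mul (UE.sum _ fun i _ => (uP i).mul (uP i)))
    · refine UE.EY_cont_Icc hμ (uU.mul (UE.sum _ fun i _ => (uP i).mul ?_))
      exact (uG i).div uU hε lbI
    · intro ρ hρ
      have h1 := hUp.sq_deriv hμ isOpen_Ioi hI0 hφ (hIoo ρ hρ) hρ.2
      have e : (fun σ => EY μ σ (fun y => UL μ s σ N y * ∑ i, PH (T - σ) (φ i) y ^ 2))
          = fun ρ => IP μ ρ (UL μ s ρ N) (fun i => PH (T - ρ) (φ i))
            (fun i => PH (T - ρ) (φ i)) := by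
        funext σ
        unfold IP
        simp only [sq]
      rw [e] at h1
      refine h1.congr_deriv ?_
      unfold DE
      simp only [LS.pd_PH (hφ _)]
    · intro ρ hρ
      have h1 := hUp.pair_deriv hμ isOpen_Ioi hI0 hφ (hIoo ρ hρ) hρ.2
      have e : (fun ρ => IP μ ρ (UL μ s ρ N) (fun i => PH (T - ρ) (φ i)) (sN (UL μ s ρ N)))
          =ᶠ[𝓝 ρ] fun σ => EY μ σ (fun y => ∑ i, PH (T - σ) (φ i) y * pd (UL μ s σ N) i y) := by
        filter_upwards [Ioo_mem_nhds hρ.1 hρ.2] with σ hσ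
        exact IP_sN_eq (hne σ ⟨hσ.1.le, hσ.2.le⟩) _
      refine (h1.congr_of_eventuallyEq e).congr_deriv ?_
      congr 1
      have hρ0 : 0 < ρ := hs.trans hρ.1
      rw [BI_eq hμ hρ0]
      congr 1
      funext y
      have hy := hne ρ ⟨hρ.1.le, hρ.2.le⟩ y
      rw [Pq_symm hμ]
      unfold Pq sN
      rw [Finset.mul_sum]
      apply Finset.sum_congr rfl; intro i _
      rw [Finset.mul_sum]
      apply Finset.sum_congr rfl; intro j _
      (clear * - hy; field_simp)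

end Vale.Agent.P245.E1
end
end

section

section

set_option linter.unusedSectionVars false

open MeasureTheory Real Set Filter Topology
open scoped ENNReal ContDiff

/-! Module Dn: calculus on the path down from a positive level. -/

namespace Vale.Agent.P245.E1

open LS LS.Down

variable {n : ℕ}

section dn

variable {μ : Measure (Fin n → ℝ)} [IsProbabilityMeasure μ] {R : ℝ} {I : Set ℝ}
  {f e : ℝ → (Fin n → ℝ) → ℝ} {a : Fin n → ℝ → (Fin n → ℝ) → ℝ}

theorem Dn.pd_eq (h : Dn I f e a) {σ : ℝ} (hσ : σ ∈ I) (i : Fin n) : pd (f σ) i = a i σ := by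
  funext y; exact pd_of_hasFDerivAt (h.fd hσ y) i

/-- derivative of the expectation in the down calculus -/
theorem EY_dn (hμ : CSupp μ R) (hI : IsOpen I) (hI0 : I ⊆ Ioi 0) (hf : Dn I f e a)
    {σ : ℝ} (hσ : σ ∈ I) : HasDerivAt (fun σ => EY μ σ (f σ)) (EY μ σ (e σ)) σ := by
  have := EY_dual hμ hI hI0 (Um.const (μ := μ) (n := n) 1) hf hσ
  simpa using this

theorem Dn.inv (hf : Dn I f e a) {ε : ℝ} (hε : 0 < ε) (h : ∀ σ ∈ I, ∀ y, ε ≤ f σ y)
    (hI : IsOpen I) :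
    Dn I (fun σ y => (f σ y)⁻¹)
      (fun σ y => -(e σ y / f σ y ^ 2) + (∑ i, a i σ y ^ 2) / f σ y ^ 3)
      (fun i σ y => -(a i σ y / f σ y ^ 2)) := by
  obtain ⟨d, da, a2, h1, h2, h3⟩ := hf.ex
  have hinv := h1.inv hε h
  have hsq := hinv.mul hinv
  have key : ∀ i, H1 I (fun σ y => -(a i σ y / f σ y ^ 2))
      (fun σ y => -(da i σ y / f σ y ^ 2 - 2 * a i σ y * d σ y / f σ y ^ 3))
      (fun j σ y => -(a2 i j σ y / f σ y ^ 2 - 2 * a i σ y * a j σ y / f σ y ^ 3)) := by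
    intro i
    refine (((h2 i).mul hsq).neg).congr hI (fun σ hσ y => ?_) (fun σ hσ y => ?_)
      (fun j σ hσ y => ?_)
    · have hne := (hε.trans_le (h σ hσ y)).ne'
      (clear * - hne; field_simp)
    · have hne := (hε.trans_le (h σ hσ y)).ne'
      field_simp
      ring
    · have hne := (hε.trans_le (h σ hσ y)).ne'
      field_simp
      ring
  refine ⟨_, _, _, hinv, key, fun σ hσ y => ?_⟩
  have hne := (hε.trans_le (h σ hσ y)).ne'
  rw [h3 σ hσ]
  have e1 : ∑ i, -(a2 i i σ y / f σ y ^ 2 - 2 * a i σ y * a i σ y / f σ y ^ 3)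
      = -(∑ i, a2 i i σ y) / f σ y ^ 2 + 2 * (∑ i, a i σ y ^ 2) / f σ y ^ 3 := by
    rw [← Finset.sum_neg_distrib, Finset.sum_div, Finset.mul_sum, Finset.sum_div,
      ← Finset.sum_add_distrib]
    apply Finset.sum_congr rfl; intro i _; ring
  rw [e1]
  field_simp
  ring

theorem Dn.log (hf : Dn I f e a) {ε : ℝ} (hε : 0 < ε) (h : ∀ σ ∈ I, ∀ y, ε ≤ f σ y)
    (hI : IsOpen I) :
    Dn I (fun σ y => Real.log (f σ y))
      (fun σ y => e σ y / f σ y - 1 / 2 * (∑ i, a i σ y ^ 2) / f σ y ^ 2)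
      (fun i σ y => a i σ y / f σ y) := by
  obtain ⟨d, da, a2, h1, h2, h3⟩ := hf.ex
  refine ⟨_, _, _, h1.log hε h, fun i => (h2 i).div h1 hε h hI, fun σ hσ y => ?_⟩
  have hne := (hε.trans_le (h σ hσ y)).ne'
  rw [h3 σ hσ]
  have e1 : ∑ i, (a2 i i σ y / f σ y - a i σ y * a i σ y / f σ y ^ 2)
      = (∑ i, a2 i i σ y) / f σ y - (∑ i, a i σ y ^ 2) / f σ y ^ 2 := by
    rw [Finset.sum_div, Finset.sum_div, ← Finset.sum_sub_distrib]
    apply Finset.sum_congr rfl; intro i _; ring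
  rw [e1]
  field_simp
  ring

end dn

section

variable {μ : Measure (Fin n → ℝ)} [IsProbabilityMeasure μ] {R : ℝ} {s T : ℝ}

theorem dn_PH_ge {N : (Fin n → ℝ) → ℝ} (hN : Pos N) {ε : ℝ} (hlb : ∀ y, ε ≤ N y) (u : ℝ)
    (y : Fin n → ℝ) : ε ≤ PH u N y := by
  obtain ⟨C, hC⟩ := hN.sb.bdd
  exact PH_ge hN.sb.measurable hC hlb u y

theorem dn_HE (hμ : CSupp μ R) {N : (Fin n → ℝ) → ℝ} (hN : Pos N) {ρ : ℝ} (hρ : 0 < ρ)
    (hρT : ρ < T) : HasDerivAt (fun ρ => HE μ ρ (PH (T - ρ) N))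
        (1 / 2 * FI μ ρ (PH (T - ρ) N)) ρ := by
  obtain ⟨ε, hε, hlb⟩ := hN.lb
  have hI : IsOpen (Ioo 0 T) := isOpen_Ioo
  have hI0 : Ioo 0 T ⊆ Ioi 0 := fun _ h => h.1
  have h0 : Dn (Ioo 0 T) (fun σ => PH (T - σ) N) (fun _ _ => 0) _ :=
    (Dn_PH hN.sb T).mono fun _ h => h.2
  have hlb' : ∀ σ ∈ Ioo 0 T, ∀ y, ε ≤ PH (T - σ) N y := fun σ _ y =>
    dn_PH_ge hN hlb _ y
  have key := EY_dn hμ hI hI0 (h0.mul (h0.log hε hlb' hI)) (σ := ρ) ⟨hρ, hρT⟩
  refine key.congr_deriv ?_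
  unfold FI
  rw [← EY_const_mul]
  congr 1
  funext y
  have hne := (hε.trans_le (hlb' ρ ⟨hρ, hρT⟩ y)).ne'
  simp only [LS.pd_PH hN.sb]
  have e1 : ∑ i, PH (T - ρ) (pd N i) y * (PH (T - ρ) (pd N i) y / PH (T - ρ) N y)
      = (∑ i, PH (T - ρ) (pd N i) y ^ 2) / PH (T - ρ) N y := by
    rw [Finset.sum_div]; apply Finset.sum_congr rfl; intro i _; ring
  rw [e1]
  field_simp
  ring

theorem dn_FI (hμ : CSupp μ R) {N : (Fin n → ℝ) → ℝ} (hN : Pos N) {ρ : ℝ} (hρ : 0 < ρ)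
    (hρT : ρ < T) : HasDerivAt (fun ρ => FI μ ρ (PH (T - ρ) N)) (GA μ ρ (PH (T - ρ) N)) ρ := by
  obtain ⟨ε, hε, hlb⟩ := hN.lb
  have hI : IsOpen (Ioo 0 T) := isOpen_Ioo
  have hI0 : Ioo 0 T ⊆ Ioi 0 := fun _ h => h.1
  have hρI : ρ ∈ Ioo 0 T := ⟨hρ, hρT⟩
  have h0 : Dn (Ioo 0 T) (fun σ => PH (T - σ) N) (fun _ _ => 0) (fun i σ => PH (T - σ) (pd N i)) :=
    (Dn_PH hN.sb T).mono fun _ h => h.2
  have h1 : ∀ k, Dn (Ioo 0 T) (fun σ => PH (T - σ) (pd N k)) (fun _ _ => 0)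
      (fun i σ => PH (T - σ) (pd (pd N k) i)) := fun k =>
    (Dn_PH (hN.sb.pd k) T).mono fun _ h => h.2
  have hlb' : ∀ σ ∈ Ioo 0 T, ∀ y, ε ≤ PH (T - σ) N y := fun σ _ y => dn_PH_ge hN hlb _ y
  have hinv := h0.inv hε hlb' hI
  have hs := Dn.sum Finset.univ fun k _ => ((h1 k).mul (h1 k)).mul hinv
  have key := EY_dn hμ hI hI0 hs hρI
  have hcongr : (fun ρ => FI μ ρ (PH (T - ρ) N)) =ᶠ[𝓝 ρ]
      fun σ => EY μ σ (fun y => ∑ k, PH (T - σ) (pd N k) y * PH (T - σ) (pd N k) y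
        * (PH (T - σ) N y)⁻¹) := by
    filter_upwards [hI.mem_nhds hρI] with τ hτ
    unfold FI
    congr 1
    funext y
    simp only [LS.pd_PH hN.sb]
    rw [Finset.sum_div]
    apply Finset.sum_congr rfl; intro k _; ring
  refine (key.congr_of_eventuallyEq hcongr).congr_deriv ?_
  have e1 : ∀ i j y, pd (pd (fun y => Real.log (PH (T - ρ) N y)) i) j y
      = PH (T - ρ) (pd (pd N i) j) y / PH (T - ρ) N y
        - PH (T - ρ) (pd N i) y * PH (T - ρ) (pd N j) y / PH (T - ρ) N y ^ 2 := by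
    intro i j y
    have k1 : pd (fun y => Real.log (PH (T - ρ) N y)) i
        = fun y => PH (T - ρ) (pd N i) y / PH (T - ρ) N y := (h0.log hε hlb' hI).pd_eq hρI i
    rw [k1]
    have k2 := ((h1 i).mul hinv).pd_eq hρI j
    have e : (fun y => PH (T - ρ) (pd N i) y / PH (T - ρ) N y)
        = fun y => PH (T - ρ) (pd N i) y * (PH (T - ρ) N y)⁻¹ := by
      funext y; rw [div_eq_mul_inv]
    rw [e, k2]
    have hne := (hε.trans_le (hlb' ρ hρI y)).ne'
    field_simp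
    ring
  unfold GA
  simp only [e1]
  congr 1
  funext y
  have hne := (hε.trans_le (hlb' ρ hρI y)).ne'
  rw [Finset.mul_sum]
  apply Finset.sum_congr rfl
  intro k _
  rw [Finset.mul_sum]
  have s1 : ∑ i, PH (T - ρ) N y * (PH (T - ρ) (pd (pd N k) i) y / PH (T - ρ) N y
        - PH (T - ρ) (pd N k) y * PH (T - ρ) (pd N i) y / PH (T - ρ) N y ^ 2) ^ 2
      = (∑ i, PH (T - ρ) (pd (pd N k) i) y * PH (T - ρ) (pd (pd N k) i) y) / PH (T - ρ) N y
        + ∑ i, (PH (T - ρ) (pd (pd N k) i) y * PH (T - ρ) (pd N k) y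
            + PH (T - ρ) (pd N k) y * PH (T - ρ) (pd (pd N k) i) y)
            * -(PH (T - ρ) (pd N i) y / PH (T - ρ) N y ^ 2)
        + PH (T - ρ) (pd N k) y * PH (T - ρ) (pd N k) y
          * ((∑ i, PH (T - ρ) (pd N i) y ^ 2) / PH (T - ρ) N y ^ 3) := by
    rw [Finset.sum_div, Finset.sum_div, Finset.mul_sum, ← Finset.sum_add_distrib,
      ← Finset.sum_add_distrib]
    apply Finset.sum_congr rfl; intro i _
    field_simp
    ring
  rw [s1]
  field_simp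
  ring

end

theorem thDn (n : ℕ) (hUL : StUL n) (hK : StK n) (hR : StR n) : StDn n := by
  intro μ hprob R hμ N s T hN hs hsT
  obtain ⟨ε, hε, hlb⟩ := hN.lb
  have uV : ∀ I, UE I (fun ρ => PH (T - ρ) N) := fun I => UE_PH hN.sb T I
  have uD : ∀ I i, UE I (fun ρ => PH (T - ρ) (pd N i)) := fun I i => UE_PH (hN.sb.pd i) T I
  have lbV : ∀ I : Set ℝ, ∀ ρ ∈ I, ∀ y, ε ≤ PH (T - ρ) N y := fun _ ρ _ y => dn_PH_ge hN hlb _ y
  refine ⟨?_, ?_, fun ρ hρ => dn_HE hμ hN (hs.trans hρ.1) hρ.2,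
    fun ρ hρ => dn_FI hμ hN (hs.trans hρ.1) hρ.2, fun φ hφ => ⟨?_, ?_, ?_⟩⟩
  · exact UE.EY_cont_Icc hμ ((uV _).mul ((uV _).log hε (lbV _)))
  · have h1 : UE (Icc s T) (fun ρ y => (∑ i, pd (PH (T - ρ) N) i y ^ 2) / PH (T - ρ) N y) := by
      refine UE.div (UE.sum _ fun i _ => ?_) (uV _) hε (lbV _)
      simpa only [LS.pd_PH hN.sb, sq] using (uD _ i).mul (uD _ i)
    exact UE.EY_cont_Icc hμ h1
  · have uU : ∀ i, UE (Icc s T) (fun ρ => UL μ s ρ (φ i)) := fun i =>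
      (hUL μ R hμ s (φ i) hs (hφ i)).1.mono fun _ h => h.1
    exact UE.EY_cont_Icc hμ ((uV _).mul (UE.sum _ fun i _ => (uU i).mul (uU i)))
  · intro ρ hρ
    have h1 := down_sq_deriv (I := Ioi s) (U := fun i ρ => UL μ s ρ (φ i))
      (U1 := fun i => gL μ s (φ i)) (fun i => Um_UL hUL hμ hs (hφ i)) hμ isOpen_Ioi (gL_sub hs)
      hN.sb (c := T) hρ.1 hρ.2
    have e : (fun σ => EY μ σ (fun y => PH (T - σ) N y * ∑ i, UL μ s σ (φ i) y ^ 2))
        = fun ρ => IP μ ρ (PH (T - ρ) N) (fun i => UL μ s ρ (φ i)) (fun i => UL μ s ρ (φ i)) := by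
      funext σ
      unfold IP
      simp only [sq]
    rw [e] at h1
    refine h1.congr_deriv ?_
    unfold DE
    congr 2
    funext y
    congr 1
    apply Finset.sum_congr rfl; intro i _
    apply Finset.sum_congr rfl; intro j _
    rw [pd_UL' hUL hμ hs (hφ i) (show ρ ∈ Ici s from hρ.1.le)]
  · intro ρ hρ
    have hρ0 : 0 < ρ := hs.trans_le hρ.1
    have hne : ∀ u y, PH u N y ≠ 0 := fun u y => (hε.trans_le (dn_PH_ge hN hlb u y)).ne'
    rw [IP_sN_eq (hne _), IP_sN_eq (hne _)]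
    simp only [LS.pd_PH hN.sb]
    have hUS : ∀ i, SB (UL μ s ρ (φ i)) := fun i => ((hR μ R hμ).2.2 s ρ hs hρ.1).1 _ (hφ i)
    have hPS : ∀ u i, SB (PH u (pd N i)) := fun u i => PH_sb (hN.sb.pd i) u
    rw [EY_sum μ ρ Finset.univ fun i _ => (hUS i).mul (hPS _ i),
      EY_sum μ s Finset.univ fun i _ => (hφ i).mul (hPS _ i)]
    apply Finset.sum_congr rfl; intro i _
    obtain ⟨-, -, -, -, -, hadj⟩ := (hK μ R hμ).1 s ρ hs hρ.1
    rw [hadj (φ i) _ (bm_of_sb' (hφ i)) (bm_of_sb' (hPS _ i)),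
      PH_PH (hN.sb.pd i) (by linarith [hρ.1]) (by linarith [hρ.2])]
    congr 1
    funext y
    congr 2
    ring

end Vale.Agent.P245.E1
end
end

section

section

open MeasureTheory Real Set Filter Topology
open scoped ENNReal ContDiff

/-!
# E1, module G0: the Gibbs bound for an arbitrary channel
-/

namespace Vale.Agent.P245.E1

open LS

variable {n : ℕ}

/-! ### bounded measurable functions -/

theorem BM.gadd {h g : (Fin n → ℝ) → ℝ} (hh : BM h) (hg : BM g) : BM (fun y => h y + g y) := by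
  obtain ⟨C, hC⟩ := hh.2
  obtain ⟨D, hD⟩ := hg.2
  exact ⟨hh.1.add hg.1, C + D, fun y => (abs_add_le _ _).trans (add_le_add (hC y) (hD y))⟩

theorem BM.gsmul {h : (Fin n → ℝ) → ℝ} (c : ℝ) (hh : BM h) : BM (fun y => c * h y) :=
  (BM.const c).mul hh

theorem BM.gsum {ι : Type*} (s : Finset ι) {f : ι → (Fin n → ℝ) → ℝ} (hf : ∀ i ∈ s, BM (f i)) :
    BM (fun y => ∑ i ∈ s, f i y) := by
  classical
  induction s using Finset.induction_on with
  | empty => simpa using BM.const (n := n) 0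
  | insert i s hi ih =>
    simp only [Finset.sum_insert hi]
    exact (hf i (Finset.mem_insert_self _ _)).gadd
      (ih fun j hj => hf j (Finset.mem_insert_of_mem hj))

theorem BM.glog {h : (Fin n → ℝ) → ℝ} (hh : BM h) {ε : ℝ} (hε : 0 < ε) (hb : ∀ y, ε ≤ h y) :
    BM (fun y => log (h y)) := by
  obtain ⟨C, hC⟩ := hh.2
  refine ⟨hh.1.log, |log ε| + |log C|, fun y => ?_⟩
  have h0 : 0 < h y := hε.trans_le (hb y)
  have h1 : log ε ≤ log (h y) := log_le_log hε (hb y)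
  have h2 : log (h y) ≤ log C := log_le_log h0 ((le_abs_self _).trans (hC y))
  have h3 := neg_abs_le (log ε)
  have h4 := le_abs_self (log C)
  have h5 := abs_nonneg (log ε)
  have h6 := abs_nonneg (log C)
  rw [abs_le]
  constructor
  · linarith only [h1, h3, h6]
  · linarith only [h2, h4, h5]

theorem BM.ent {h : (Fin n → ℝ) → ℝ} (hh : BM h) {ε : ℝ} (hε : 0 < ε) (hb : ∀ y, ε ≤ h y) :
    BM (fun y => h y * log (h y)) := hh.mul (hh.glog hε hb)

theorem BM.gint {h : (Fin n → ℝ) → ℝ} (hh : BM h) (P : Measure (Fin n → ℝ)) [IsFiniteMeasure P] :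
    Integrable h P := by
  obtain ⟨C, hC⟩ := hh.2
  exact Integrable.of_bound hh.1.aestronglyMeasurable C (Eventually.of_forall fun y => hC y)

/-- Jensen for positive operators -/
theorem jensen_op {T : ((Fin n → ℝ) → ℝ) → (Fin n → ℝ) → ℝ}
    (hadd : ∀ h g : (Fin n → ℝ) → ℝ, BM h → BM g →
      T (fun y => h y + g y) = fun y => T h y + T g y)
    (hmul : ∀ (c : ℝ) (h : (Fin n → ℝ) → ℝ), BM h → T (fun y => c * h y) = fun y => c * T h y)
    (hc : ∀ c : ℝ, T (fun _ => c) = fun _ => c)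
    (hm : ∀ h g : (Fin n → ℝ) → ℝ, BM h → BM g → (∀ y, h y ≤ g y) → ∀ y, T h y ≤ T g y)
    {f : (Fin n → ℝ) → ℝ} (hf : BM f) {ε : ℝ} (hε : 0 < ε) (hfε : ∀ y, ε ≤ f y)
    (y : Fin n → ℝ) : T f y * log (T f y) ≤ T (fun y => f y * log (f y)) y := by
  have h0 : ε ≤ T f y := by
    have h1 := hm _ f (BM.const ε) hf hfε y
    rwa [hc ε] at h1
  have hp : 0 < T f y := hε.trans_le h0
  set m := T f y with hmdef
  have h2 := hm (fun z => (m * log m - (1 + log m) * m) + (1 + log m) * f z)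
    (fun z => f z * log (f z)) ((BM.const _).gadd (hf.gsmul _)) (hf.ent hε hfε) (fun z => by
      have h3 := xlogx_tangent (hε.trans_le (hfε z)) hp
      linarith only [h3]) y
  rw [hadd (fun _ => m * log m - (1 + log m) * m) (fun z => (1 + log m) * f z) (BM.const _)
    (hf.gsmul _), hc, hmul _ _ hf] at h2
  simp only [← hmdef] at h2
  linarith only [h2]

section gibbs

variable {μ : Measure (Fin n → ℝ)} [IsProbabilityMeasure μ] {R : ℝ}

theorem EY_bm {Φ : (Fin n → ℝ) → ℝ} (hΦ : BM Φ) (r : ℝ) : EY μ r Φ = ∫ y, Φ y ∂(lw μ r) := by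
  obtain ⟨C, hC⟩ := hΦ.2
  exact EY_eq_lw μ r hΦ.1 hC

theorem EY_mono_bmG {Φ Ψ : (Fin n → ℝ) → ℝ} (hΦ : BM Φ) (hΨ : BM Ψ) (hle : ∀ y, Φ y ≤ Ψ y)
    (r : ℝ) : EY μ r Φ ≤ EY μ r Ψ := by
  rw [EY_bm hΦ, EY_bm hΨ]
  exact integral_mono (hΦ.gint _) (hΨ.gint _) hle

theorem EY_add_bm {Φ Ψ : (Fin n → ℝ) → ℝ} (hΦ : BM Φ) (hΨ : BM Ψ) (r : ℝ) :
    EY μ r (fun y => Φ y + Ψ y) = EY μ r Φ + EY μ r Ψ := by
  rw [EY_bm hΦ, EY_bm hΨ, EY_bm (hΦ.gadd hΨ)]
  exact integral_add (hΦ.gint _) (hΨ.gint _)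

theorem EY_sum_bm {ι : Type*} (s : Finset ι) {Φ : ι → (Fin n → ℝ) → ℝ} (hΦ : ∀ i ∈ s, BM (Φ i))
    (r : ℝ) : EY μ r (fun y => ∑ i ∈ s, Φ i y) = ∑ i ∈ s, EY μ r (Φ i) := by
  rw [EY_bm (BM.gsum s hΦ), integral_finsetSum _ fun i hi => (hΦ i hi).gint _]
  exact Finset.sum_congr rfl fun i hi => (EY_bm (hΦ i hi) r).symm

/-- the Gibbs bound at one level -/
theorem gibbs_level (h : CSupp μ R) {A : ℝ} (hexp : ExpM μ A) {r : ℝ} (hr : 0 < r)
    (hX : ∀ i, BM (XB μ r i)) {a : (Fin n → ℝ) → ℝ} (ha : BM a) {ε : ℝ} (hε : 0 < ε)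
    (haε : ∀ y, ε ≤ a y) (c : Fin n → ℝ) {L : ℝ}
    (hL : exp L = A * exp ((∑ i, c i ^ 2) / 4)) {P : ℝ} (hP : EY μ r a = P) (hP0 : 0 < P) :
    ∑ i, c i * EY μ r (fun y => a y * XB μ r i y)
      ≤ L * P + EY μ r (fun y => a y * log (a y)) - P * log P := by
  have he : Adm μ fun x => exp (∑ i, c i * x i) := Adm.of_continuous h (by fun_prop)
  set E := UP μ r fun x => exp (∑ i, c i * x i) with hE
  have hEb : BM E := SB.bm (UP_sb h he r)
  have hEE : EY μ r E ≤ exp L := by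
    rw [hE, GibbsE.gb_EY_UP h he hr, hL]; exact hexp c
  have hpt : ∀ y, ∑ i, c i * (a y * XB μ r i y)
      ≤ (L - log P - 1) * a y + (a y * log (a y) + P * exp (-L) * E y) := by
    intro y
    have ha0 : 0 < a y := hε.trans_le (haε y)
    have hw : 0 < a y / P := div_pos ha0 hP0
    have h1 := GibbsE.young_UP h (Adm.const μ 1) one_pos (fun _ => le_rfl) r c L hw y
    simp only [mul_one, log_one, mul_zero] at h1
    have e1 : UP μ r (fun _ => (1 : ℝ)) y = 1 := Mf_const h _ _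
    have e0 : UP μ r (fun _ => (0 : ℝ)) y = 0 := Mf_const h _ _
    rw [e1, e0, log_div ha0.ne' hP0.ne'] at h1
    have h2 := mul_le_mul_of_nonneg_left h1 hP0.le
    have e2 : P * (a y / P * ∑ i, c i * UP μ r (fun x => x i) y)
        = ∑ i, c i * (a y * XB μ r i y) := by
      rw [← mul_assoc, mul_div_cancel₀ _ hP0.ne', Finset.mul_sum]
      exact Finset.sum_congr rfl fun i _ => by
        show a y * (c i * XB μ r i y) = _
        ring
    rw [e2] at h2
    refine h2.trans (le_of_eq ?_)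
    have e3 : P * (a y / P) = a y := mul_div_cancel₀ _ hP0.ne'
    linear_combination (L + (log (a y) - log P) - 1) * e3
  have hb1 : BM (fun y => a y * log (a y)) := ha.ent hε haε
  have hs : ∀ i ∈ (Finset.univ : Finset (Fin n)), BM (fun y => c i * (a y * XB μ r i y)) :=
    fun i _ => (ha.mul (hX i)).gsmul (c i)
  have h1 := EY_mono_bmG (μ := μ) (BM.gsum _ hs)
    ((ha.gsmul (L - log P - 1)).gadd (hb1.gadd (hEb.gsmul (P * exp (-L))))) hpt r
  rw [EY_sum_bm _ hs, EY_add_bm (ha.gsmul _) (hb1.gadd (hEb.gsmul _)),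
    EY_add_bm hb1 (hEb.gsmul _), LS.EY_const_mul, LS.EY_const_mul, hP] at h1
  simp only [LS.EY_const_mul] at h1
  have h3 : P * exp (-L) * EY μ r E ≤ P := by
    have h4 := mul_le_mul_of_nonneg_left hEE (mul_pos hP0 (exp_pos (-L))).le
    rw [mul_assoc P (exp (-L)) (exp L), ← exp_add, neg_add_cancel, exp_zero, mul_one] at h4
    exact h4
  linarith only [h1, h3]

/-- the bound for a fixed output of the channel -/
theorem gibbs_one (h : CSupp μ R) {A : ℝ} (hA : 1 ≤ A) (hexp : ExpM μ A) {s r : ℝ} (hs : 0 < s)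
    (hsr : s ≤ r) (hX : ∀ t : ℝ, ∀ i, 0 < t → BM (XB μ t i)) {N : (Fin n → ℝ) → ℝ} (hN : Pos N)
    (hU : Pos (UL μ s r N)) {l : (Fin n → ℝ) → ℝ} (hl : BM l) {δ : ℝ} (hδ : 0 < δ)
    (hlδ : ∀ y, δ ≤ l y) {P : ℝ} (hP : EY μ r (fun y => UL μ s r N y * l y) = P) (hP0 : 0 < P) :
    (∑ i, (EY μ r fun y => UL μ s r N y * dx μ s r N i y * l y) ^ 2) / P
      ≤ 4 * ((P * log A + EY μ r (fun y => UL μ s r (fun y => N y * log (N y)) y * l y))
        + (EY μ r (fun y => UL μ s r N y * (l y * log (l y))) - P * log P)) := by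
  have hr : 0 < r := hs.trans_le hsr
  obtain ⟨hK1, hK2, hK3, hK4, hK5, hK6⟩ := (thK n μ R h).1 s r hs hsr
  obtain ⟨ε, hε, hNε⟩ := hN.lb
  obtain ⟨ε', hε', hUε⟩ := hU.lb
  have hNb : BM N := SB.bm hN.sb
  have hUb : BM (UL μ s r N) := SB.bm hU.sb
  set U := UL μ s r N with hUdef
  have hNl : BM (fun y => N y * log (N y)) := hNb.ent hε hNε
  have hUl : BM (fun y => U y * log (U y)) := hUb.ent hε' hUε
  have hHb := (hK1 _ hNl).1
  have hll : BM (fun y => l y * log (l y)) := hl.ent hδ hlδ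
  -- the semigroup on bounded measurable functions
  have pAdd : ∀ h g : (Fin n → ℝ) → ℝ, BM h → BM g →
      PH (r - s) (fun y => h y + g y) = fun y => PH (r - s) h y + PH (r - s) g y := by
    intro h g hh hg
    obtain ⟨C, hC⟩ := hh.2
    obtain ⟨D, hD⟩ := hg.2
    exact PH_add hh.1 hC hg.1 hD (r - s)
  have pMul : ∀ (c : ℝ) (h : (Fin n → ℝ) → ℝ), BM h →
      PH (r - s) (fun y => c * h y) = fun y => c * PH (r - s) h y := fun c h _ =>
    PH_const_mul c h (r - s)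
  have pConst : ∀ c : ℝ, PH (r - s) (fun _ : Fin n → ℝ => c) = fun _ => c := PH_const (r - s)
  have pMono : ∀ h g : (Fin n → ℝ) → ℝ, BM h → BM g → (∀ y, h y ≤ g y) →
      ∀ y, PH (r - s) h y ≤ PH (r - s) g y := by
    intro h g hh hg hle y
    obtain ⟨C, hC⟩ := hh.2
    obtain ⟨D, hD⟩ := hg.2
    exact PH_mono hh.1 hC hg.1 hD hle (r - s) y
  set m := PH (r - s) l with hm
  have hmb : BM m := hl.ph (r - s)
  have hmδ : ∀ y, δ ≤ m y := by
    intro y
    have h1 := pMono _ l (BM.const δ) hl hlδ y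
    rwa [pConst δ] at h1
  have hml : BM (fun y => m y * log (m y)) := hmb.ent hδ hmδ
  -- the two laws
  have ha : BM (fun y => N y * m y) := hNb.mul hmb
  have haε : ∀ y, ε * δ ≤ N y * m y := fun y =>
    mul_le_mul (hNε y) (hmδ y) hδ.le (hε.le.trans (hNε y))
  have hb : BM (fun y => U y * l y) := hUb.mul hl
  have hbε : ∀ y, ε' * δ ≤ U y * l y := fun y =>
    mul_le_mul (hUε y) (hlδ y) hδ.le (hε'.le.trans (hUε y))
  have hPa : EY μ s (fun y => N y * m y) = P := by rw [← hP]; exact (hK6 N l hNb hl).symm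
  set V : Fin n → ℝ := fun i => EY μ r fun y => U y * dx μ s r N i y * l y with hV
  have hVi : ∀ i, V i = EY μ s (fun y => N y * m y * XB μ s i y)
      - EY μ r (fun y => U y * l y * XB μ r i y) := by
    intro i
    have hXs := hX s i hs
    have hXr := hX r i hr
    have e1 : (fun y => U y * dx μ s r N i y * l y)
        = fun y => UL μ s r (fun y' => N y' * XB μ s i y') y * l y
          - U y * l y * XB μ r i y := by
      funext y
      have := (hε'.trans_le (hUε y)).ne'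
      show U y * (UL μ s r (fun y' => N y' * XB μ s i y') y / U y - XB μ r i y) * l y = _
      (clear * - this; field_simp)
    show EY μ r (fun y => U y * dx μ s r N i y * l y) = _
    rw [e1, EY_sub_bm ((hK1 _ (hNb.mul hXs)).1.mul hl) (hb.mul hXr),
      hK6 _ l (hNb.mul hXs) hl]
    congr 2
    funext y
    show N y * XB μ s i y * m y = N y * m y * XB μ s i y
    ring
  set c : Fin n → ℝ := fun i => V i / P with hc
  set S := ∑ i, V i ^ 2 with hS
  have hc2 : ∑ i, c i ^ 2 = S / P ^ 2 := by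
    rw [hS, Finset.sum_div]
    exact Finset.sum_congr rfl fun i _ => div_pow _ _ _
  have hc3 : ∑ i, (-c i) ^ 2 = S / P ^ 2 := by
    rw [← hc2]; exact Finset.sum_congr rfl fun i _ => by ring
  have hA0 : 0 < A := one_pos.trans_le hA
  set L := log A + S / P ^ 2 / 4 with hL
  have hexpL : exp L = A * exp (S / P ^ 2 / 4) := by rw [hL, exp_add, exp_log hA0]
  have k1 := gibbs_level h hexp hs (fun i => hX s i hs) ha (mul_pos hε hδ) haε c (L := L)
    (by rw [hc2]; exact hexpL) hPa hP0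
  have k2 := gibbs_level h hexp hr (fun i => hX r i hr) hb (mul_pos hε' hδ) hbε (fun i => -c i)
    (L := L) (by rw [hc3]; exact hexpL) hP hP0
  -- left-hand side
  have e3 : ∑ i, c i * EY μ s (fun y => N y * m y * XB μ s i y)
      + ∑ i, -c i * EY μ r (fun y => U y * l y * XB μ r i y) = S / P := by
    rw [← Finset.sum_add_distrib, hS, Finset.sum_div]
    refine Finset.sum_congr rfl fun i _ => ?_
    have h1 := hVi i
    have h2 : c i = V i / P := rfl
    rw [h2]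
    have h3 : V i / P * EY μ s (fun y => N y * m y * XB μ s i y)
      + -(V i / P) * EY μ r (fun y => U y * l y * XB μ r i y)
      = V i / P * (EY μ s (fun y => N y * m y * XB μ s i y)
        - EY μ r (fun y => U y * l y * XB μ r i y)) := by ring
    rw [h3, ← h1]
    ring
  -- the entropy at the level `s`
  have j1 : EY μ s (fun y => N y * m y * log (N y * m y))
      ≤ EY μ r (fun y => UL μ s r (fun y => N y * log (N y)) y * l y)
        + EY μ r (fun y => U y * (l y * log (l y))) := by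
    have e4 : (fun y => N y * m y * log (N y * m y))
        = fun y => N y * log (N y) * m y + N y * (m y * log (m y)) := by
      funext y
      rw [log_mul (hε.trans_le (hNε y)).ne' (hδ.trans_le (hmδ y)).ne']
      ring
    rw [e4, EY_add_bm (hNl.mul hmb) (hNb.mul hml), hK6 _ l hNl hl, hK6 N _ hNb hll]
    have h1 := EY_mono_bmG (μ := μ) (hNb.mul hml) (hNb.mul (hll.ph (r - s))) (fun y =>
      mul_le_mul_of_nonneg_left (jensen_op pAdd pMul pConst pMono hl hδ hlδ y)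
        (hε.le.trans (hNε y))) s
    linarith only [h1]
  have j2 : EY μ r (fun y => U y * l y * log (U y * l y))
      ≤ EY μ r (fun y => UL μ s r (fun y => N y * log (N y)) y * l y)
        + EY μ r (fun y => U y * (l y * log (l y))) := by
    have e4 : (fun y => U y * l y * log (U y * l y))
        = fun y => U y * log (U y) * l y + U y * (l y * log (l y)) := by
      funext y
      rw [log_mul (hε'.trans_le (hUε y)).ne' (hδ.trans_le (hlδ y)).ne']
      ring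
    rw [e4, EY_add_bm (hUl.mul hl) (hUb.mul hll)]
    have h1 := EY_mono_bmG (μ := μ) (hUl.mul hl) (hHb.mul hl) (fun y =>
      mul_le_mul_of_nonneg_right (jensen_op hK2 hK3 hK4 hK5 hNb hε hNε y)
        (hδ.le.trans (hlδ y))) r
    linarith only [h1]
  set T1 := EY μ r (fun y => UL μ s r (fun y => N y * log (N y)) y * l y) with hT1
  set T2 := EY μ r (fun y => U y * (l y * log (l y))) with hT2
  have k3 := add_le_add k1 k2
  rw [e3] at k3
  have e5 : L * P = P * log A + S / P / 4 := by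
    rw [hL]
    (clear * - hP0; field_simp)
  rw [e5] at k3
  linarith only [k3, j1, j2]

/-- integrability of the two halves of the integrand of the mutual information -/
theorem int_T2 {U : (Fin n → ℝ) → ℝ} (hU : BM U) {l : (Fin n → ℝ) → (Fin n → ℝ) → ℝ} (hl : Ch l)
    (P : Measure (Fin n → ℝ)) [IsProbabilityMeasure P] :
    Integrable (fun w => ∫ y, U y * (l w y * log (l w y)) ∂P) (gsn n) := by
  obtain ⟨C, hC0, hC⟩ := hU.bdd'
  obtain ⟨K, hK0, hK⟩ := hl.bd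
  have h1 : Measurable (Function.uncurry fun (w y : Fin n → ℝ) =>
      U y * (l w y * log (l w y))) :=
    (hU.1.comp measurable_snd).mul (hl.meas.mul hl.meas.log)
  have h2 : Integrable (fun q : (Fin n → ℝ) × (Fin n → ℝ) =>
      C * exp (2 * K * (1 + ∑ i, |q.1 i|))) ((gsn n).prod P) :=
    ((integrable_expo (2 * K)).comp_fst P).const_mul C
  have h3 : Integrable (Function.uncurry fun (w y : Fin n → ℝ) =>
      U y * (l w y * log (l w y))) ((gsn n).prod P) := by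
    refine h2.mono' h1.aestronglyMeasurable (Eventually.of_forall fun q => ?_)
    rw [norm_eq_abs]
    refine abs_mul_le_of (hC q.2) ?_
    have hS : 0 ≤ 1 + ∑ i, |q.1 i| := by
      have : 0 ≤ ∑ i, |q.1 i| := Finset.sum_nonneg fun i _ => abs_nonneg _
      linarith only [this]
    have hx := mul_nonneg hK0 hS
    have hp := hl.pos q.1 q.2
    have h4 : |l q.1 q.2 * log (l q.1 q.2)|
        ≤ exp (K * (1 + ∑ i, |q.1 i|)) * (K * (1 + ∑ i, |q.1 i|)) := by
      apply abs_mul_le_of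
      · rw [abs_of_pos hp]; exact (hK _ _).2
      · rw [abs_le]
        constructor
        · have := log_le_log (exp_pos _) (hK q.1 q.2).1
          rwa [log_exp] at this
        · have := log_le_log hp (hK q.1 q.2).2
          rwa [log_exp] at this
    refine h4.trans ?_
    have h5 : K * (1 + ∑ i, |q.1 i|) ≤ exp (K * (1 + ∑ i, |q.1 i|)) := by
      have := add_one_le_exp (K * (1 + ∑ i, |q.1 i|))
      linarith only [this]
    have h6 := mul_le_mul_of_nonneg_left h5 (exp_pos (K * (1 + ∑ i, |q.1 i|))).le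
    rw [← exp_add] at h6
    refine h6.trans (le_of_eq ?_)
    congr 1
    ring
  exact h3.integral_prod_left

theorem int_PlogP {U : (Fin n → ℝ) → ℝ} (hU : BM U) {l : (Fin n → ℝ) → (Fin n → ℝ) → ℝ}
    (hl : Ch l) {P : (Fin n → ℝ) → ℝ} (hP : ∀ w, 0 < P w) (ν : Measure (Fin n → ℝ))
    [IsProbabilityMeasure ν] (hPe : ∀ w, P w = ∫ y, U y * l w y ∂ν) (hPm : Measurable P) :
    Integrable (fun w => P w * log (P w)) (gsn n) := by
  obtain ⟨C, hC0, hC⟩ := hU.bdd'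
  obtain ⟨K, hK0, hK⟩ := hl.bd
  have h1 : ∀ w, P w ≤ C * exp (K * (1 + ∑ i, |w i|)) := by
    intro w
    rw [hPe]
    have h2 := norm_integral_le_of_norm_le_const (μ := ν) (f := fun y => U y * l w y)
      (C := C * exp (K * (1 + ∑ i, |w i|))) (Eventually.of_forall fun y => by
        rw [norm_eq_abs]
        refine abs_mul_le_of (hC y) ?_
        rw [abs_of_pos (hl.pos w y)]
        exact (hK w y).2)
    rw [probReal_univ, mul_one, norm_eq_abs] at h2
    exact (le_abs_self _).trans h2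
  have hbd : Integrable (fun w : Fin n → ℝ => 1 + C ^ 2 * exp (2 * K * (1 + ∑ i, |w i|)))
      (gsn n) := (integrable_const _).add ((integrable_expo (2 * K)).const_mul _)
  refine hbd.mono' (hPm.mul hPm.log).aestronglyMeasurable (Eventually.of_forall fun w => ?_)
  have hp := hP w
  have h2 : P w * log (P w) ≤ P w ^ 2 := by
    rw [sq]
    exact mul_le_mul_of_nonneg_left
      ((log_le_sub_one_of_pos hp).trans (sub_le_self _ zero_le_one)) hp.le
  have h3 : -1 ≤ P w * log (P w) := by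
    have := mul_le_mul_log_add_exp (a := P w) (b := 0) hp.le
    rw [mul_zero, exp_zero] at this
    linarith only [this, hp]
  have h4 : P w ^ 2 ≤ C ^ 2 * exp (2 * K * (1 + ∑ i, |w i|)) := by
    refine (pow_le_pow_left₀ hp.le (h1 w) 2).trans (le_of_eq ?_)
    rw [mul_pow, ← exp_nat_mul]
    congr 2
    push_cast
    ring
  have h5 : 0 ≤ C ^ 2 * exp (2 * K * (1 + ∑ i, |w i|)) := by (clear * -; positivity)
  rw [norm_eq_abs, abs_le]
  constructor
  · linarith only [h3, h5]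
  · linarith only [h2, h4]

end gibbs

/-- module G0 -/
theorem thG0 (n : ℕ) (hR : StR n) : StG0 n := by
  intro μ _ R A h hA hexp s r N hs hsr hN hN1 l hl
  have hr : 0 < r := hs.trans_le hsr
  obtain ⟨hR1, -, hR2⟩ := hR μ R h
  obtain ⟨hR3, hR4⟩ := hR2 s r hs hsr
  obtain ⟨hU, hR5, -⟩ := hR4 N hN
  have hX : ∀ t : ℝ, ∀ i, 0 < t → BM (XB μ t i) := fun t i ht => SB.bm (hR1 t i ht)
  obtain ⟨hK1, hK2, hK3, hK4, hK5, hK6⟩ := (thK n μ R h).1 s r hs hsr
  obtain ⟨ε, hε, hNε⟩ := hN.lb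
  have hNb : BM N := SB.bm hN.sb
  have hUb : BM (UL μ s r N) := SB.bm hU.sb
  have hHb : BM (UL μ s r fun y => N y * log (N y)) := (hK1 _ (hNb.ent hε hNε)).1
  obtain ⟨K, hK0, hK⟩ := hl.bd
  have hlb : ∀ w, BM (l w) := fun w => ⟨hl.meas_left w, hl.bdd_left w⟩
  have hll : ∀ w, BM (fun y => l w y * log (l w y)) := fun w =>
    (hlb w).ent (exp_pos _) fun y => (hK w y).1
  set U := UL μ s r N with hUdef
  set P : (Fin n → ℝ) → ℝ := ms μ r U l with hPdef
  have hPp : ∀ w, 0 < P w := fun w => ms_pos hU hl w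
  have hPm : Measurable P := ms_measurable hU hl
  have hPe : ∀ w, P w = ∫ y, U y * l w y ∂(lw μ r) := fun w => ms_eq hU hl w
  set T1 : (Fin n → ℝ) → ℝ := fun w =>
    EY μ r (fun y => UL μ s r (fun y => N y * log (N y)) y * l w y) with hT1
  set T2 : (Fin n → ℝ) → ℝ := fun w => EY μ r (fun y => U y * (l w y * log (l w y))) with hT2
  obtain ⟨CU, hCU⟩ := hUb.2
  obtain ⟨CH, hCH⟩ := hHb.2
  have eP : P = fun w => ∫ y, U y * l w y ∂(lw μ r) := funext hPe
  have eT1 : T1 = fun w => ∫ y, UL μ s r (fun y => N y * log (N y)) y * l w y ∂(lw μ r) := by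
    funext w
    exact EY_bm (hHb.mul (hlb w)) r
  have eT2 : T2 = fun w => ∫ y, U y * (l w y * log (l w y)) ∂(lw μ r) := by
    funext w
    exact EY_bm (hUb.mul (hll w)) r
  have iP : Integrable P (gsn n) := by
    rw [eP]; exact hl.int_out hUb.1 hCU
  have iT1 : Integrable T1 (gsn n) := by
    rw [eT1]; exact hl.int_out hHb.1 hCH
  have iT2 : Integrable T2 (gsn n) := by
    rw [eT2]; exact int_T2 hUb hl _
  have iPl : Integrable (fun w => P w * log (P w)) (gsn n) := int_PlogP hUb hl hPp _ hPe hPm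
  have one : ∀ f : (Fin n → ℝ) → ℝ, BM f → EY μ r (UL μ s r f) = EY μ s f := by
    intro f hf
    have := EY_UL h hf (BM.const (n := n) 1) hs hsr
    simpa [PH_const] using this
  have vP : ∫ w, P w ∂(gsn n) = 1 := by
    rw [eP, hl.fubini hUb.1 hCU, ← EY_bm hUb r, one N hNb, hN1]
  have vT1 : ∫ w, T1 w ∂(gsn n) = HE μ s N := by
    rw [eT1, hl.fubini hHb.1 hCH, ← EY_bm hHb r, one _ (hNb.ent hε hNε)]
    rfl
  have i1 : Integrable (fun w => P w * log A + T1 w) (gsn n) := (iP.mul_const _).add iT1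
  have i2 : Integrable (fun w => T2 w - P w * log (P w)) (gsn n) := iT2.sub iPl
  have iR : Integrable (fun w => 4 * ((P w * log A + T1 w) + (T2 w - P w * log (P w))))
      (gsn n) := (i1.add i2).const_mul 4
  have main : ∀ w, (∑ i, (EY μ r fun y => U y * dx μ s r N i y * l w y) ^ 2) / P w
      ≤ 4 * ((P w * log A + T1 w) + (T2 w - P w * log (P w))) := fun w =>
    gibbs_one h hA hexp hs hsr hX hN hU (hlb w) (exp_pos _) (fun y => (hK w y).1) rfl (hPp w)
  have hnn : ∀ w, 0 ≤ (∑ i, (EY μ r fun y => U y * dx μ s r N i y * l w y) ^ 2) / P w :=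
    fun w => div_nonneg (Finset.sum_nonneg fun i _ => sq_nonneg _) (hPp w).le
  have fin := integral_mono_of_nonneg (μ := gsn n) (Eventually.of_forall hnn) iR
    (Eventually.of_forall main)
  have f0 : 0 ≤ Co μ r U (dx μ s r N) l := integral_nonneg hnn
  have hInf : Inf μ r U l = ∫ w, (T2 w - P w * log (P w)) ∂(gsn n) := rfl
  rw [integral_const_mul, integral_add i1 i2, integral_add (iP.mul_const _) iT1,
    integral_mul_const, vP, vT1, ← hInf, one_mul] at fin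
  have fin' : Co μ r U (dx μ s r N) l ≤ 4 * (log A + HE μ s N + Inf μ r U l) := fin
  linarith only [fin', f0]

end Vale.Agent.P245.E1
end
end

section

section

open MeasureTheory Real Set Filter Topology
open scoped ENNReal ContDiff

/-! # Module H4: from a small defect to a log-Sobolev inequality -/

namespace Vale.Agent.P245.LS

/-- module H4 -/
theorem thH4 (n : ℕ) : StH4 n 184 := by
  intro μ ip κ hκ hD g hg
  obtain ⟨hg1, R, c, hc⟩ := hg
  have hD' : DLS μ (4 * κ) (log 2 / 2) := fun f hf R c hc => hD f ⟨hf, R, c, hc⟩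
  have h := lsi_of_level (by positivity : 0 ≤ 4 * κ) hD' hg1 hc
  rw [zero_mul, add_zero]
  refine h.trans (le_of_eq ?_)
  ring

end Vale.Agent.P245.LS
end
end

section

section

open MeasureTheory Real Set Filter Topology
open scoped ENNReal ContDiff

/-! # E1, module G: the iteration -/

namespace Vale.Agent.P245.E1

open LS

section Abstract

variable {F : Type*} {H I : F → ℝ}

lemma g_bdd (hI : ∀ f, 0 ≤ I f) {B k1 : ℝ} (h1 : ∀ f, H f ≤ k1 * I f + B) {k : ℝ} (hk : k1 ≤ k) :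
    BddAbove (range fun f => H f - k * I f) := by
  refine ⟨B, ?_⟩
  rintro _ ⟨f, rfl⟩
  have := mul_le_mul_of_nonneg_right hk (hI f)
  have := h1 f
  simp only
  linarith

lemma g_le (hI : ∀ f, 0 ≤ I f) {B k1 : ℝ} (h1 : ∀ f, H f ≤ k1 * I f + B) {k : ℝ} (hk : k1 ≤ k)
    (f : F) : H f - k * I f ≤ iterD H I k :=
  le_ciSup (g_bdd hI h1 hk) f

lemma g_le_B [Nonempty F] (hI : ∀ f, 0 ≤ I f) {B k1 : ℝ} (h1 : ∀ f, H f ≤ k1 * I f + B) {k : ℝ}
    (hk : k1 ≤ k) : iterD H I k ≤ B := by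
  refine ciSup_le fun f => ?_
  have := mul_le_mul_of_nonneg_right hk (hI f)
  have := h1 f
  linarith

/-- Hypotheses of the abstract iteration. -/
structure GHyp (H I : F → ℝ) (B k1 κ0 C2 η : ℝ) : Prop where
  hI : ∀ f, 0 ≤ I f
  h1 : ∀ f, H f ≤ k1 * I f + B
  hk1 : k1 ≤ κ0 / 2
  h2 : ∀ f, H f ≤ 47 * κ0 * I f
  hκ0 : 0 < κ0
  hC2 : 0 < C2
  hη : 0 < η
  hlow : ∀ k, κ0 / 2 ≤ k → k ≤ 49 / 50 * κ0 → log 2 / 2 < iterD H I k
  hstep : ∀ (k : ℝ) (f : F) (α : ℝ), κ0 / 2 + C2 ≤ k → k ≤ κ0 → 0 ≤ α → α ≤ η * I f →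
    iterD H I k - α ≤ H f - k * I f → H f ≤ 700 * k * I f → log 3 ≤ 700 * k * I f →
    iterD H I k + 3 / 2 * C2 * I f ≤ iterD H I (k - C2)

lemma g_log3 : log 3 ≤ 7 / 4 * log 2 := by
  have h6 : log 3 ≤ log (2 ^ (7 / 4 : ℝ)) := by
    apply Real.log_le_log (by norm_num)
    have h7 : (3 : ℝ) ^ (4 : ℝ) ≤ (2 ^ (7 / 4 : ℝ)) ^ (4 : ℝ) := by
      rw [← Real.rpow_mul (by norm_num)]
      norm_num
    exact (Real.rpow_le_rpow_iff (by norm_num) (by positivity) (by norm_num)).1 h7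
  rwa [Real.log_rpow (by norm_num)] at h6

lemma g_gain [Nonempty F] {B k1 κ0 C2 η : ℝ} (h : GHyp H I B k1 κ0 C2 η) {k ε : ℝ}
    (hk : κ0 / 2 + C2 ≤ k) (hk' : k ≤ 49 / 50 * κ0) (hε : 0 < ε) :
    ∃ f, iterD H I k - ε ≤ H f - k * I f ∧ log 2 / (188 * κ0) ≤ I f ∧
      iterD H I k + 3 / 2 * C2 * I f ≤ iterD H I (k - C2) := by
  have hl2 : 0 < log 2 := Real.log_pos (by norm_num)
  have hκ0 := h.hκ0
  have hC2 := h.hC2
  have hη := h.hη
  have hIm : 0 < log 2 / (188 * κ0) := by positivity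
  obtain ⟨α, hα, hα1, hα2, hα3⟩ : ∃ α : ℝ, 0 < α ∧ α ≤ ε ∧ α ≤ log 2 / 4 ∧
      α ≤ η * (log 2 / (188 * κ0)) :=
    ⟨min ε (min (log 2 / 4) (η * (log 2 / (188 * κ0)))),
      lt_min hε (lt_min (by positivity) (by positivity)), min_le_left _ _,
      (min_le_right _ _).trans (min_le_left _ _), (min_le_right _ _).trans (min_le_right _ _)⟩
  obtain ⟨f, hf⟩ := exists_lt_of_lt_ciSup (f := fun f => H f - k * I f)
    (show iterD H I k - α < ⨆ f, (H f - k * I f) from by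
      change iterD H I k - α < iterD H I k
      linarith only [hα])
  have hIf := h.hI f
  have hlow := h.hlow k (by linarith only [hk, hC2]) hk'
  have hk0 : 0 < k := by linarith only [hk, hk', hC2]
  have hkI : 0 ≤ k * I f := by (clear * - hk0 hIf; positivity)
  have h3 : log 2 / 4 ≤ 47 * κ0 * I f := by
    have := h.h2 f
    linarith only [hα2, hf, hlow, hkI, this]
  have h4 : log 2 / (188 * κ0) ≤ I f := by
    rw [div_le_iff₀ (by positivity)]
    linarith only [h3]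
  have h5 : κ0 / 2 * I f ≤ k * I f := mul_le_mul_of_nonneg_right (by linarith only [hk, hC2]) hIf
  refine ⟨f, by linarith only [hα1, hf], h4, ?_⟩
  refine h.hstep k f α hk (by linarith only [hk, hk', hC2]) hα.le ?_ hf.le ?_ ?_
  · exact hα3.trans (mul_le_mul_of_nonneg_left h4 hη.le)
  · have := h.h2 f
    have e : 47 * κ0 * I f = 94 * (κ0 / 2 * I f) := by ring
    have e' : 700 * k * I f = 700 * (k * I f) := by ring
    rw [e'] 
    rw [e] at this
    linarith only [hα, hα2, hf, hlow, h5, this]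
  · have e' : 700 * k * I f = 700 * (k * I f) := by ring
    have h6 : κ0 / 2 * I f = 47 * κ0 * I f / 94 := by ring
    have := g_log3
    rw [e']
    rw [h6] at h5
    linarith only [hα, hα2, h3, h5, this]

lemma g_ratio [Nonempty F] {B k1 κ0 C2 η : ℝ} (h : GHyp H I B k1 κ0 C2 η) {k : ℝ}
    (hk : κ0 / 2 + C2 ≤ k) (hk' : k ≤ 49 / 50 * κ0) :
    3 / 2 * (iterD H I k - iterD H I (k + C2)) ≤ iterD H I (k - C2) - iterD H I k := by
  refine le_of_forall_pos_le_add fun ε hε => ?_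
  obtain ⟨f, h3, -, h4⟩ := g_gain h hk hk' (ε := ε / 2) (by positivity)
  have h5 := g_le h.hI h.h1 (k := k + C2) (by linarith only [hk, h.hk1, h.hC2]) f
  have e : (k + C2) * I f = k * I f + C2 * I f := by ring
  have e' : 3 / 2 * C2 * I f = 3 / 2 * (C2 * I f) := by ring
  rw [e] at h5
  rw [e'] at h4
  linarith only [h5, h4, h3, hε]

/-- The iteration in abstract form. -/
lemma g_abstract [Nonempty F] {B k1 κ0 C2 η : ℝ} (h : GHyp H I B k1 κ0 C2 η) (m : ℕ)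
    (hm : ((m : ℝ) + 1) * C2 ≤ 12 / 25 * κ0) :
    (3 / 2) ^ (m + 1) * (C2 * (log 2 / (188 * κ0))) ≤ B := by
  have hl2 : 0 < log 2 := Real.log_pos (by norm_num)
  have hκ0 := h.hκ0
  have hC2 := h.hC2
  have key : ∀ j : ℕ, ((j : ℝ) + 1) * C2 ≤ 12 / 25 * κ0 →
      (3 / 2) ^ (j + 1) * (C2 * (log 2 / (188 * κ0))) ≤
        iterD H I (49 / 50 * κ0 - ((j : ℝ) + 1) * C2) - iterD H I (49 / 50 * κ0 - j * C2) := by
    intro j
    induction j with
    | zero =>
      intro hj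
      simp only [Nat.cast_zero, zero_add, one_mul, zero_mul, sub_zero, pow_one] at hj ⊢
      obtain ⟨f, -, h3, h4⟩ := g_gain h (k := 49 / 50 * κ0) (ε := 1) (by linarith only [hj]) le_rfl one_pos
      have h5 := mul_le_mul_of_nonneg_left h3 hC2.le
      have e' : 3 / 2 * C2 * I f = 3 / 2 * (C2 * I f) := by ring
      rw [e'] at h4
      linarith only [h4, h5]
    | succ j ih =>
      intro hj
      push_cast at hj ⊢
      have hj0 : (0 : ℝ) ≤ j := Nat.cast_nonneg j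
      have ih' := ih (by linarith)
      have h5 := g_ratio h (k := 49 / 50 * κ0 - ((j : ℝ) + 1) * C2) (by nlinarith only [hj]) (by nlinarith only [hC2])
      have e1 : 49 / 50 * κ0 - ((j : ℝ) + 1) * C2 + C2 = 49 / 50 * κ0 - j * C2 := by ring
      have e2 : 49 / 50 * κ0 - ((j : ℝ) + 1) * C2 - C2 = 49 / 50 * κ0 - ((j : ℝ) + 1 + 1) * C2 := by
        ring
      rw [e1, e2] at h5
      rw [pow_succ]
      linarith only [ih', h5]
  have h6 := key m hm
  have hm0 : (0 : ℝ) ≤ m := Nat.cast_nonneg m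
  have hmC : ((m : ℝ) + 1) * C2 = m * C2 + C2 := by ring
  have hmC0 : 0 ≤ (m : ℝ) * C2 := by (clear * - hC2; positivity)
  have h7 := g_le_B h.hI h.h1 (k := 49 / 50 * κ0 - ((m : ℝ) + 1) * C2) (by linarith only [hm, h.hk1])
  have h8 := h.hlow (49 / 50 * κ0 - m * C2) (by linarith only [hm, hC2]) (by linarith only [hmC0])
  linarith

end Abstract

/-- numerics -/
lemma g_num {n : ℕ} (hn : 1 ≤ n) {X : ℝ} (hX : 500 * (1 + log n) ≤ X) :
    ∃ m : ℕ, (m : ℝ) + 1 ≤ 12 / 25 * X ∧ 6 * (n : ℝ) < (3 / 2) ^ (m + 1) * (log 2 / (188 * X)) := by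
  have hn1 : (1 : ℝ) ≤ n := by exact_mod_cast hn
  have hn0 : (0 : ℝ) < n := by linarith only [hn1]
  have hlog : 0 ≤ log (n : ℝ) := Real.log_nonneg hn1
  have hX500 : (500 : ℝ) ≤ X := by linarith only [hX, hlog]
  have hX0 : (0 : ℝ) < X := by linarith only [hX, hlog]
  obtain ⟨m, hm⟩ : ∃ m : ℕ, m + 1 = ⌊12 / 25 * X⌋₊ := by
    have : 1 ≤ ⌊12 / 25 * X⌋₊ := by
      apply Nat.le_floor
      push_cast
      linarith only [hX, hlog]
    exact ⟨⌊12 / 25 * X⌋₊ - 1, by omega⟩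
  have hm1 : (m : ℝ) + 1 ≤ 12 / 25 * X := by
    have := Nat.floor_le (a := 12 / 25 * X) (by positivity)
    rw [← hm] at this
    push_cast at this
    exact this
  have hm2 : 12 / 25 * X < (m : ℝ) + 1 + 1 := by
    have := Nat.lt_floor_add_one (12 / 25 * X)
    rw [← hm] at this
    push_cast at this
    exact this
  refine ⟨m, hm1, ?_⟩
  have hexp : Real.exp (1 / 4) ≤ 3 / 2 := by
    have h5 : Real.exp (1 / 4) ^ 4 = Real.exp 1 := by
      rw [← Real.exp_nat_mul]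
      norm_num
    have h6 := Real.exp_one_lt_d9
    by_contra hcon
    push Not at hcon
    have h7 : (3 / 2 : ℝ) ^ 4 ≤ Real.exp (1 / 4) ^ 4 := pow_le_pow_left₀ (by norm_num) hcon.le 4
    rw [h5] at h7
    norm_num at h7
    linarith only [h6, h7]
  have h1 : Real.exp (X / 10) ≤ (3 / 2) ^ (m + 1) := by
    calc Real.exp (X / 10) ≤ Real.exp (((m : ℝ) + 1) / 4) := Real.exp_le_exp.2 (by linarith only [hX, hlog, hm2])
      _ = Real.exp (1 / 4) ^ (m + 1) := by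
          rw [← Real.exp_nat_mul]
          push_cast
          ring_nf
      _ ≤ (3 / 2) ^ (m + 1) := pow_le_pow_left₀ (Real.exp_pos _).le hexp _
  have h2 : Real.exp (X / 10) = Real.exp (X / 20) * Real.exp (X / 20) := by
    rw [← Real.exp_add]
    ring_nf
  have h3 : X / 20 ≤ Real.exp (X / 20) := by
    have := Real.add_one_le_exp (X / 20)
    linarith only [this]
  have h4 : 50000 * (n : ℝ) ≤ Real.exp (X / 20) := by
    have h7 : Real.exp (25 * (1 + log n)) ≤ Real.exp (X / 20) := Real.exp_le_exp.2 (by linarith only [hX])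
    have h8 : Real.exp (25 * (1 + log n)) = Real.exp 1 ^ 25 * (n : ℝ) ^ 25 := by
      rw [mul_add, mul_one, Real.exp_add, ← Real.exp_nat_mul]
      congr 1
      · norm_num
      · rw [mul_comm, Real.exp_mul, Real.exp_log hn0]
        norm_cast
    have h9 : (50000 : ℝ) ≤ Real.exp 1 ^ 25 := by
      have h10 := Real.exp_one_gt_d9
      calc (50000 : ℝ) ≤ 2 ^ 25 := by norm_num
        _ ≤ Real.exp 1 ^ 25 := pow_le_pow_left₀ (by norm_num) (by linarith only [h10]) 25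
    have h10 : (n : ℝ) ≤ (n : ℝ) ^ 25 := le_self_pow₀ hn1 (by norm_num)
    rw [h8] at h7
    exact (mul_le_mul h9 h10 hn0.le (by positivity)).trans h7
  have h5 : 2500 * (n : ℝ) * X ≤ (3 / 2) ^ (m + 1) := by
    refine le_trans ?_ h1
    rw [h2]
    calc 2500 * (n : ℝ) * X = 50000 * (n : ℝ) * (X / 20) := by ring
      _ ≤ _ := mul_le_mul h4 h3 (by positivity) (Real.exp_pos _).le
  have h6 : (1 : ℝ) / 2 < log 2 := by
    have := Real.log_two_gt_d9
    linarith only [this]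
  calc 6 * (n : ℝ) < 2500 * (n : ℝ) * X * (1 / 2 / (188 * X)) := by
        have e : 2500 * (n : ℝ) * X * (1 / 2 / (188 * X)) = 2500 / 376 * n := by
          field_simp
          ring
        rw [e]
        linarith only [hn1]
    _ ≤ (3 / 2) ^ (m + 1) * (1 / 2 / (188 * X)) :=
        mul_le_mul_of_nonneg_right h5 (by positivity)
    _ ≤ (3 / 2) ^ (m + 1) * (log 2 / (188 * X)) := by
        apply mul_le_mul_of_nonneg_left _ (by positivity)
        exact div_le_div_of_nonneg_right h6.le (by positivity)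

variable {n : ℕ}

lemma g_FI_nonneg (μ : Measure (Fin n → ℝ)) (r : ℝ) {N : (Fin n → ℝ) → ℝ} (hN : Pos N) :
    0 ≤ FI μ r N := by
  obtain ⟨ε, hε, hlb⟩ := hN.lb
  refine integral_nonneg fun x => integral_nonneg fun z => ?_
  have h1 : 0 < N (x + √r • z) := lt_of_lt_of_le hε (hlb _)
  exact div_nonneg (Finset.sum_nonneg fun i _ => sq_nonneg _) h1.le

lemma g_Pos_one : Pos (fun _ : Fin n → ℝ => (1 : ℝ)) :=
  ⟨fun k => iter_SBk_const k 1, 1, one_pos, fun _ => le_rfl⟩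

lemma g_EY_one (μ : Measure (Fin n → ℝ)) [IsProbabilityMeasure μ] (r : ℝ) :
    EY μ r (fun _ : Fin n → ℝ => (1 : ℝ)) = 1 := by
  simp [EY, PH]

lemma g_DB_mono {μ : Measure (Fin n → ℝ)} {κ κ' D D' : ℝ} (h : DB μ κ D) (hκ : κ ≤ κ')
    (hD : D ≤ D') : DB μ κ' D' := by
  intro f hf h1
  have h2 := h f hf h1
  have h3 := mul_le_mul_of_nonneg_right hκ (iter_FI_nonneg μ hf)
  linarith

/-- the normalised densities of the levels of the window -/
def GF (μ : Measure (Fin n → ℝ)) (δ : ℝ) : Type :=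
  {p : ℝ × ((Fin n → ℝ) → ℝ) // p.1 ∈ Icc (2 * δ) (3 * δ) ∧ Pos p.2 ∧ EY μ p.1 p.2 = 1}

/-- the core of the iteration: a contradiction at a large critical level -/
lemma g_core {C2 K0 η : ℝ} (hC2 : 1 ≤ C2) (hη : 0 < η) (hS : StStep 700 C2 K0 η n)
    (hLv : StLv n) {ρ : (Fin n → ℝ) → ℝ} {R : ℝ} (hn : 1 ≤ n) (hρ : LCd ρ)
    (hprob : IsProbabilityMeasure (mu ρ)) (hR : CSupp (mu ρ) R) (hexp : ExpM (mu ρ) 3) {κ0 : ℝ}
    (hκ0 : 500 * C2 * (1 + log n) ≤ κ0) (hK0 : 2 * K0 ≤ κ0) (h1 : DB (mu ρ) κ0 (log 2 / 2))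
    (h2 : ¬ DB (mu ρ) (99 / 100 * κ0) (log 2 / 2)) : False := by
  have hl2 : 0 < log 2 := Real.log_pos (by norm_num)
  have hn1 : (1 : ℝ) ≤ n := by exact_mod_cast hn
  have hlog : 0 ≤ log (n : ℝ) := Real.log_nonneg hn1
  have hκ500 : 500 ≤ κ0 := by
    refine le_trans ?_ hκ0
    have : (1 : ℝ) * 1 ≤ C2 * (1 + log n) := mul_le_mul hC2 (by linarith only [hlog]) (by norm_num) (by linarith only [hC2])
    linarith only [this]
  have hκp : 0 < κ0 := by linarith only [hκ500]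
  obtain ⟨δ, hδ⟩ : ∃ δ, δ = κ0 / 4000 := ⟨_, rfl⟩
  have hδ0 : 0 < δ := by rw [hδ]; (clear * - hκ500; positivity)
  have hne : Nonempty (GF (mu ρ) δ) :=
    ⟨⟨(2 * δ, fun _ => 1), ⟨le_rfl, by linarith only [hδ0]⟩, g_Pos_one, g_EY_one _ _⟩⟩
  -- tight inequality with constant `46 κ0`
  have h46 : DB (mu ρ) (46 * κ0) 0 := by
    have a1 := (thH2 n (mu ρ) R κ0 (log 2 / 2) hR hκp.le (by positivity)).1 h1
    have a2 := thH4 n (mu ρ) κ0 hκp.le a1
    refine (thH2 n (mu ρ) R (46 * κ0) 0 hR (by positivity) le_rfl).2 ?_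
    have e : 4 * (46 * κ0) = 184 * κ0 := by ring
    rw [e]
    exact a2
  have hlev : ∀ f : GF (mu ρ) δ, 0 < f.1.1 ∧ f.1.1 / 2 ≤ 3 / 2 * δ := by
    intro f
    have a := f.2.1.1
    have b := f.2.1.2
    constructor
    · linarith only [hδ0, a]
    · linarith only [b]
  have hup : ∀ κ D, 0 ≤ κ → DB (mu ρ) κ D → ∀ f : GF (mu ρ) δ,
      HE (mu ρ) f.1.1 f.1.2 ≤ (κ + 3 / 2 * δ) * FI (mu ρ) f.1.1 f.1.2 + D := by
    intro κ D hκ hDB f
    have a := (hLv ρ R hρ hprob hR f.1.1 κ D (hlev f).1 hκ).1 hDB f.1.2 f.2.2.1 f.2.2.2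
    have b := mul_le_mul_of_nonneg_right (hlev f).2 (g_FI_nonneg (mu ρ) f.1.1 f.2.2.1)
    rw [add_mul] at a ⊢
    linarith only [b, a]
  have hH1 := thH1 n ρ R hn hρ hprob hR hexp
  have hb1 := hup 4 (6 * n) (by norm_num) hH1
  have hb2 := hup (46 * κ0) 0 (by positivity) h46
  have hDBS : ∀ k, 4 + 3 / 2 * δ ≤ k → DBS (mu ρ) (2 * δ) δ k
      (iterD (fun f : GF (mu ρ) δ => HE (mu ρ) f.1.1 f.1.2)
        (fun f => FI (mu ρ) f.1.1 f.1.2) k) := by
    intro k hk r hr N hN hE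
    have hr' : r ∈ Icc (2 * δ) (3 * δ) := ⟨hr.1, by linarith only [hr.2]⟩
    have := g_le (H := fun f : GF (mu ρ) δ => HE (mu ρ) f.1.1 f.1.2)
      (I := fun f => FI (mu ρ) f.1.1 f.1.2) (fun f => g_FI_nonneg _ _ f.2.2.1) hb1 hk
      ⟨(r, N), hr', hN, hE⟩
    simp only at this
    linarith only [this]
  have hk1 : 4 + 3 / 2 * δ ≤ κ0 / 2 := by rw [hδ]; linarith only [hκ500]
  have hG : GHyp (fun f : GF (mu ρ) δ => HE (mu ρ) f.1.1 f.1.2)
      (fun f => FI (mu ρ) f.1.1 f.1.2) (6 * n) (4 + 3 / 2 * δ) κ0 C2 η := by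
    refine ⟨fun f => g_FI_nonneg _ _ f.2.2.1, hb1, hk1, ?_, hκp, by linarith only [hC2], hη, ?_, ?_⟩
    · intro f
      have a := hb2 f
      have b : (46 * κ0 + 3 / 2 * δ) * FI (mu ρ) f.1.1 f.1.2 ≤
          47 * κ0 * FI (mu ρ) f.1.1 f.1.2 :=
        mul_le_mul_of_nonneg_right (by rw [hδ]; linarith only [hκ500]) (g_FI_nonneg _ _ f.2.2.1)
      linarith only [a, b]
    · intro k hka hkb
      by_contra hcon
      push Not at hcon
      apply h2
      have a := hDBS k (by linarith only [hκ500, hδ, hka]) (2 * δ) ⟨le_rfl, by linarith only [hδ0]⟩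
      have b := (hLv ρ R hρ hprob hR (2 * δ) k _ (by linarith only [hδ0]) (by linarith only [hκ500, hka])).2 a
      exact g_DB_mono b (by rw [hδ]; linarith only [hδ, hδ0, hkb]) hcon
    · intro k f α hka hkb hα0 hα hfa hfb hfc
      exact hS ρ R hρ hprob hR hexp f.1.2 δ k f.1.1 α _ _ (by linarith only [hC2, hK0, hka]) (by rw [hδ]; linarith only [hkb])
        (by rw [hδ]; linarith only [hC2, hka]) (hDBS k (by linarith only [hC2, hκ500, hδ, hka])) (hDBS (k - C2) (by linarith only [hκ500, hδ, hka])) f.2.1 f.2.2.1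
        f.2.2.2 hα0 hα hfa hfb hfc
  have hX : 500 * (1 + log n) ≤ κ0 / C2 := by
    rw [le_div_iff₀ (by linarith only [hC2])]
    linarith only [hκ0]
  obtain ⟨m, hm, hm'⟩ := g_num hn hX
  have hfin := g_abstract hG m (by
    have : ((m : ℝ) + 1) * C2 ≤ 12 / 25 * (κ0 / C2) * C2 :=
      mul_le_mul_of_nonneg_right hm (by linarith only [hC2])
    have e : 12 / 25 * (κ0 / C2) * C2 = 12 / 25 * κ0 := by (clear * - hC2 hκ500; field_simp)
    linarith only [this, e])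
  have e : C2 * (log 2 / (188 * κ0)) = log 2 / (188 * (κ0 / C2)) := by
    (clear * - hκ500 hC2; field_simp)
  rw [e] at hfin
  linarith only [hm', hfin]

/-- Module G of E1. -/
theorem thG (hS : ∀ Λ, 1 ≤ Λ → ∃ C2 K0 η, 1 ≤ C2 ∧ 1 ≤ K0 ∧ 0 < η ∧ ∀ n, StStep Λ C2 K0 η n)
    (hLv : ∀ n, StLv n) : ∃ C, ∀ n, StG n C := by
  obtain ⟨C2, K0, η, hC2, hK0, hη, hS⟩ := hS 700 (by norm_num)
  refine ⟨184 * (500 * C2 + 2 * K0), ?_⟩
  intro n ρ R hn hρ hprob hR hexp
  have hl2 : 0 < log 2 := Real.log_pos (by norm_num)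
  have hn1 : (1 : ℝ) ≤ n := by exact_mod_cast hn
  have hlog : 0 ≤ log (n : ℝ) := Real.log_nonneg hn1
  obtain ⟨K1, hK1⟩ : ∃ K1, K1 = (500 * C2 + 2 * K0) * (1 + log n) := ⟨_, rfl⟩
  have hK1a : 500 * C2 * (1 + log n) ≤ K1 := by
    rw [hK1]
    have : 0 ≤ 2 * K0 * (1 + log n) := by (clear * - hK0; positivity)
    linarith only [this]
  have hK1b : 2 * K0 ≤ K1 := by
    rw [hK1]
    have a : 0 ≤ 500 * C2 * (1 + log n) := by positivity
    have b : 0 ≤ K0 * log n := by (clear * - hK0; positivity)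
    linarith only [a, b]
  have hK1p : 0 < K1 := by linarith only [hK0, hK1b]
  have key : DB (mu ρ) K1 (log 2 / 2) := by
    by_contra hcon
    obtain ⟨κ, hκ, h3⟩ := thH3 n ρ R hn hρ hprob hR hexp
    have hex : ∃ i : ℕ, DB (mu ρ) ((100 / 99) ^ i * K1) (log 2 / 2) := by
      obtain ⟨i, hi⟩ := pow_unbounded_of_one_lt (κ / K1) (by norm_num : (1 : ℝ) < 100 / 99)
      refine ⟨i, g_DB_mono h3 ?_ (by positivity)⟩
      rw [div_lt_iff₀ hK1p] at hi
      exact hi.le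
    classical
    obtain ⟨i, hi⟩ : ∃ i, i = Nat.find hex := ⟨_, rfl⟩
    have hi1 : DB (mu ρ) ((100 / 99) ^ i * K1) (log 2 / 2) := by
      rw [hi]; exact Nat.find_spec hex
    have hi2 : ∀ j < i, ¬ DB (mu ρ) ((100 / 99) ^ j * K1) (log 2 / 2) := fun j hj =>
      Nat.find_min hex (by rw [← hi]; exact hj)
    have hi0 : i ≠ 0 := by
      rintro rfl
      apply hcon
      rwa [pow_zero, one_mul] at hi1
    obtain ⟨l, rfl⟩ := Nat.exists_eq_succ_of_ne_zero hi0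
    have hl := hi2 l (Nat.lt_succ_self l)
    have hge : K1 ≤ (100 / 99) ^ (l + 1) * K1 := by
      have : (1 : ℝ) ≤ (100 / 99) ^ (l + 1) := one_le_pow₀ (by norm_num)
      have := mul_le_mul_of_nonneg_right this hK1p.le
      linarith only [this]
    refine g_core hC2 hη (hS n) (hLv n) hn hρ hprob hR hexp (hK1a.trans hge)
      (hK1b.trans hge) hi1 ?_
    have e : 99 / 100 * ((100 / 99) ^ (l + 1) * K1) = (100 / 99) ^ l * K1 := by
      rw [pow_succ]; ring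
    rw [e]
    exact hl
  have a1 := (thH2 n (mu ρ) R K1 (log 2 / 2) hR hK1p.le (by positivity)).1 key
  have a2 := thH4 n (mu ρ) K1 hK1p.le a1
  have e : 184 * (500 * C2 + 2 * K0) * (1 + log n) = 184 * K1 := by rw [hK1]; ring
  rw [e]
  exact a2

end Vale.Agent.P245.E1
end
end

section

section

open MeasureTheory Real Set Filter Topology
open scoped ENNReal ContDiff

/-!
# E1, module PathA: the defect and the mismatch along the two legs (steps 1, 2 of the bootstrap)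
-/

namespace Vale.Agent.P245.E1

open LS

variable {n : ℕ}

/-- step 1: the down leg -/
theorem patha_down (hT : StT n) (hCo : StCo n) (hRv : StRv n) (hDn : StDn n) (hPr : StPr n)
    {μ : Measure (Fin n → ℝ)} [IsProbabilityMeasure μ] {R δ κ σ s a0 x X D : ℝ}
    (hcs : CSupp μ R) {N : (Fin n → ℝ) → ℝ} (hδ : 0 < δ) (hδκ : 2000 * δ ≤ κ) (hs : s = 2 * δ)
    (hDB : ∀ ρ ∈ Icc s (3 * δ), DBL μ ρ κ D) (hσ : σ ∈ Icc s (3 * δ)) (hN : Pos N)
    (hN1 : EY μ σ N = 1) (ha0 : 0 ≤ a0) (hdef : D - a0 ≤ LS.HE μ σ N - κ * LS.FI μ σ N)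
    (hx : 2 * δ * LS.FI μ σ N ≤ x) (hX0 : 0 ≤ X) (hPred : Pred μ σ N (sN N) x X) :
    ∀ ρ ∈ Icc s σ, Pos (PH (σ - ρ) N) ∧ EY μ ρ (PH (σ - ρ) N) = 1 ∧
      LS.HE μ ρ (PH (σ - ρ) N) - κ * LS.FI μ ρ (PH (σ - ρ) N) ≤ D ∧
      D - 3 * (a0 + δ * X / 2) ≤ LS.HE μ ρ (PH (σ - ρ) N) - κ * LS.FI μ ρ (PH (σ - ρ) N) ∧
      LS.FI μ ρ (PH (σ - ρ) N) ≤ LS.FI μ σ N ∧
      κ * LS.FI μ σ N - a0 - δ * LS.FI μ σ N / 2 ≤ κ * LS.FI μ ρ (PH (σ - ρ) N) ∧
      LS.HE μ ρ (PH (σ - ρ) N) ≤ LS.HE μ σ N ∧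
      Pred μ ρ (PH (σ - ρ) N) (sN (PH (σ - ρ) N)) x X := by
  have hκ : 0 < κ := by linarith only [hδ, hδκ]
  have hs0 : 0 < s := by rw [hs]; positivity
  have hσσ : σ ∈ Icc s σ := ⟨hσ.1, le_rfl⟩
  have hP0 : ∀ ρ : ℝ, Pos (PH (σ - ρ) N) := fun ρ => PH_pos hN (σ - ρ)
  have hE : ∀ ρ ∈ Icc s σ, EY μ ρ (PH (σ - ρ) N) = 1 := fun ρ hρ => by
    rw [(hPr μ R hcs N ρ σ hN (hs0.trans_le hρ.1) hρ.2).2.1, hN1]
  have hPre : ∀ ρ ∈ Icc s σ, Pred μ ρ (PH (σ - ρ) N) (sN (PH (σ - ρ) N)) x X := fun ρ hρ =>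
    (hT μ R hcs N ρ σ x X hN (hs0.trans_le hρ.1) hρ.2).1 hN1 hPred
  have hPHσ : PH (σ - σ) N = N := by rw [sub_self, PH_zero]
  obtain ⟨cH, cJ, dH, dJ, _⟩ := hDn μ R hcs N s σ hN hs0 hσ.1
  set H : ℝ → ℝ := fun ρ => LS.HE μ ρ (PH (σ - ρ) N) with hHdef
  set J : ℝ → ℝ := fun ρ => LS.FI μ ρ (PH (σ - ρ) N) with hJdef
  set Γ : ℝ → ℝ := fun ρ => LS.GA μ ρ (PH (σ - ρ) N) with hΓdef
  have hHσ : H σ = LS.HE μ σ N := by
    show LS.HE μ σ (PH (σ - σ) N) = _
    rw [hPHσ]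
  have hJσ : J σ = LS.FI μ σ N := by
    show LS.FI μ σ (PH (σ - σ) N) = _
    rw [hPHσ]
  have hsn : ∀ ρ : ℝ, ∀ i, SB (sN (PH (σ - ρ) N) i) := fun ρ i =>
    (hP0 ρ).div ((hP0 ρ).sb.pd i)
  have hFI : ∀ v : ℝ, J v = IP μ v (PH (σ - v) N) (sN (PH (σ - v) N)) (sN (PH (σ - v) N)) :=
    fun v => (hCo μ v _ (hP0 v)).1.1
  have hGAe : ∀ v : ℝ, Γ v = DE μ v (PH (σ - v) N) (sN (PH (σ - v) N)) :=
    fun v => (hCo μ v _ (hP0 v)).1.2
  have hq : ∀ v : ℝ, 0 ≤ J v ∧ 0 ≤ Γ v := fun v => by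
    have h1 := (hCo μ v _ (hP0 v)).2.1 _ _ (hsn v) (hsn v)
    rw [hFI v, hGAe v]
    exact ⟨h1.1, h1.2.1⟩
  have hJmono : ∀ v ∈ Icc s σ, J v ≤ J σ := fun v hv =>
    mono_of_deriv cJ dJ (fun v _ => (hq v).2) hv hσσ hv.2
  have hHmono : ∀ v ∈ Icc s σ, H v ≤ H σ := fun v hv =>
    mono_of_deriv cH dH (fun v _ => by have := (hq v).1; (clear * - this; positivity)) hv hσσ hv.2
  set al : ℝ → ℝ := fun ρ => D - H ρ + κ * J ρ with haldef
  have cal : ContinuousOn al (Icc s σ) :=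
    (continuousOn_const.sub cH).add (continuousOn_const.mul cJ)
  have dal : ∀ v ∈ Ioo s σ, HasDerivAt al (κ * Γ v - J v / 2) v := by
    intro v hv
    have h1 := (((dH v hv).const_sub D).add ((dJ v hv).const_mul κ))
    refine h1.congr_deriv ?_
    show -(1 / 2 * J v) + κ * Γ v = κ * Γ v - J v / 2
    ring
  have hlev : ∀ v ∈ Icc s σ, v ∈ Icc s (3 * δ) := fun v hv => ⟨hv.1, hv.2.trans hσ.2⟩
  have hal0 : ∀ v ∈ Icc s σ, 0 ≤ al v := fun v hv => by
    have h2 : H v ≤ κ * J v + D := hDB v (hlev v hv) _ (hP0 v) (hE v hv)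
    show 0 ≤ D - H v + κ * J v
    linarith only [h2]
  have halσ : al σ ≤ a0 := by
    show D - H σ + κ * J σ ≤ a0
    rw [hHσ, hJσ]
    linarith only [hdef]
  have hRs : ∀ v ∈ Ioo s σ, J v ≤ 2 * κ * Γ v + X + 2 * al v / δ := by
    intro v hv
    have hvI : v ∈ Icc s σ := ⟨hv.1.le, hv.2.le⟩
    have hv0 : 0 < v := hs0.trans hv.1
    have h1 := reveal_ineq hRv hv0.le hδ (hP0 v) (hE v hvI) (hsn v) (hDB v (hlev v hvI))
      (hPre v hvI) (by
        rw [← hFI v]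
        have h2 := hJmono v hvI
        rw [hJσ] at h2
        have h3 : δ / 2 * J v ≤ δ / 2 * LS.FI μ σ N := mul_le_mul_of_nonneg_left h2 (by positivity)
        have h4 : 0 ≤ δ * LS.FI μ σ N := by
          rw [← hJσ]
          exact mul_nonneg hδ.le (hq σ).1
        linarith only [hx, h3, h4])
    rw [← hFI v, ← hGAe v] at h1
    exact h1
  have hbd := down_alpha (α := al) (Γ := Γ) (J := J) (κ := κ) hδ hX0 ha0
    (by linarith only [hs, hσ.2] : σ - s ≤ δ) cal dal hRs halσ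
  -- `κ J - α = H - D` has derivative `J / 2`
  have hFlow : ∀ v ∈ Icc s σ, κ * J σ - a0 - δ * J σ / 2 ≤ κ * J v := by
    intro v hv
    have h1 := mono_of_deriv (f := fun v => J σ / 2 * v - H v) (f' := fun v => J σ / 2 * 1 -
      1 / 2 * J v) (a := s) (b := σ) ((Continuous.continuousOn (by fun_prop)).sub cH)
      (fun v hv => ((hasDerivAt_id v).const_mul (J σ / 2)).sub (dH v hv))
      (fun v hv => by
        have := hJmono v ⟨hv.1.le, hv.2.le⟩
        linarith only [this]) hv hσσ hv.2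
    simp only at h1
    have h2 : J σ / 2 * (σ - v) ≤ J σ / 2 * δ :=
      mul_le_mul_of_nonneg_left (by linarith only [hs, hv.1, hσ.2]) (by have := (hq σ).1; (clear * - this; positivity))
    have h3 := hal0 v hv
    have h4 : 0 ≤ D - H v + κ * J v := h3
    have h5 : D - H σ + κ * J σ ≤ a0 := halσ
    linarith
  intro ρ hρ
  have h3 : 0 ≤ D - H ρ + κ * J ρ := hal0 ρ hρ
  have h4 : D - H ρ + κ * J ρ ≤ 3 * (a0 + δ * X / 2) := hbd ρ hρ
  refine ⟨hP0 ρ, hE ρ hρ, ?_, ?_, ?_, ?_, ?_, hPre ρ hρ⟩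
  · show H ρ - κ * J ρ ≤ D
    linarith only [h3]
  · show D - 3 * (a0 + δ * X / 2) ≤ H ρ - κ * J ρ
    linarith only [h4]
  · rw [← hJσ]
    exact hJmono ρ hρ
  · rw [← hJσ]
    exact hFlow ρ hρ
  · rw [← hHσ]
    exact hHmono ρ hρ

/-- real algebra for the closing of the mismatch bound -/
theorem patha_close {n2 κ δ s A X S : ℝ} (hκ : 0 < κ) (hδ : 0 < δ) (hδκ : 2000 * δ ≤ κ)
    (hs : s = 2 * δ) (hS : 0 ≤ S)
    (h : n2 ≤ δ / (2 * s * κ) * (2 * (3 * (A + δ * (2 * X + 2 * S) / 2)) +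
      δ * (2 * X + 2 * S) / 2)) :
    n2 ≤ (6 * A + 7 * (δ * X)) / (4 * κ) + S / 2 := by
  have e1 : δ / (2 * s * κ) * (2 * (3 * (A + δ * (2 * X + 2 * S) / 2)) +
      δ * (2 * X + 2 * S) / 2) = (6 * A + 7 * (δ * X)) / (4 * κ) + 7 / 4 * (δ / κ) * S := by
    rw [hs]
    field_simp
    ring
  rw [e1] at h
  have h1 : δ / κ ≤ 1 / 2000 := by rw [div_le_iff₀ hκ]; linarith only [hδκ]
  have h2 : 7 / 4 * (δ / κ) * S ≤ 7 / 4 * (1 / 2000) * S := by (clear * - h1 hS; gcongr)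
  linarith only [h2, h, hS]

/-- step 2: the up leg -/
theorem patha_up (hK : StK n) (hR : StR n) (hT : StT n) (hCo : StCo n) (hRv : StRv n)
    (hU : StU n) (hPr : StPr n) (hP : StP n) {ρ0 : (Fin n → ℝ) → ℝ}
    {R δ κ s r x X D A J0 : ℝ} (hρ : LCd ρ0) (hprob : IsProbabilityMeasure (mu ρ0))
    (hcs : CSupp (mu ρ0) R) {V : (Fin n → ℝ) → ℝ} (hδ : 0 < δ) (hδκ : 2000 * δ ≤ κ)
    (hs : s = 2 * δ) (hr : r = 3 * δ) (hDB : ∀ ρ ∈ Icc s r, DBL (mu ρ0) ρ κ D) (hV : Pos V)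
    (hV1 : EY (mu ρ0) s V = 1) (hA0 : 0 ≤ A)
    (hdef : D - A ≤ LS.HE (mu ρ0) s V - κ * LS.FI (mu ρ0) s V)
    (hVJ : LS.FI (mu ρ0) s V ≤ J0) (hx : δ / 2 * J0 ≤ x) (hX0 : 0 ≤ X)
    (hPred : Pred (mu ρ0) s V (sN V) x X) :
    ∀ ρ ∈ Icc s r, Pos (UL (mu ρ0) s ρ V) ∧ EY (mu ρ0) ρ (UL (mu ρ0) s ρ V) = 1 ∧
      LS.HE (mu ρ0) ρ (UL (mu ρ0) s ρ V) - κ * LS.FI (mu ρ0) ρ (UL (mu ρ0) s ρ V) ≤ D ∧
      D - 3 * (A + δ * (2 * X + 2 * (2 * ((6 * A + 7 * (δ * X)) / (4 * κ)))) / 2)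
        ≤ LS.HE (mu ρ0) ρ (UL (mu ρ0) s ρ V) - κ * LS.FI (mu ρ0) ρ (UL (mu ρ0) s ρ V) ∧
      LS.FI (mu ρ0) ρ (UL (mu ρ0) s ρ V) ≤ LS.FI (mu ρ0) s V ∧
      κ * LS.FI (mu ρ0) s V - A - δ * LS.FI (mu ρ0) s V / 2
        ≤ κ * LS.FI (mu ρ0) ρ (UL (mu ρ0) s ρ V) ∧
      IP (mu ρ0) ρ (UL (mu ρ0) s ρ V) (mm (mu ρ0) s ρ V) (mm (mu ρ0) s ρ V)
        ≤ 2 * ((6 * A + 7 * (δ * X)) / (4 * κ)) ∧
      Pred (mu ρ0) ρ (UL (mu ρ0) s ρ V) (us (mu ρ0) s ρ V) x X := by
  have := hprob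
  set μ := mu ρ0 with hμ
  have hκ : 0 < κ := by linarith only [hδ, hδκ]
  have hs0 : 0 < s := by rw [hs]; positivity
  have hsr : s ≤ r := by rw [hs, hr]; linarith only [hδ]
  have hrs : r - s = δ := by rw [hs, hr]; ring
  have hss : s ∈ Icc s r := ⟨le_rfl, hsr⟩
  obtain ⟨hKa, hKb, hKc⟩ := hK μ R hcs
  obtain ⟨_, _, hRb⟩ := hR μ R hcs
  have hUs : UL μ s s V = V := hKb s V hs0
  have hreg : ∀ ρ ∈ Icc s r, Pos (UL μ s ρ V) ∧
      (∀ i, SB (sN V i) ∧ SB (us μ s ρ V i) ∧ SB (mm μ s ρ V i) ∧ SB (dx μ s ρ V i)) :=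
    fun ρ hρI => by
      obtain ⟨h1, h2, _⟩ := (hRb s ρ hs0 hρI.1).2 V hV
      exact ⟨h1, h2⟩
  have hPU : ∀ ρ ∈ Icc s r, Pos (UL μ s ρ V) := fun ρ hρI => (hreg ρ hρI).1
  have hsnU : ∀ ρ ∈ Icc s r, ∀ i, SB (sN (UL μ s ρ V) i) := fun ρ hρI i =>
    (hPU ρ hρI).div ((hPU ρ hρI).sb.pd i)
  have hsus : ∀ ρ ∈ Icc s r, ∀ i, SB (us μ s ρ V i) := fun ρ hρI i => ((hreg ρ hρI).2 i).2.1
  have hsmm : ∀ ρ ∈ Icc s r, ∀ i, SB (mm μ s ρ V i) := fun ρ hρI i => ((hreg ρ hρI).2 i).2.2.1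
  have hE : ∀ ρ ∈ Icc s r, EY μ ρ (UL μ s ρ V) = 1 := fun ρ hρI => by
    rw [(hPr μ R hcs V s ρ hV hs0 hρI.1).1, hV1]
  have hPu : ∀ ρ ∈ Icc s r, Pred μ ρ (UL μ s ρ V) (us μ s ρ V) x X := fun ρ hρI =>
    (hT μ R hcs V s ρ x X hV hs0 hρI.1).2.1 hV1 hPred
  -- calculus
  obtain ⟨cH, cJ, dH, dJ, _⟩ := hU μ R hcs V s r hV hs0 hsr
  set H : ℝ → ℝ := fun ρ => LS.HE μ ρ (UL μ s ρ V) with hHdef
  set J : ℝ → ℝ := fun ρ => LS.FI μ ρ (UL μ s ρ V) with hJdef
  set B : ℝ → ℝ := fun ρ => BI μ ρ (UL μ s ρ V) (sN (UL μ s ρ V)) (sN (UL μ s ρ V)) with hBdef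
  set Γ : ℝ → ℝ := fun ρ => LS.GA μ ρ (UL μ s ρ V) with hΓdef
  set M2 : ℝ → ℝ := fun ρ => IP μ ρ (UL μ s ρ V) (mm μ s ρ V) (mm μ s ρ V) with hM2def
  set al : ℝ → ℝ := fun ρ => D - H ρ + κ * J ρ with haldef
  set al' : ℝ → ℝ := fun ρ => J ρ / 2 - κ * (Γ ρ + 2 * B ρ) with hal'def
  have cal : ContinuousOn al (Icc s r) :=
    (continuousOn_const.sub cH).add (continuousOn_const.mul cJ)
  have dal : ∀ v ∈ Ioo s r, HasDerivAt al (al' v) v := by
    intro v hv
    have h1 := (((dH v hv).const_sub D).add ((dJ v hv).const_mul κ))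
    refine h1.congr_deriv ?_
    show -(-(1 / 2) * J v) + κ * -(Γ v + 2 * B v) = J v / 2 - κ * (Γ v + 2 * B v)
    ring
  have hal0 : ∀ v ∈ Icc s r, 0 ≤ al v := fun v hv => by
    have h2 : H v ≤ κ * J v + D := hDB v hv _ (hPU v hv) (hE v hv)
    show 0 ≤ D - H v + κ * J v
    linarith only [h2]
  have hHs : H s = LS.HE μ s V := by
    show LS.HE μ s (UL μ s s V) = _
    rw [hUs]
  have hJs : J s = LS.FI μ s V := by
    show LS.FI μ s (UL μ s s V) = _
    rw [hUs]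
  have hals : al s ≤ A := by
    show D - H s + κ * J s ≤ A
    rw [hHs, hJs]
    linarith only [hdef]
  have hB0 : ∀ v ∈ Icc s r, 0 ≤ B v := fun v hv =>
    (hP ρ0 R hρ hprob hcs v (UL μ s v V) _ _ (hs0.trans_le hv.1) (hPU v hv)
      (hsnU v hv) (hsnU v hv)).1
  have hFI : ∀ v ∈ Icc s r, J v = IP μ v (UL μ s v V) (sN (UL μ s v V)) (sN (UL μ s v V)) :=
    fun v hv => (hCo μ v _ (hPU v hv)).1.1
  have hGAe : ∀ v ∈ Icc s r, Γ v = DE μ v (UL μ s v V) (sN (UL μ s v V)) :=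
    fun v hv => (hCo μ v _ (hPU v hv)).1.2
  have hq : ∀ v ∈ Icc s r, 0 ≤ J v ∧ 0 ≤ Γ v := fun v hv => by
    have h1 := (hCo μ v _ (hPU v hv)).2.1 _ _ (hsnU v hv) (hsnU v hv)
    rw [hFI v hv, hGAe v hv]
    exact ⟨h1.1, h1.2.1⟩
  have hJanti : ∀ v ∈ Icc s r, J v ≤ J s := by
    have h1 := mono_of_deriv (f := fun v => -J v) (f' := fun v => Γ v + 2 * B v) (a := s) (b := r)
      cJ.neg (fun v hv => ((dJ v hv).neg).congr_deriv (by
        show - -(Γ v + 2 * B v) = _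
        ring)) (fun v hv => by
        have hv' : v ∈ Icc s r := ⟨hv.1.le, hv.2.le⟩
        have h2 := (hq v hv').2
        have h3 := hB0 v hv'
        show 0 ≤ Γ v + 2 * B v
        linarith only [h2, h3])
    intro v hv
    have h2 := h1 hss hv hv.1
    simp only at h2
    linarith only [h2]
  have hJJ0 : ∀ v ∈ Icc s r, J v ≤ J0 := fun v hv => (hJanti v hv).trans (by rw [hJs]; exact hVJ)
  -- monotonicity of the transported norm
  have hmono : ∀ ρ ∈ Icc s r, ∀ φ : Fin n → (Fin n → ℝ) → ℝ, (∀ i, SB (φ i)) →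
      ∀ v ∈ Icc s ρ, IP μ v (UL μ s v V) (fun i => PH (ρ - v) (φ i)) (fun i => PH (ρ - v) (φ i))
        ≤ IP μ ρ (UL μ s ρ V) φ φ := by
    intro ρ hρI φ hφ v hv
    obtain ⟨_, _, _, _, hUφ⟩ := hU μ R hcs V s ρ hV hs0 hρI.1
    obtain ⟨c1, _, d1, _⟩ := hUφ φ hφ
    have h1 := mono_of_deriv c1 d1 (fun w hw => by
      have hwI : w ∈ Icc s r := ⟨hw.1.le, hw.2.le.trans hρI.2⟩
      exact ((hCo μ w _ (hPU w hwI)).2.1 (fun i => PH (ρ - w) (φ i)) (fun i => PH (ρ - w) (φ i))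
        (fun i => PH_sb (hφ i) _) (fun i => PH_sb (hφ i) _)).2.1) hv ⟨hρI.1, le_rfl⟩ hv.2
    simp only [sub_self, PH_zero] at h1
    exact h1
  -- a priori bound of the mismatch
  have hM2a : ∀ ρ ∈ Icc s r, M2 ρ ≤ 4 * J s := by
    intro ρ hρI
    obtain ⟨u1, u2, u3, u4, u5⟩ := (hCo μ ρ _ (hPU ρ hρI)).2.1 (us μ s ρ V) (sN (UL μ s ρ V))
      (hsus ρ hρI) (hsnU ρ hρI)
    have h1 := (hPr μ R hcs V s ρ hV hs0 hρI.1).2.2 (us μ s ρ V) (hsus ρ hρI)
    have h2 := ((hCo μ s V hV).2.1 (fun i => PH (ρ - s) (us μ s ρ V i)) (sN V)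
      (fun i => PH_sb (hsus ρ hρI i) _) (fun i => hV.div (hV.sb.pd i))).2.2.2.1
    have h3 := hmono ρ hρI (us μ s ρ V) (hsus ρ hρI) s ⟨le_rfl, hρI.1⟩
    rw [hUs] at h3
    have h4 := (hCo μ s V hV).1.1
    rw [← h1, ← h4, ← hJs] at h2
    set u := IP μ ρ (UL μ s ρ V) (us μ s ρ V) (us μ s ρ V) with hu
    have h5 : u ^ 2 ≤ u * J s := h2.trans (mul_le_mul_of_nonneg_right h3 (hq s hss).1)
    have h6 : u ≤ J s := by
      rcases u1.eq_or_lt with e | e
      · rw [← e]; exact (hq s hss).1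
      · nlinarith only [h5, e]
    have h7 := u5 1 1
    have h8 := u5 1 (-1)
    have h9 : 0 ≤ IP μ ρ (UL μ s ρ V)
        (fun i y => 1 * us μ s ρ V i y + 1 * sN (UL μ s ρ V) i y)
        (fun i y => 1 * us μ s ρ V i y + 1 * sN (UL μ s ρ V) i y) :=
      ((hCo μ ρ _ (hPU ρ hρI)).2.1 (fun i y => 1 * us μ s ρ V i y + 1 * sN (UL μ s ρ V) i y)
        (fun i y => 1 * us μ s ρ V i y + 1 * sN (UL μ s ρ V) i y)
        (fun i => ((hsus ρ hρI i).const_mul 1).add ((hsnU ρ hρI i).const_mul 1))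
        (fun i => ((hsus ρ hρI i).const_mul 1).add ((hsnU ρ hρI i).const_mul 1))).1
    have e1 : (fun i y => 1 * us μ s ρ V i y + -1 * sN (UL μ s ρ V) i y) = mm μ s ρ V := by
      funext i y
      unfold mm
      ring
    rw [e1] at h8
    have h10 := hJanti ρ hρI
    rw [hFI ρ hρI] at h10
    show IP μ ρ (UL μ s ρ V) (mm μ s ρ V) (mm μ s ρ V) ≤ 4 * J s
    rw [h8]
    rw [h7] at h9
    linarith only [h6, h9, h10]
  -- the reveal inequality
  have hRsN : ∀ S : ℝ, 0 ≤ S → (∀ v ∈ Icc s r, M2 v ≤ S) → ∀ v ∈ Icc s r,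
      J v ≤ 2 * κ * Γ v + (2 * X + 2 * S) + 2 * al v / δ := by
    intro S hS hMS v hvI
    have hv0 : 0 < v := hs0.trans_le hvI.1
    have hPc : Pred μ v (UL μ s v V) (sN (UL μ s v V)) x (2 * X + 2 * S) := by
      intro l hl hI
      obtain ⟨_, hc⟩ := (hCo μ v _ (hPU v hvI)).2.2 (hE v hvI) l hl
      have h1 := (hc (us μ s v V) (hsus v hvI)).2.2 (mm μ s v V) (hsmm v hvI) 1 (-1)
      have h3 := (hc (mm μ s v V) (hsmm v hvI)).2.1
      have h4 := hPu v hvI l hl hI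
      have e1 : (fun i y => 1 * us μ s v V i y + -1 * mm μ s v V i y) = sN (UL μ s v V) := by
        funext i y
        unfold mm
        ring
      rw [e1] at h1
      have h5 := hMS v hvI
      have h6 : Co μ v (UL μ s v V) (mm μ s v V) l ≤ S := h3.trans h5
      linarith only [h1, h3, h4, h5]
    have h1 := reveal_ineq hRv hv0.le hδ (hPU v hvI) (hE v hvI) (hsnU v hvI) (hDB v hvI) hPc (by
      rw [← hFI v hvI]
      exact (mul_le_mul_of_nonneg_left (hJJ0 v hvI) (by positivity)).trans hx)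
    rw [← hFI v hvI, ← hGAe v hvI] at h1
    exact h1
  have halM : ∀ S : ℝ, 0 ≤ S → (∀ v ∈ Icc s r, M2 v ≤ S) → ∀ v ∈ Icc s r,
      al v ≤ 3 * (A + δ * (2 * X + 2 * S) / 2) := fun S hS hMS =>
    up_alpha (α := al) (Γ := Γ) (J := J) (B := B) (κ := κ) (C := 2 * X + 2 * S) hδ hκ.le
      (by (clear * - hX0 hS; positivity)) hA0 hrs.le cal dal (fun v hv => hB0 v ⟨hv.1.le, hv.2.le⟩)
      (fun v hv => hRsN S hS hMS v ⟨hv.1.le, hv.2.le⟩) hals
  -- the bound of the mismatch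
  have hstep : ∀ S : ℝ, 0 ≤ S → (∀ v ∈ Icc s r, M2 v ≤ S) → ∀ ρ ∈ Icc s r,
      M2 ρ ≤ (6 * A + 7 * (δ * X)) / (4 * κ) + S / 2 := by
    intro S hS hMS ρ hρI
    refine patha_close hκ hδ hδκ hs hS ?_
    have hsub : ∀ {v : ℝ}, v ∈ Icc s ρ → v ∈ Icc s r := fun hv => ⟨hv.1, hv.2.trans hρI.2⟩
    have hφ := hsmm ρ hρI
    obtain ⟨_, _, _, _, hUφ⟩ := hU μ R hcs V s ρ hV hs0 hρI.1
    obtain ⟨_, c2, _, d2⟩ := hUφ (mm μ s ρ V) hφ
    obtain ⟨u1, u2, u3, u4, u5⟩ := (hCo μ ρ _ (hPU ρ hρI)).2.1 (mm μ s ρ V) (sN (UL μ s ρ V))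
      hφ (hsnU ρ hρI)
    refine m_bound (α := al) (α' := al') (B := B)
      (f := fun v => IP μ v (UL μ s v V) (fun i => PH (ρ - v) (mm μ s ρ V i)) (sN (UL μ s v V)))
      (e := fun v => BI μ v (UL μ s v V) (fun i => PH (ρ - v) (mm μ s ρ V i)) (sN (UL μ s v V)))
      (C := 2 * X + 2 * S) (M := 3 * (A + δ * (2 * X + 2 * S) / 2)) hs0 hκ hδ hρI.1
      (by linarith only [hs, hr, hρI.2]) (by (clear * - hX0 hS; positivity)) (cal.mono (Icc_subset_Icc le_rfl hρI.2))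
      (fun v hv => dal v ⟨hv.1, hv.2.trans_le hρI.2⟩)
      (fun v hv => hal0 v (hsub hv)) (fun v hv => halM S hS hMS v (hsub hv))
      (fun v hv => hB0 v (hsub ⟨hv.1.le, hv.2.le⟩)) ?_ c2 d2 ?_ u1 ?_
    · intro v hv
      have h1 := hRsN S hS hMS v (hsub ⟨hv.1.le, hv.2.le⟩)
      show 2 * κ * B v ≤ (2 * X + 2 * S) / 2 + al v / δ - (J v / 2 - κ * (Γ v + 2 * B v))
      have e1 : 2 * al v / δ = 2 * (al v / δ) := by ring
      rw [e1] at h1
      linarith only [h1]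
    · intro v hv
      have hvI : v ∈ Icc s r := hsub ⟨hv.1.le, hv.2.le⟩
      have hv0 : 0 < v := hs0.trans hv.1
      have h1 := (hP ρ0 R hρ hprob hcs v (UL μ s v V) (fun i => PH (ρ - v) (mm μ s ρ V i))
        (sN (UL μ s v V)) hv0 (hPU v hvI) (fun i => PH_sb (hφ i) _) (hsnU v hvI)).2.2.1
      have h2 := hmono ρ hρI (mm μ s ρ V) hφ v ⟨hv.1.le, hv.2.le⟩
      refine h1.trans ?_
      refine mul_le_mul_of_nonneg_right ?_ (hB0 v hvI)
      have h3 : 1 / v ≤ 1 / s := one_div_le_one_div_of_le hs0 hv.1.le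
      calc 1 / v * IP μ v (UL μ s v V) (fun i => PH (ρ - v) (mm μ s ρ V i))
            (fun i => PH (ρ - v) (mm μ s ρ V i))
          ≤ 1 / s * IP μ ρ (UL μ s ρ V) (mm μ s ρ V) (mm μ s ρ V) := by
            apply mul_le_mul h3 h2 _ (by positivity)
            exact ((hCo μ v _ (hPU v hvI)).2.1 (fun i => PH (ρ - v) (mm μ s ρ V i))
              (sN (UL μ s v V)) (fun i => PH_sb (hφ i) _) (hsnU v hvI)).1
        _ = IP μ ρ (UL μ s ρ V) (mm μ s ρ V) (mm μ s ρ V) / s := by ring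
    · -- `n2 ≤ f s - f ρ`
      have h1 := (hPr μ R hcs V s ρ hV hs0 hρI.1).2.2 (mm μ s ρ V) hφ
      obtain ⟨w1, w2, w3, w4, w5⟩ := (hCo μ ρ _ (hPU ρ hρI)).2.1 (us μ s ρ V) (mm μ s ρ V)
        (hsus ρ hρI) hφ
      have h2 := u5 1 1
      have h3 := w5 1 (-1)
      have e1 : (fun i y => 1 * mm μ s ρ V i y + 1 * sN (UL μ s ρ V) i y) = us μ s ρ V := by
        funext i y
        unfold mm
        ring
      have e2 : (fun i y => 1 * us μ s ρ V i y + -1 * mm μ s ρ V i y) = sN (UL μ s ρ V) := by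
        funext i y
        unfold mm
        ring
      rw [e1] at h2
      rw [e2] at h3
      simp only [sub_self, PH_zero, hUs]
      rw [← h1]
      rw [w3] at h3
      linarith only [h2, h3]
  have hclose : ∀ ρ ∈ Icc s r, M2 ρ ≤ 2 * ((6 * A + 7 * (δ * X)) / (4 * κ)) := by
    have key := contraction_close (ι := {ρ // ρ ∈ Icc s r}) (P := fun ρ => M2 ρ.1)
      (A := (6 * A + 7 * (δ * X)) / (4 * κ)) (N0 := 4 * J s)
      (fun ρ => hM2a ρ.1 ρ.2) (by have := (hq s hss).1; (clear * - this; positivity))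
      (fun S hS hMS ρ => hstep S hS (fun v hv => hMS ⟨v, hv⟩) ρ.1 ρ.2) (by (clear * - hA0 hδ hX0 hκ; positivity))
    exact fun ρ hρI => key ⟨ρ, hρI⟩
  have hfin := halM _ (by (clear * - hA0 hδ hX0 hκ; positivity)) hclose
  have hFlow : ∀ v ∈ Icc s r, κ * J s - A - δ * J s / 2 ≤ κ * J v := by
    intro v hv
    have h1 := mono_of_deriv (f := fun v => J s / 2 * v + H v) (f' := fun v => J s / 2 * 1 +
      -(1 / 2) * J v) (a := s) (b := r) ((Continuous.continuousOn (by fun_prop)).add cH)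
      (fun v hv => ((hasDerivAt_id v).const_mul (J s / 2)).add (dH v hv))
      (fun v hv => by
        have := hJanti v ⟨hv.1.le, hv.2.le⟩
        linarith only [this]) hss hv hv.1
    simp only at h1
    have h2 : J s / 2 * (v - s) ≤ J s / 2 * δ :=
      mul_le_mul_of_nonneg_left (by linarith only [hs, hr, hv.2]) (by have := (hq s hss).1; (clear * - this; positivity))
    have h4 : 0 ≤ D - H v + κ * J v := hal0 v hv
    have h5 : D - H s + κ * J s ≤ A := hals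
    linarith
  intro ρ hρI
  have h3 : 0 ≤ D - H ρ + κ * J ρ := hal0 ρ hρI
  have h4 : D - H ρ + κ * J ρ ≤
      3 * (A + δ * (2 * X + 2 * (2 * ((6 * A + 7 * (δ * X)) / (4 * κ)))) / 2) := hfin ρ hρI
  refine ⟨hPU ρ hρI, hE ρ hρI, ?_, ?_, ?_, ?_, hclose ρ hρI, hPu ρ hρI⟩
  · show H ρ - κ * J ρ ≤ D
    linarith only [h3]
  · show D - 3 * (A + δ * (2 * X + 2 * (2 * ((6 * A + 7 * (δ * X)) / (4 * κ)))) / 2) ≤
      H ρ - κ * J ρ
    linarith only [h4]
  · rw [← hJs]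
    exact hJanti ρ hρI
  · rw [← hJs]
    exact hFlow ρ hρI

theorem thPathA (n : ℕ) (hK : StK n) (hR : StR n) (hT : StT n) (hCo : StCo n) (hRv : StRv n)
    (hU : StU n) (hDn : StDn n) (hPr : StPr n) (hP : StP n) : StPathA n := by
  intro ρ0 R hρ hprob hcs N V δ κ σ α x X D hδ hδκ hDBS hσ hN hN1 hα0 hα4 hdef hx hX0 hXJ hPred hV
  have := hprob
  have hκ : 0 < κ := by linarith only [hδ, hδκ]
  have hDB : ∀ ρ ∈ Icc (2 * δ) (3 * δ), DBL (mu ρ0) ρ κ D := fun ρ h =>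
    hDBS ρ ⟨h.1, by linarith only [h.2]⟩
  have hdown := patha_down hT hCo hRv hDn hPr hcs hδ hδκ rfl hDB hσ hN hN1 hα0 hdef hx hX0 hPred
  have hs := hdown (2 * δ) ⟨le_rfl, hσ.1⟩
  rw [← hV] at hs
  obtain ⟨s1, s2, s3, s4, s5, s6, s7, s8⟩ := hs
  set J0 := LS.FI (mu ρ0) σ N with hJ0
  have hJ00 : 0 ≤ J0 := hX0.trans hXJ
  have hδJ : δ * J0 ≤ κ * J0 / 2000 := by
    have := mul_le_mul_of_nonneg_right hδκ hJ00
    linarith only [this]
  have hδX : δ * X ≤ κ * J0 / 2000 := (mul_le_mul_of_nonneg_left hXJ hδ.le).trans hδJ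
  have hδX0 : 0 ≤ δ * X := by (clear * - hδ hX0; positivity)
  have hup := patha_up hK hR hT hCo hRv hU hPr hP hρ hprob hcs hδ hδκ rfl rfl hDB s1 s2
    (by (clear * - hα0 hδ hX0; positivity) : 0 ≤ 3 * (α + δ * X / 2)) s4 s5 (by
      have : 0 ≤ δ * J0 := by (clear * - hδ hJ00; positivity)
      linarith only [hx, this]) hX0 s8
  refine ⟨⟨s1, s2, s7⟩, fun ρ hρI => ?_, fun ρ hρI => ?_⟩
  · obtain ⟨a1, a2, a3, a4, a5, a6, a7, a8⟩ := hdown ρ hρI
    refine ⟨a1, a2, a3, by linarith only [s3, s4, hδX0, a4], a5, ?_, a8⟩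
    refine le_of_mul_le_mul_left ?_ hκ
    linarith only [hα0, hα4, hδJ, a6]
  · obtain ⟨a1, a2, a3, a4, a5, a6, a7, a8⟩ := hup ρ hρI
    have e1 : 2 * ((6 * (3 * (α + δ * X / 2)) + 7 * (δ * X)) / (4 * κ)) =
        (9 * α + 8 * (δ * X)) / κ := by
      field_simp
      ring
    rw [e1] at a4 a7
    have h1 : 0 ≤ (9 * α + 8 * (δ * X)) / κ := by (clear * - hα0 hδ hX0 hκ; positivity)
    have h2 : δ * ((9 * α + 8 * (δ * X)) / κ) ≤ (9 * α + 8 * (δ * X)) / 2000 := by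
      rw [mul_div_assoc', div_le_div_iff₀ hκ (by norm_num)]
      have h3 : 0 ≤ 9 * α + 8 * (δ * X) := by (clear * - hα0 hδ hX0; positivity)
      linarith only [mul_nonneg (sub_nonneg.2 hδκ) (sub_nonneg.2 hδX0), mul_nonneg (sub_nonneg.2 hδκ) (sub_nonneg.2 s4), mul_nonneg (sub_nonneg.2 hδκ) (sub_nonneg.2 s3)]
    refine ⟨a1, a2, a3, ?_, a5.trans s5, ?_, ?_, a8⟩
    · have e2 : 3 * (3 * (α + δ * X / 2) + δ * (2 * X + 2 * ((9 * α + 8 * (δ * X)) / κ)) / 2) =
          9 * α + 9 / 2 * (δ * X) + 3 * (δ * X) + 3 * (δ * ((9 * α + 8 * (δ * X)) / κ)) := by ring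
      rw [e2] at a4
      linarith only [hα0, s3, s4, a4, h2]
    · refine le_of_mul_le_mul_left ?_ hκ
      have h3 : δ * LS.FI (mu ρ0) (2 * δ) V ≤ δ * J0 := mul_le_mul_of_nonneg_left s5 hδ.le
      linarith only [hα0, hα4, s6, hδJ, hδX, a6, h3]
    · refine a7.trans ?_
      apply div_le_div_of_nonneg_right _ hκ.le
      linarith only [hα0]

end Vale.Agent.P245.E1
end
end

section

section

open MeasureTheory Real Set Filter Topology
open scoped ENNReal ContDiff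

/-! # E1, module R: regularity of `UL`, `XB`, and the score identity -/

namespace Vale.Agent.P245.E1

open LS

variable {n : ℕ} {μ : Measure (Fin n → ℝ)} [IsProbabilityMeasure μ] {R : ℝ}

theorem XB_sb (h : CSupp μ R) (r : ℝ) (i : Fin n) : SB (XB μ r i) :=
  UP_sb h (h.adm_coord i) r

theorem PV_eq (h : CSupp μ R) (r : ℝ) (i j : Fin n) :
    PV μ r i j = fun y => ((if j = i then 1 else 0) - pd (XB μ r i) j y) / r := by
  funext y
  have h1 : HasFDerivAt (XB μ r i) (fderiv ℝ (XB μ r i) y) y :=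
    ((XB_sb h r i).differentiable y).hasFDerivAt
  have h2 : HasFDerivAt (DV μ r i)
      (r⁻¹ • ((ContinuousLinearMap.proj i : (Fin n → ℝ) →L[ℝ] ℝ) - fderiv ℝ (XB μ r i) y)) y := by
    have h3 := ((hasFDerivAt_apply (𝕜 := ℝ) i y).sub h1).const_smul r⁻¹
    refine h3.congr_of_eventuallyEq (Eventually.of_forall fun z => ?_)
    simp only [DV, Pi.smul_apply, Pi.sub_apply, smul_eq_mul]
    rw [div_eq_inv_mul]
  unfold PV pd
  rw [h2.fderiv]
  simp only [smul_apply, sub_apply,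
    ContinuousLinearMap.proj_apply, smul_eq_mul, Pi.single_apply]
  rw [div_eq_inv_mul]
  simp only [eq_comm (a := j) (b := i)]

theorem PV_eq_Pv (h : CSupp μ R) {r : ℝ} (hr : 0 < r) (i j : Fin n) :
    PV μ r i j = Pv μ i j r := by
  rw [PV_eq h r]
  funext y
  have e : XB μ r i = UP μ r (fun x => x i) := rfl
  unfold Pv
  rw [e, (H1_UP h (h.adm_coord i)).pd_eq (show r ∈ Ioi (0:ℝ) from hr) j]

theorem PV_sb (h : CSupp μ R) (r : ℝ) (i j : Fin n) : SB (PV μ r i j) := by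
  rw [PV_eq h r]
  have h1 := ((SB.const (n := n) (if j = i then (1:ℝ) else 0)).sub ((XB_sb h r i).pd j)).const_mul
    r⁻¹
  have e : (fun y : Fin n → ℝ => ((if j = i then (1:ℝ) else 0) - pd (XB μ r i) j y) / r)
      = fun y => r⁻¹ * ((if j = i then (1:ℝ) else 0) - pd (XB μ r i) j y) := by
    funext y; rw [div_eq_inv_mul]
  rw [e]; exact h1

theorem bm_of_sb {h : (Fin n → ℝ) → ℝ} (hh : SB h) : BM h := ⟨hh.measurable, hh.bdd⟩

/-- gradient of the lift -/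
theorem pd_UL (hUL : StUL n) (h : CSupp μ R) {s r : ℝ} (hs : 0 < s) (hsr : s < r)
    {f : (Fin n → ℝ) → ℝ} (hf : SB f) (i : Fin n) : pd (UL μ s r f) i = gL μ s f i r :=
  (hUL μ R h s f hs hf).2.pd_eq (show r ∈ Ioi s from hsr) i

theorem UL_sbk (hUL : StUL n) (hK : StK n) (h : CSupp μ R) {s r : ℝ} (hs : 0 < s) (hsr : s < r) :
    ∀ (k : ℕ) {f : (Fin n → ℝ) → ℝ}, SB f → SBk k (UL μ s r f) := by
  intro k
  induction k with
  | zero =>
    intro f hf
    exact ⟨(hUL μ R h s f hs hf).1.cont (show r ∈ Ici s from hsr.le),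
      (((hK μ R h).1 s r hs hsr.le).1 f (bm_of_sb hf)).1.2⟩
  | succ k ih =>
    intro f hf
    refine ⟨⟨fun y => ((hUL μ R h s f hs hf).2.fd r hsr y).differentiableAt,
      (((hK μ R h).1 s r hs hsr.le).1 f (bm_of_sb hf)).1.2⟩, fun i => ?_⟩
    rw [pd_UL hUL h hs hsr hf i]
    have h1 := ih (hf.mul (XB_sb h s i))
    have h2 := (ih hf).mul ((XB_sb h r i) k)
    have h3 := (ih (hf.pd i)).const_mul s
    have h4 := ((h1.add (h2.const_mul (-1))).add h3).const_mul (1 / r)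
    have e : gL μ s f i r = fun y => 1 / r * (UL μ s r (fun y => f y * XB μ s i y) y
        + -1 * (UL μ s r f y * XB μ r i y) + s * UL μ s r (pd f i) y) := by
      funext y; simp only [gL]; ring
    rw [e]; exact h4

theorem UL_sb (hUL : StUL n) (hK : StK n) (h : CSupp μ R) {s r : ℝ} (hs : 0 < s) (hsr : s ≤ r)
    {f : (Fin n → ℝ) → ℝ} (hf : SB f) : SB (UL μ s r f) := by
  rcases hsr.eq_or_lt with e | hlt
  · rw [← e, (hK μ R h).2.1 s f hs]; exact hf
  · exact fun k => UL_sbk hUL hK h hs hlt k hf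

theorem UL_pos (hUL : StUL n) (hK : StK n) (h : CSupp μ R) {s r : ℝ} (hs : 0 < s) (hsr : s ≤ r)
    {f : (Fin n → ℝ) → ℝ} (hf : Pos f) : Pos (UL μ s r f) := by
  refine ⟨UL_sb hUL hK h hs hsr hf.sb, ?_⟩
  obtain ⟨ε, hε, hb⟩ := hf.lb
  refine ⟨ε, hε, fun y => ?_⟩
  obtain ⟨-, -, -, hc, hm, -⟩ := (hK μ R h).1 s r hs hsr
  have h1 := hm (fun _ => ε) f ⟨measurable_const, |ε|, fun _ => le_rfl⟩ (bm_of_sb hf.sb) hb y
  rw [hc ε] at h1
  exact h1

theorem thR (n : ℕ) (hUL : StUL n) (hK : StK n) : StR n := by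
  intro μ _ R h
  refine ⟨fun r i _ => XB_sb h r i, fun r i j hr => ⟨PV_sb h r i j, ?_⟩, fun s r hs hsr =>
    ⟨fun f hf => UL_sb hUL hK h hs hsr hf, fun N hN => ?_⟩⟩
  · rw [PV_eq_Pv h hr, PV_eq_Pv h hr]
    funext y
    exact Pv_symm h i j r y
  · have hP := UL_pos hUL hK h hs hsr hN
    have hu : ∀ i, SB (us μ s r N i) := fun i => hP.div (UL_sb hUL hK h hs hsr (hN.sb.pd i))
    have hsN : ∀ i, SB (sN N i) := fun i => hN.div (hN.sb.pd i)
    have hsU : ∀ i, SB (sN (UL μ s r N) i) := fun i => hP.div (hP.sb.pd i)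
    have hd : ∀ i, SB (dx μ s r N i) := fun i =>
      (hP.div (UL_sb hUL hK h hs hsr (hN.sb.mul (XB_sb h s i)))).sub (XB_sb h r i)
    refine ⟨hP, fun i => ⟨hsN i, hu i, (hu i).sub (hsU i), hd i⟩, fun i y => ?_⟩
    have hne := (hP.pos y).ne'
    rcases hsr.eq_or_lt with e | hlt
    · subst e
      have e1 : ∀ g, UL μ s s g = g := fun g => (hK μ R h).2.1 s g hs
      simp only [dx, mm, us, sN, e1, sub_self, zero_mul, mul_zero, add_zero]
      rw [e1] at hne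
      field_simp
      ring
    · have hr : r ≠ 0 := (hs.trans hlt).ne'
      have e1 : pd (UL μ s r N) i y = gL μ s N i r y := by rw [pd_UL hUL h hs hlt hN.sb i]
      simp only [dx, mm, us, sN, e1, gL]
      field_simp
      ring

end Vale.Agent.P245.E1
end
end

section

section

open MeasureTheory Real Set Filter Topology
open scoped ENNReal ContDiff

/-! # Spatial classes: `S1` (one spatial derivative), `HS` (`k`-fold), parametric `SX` -/

namespace Vale.Agent.P245.E1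

open LS LS.Down

variable {n : ℕ}

/-! ### spatial classes -/

section spatial

variable {I : Set ℝ} {f g : ℝ → (Fin n → ℝ) → ℝ} {a a' : Fin n → ℝ → (Fin n → ℝ) → ℝ}

/-- spatial differentiability only -/
structure S1 (I : Set ℝ) (f : ℝ → (Fin n → ℝ) → ℝ) (a : Fin n → ℝ → (Fin n → ℝ) → ℝ) : Prop where
  uf : UE I f
  ua : ∀ i, UE I (a i)
  fd : ∀ σ ∈ I, ∀ y, HasFDerivAt (f σ) (lf fun i => a i σ y) y

theorem H1.s1 {d : ℝ → (Fin n → ℝ) → ℝ} (h : H1 I f d a) : S1 I f a := ⟨h.uf, h.ua, h.fd⟩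

theorem S1.pd_eq (h : S1 I f a) {σ : ℝ} (hσ : σ ∈ I) (i : Fin n) : pd (f σ) i = a i σ := by
  funext y; exact pd_of_hasFDerivAt (h.fd σ hσ y) i

theorem S1.congr (h : S1 I f a) {f₁ : ℝ → (Fin n → ℝ) → ℝ} {a₁ : Fin n → ℝ → (Fin n → ℝ) → ℝ}
    (hf : ∀ σ ∈ I, ∀ y, f₁ σ y = f σ y) (ha : ∀ i, ∀ σ ∈ I, ∀ y, a₁ i σ y = a i σ y) :
    S1 I f₁ a₁ := by
  refine ⟨h.uf.congr hf, fun i => (h.ua i).congr (ha i), fun σ hσ y => ?_⟩
  have e : (fun i => a₁ i σ y) = fun i => a i σ y := by funext i; exact ha i σ hσ y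
  have e2 : f₁ σ = f σ := by funext y; exact hf σ hσ y
  rw [e, e2]; exact h.fd σ hσ y

theorem S1.time {c : ℝ → ℝ} (hc : ContinuousOn c I) :
    S1 (n := n) I (fun σ _ => c σ) (fun _ _ _ => 0) := by
  refine ⟨UE.time hc, fun _ => UE.const 0, fun σ _ y => ?_⟩
  refine (hasFDerivAt_const (c σ) y).congr_fderiv ?_
  ext v; simp only [zero_apply, lf_apply, zero_mul, Finset.sum_const_zero]

theorem S1.add (hf : S1 I f a) (hg : S1 I g a') :
    S1 I (fun σ y => f σ y + g σ y) (fun i σ y => a i σ y + a' i σ y) := by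
  refine ⟨hf.uf.add hg.uf, fun i => (hf.ua i).add (hg.ua i), fun σ hσ y => ?_⟩
  refine ((hf.fd σ hσ y).add (hg.fd σ hσ y)).congr_fderiv ?_
  rw [lf_add]

theorem S1.mul (hf : S1 I f a) (hg : S1 I g a') :
    S1 I (fun σ y => f σ y * g σ y) (fun i σ y => a i σ y * g σ y + f σ y * a' i σ y) := by
  refine ⟨hf.uf.mul hg.uf, fun i => ((hf.ua i).mul hg.uf).add (hf.uf.mul (hg.ua i)),
    fun σ hσ y => ?_⟩
  refine ((hf.fd σ hσ y).mul (hg.fd σ hσ y)).congr_fderiv ?_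
  rw [lf_smul, lf_smul, lf_add]
  apply lf_congr; intro i; ring

theorem S1.inv' (hg : S1 I g a) (hi : UE I (fun σ y => (g σ y)⁻¹))
    (hne : ∀ σ ∈ I, ∀ y, g σ y ≠ 0) :
    S1 I (fun σ y => (g σ y)⁻¹) (fun i σ y => -(a i σ y * ((g σ y)⁻¹ * (g σ y)⁻¹))) := by
  refine ⟨hi, fun i => ((hg.ua i).mul (hi.mul hi)).neg, fun σ hσ y => ?_⟩
  have h0 := hne σ hσ y
  refine ((hasDerivAt_inv h0).comp_hasFDerivAt y (hg.fd σ hσ y)).congr_fderiv ?_
  rw [lf_smul]
  apply lf_congr; intro i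
  field_simp

theorem S1.log (hg : S1 I g a) {ε : ℝ} (hε : 0 < ε) (h : ∀ σ ∈ I, ∀ y, ε ≤ g σ y) :
    S1 I (fun σ y => Real.log (g σ y)) (fun i σ y => a i σ y / g σ y) := by
  refine ⟨hg.uf.log hε h, fun i => (hg.ua i).div hg.uf hε h, fun σ hσ y => ?_⟩
  refine ((hg.fd σ hσ y).log (hε.trans_le (h σ hσ y)).ne').congr_fderiv ?_
  rw [lf_smul]
  apply lf_congr; intro i; rw [div_eq_inv_mul]

/-- `k`-fold spatial differentiability in the class `UE` (`I` need not be open) -/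
def HS (I : Set ℝ) : ℕ → (ℝ → (Fin n → ℝ) → ℝ) → Prop
  | 0, f => UE I f
  | k + 1, f => ∃ a, S1 I f a ∧ ∀ i, HS I k (a i)

theorem HS.ue : ∀ {k : ℕ} {f : ℝ → (Fin n → ℝ) → ℝ}, HS I k f → UE I f
  | 0, _, h => h
  | _ + 1, _, ⟨_, h, _⟩ => h.uf

theorem HS.pred : ∀ {k : ℕ} {f : ℝ → (Fin n → ℝ) → ℝ}, HS I (k + 1) f → HS I k f
  | 0, _, ⟨_, h, _⟩ => h.uf
  | _ + 1, _, ⟨a, h, ha⟩ => ⟨a, h, fun i => (ha i).pred⟩

theorem HS.congr : ∀ {k : ℕ} {f g : ℝ → (Fin n → ℝ) → ℝ},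
    HS I k f → (∀ σ ∈ I, ∀ y, g σ y = f σ y) → HS I k g
  | 0, _, _, h, hg => UE.congr h hg
  | _ + 1, _, _, ⟨a, h, ha⟩, hg => ⟨a, h.congr hg (fun _ _ _ _ => rfl), ha⟩

theorem HS.const (c : ℝ) : ∀ k : ℕ, HS (n := n) I k (fun _ _ => c)
  | 0 => UE.const c
  | k + 1 => ⟨_, S1.time continuousOn_const, fun _ => HS.const 0 k⟩

theorem HS.time {c : ℝ → ℝ} (hc : ContinuousOn c I) : ∀ k : ℕ, HS (n := n) I k (fun σ _ => c σ)
  | 0 => UE.time hc
  | k + 1 => ⟨_, S1.time hc, fun _ => HS.const 0 k⟩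

theorem HS.add : ∀ {k : ℕ} {f g : ℝ → (Fin n → ℝ) → ℝ}, HS I k f → HS I k g →
    HS I k (fun σ y => f σ y + g σ y)
  | 0, _, _, hf, hg => UE.add hf hg
  | _ + 1, _, _, ⟨_, hf, ha⟩, ⟨_, hg, ha'⟩ => ⟨_, hf.add hg, fun i => (ha i).add (ha' i)⟩

theorem HS.mul : ∀ {k : ℕ} {f g : ℝ → (Fin n → ℝ) → ℝ}, HS I k f → HS I k g →
    HS I k (fun σ y => f σ y * g σ y)
  | 0, _, _, hf, hg => UE.mul hf hg
  | k + 1, f, g, ⟨a, hf, ha⟩, ⟨a', hg, ha'⟩ => by
    have h1 : HS I k f := HS.pred ⟨a, hf, ha⟩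
    have h2 : HS I k g := HS.pred ⟨a', hg, ha'⟩
    exact ⟨_, hf.mul hg, fun i => ((ha i).mul h2).add (h1.mul (ha' i))⟩

theorem HS.const_mul {k : ℕ} (c : ℝ) (hf : HS I k f) : HS I k (fun σ y => c * f σ y) :=
  (HS.const c k).mul hf

theorem HS.neg {k : ℕ} (hf : HS I k f) : HS I k (fun σ y => -f σ y) := by
  simpa using hf.const_mul (-1)

theorem HS.sub {k : ℕ} (hf : HS I k f) (hg : HS I k g) : HS I k (fun σ y => f σ y - g σ y) := by
  simpa [sub_eq_add_neg] using hf.add hg.neg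

theorem HS.inv' : ∀ {k : ℕ} {g : ℝ → (Fin n → ℝ) → ℝ}, HS I k g →
    UE I (fun σ y => (g σ y)⁻¹) → (∀ σ ∈ I, ∀ y, g σ y ≠ 0) → HS I k (fun σ y => (g σ y)⁻¹)
  | 0, _, _, hi, _ => hi
  | k + 1, g, ⟨a, h, ha⟩, hi, hne => by
    have h1 : HS I k g := HS.pred ⟨a, h, ha⟩
    have h2 := h1.inv' hi hne
    exact ⟨_, h.inv' hi hne, fun i => ((ha i).mul (h2.mul h2)).neg⟩

theorem HS.inv {k : ℕ} (hg : HS I k g) {ε : ℝ} (hε : 0 < ε) (h : ∀ σ ∈ I, ∀ y, ε ≤ g σ y) :
    HS I k (fun σ y => (g σ y)⁻¹) :=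
  hg.inv' (hg.ue.inv hε h) fun σ hσ y => (hε.trans_le (h σ hσ y)).ne'

theorem HS.div {k : ℕ} (hf : HS I k f) (hg : HS I k g) {ε : ℝ} (hε : 0 < ε)
    (h : ∀ σ ∈ I, ∀ y, ε ≤ g σ y) : HS I k (fun σ y => f σ y / g σ y) := by
  simpa [div_eq_mul_inv] using hf.mul (hg.inv hε h)

theorem HS.log : ∀ {k : ℕ} {g : ℝ → (Fin n → ℝ) → ℝ}, HS I k g → ∀ {ε : ℝ}, 0 < ε →
    (∀ σ ∈ I, ∀ y, ε ≤ g σ y) → HS I k (fun σ y => Real.log (g σ y))
  | 0, _, hg, _, hε, h => UE.log hg hε h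
  | k + 1, g, ⟨a, hg, ha⟩, ε, hε, h => by
    have h1 : HS I k g := HS.pred ⟨a, hg, ha⟩
    exact ⟨_, hg.log hε h, fun i => (ha i).div h1 hε h⟩

variable {X : Type*} [MeasurableSpace X] {B : Set X} {u v : X → ℝ → (Fin n → ℝ) → ℝ}
  {au av : Fin n → X → ℝ → (Fin n → ℝ) → ℝ}

/-- parametric version of `S1` -/
structure SX (B : Set X) (I : Set ℝ) (f : X → ℝ → (Fin n → ℝ) → ℝ)
    (a : Fin n → X → ℝ → (Fin n → ℝ) → ℝ) : Prop where
  uf : UX B I f
  ua : ∀ i, UX B I (a i)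
  fd : ∀ x ∈ B, ∀ σ ∈ I, ∀ y, HasFDerivAt (f x σ) (lf fun i => a i x σ y) y

theorem HX.sx {du : X → ℝ → (Fin n → ℝ) → ℝ} (h : HX B I u du au) : SX B I u au :=
  ⟨h.uf, h.ua, h.fd⟩

theorem SX.mul (hu : SX B I u au) (hv : SX B I v av) :
    SX B I (fun x σ y => u x σ y * v x σ y)
      (fun i x σ y => au i x σ y * v x σ y + u x σ y * av i x σ y) where
  uf := hu.uf.mul hv.uf
  ua := fun i => ((hu.ua i).mul hv.uf).add (hu.uf.mul (hv.ua i))
  fd := by
    intro x hx σ hσ y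
    refine ((hu.fd x hx σ hσ y).mul (hv.fd x hx σ hσ y)).congr_fderiv ?_
    rw [lf_smul, lf_smul, lf_add]
    apply lf_congr; intro i; ring

theorem SX.integral {ν : Measure X} [IsFiniteMeasure ν] (hu : SX B I u au)
    (hB : ∀ᵐ x ∂ν, x ∈ B) (hI : IsOpen I) :
    S1 I (fun σ y => ∫ x, u x σ y ∂ν) (fun i σ y => ∫ x, au i x σ y ∂ν) where
  uf := hu.uf.integral hB hI
  ua := fun i => (hu.ua i).integral hB hI
  fd := by
    intro σ hσ y
    choose K hK0 hK using fun i => (hu.ua i).bd σ σ (by simpa using hσ)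
    have key := hasFDerivAt_integral_of_dominated_of_fderiv_le (μ := ν)
      (F := fun y x => u x σ y) (F' := fun y x => lf fun i => au i x σ y)
      (x₀ := y) (s := Metric.ball y 1)
      (bound := fun _ => ∑ i, K i * exp (K i * (∑ i, |y i| + n))) (Metric.ball_mem_nhds y one_pos)
      (Eventually.of_forall fun y' => (hu.uf.meas σ hσ y').aestronglyMeasurable)
      (hu.uf.integrable hB hσ y)
      (by
        have h1 : Measurable fun x => fun i => au i x σ y :=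
          measurable_pi_lambda _ fun i => (hu.ua i).meas σ hσ y
        exact (continuous_lf.measurable.comp h1).aestronglyMeasurable)
      (by
        filter_upwards [hB] with x hx y' hy'
        refine (lf_norm _).trans (Finset.sum_le_sum fun i _ => ?_)
        refine (hK i x hx σ ⟨le_rfl, le_rfl⟩ y').trans ?_
        exact mul_le_mul_of_nonneg_left (exp_le_exp.2
          (mul_le_mul_of_nonneg_left (sum_abs_le_of_near hy') (hK0 i))) (hK0 i))
      (integrable_const _)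
      (by
        filter_upwards [hB] with x hx y' _
        exact hu.fd x hx σ hσ y')
    rw [integral_lf fun i => (hu.ua i).integrable hB hσ y] at key
    exact key

end spatial

end Vale.Agent.P245.E1
end
end

section

section

open MeasureTheory Real Set Filter Topology
open scoped ENNReal ContDiff

/-! # The lift from level `s` to level `σ` (K2)

`UP2 μ s σ N y = E[N(Y_s) | Y_σ = y]`, where `Y_σ = X + √σ G`. -/

namespace Vale.Agent.P245.E1

open LS LS.Down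

variable {n : ℕ}

/-- `E[N(Y_s) | Y_σ = y, X = x]` -/
noncomputable def phi (s : ℝ) (N : (Fin n → ℝ) → ℝ) (x : Fin n → ℝ) (σ : ℝ) (y : Fin n → ℝ) : ℝ :=
  PH (s * (1 - s / σ)) N ((1 - s / σ) • x + (s / σ) • y)

/-- conditional expectation of `N(Y_s)` given `Y_σ = y` -/
noncomputable def UP2 (μ : Measure (Fin n → ℝ)) (s σ : ℝ) (N : (Fin n → ℝ) → ℝ)
    (y : Fin n → ℝ) : ℝ :=
  Mf μ (fun x => PH (s * (1 - s / σ)) N ((1 - s / σ) • x + (s / σ) • y)) (1 / σ, (1 / σ) • y)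

/-- conditional expectation of `g(X) N(Y_s)` given `Y_σ = y` -/
noncomputable def Bf (μ : Measure (Fin n → ℝ)) (s : ℝ) (g N : (Fin n → ℝ) → ℝ) (σ : ℝ)
    (y : Fin n → ℝ) : ℝ :=
  Mf μ (fun x => g x * phi s N x σ y) (1 / σ, (1 / σ) • y)

theorem UP2_eq_Bf (μ : Measure (Fin n → ℝ)) (s : ℝ) (N : (Fin n → ℝ) → ℝ) (σ : ℝ) :
    UP2 μ s σ N = Bf μ s (fun _ => 1) N σ := by
  funext y
  unfold UP2 Bf phi
  simp only [one_mul]

/-! ### the block `phi` -/

section phi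

variable {s : ℝ} {N : (Fin n → ℝ) → ℝ}

theorem cont_phi (hN : CBd N) (s : ℝ) :
    ContinuousOn (fun w : (Fin n → ℝ) × (ℝ × (Fin n → ℝ)) => phi s N w.1 w.2.1 w.2.2)
      (univ ×ˢ (Ioi 0 ×ˢ univ)) := by
  unfold phi
  have h1 : ContinuousOn (fun w : (Fin n → ℝ) × (ℝ × (Fin n → ℝ)) => s / w.2.1)
      (univ ×ˢ (Ioi 0 ×ˢ univ)) :=
    continuousOn_const.div (by fun_prop) fun w hw => ne_of_gt hw.2.1
  have h2 : ContinuousOn (fun w : (Fin n → ℝ) × (ℝ × (Fin n → ℝ)) => 1 - s / w.2.1)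
      (univ ×ˢ (Ioi 0 ×ˢ univ)) := continuousOn_const.sub h1
  have h3 : ContinuousOn (fun w : (Fin n → ℝ) × (ℝ × (Fin n → ℝ)) =>
      ((s * (1 - s / w.2.1), (1 - s / w.2.1) • w.1 + (s / w.2.1) • w.2.2) : ℝ × (Fin n → ℝ)))
      (univ ×ˢ (Ioi 0 ×ˢ univ)) :=
    (continuousOn_const.mul h2).prodMk ((h2.smul (by fun_prop)).add (h1.smul (by fun_prop)))
  exact (PH_cont hN).comp_continuousOn h3

theorem abs_phi_le {C : ℝ} (hC : ∀ y, |N y| ≤ C) (x : Fin n → ℝ) (σ : ℝ) (y : Fin n → ℝ) :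
    |phi s N x σ y| ≤ C := PH_bound hC _ _

theorem cont_phi_x (hN : CBd N) (s : ℝ) {σ : ℝ} (y : Fin n → ℝ) :
    Continuous (fun x => phi s N x σ y) := by
  unfold phi
  exact (PH_cont hN).comp (f := fun x : Fin n → ℝ =>
    (s * (1 - s / σ), (1 - s / σ) • x + (s / σ) • y)) (by fun_prop)

theorem UX_phi (hN : CBd N) (s : ℝ) (B : Set (Fin n → ℝ)) :
    UX B (Ioi 0) (fun x σ y => phi s N x σ y) := by
  obtain ⟨C, hC0, hC⟩ := cbd_bound hN
  refine ⟨fun σ _ y => (cont_phi_x hN s y).measurable, fun x _ => ?_, fun p q _ =>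
    ⟨C, hC0, fun x _ σ _ y => (abs_phi_le hC x σ y).trans ?_⟩⟩
  · exact (cont_phi hN s).comp (f := fun p : ℝ × (Fin n → ℝ) => (x, p)) (by fun_prop)
      fun p hp => ⟨mem_univ _, hp⟩
  · exact le_mul_of_one_le_right hC0 (one_le_exp (mul_nonneg hC0 (sum_abs_nonneg y)))

theorem fd_phi (hN : SB N) (s : ℝ) (x : Fin n → ℝ) (σ : ℝ) (y : Fin n → ℝ) :
    HasFDerivAt (phi s N x σ) (lf fun i => s / σ * phi s (pd N i) x σ y) y := by
  unfold phi
  have h1 := PH_hasFDerivAt hN (s * (1 - s / σ)) ((1 - s / σ) • x + (s / σ) • y)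
  have h2 : HasFDerivAt (fun y : Fin n → ℝ => (1 - s / σ) • x + (s / σ) • y)
      ((s / σ) • ContinuousLinearMap.id ℝ (Fin n → ℝ)) y :=
    ((hasFDerivAt_id y).const_smul (s / σ)).const_add _
  refine (h1.comp y h2).congr_fderiv ?_
  ext v
  simp only [ContinuousLinearMap.comp_apply, _root_.smul_apply,
    ContinuousLinearMap.id_apply, lf_apply, Pi.smul_apply, smul_eq_mul]
  apply Finset.sum_congr rfl
  intro i _
  ring

/-- the time derivative of `phi` -/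
noncomputable def tphi (s : ℝ) (N : (Fin n → ℝ) → ℝ) (x : Fin n → ℝ) (σ : ℝ)
    (y : Fin n → ℝ) : ℝ :=
  (s / σ) ^ 2 / 2 * ∑ i, phi s (pd (pd N i) i) x σ y
    + s / σ ^ 2 * ∑ i, (x i - y i) * phi s (pd N i) x σ y

theorem td_phi (hN : SB N) {s : ℝ} (hs : 0 < s) (x : Fin n → ℝ) {σ : ℝ} (hσ : s < σ)
    (y : Fin n → ℝ) : HasDerivAt (fun σ => phi s N x σ y) (tphi s N x σ y) σ := by
  have hσ0 : 0 < σ := hs.trans hσ
  have hu : 0 < s * (1 - s / σ) := mul_pos hs (by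
    have : s / σ < 1 := (div_lt_one hσ0).2 hσ
    linarith)
  have h0 := (H1_PH hN 0).hasFDerivAt isOpen_Iio (σ := -(s * (1 - s / σ)))
    (by simpa only [mem_Iio, Left.neg_neg_iff] using hu) ((1 - s / σ) • x + (s / σ) • y)
  have h1 : HasDerivAt (fun σ : ℝ => s / σ) (-(s / σ ^ 2)) σ := by
    have := (hasDerivAt_inv hσ0.ne').const_mul s
    simp only [← div_eq_mul_inv] at this
    refine this.congr_deriv ?_
    ring
  have h2 : HasDerivAt (fun σ : ℝ => 1 - s / σ) (s / σ ^ 2) σ := by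
    have := h1.const_sub 1
    simpa using this
  have h3 : HasDerivAt (fun σ : ℝ => -(s * (1 - s / σ))) (-(s * (s / σ ^ 2))) σ :=
    (h2.const_mul s).neg
  have h4 : HasDerivAt (fun σ : ℝ => (1 - s / σ) • x + (s / σ) • y)
      ((s / σ ^ 2) • x + (-(s / σ ^ 2)) • y) σ := (h2.smul_const x).add (h1.smul_const y)
  have h5 := h0.comp_hasDerivAt σ (h3.prodMk h4)
  have e : (fun σ => phi s N x σ y) = (fun p : ℝ × (Fin n → ℝ) => PH (0 - p.1) N p.2) ∘
      fun σ : ℝ => (-(s * (1 - s / σ)), (1 - s / σ) • x + (s / σ) • y) := by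
    funext τ
    simp only [phi, zero_sub, Function.comp_apply, neg_neg]
  rw [e]
  refine h5.congr_deriv ?_
  simp only [ContinuousLinearMap.coprod_apply, lf_apply,
    ContinuousLinearMap.toSpanSingleton_apply, smul_eq_mul, Pi.add_apply, Pi.smul_apply, zero_sub,
    neg_neg]
  unfold tphi
  have e2 : ∀ M : (Fin n → ℝ) → ℝ, PH (s * (1 - s / σ)) M ((1 - s / σ) • x + (s / σ) • y)
    = phi s M x σ y := fun M => rfl
  simp_rw [e2]
  congr 1
  · ring
  · rw [Finset.mul_sum]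
    apply Finset.sum_congr rfl
    intro i _
    ring

end phi

/-! ### the block `ee` -/

section ee

/-- the posterior weight -/
noncomputable def ee (x : Fin n → ℝ) (σ : ℝ) (y : Fin n → ℝ) : ℝ :=
  exp (lx x (1 / σ, (1 / σ) • y))

theorem lx_lev (x : Fin n → ℝ) (σ : ℝ) (y : Fin n → ℝ) :
    lx x (1 / σ, (1 / σ) • y) = 1 / σ * (∑ i, y i * x i - 1 / 2 * ∑ i, x i ^ 2) := by
  unfold lx
  simp only [Pi.smul_apply, smul_eq_mul]
  have e : ∑ i, 1 / σ * y i * x i = 1 / σ * ∑ i, y i * x i := by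
    rw [Finset.mul_sum]; apply Finset.sum_congr rfl; intro i _; ring
  rw [e]
  ring

theorem abs_sum_mul_le {R : ℝ} {x : Fin n → ℝ} (hx : ∀ i, |x i| ≤ R) (y : Fin n → ℝ) :
    |∑ i, y i * x i| ≤ R * ∑ i, |y i| := by
  rw [Finset.mul_sum]
  refine (Finset.abs_sum_le_sum_abs _ _).trans (Finset.sum_le_sum fun i _ => ?_)
  rw [abs_mul, mul_comm]
  exact mul_le_mul_of_nonneg_right (hx i) (abs_nonneg _)

theorem ee_le {R : ℝ} (hR : 0 ≤ R) {x : Fin n → ℝ} (hx : ∀ i, |x i| ≤ R) {p σ : ℝ} (hp : 0 < p)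
    (hσ : p ≤ σ) (y : Fin n → ℝ) : ee x σ y ≤ exp (R / p * ∑ i, |y i|) := by
  unfold ee
  apply exp_le_exp.2
  rw [lx_lev]
  have h1 := (le_abs_self _).trans (abs_sum_mul_le hx y)
  have h2 : 0 ≤ ∑ i, x i ^ 2 := Finset.sum_nonneg fun i _ => sq_nonneg _
  have hS := sum_abs_nonneg y
  have hσ0 : 0 < σ := hp.trans_le hσ
  calc 1 / σ * (∑ i, y i * x i - 1 / 2 * ∑ i, x i ^ 2) ≤ 1 / σ * (R * ∑ i, |y i|) :=
        mul_le_mul_of_nonneg_left (by linarith) (by positivity)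
    _ ≤ 1 / p * (R * ∑ i, |y i|) :=
        mul_le_mul_of_nonneg_right (one_div_le_one_div_of_le hp hσ) (by (clear * - hR; positivity))
    _ = _ := by ring

theorem ee_ge {R : ℝ} (hR : 0 ≤ R) {x : Fin n → ℝ} (hx : ∀ i, |x i| ≤ R) {p σ : ℝ} (hp : 0 < p)
    (hσ : p ≤ σ) (y : Fin n → ℝ) :
    exp (-(1 / p * (n * R ^ 2))) * exp (-(R / p * ∑ i, |y i|)) ≤ ee x σ y := by
  unfold ee
  rw [← exp_add]
  apply exp_le_exp.2
  rw [lx_lev]
  have h1 := (abs_le.1 (abs_sum_mul_le hx y)).1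
  have h2 : ∑ i, x i ^ 2 ≤ n * R ^ 2 := by
    calc ∑ i, x i ^ 2 ≤ ∑ _i : Fin n, R ^ 2 := by
          apply Finset.sum_le_sum; intro i _
          rw [← sq_abs]; exact pow_le_pow_left₀ (abs_nonneg _) (hx i) 2
      _ = n * R ^ 2 := by simp only [Finset.sum_const, Finset.card_univ, Fintype.card_fin, nsmul_eq_mul]
  have h2' : 0 ≤ ∑ i, x i ^ 2 := Finset.sum_nonneg fun i _ => sq_nonneg _
  have hS := sum_abs_nonneg y
  have hσ0 : 0 < σ := hp.trans_le hσ
  have hn : 0 ≤ (n : ℝ) * R ^ 2 := by (clear * -; positivity)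
  have h3 : -(R * ∑ i, |y i| + n * R ^ 2) ≤ ∑ i, y i * x i - 1 / 2 * ∑ i, x i ^ 2 := by linarith
  have h4 := mul_le_mul_of_nonneg_left h3 (by positivity : 0 ≤ 1 / σ)
  have h5 : 1 / σ * (R * ∑ i, |y i| + n * R ^ 2) ≤ 1 / p * (R * ∑ i, |y i| + n * R ^ 2) :=
    mul_le_mul_of_nonneg_right (one_div_le_one_div_of_le hp hσ) (by (clear * - hR; positivity))
  have e1 : -(1 / p * (n * R ^ 2)) + -(R / p * ∑ i, |y i|)
      = -(1 / p * (R * ∑ i, |y i| + n * R ^ 2)) := by ring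
  rw [e1]
  linarith only [h4, h5]

theorem cont_ee (x : Fin n → ℝ) :
    ContinuousOn (fun p : ℝ × (Fin n → ℝ) => ee x p.1 p.2) (Ioi 0 ×ˢ univ) := by
  unfold ee
  have h1 := cont_path_inv (n := n)
  have h2 : Continuous fun p : ℝ × (Fin n → ℝ) => lx x p := by unfold lx; fun_prop
  exact Real.continuous_exp.comp_continuousOn (h2.comp_continuousOn h1)

variable {B : Set (Fin n → ℝ)} {R : ℝ}

theorem UX_ee (hR : 0 ≤ R) (hB : ∀ x ∈ B, ∀ i, |x i| ≤ R) :
    UX B (Ioi 0) (ee (n := n)) := by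
  refine ⟨fun σ _ y => (measurable_lx _).exp, fun x _ => cont_ee x, fun p q hpq => ?_⟩
  refine ⟨max 1 (R / p), le_max_of_le_left zero_le_one, fun x hx σ hσ y => ?_⟩
  have hp : 0 < p := hpq ⟨le_rfl, hσ.1.trans hσ.2⟩
  rw [abs_of_pos (by unfold ee; exact exp_pos _)]
  refine (ee_le hR (hB x hx) hp hσ.1 y).trans ?_
  have hS := sum_abs_nonneg y
  calc exp (R / p * ∑ i, |y i|) ≤ 1 * exp (max 1 (R / p) * ∑ i, |y i|) := by
        rw [one_mul]
        exact exp_le_exp.2 (mul_le_mul_of_nonneg_right (le_max_right _ _) hS)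
    _ ≤ _ := mul_le_mul_of_nonneg_right (le_max_left _ _) (exp_pos _).le

theorem UX_coord (hR : 0 ≤ R) (hB : ∀ x ∈ B, ∀ i, |x i| ≤ R) (i : Fin n) {I : Set ℝ} :
    UX (n := n) B I (fun x _ _ => x i) :=
  UX.param (w := fun x : Fin n → ℝ => x i) (measurable_pi_apply i) hR fun x hx => hB x hx i

theorem fd_ee (x : Fin n → ℝ) (σ : ℝ) (y : Fin n → ℝ) :
    HasFDerivAt (ee x σ) (lf fun i => 1 / σ * x i * ee x σ y) y := by
  have h1 : HasFDerivAt (fun y : Fin n → ℝ => lx x (1 / σ, (1 / σ) • y))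
      (lf fun i => 1 / σ * x i) y := by
    have e : (fun y : Fin n → ℝ => lx x (1 / σ, (1 / σ) • y))
        = fun y => lf (fun i => 1 / σ * x i) y + -(1 / σ * (1 / 2 * ∑ i, x i ^ 2)) := by
      funext y
      rw [lx_lev, lf_apply, mul_sub, Finset.mul_sum, sub_eq_add_neg]
      congr 1
      apply Finset.sum_congr rfl; intro i _; ring
    rw [e]
    exact (lf fun i => 1 / σ * x i).hasFDerivAt.add_const _
  refine h1.exp.congr_fderiv ?_
  rw [lf_smul]
  apply lf_congr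
  intro i
  unfold ee
  ring

/-- time derivative of `ee` -/
noncomputable def tee (x : Fin n → ℝ) (σ : ℝ) (y : Fin n → ℝ) : ℝ :=
  (1 / σ) * (1 / σ) * (1 / 2 * ∑ i, x i ^ 2 - ∑ i, y i * x i) * ee x σ y

theorem td_ee (x : Fin n → ℝ) {σ : ℝ} (hσ : 0 < σ) (y : Fin n → ℝ) :
    HasDerivAt (fun σ => ee x σ y) (tee x σ y) σ := by
  have h1 : HasDerivAt (fun σ : ℝ => lx x (1 / σ, (1 / σ) • y))
      (-(1 / σ ^ 2) * (∑ i, y i * x i - 1 / 2 * ∑ i, x i ^ 2)) σ := by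
    have e : (fun σ : ℝ => lx x (1 / σ, (1 / σ) • y))
        = fun σ => σ⁻¹ * (∑ i, y i * x i - 1 / 2 * ∑ i, x i ^ 2) := by
      funext σ; rw [lx_lev, one_div]
    rw [e]
    have h2 := (hasDerivAt_inv hσ.ne').mul_const (∑ i, y i * x i - 1 / 2 * ∑ i, x i ^ 2)
    simpa only [one_div, neg_mul] using h2
  refine h1.exp.congr_deriv ?_
  unfold tee ee
  ring

theorem HX_ee (hR : 0 ≤ R) (hB : ∀ x ∈ B, ∀ i, |x i| ≤ R) :
    HX B (Ioi 0) (ee (n := n)) tee (fun i x σ y => 1 / σ * x i * ee x σ y) where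
  uf := UX_ee hR hB
  ud := by
    have h1 : UE (n := n) (Ioi 0) (fun σ _ => 1 / σ) := (H1_inv_time (n := n)).uf
    have hx := fun i => UX_coord (n := n) hR hB i (I := Ioi 0)
    have h2 : UX (n := n) B (Ioi 0) (fun x _ y => 1 / 2 * ∑ i, x i ^ 2 - ∑ i, y i * x i) := by
      have h3 : UX (n := n) B (Ioi 0) (fun x _ y => 1 / 2 * ∑ i, x i ^ 2 + -∑ i, y i * x i) := by
        refine ((UX.free (UE.const (1 / 2))).mul (UX.sum _ fun i _ => ?_)).add
          (UX.sum _ fun i _ => (UX.free (UE.coord i)).mul (hx i)).neg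
        simpa [sq] using (hx i).mul (hx i)
      simpa only [one_div, sub_eq_add_neg] using h3
    exact ((UX.free (h1.mul h1)).mul h2).mul (UX_ee hR hB)
  ua := fun i => by
    have h1 : UE (n := n) (Ioi 0) (fun σ _ => 1 / σ) := (H1_inv_time (n := n)).uf
    exact ((UX.free h1).mul (UX_coord hR hB i)).mul (UX_ee hR hB)
  fd := fun x _ σ _ y => fd_ee x σ y
  td := fun x _ σ hσ y => td_ee x hσ y

end ee

/-! ### un-normalised averages -/

section lift

variable {μ : Measure (Fin n → ℝ)} [IsProbabilityMeasure μ] {R : ℝ}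

/-- un-normalised version of `Bf` -/
noncomputable def Af (μ : Measure (Fin n → ℝ)) (s : ℝ) (g N : (Fin n → ℝ) → ℝ) (σ : ℝ)
    (y : Fin n → ℝ) : ℝ := ∫ x, g x * phi s N x σ y * ee x σ y ∂μ

/-- the partition function -/
noncomputable def Zv (μ : Measure (Fin n → ℝ)) (σ : ℝ) (y : Fin n → ℝ) : ℝ := ∫ x, ee x σ y ∂μ

theorem Zv_eq (μ : Measure (Fin n → ℝ)) (σ : ℝ) (y : Fin n → ℝ) :
    Zv μ σ y = Zo μ (1 / σ, (1 / σ) • y) := by
  unfold Zv Zo Zf ee
  simp only [one_mul]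

theorem Zv_pos (h : CSupp μ R) (σ : ℝ) (y : Fin n → ℝ) : 0 < Zv μ σ y := by
  rw [Zv_eq]; exact Zo_pos h _

theorem Bf_eq (μ : Measure (Fin n → ℝ)) (s : ℝ) (g N : (Fin n → ℝ) → ℝ) (σ : ℝ)
    (y : Fin n → ℝ) : Bf μ s g N σ y = Af μ s g N σ y * (Zv μ σ y)⁻¹ := by
  rw [Zv_eq]
  rfl

theorem UP_eq (μ : Measure (Fin n → ℝ)) (g : (Fin n → ℝ) → ℝ) (σ : ℝ) (y : Fin n → ℝ) :
    UP μ σ g y = (∫ x, g x * ee x σ y ∂μ) * (Zv μ σ y)⁻¹ := by
  rw [Zv_eq]
  rfl

theorem SX_phi {N : (Fin n → ℝ) → ℝ} (hN : SB N) (s : ℝ) (B : Set (Fin n → ℝ)) :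
    SX B (Ioi 0) (fun x σ y => phi s N x σ y)
      (fun i x σ y => s / σ * phi s (pd N i) x σ y) where
  uf := UX_phi (sb_cbd hN) s B
  ua := fun i => by
    have h1 : UE (n := n) (Ioi 0) (fun σ _ => s / σ) :=
      UE.time (continuousOn_const.div continuousOn_id fun σ hσ => ne_of_gt hσ)
    exact (UX.free h1).mul (UX_phi (sb_cbd (sb_pd hN i)) s B)
  fd := fun x _ σ _ y => fd_phi hN s x σ y

theorem UX.mono {X : Type*} [MeasurableSpace X] {B : Set X} {I I' : Set ℝ}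
    {u : X → ℝ → (Fin n → ℝ) → ℝ} (h : UX B I u) (hI : I' ⊆ I) : UX B I' u :=
  ⟨fun σ hσ y => h.meas σ (hI hσ) y, fun x hx => (h.cont x hx).mono (prod_mono hI subset_rfl),
    fun p q hpq => h.bd p q (hpq.trans hI)⟩

theorem HX.mono {X : Type*} [MeasurableSpace X] {B : Set X} {I I' : Set ℝ}
    {u du : X → ℝ → (Fin n → ℝ) → ℝ} {au : Fin n → X → ℝ → (Fin n → ℝ) → ℝ}
    (h : HX B I u du au) (hI : I' ⊆ I) : HX B I' u du au :=
  ⟨h.uf.mono hI, h.ud.mono hI, fun i => (h.ua i).mono hI,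
    fun x hx σ hσ y => h.fd x hx σ (hI hσ) y, fun x hx σ hσ y => h.td x hx σ (hI hσ) y⟩

theorem UX_tphi {N : (Fin n → ℝ) → ℝ} (hN : SB N) (s : ℝ) {B : Set (Fin n → ℝ)} (hR : 0 ≤ R)
    (hB : ∀ x ∈ B, ∀ i, |x i| ≤ R) : UX B (Ioi 0) (fun x σ y => tphi s N x σ y) := by
  have h1 : UE (n := n) (Ioi 0) (fun σ _ => (s / σ) ^ 2 / 2) :=
    UE.time (ContinuousOn.div_const ((continuousOn_const.div continuousOn_id
      fun σ hσ => ne_of_gt hσ).pow 2) 2)
  have h2 : UE (n := n) (Ioi 0) (fun σ _ => s / σ ^ 2) :=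
    UE.time (continuousOn_const.div (continuousOn_id.pow 2)
      fun σ hσ => (pow_pos (show (0 : ℝ) < σ from hσ) 2).ne')
  refine ((UX.free h1).mul (UX.sum _ fun i _ => UX_phi (sb_cbd (sb_pd (sb_pd hN i) i)) s B)).add
    ((UX.free h2).mul (UX.sum _ fun i _ => UX.mul ?_ (UX_phi (sb_cbd (sb_pd hN i)) s B)))
  simpa [sub_eq_add_neg] using (UX_coord (n := n) hR hB i (I := Ioi 0)).add
    (UX.free (UE.coord i)).neg

theorem HX_phi {N : (Fin n → ℝ) → ℝ} (hN : SB N) {s : ℝ} (hs : 0 < s) {B : Set (Fin n → ℝ)}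
    (hR : 0 ≤ R) (hB : ∀ x ∈ B, ∀ i, |x i| ≤ R) :
    HX B (Ioi s) (fun x σ y => phi s N x σ y) (fun x σ y => tphi s N x σ y)
      (fun i x σ y => s / σ * phi s (pd N i) x σ y) where
  uf := (SX_phi hN s B).uf.mono (Ioi_subset_Ioi hs.le)
  ud := (UX_tphi hN s hR hB).mono (Ioi_subset_Ioi hs.le)
  ua := fun i => ((SX_phi hN s B).ua i).mono (Ioi_subset_Ioi hs.le)
  fd := fun x _ σ _ y => fd_phi hN s x σ y
  td := fun x _ _ hσ y => td_phi hN hs x hσ y

/-- the parameter set -/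
def Bx (R G : ℝ) (g : (Fin n → ℝ) → ℝ) : Set (Fin n → ℝ) := {x | (∀ i, |x i| ≤ R) ∧ |g x| ≤ G}

theorem int_Af (h : CSupp μ R) {g N : (Fin n → ℝ) → ℝ} (hg : Adm μ g) (hN : CBd N) (s : ℝ)
    {σ : ℝ} (hσ : 0 < σ) (y : Fin n → ℝ) :
    Integrable (fun x => g x * phi s N x σ y * ee x σ y) μ := by
  obtain ⟨G, hG0, hG⟩ := hg.bdd
  have hB : ∀ᵐ x ∂μ, x ∈ Bx R G g := by
    filter_upwards [hG, h.supp] with x h1 h2 using ⟨h2, h1⟩
  exact (((UX.param (n := n) (B := Bx R G g) (I := Ioi 0) hg.meas hG0 fun x hx => hx.2).mul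
    (UX_phi hN s _)).mul (UX_ee h.nonneg fun x hx => hx.1)).integrable hB hσ y

theorem int_ee (h : CSupp μ R) {g : (Fin n → ℝ) → ℝ} (hg : Adm μ g) (σ : ℝ) (y : Fin n → ℝ) :
    Integrable (fun x => g x * ee x σ y) μ := (hg.mul (h.adm_exp_lx _)).integrable

theorem S1_Af (h : CSupp μ R) {g N : (Fin n → ℝ) → ℝ} (hg : Adm μ g) (hN : SB N) (s : ℝ) :
    S1 (Ioi 0) (Af μ s g N) (fun i σ y => s / σ * Af μ s g (pd N i) σ y
      + 1 / σ * Af μ s (fun x => x i * g x) N σ y) := by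
  obtain ⟨G, hG0, hG⟩ := hg.bdd
  have hB : ∀ᵐ x ∂μ, x ∈ Bx R G g := by
    filter_upwards [hG, h.supp] with x h1 h2 using ⟨h2, h1⟩
  have h1 : SX (n := n) (Bx R G g) (Ioi 0) (fun x _ _ => g x) (fun _ _ _ _ => 0) :=
    (HX.param hg.meas hG0 fun x hx => hx.2).sx
  have h2 := (h1.mul (SX_phi hN s (Bx R G g))).mul
    (HX_ee (B := Bx R G g) h.nonneg fun x hx => hx.1).sx
  refine (h2.integral hB isOpen_Ioi).congr (fun σ _ y => rfl) (fun i σ hσ y => ?_)
  unfold Af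
  rw [← integral_const_mul, ← integral_const_mul, ← integral_add
    ((int_Af h hg (sb_cbd (sb_pd hN i)) s hσ y).const_mul _)
    ((int_Af h (hg.xmul h i) (sb_cbd hN) s hσ y).const_mul _)]
  congr 1
  funext x
  ring

omit [IsProbabilityMeasure μ] in
theorem int_comb {F1 F2 F3 F4 : (Fin n → ℝ) → ℝ} {c : ℝ} (h1 : Integrable F1 μ)
    (h2 : Integrable F2 μ) (h3 : Integrable F3 μ) (h4 : Integrable F4 μ) :
    ∫ x, (F1 x + F2 x + c * (F3 x - F4 x)) ∂μ
      = ∫ x, F1 x ∂μ + ∫ x, F2 x ∂μ + c * (∫ x, F3 x ∂μ - ∫ x, F4 x ∂μ) := by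
  rw [integral_add (f := fun x => F1 x + F2 x) (g := fun x => c * (F3 x - F4 x))
    (h1.add h2) ((h3.sub h4).const_mul c), integral_add h1 h2, integral_const_mul,
    integral_sub h3 h4]

/-- the time derivative of `Af` -/
noncomputable def tAf (μ : Measure (Fin n → ℝ)) (s : ℝ) (g N : (Fin n → ℝ) → ℝ) (σ : ℝ)
    (y : Fin n → ℝ) : ℝ :=
  (s / σ) ^ 2 / 2 * ∑ i, Af μ s g (pd (pd N i) i) σ y
    + s / σ ^ 2 * ∑ i, (Af μ s (fun x => x i * g x) (pd N i) σ y - y i * Af μ s g (pd N i) σ y)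
    + 1 / σ * (1 / σ) * (1 / 2 * ∑ i, Af μ s (fun x => x i * (x i * g x)) N σ y
      - ∑ i, y i * Af μ s (fun x => x i * g x) N σ y)

theorem H1_Af (h : CSupp μ R) {g N : (Fin n → ℝ) → ℝ} (hg : Adm μ g) (hN : SB N) {s : ℝ}
    (hs : 0 < s) :
    H1 (Ioi s) (Af μ s g N) (tAf μ s g N) (fun i σ y => s / σ * Af μ s g (pd N i) σ y
      + 1 / σ * Af μ s (fun x => x i * g x) N σ y) := by
  obtain ⟨G, hG0, hG⟩ := hg.bdd
  have hB : ∀ᵐ x ∂μ, x ∈ Bx R G g := by
    filter_upwards [hG, h.supp] with x h1 h2 using ⟨h2, h1⟩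
  have h1 : HX (n := n) (Bx R G g) (Ioi s) (fun x _ _ => g x) (fun _ _ _ => 0)
      (fun _ _ _ _ => 0) := HX.param hg.meas hG0 fun x hx => hx.2
  have h2 := (h1.mul (HX_phi (B := Bx R G g) hN hs h.nonneg fun x hx => hx.1)).mul
    ((HX_ee (B := Bx R G g) h.nonneg fun x hx => hx.1).mono (Ioi_subset_Ioi hs.le))
  refine (h2.integral hB isOpen_Ioi).congr isOpen_Ioi (fun σ _ y => rfl) (fun σ hσ y => ?_)
    (fun i σ hσ y => ?_)
  · have hσ0 : 0 < σ := hs.trans hσ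
    have i1 : ∀ i, Integrable (fun x => g x * phi s (pd (pd N i) i) x σ y * ee x σ y) μ :=
      fun i => int_Af h hg (sb_cbd (sb_pd (sb_pd hN i) i)) s hσ0 y
    have i2 : ∀ i, Integrable (fun x => x i * g x * phi s (pd N i) x σ y * ee x σ y) μ :=
      fun i => int_Af h (hg.xmul h i) (sb_cbd (sb_pd hN i)) s hσ0 y
    have i3 : ∀ i, Integrable (fun x => g x * phi s (pd N i) x σ y * ee x σ y) μ :=
      fun i => int_Af h hg (sb_cbd (sb_pd hN i)) s hσ0 y
    have i4 : ∀ i, Integrable (fun x => x i * (x i * g x) * phi s N x σ y * ee x σ y) μ :=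
      fun i => int_Af h ((hg.xmul h i).xmul h i) (sb_cbd hN) s hσ0 y
    have i5 : ∀ i, Integrable (fun x => x i * g x * phi s N x σ y * ee x σ y) μ :=
      fun i => int_Af h (hg.xmul h i) (sb_cbd hN) s hσ0 y
    have i6 : ∀ i, Integrable (fun x => x i * g x * phi s (pd N i) x σ y * ee x σ y
        - y i * (g x * phi s (pd N i) x σ y * ee x σ y)) μ := fun i =>
      (i2 i).sub ((i3 i).const_mul _)
    have i7 : ∀ i, Integrable (fun x => y i * (x i * g x * phi s N x σ y * ee x σ y)) μ :=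
      fun i => (i5 i).const_mul _
    have e : tAf μ s g N σ y = ∫ x, ((s / σ) ^ 2 / 2 * ∑ i, g x * phi s (pd (pd N i) i) x σ y
          * ee x σ y
        + s / σ ^ 2 * ∑ i, (x i * g x * phi s (pd N i) x σ y * ee x σ y
          - y i * (g x * phi s (pd N i) x σ y * ee x σ y))
        + 1 / σ * (1 / σ) * (1 / 2 * ∑ i, x i * (x i * g x) * phi s N x σ y * ee x σ y
          - ∑ i, y i * (x i * g x * phi s N x σ y * ee x σ y))) ∂μ := by
      have j1 : Integrable (fun x => (s / σ) ^ 2 / 2 * ∑ i, g x * phi s (pd (pd N i) i) x σ y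
          * ee x σ y) μ := (integrable_finsetSum _ fun i _ => i1 i).const_mul _
      have j2 : Integrable (fun x => s / σ ^ 2 * ∑ i, (x i * g x * phi s (pd N i) x σ y
          * ee x σ y - y i * (g x * phi s (pd N i) x σ y * ee x σ y))) μ :=
        (integrable_finsetSum _ fun i _ => (i2 i).sub ((i3 i).const_mul _)).const_mul _
      have j3 : Integrable (fun x => 1 / 2 * ∑ i, x i * (x i * g x) * phi s N x σ y
          * ee x σ y) μ := (integrable_finsetSum _ fun i _ => i4 i).const_mul _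
      have j4 : Integrable (fun x => ∑ i, y i * (x i * g x * phi s N x σ y * ee x σ y)) μ :=
        integrable_finsetSum _ fun i _ => (i5 i).const_mul _
      rw [int_comb j1 j2 j3 j4, integral_const_mul, integral_const_mul, integral_const_mul,
        integral_finsetSum _ fun i _ => i1 i,
        integral_finsetSum _ fun i _ => i6 i,
        integral_finsetSum _ fun i _ => i4 i,
        integral_finsetSum _ fun i _ => i7 i]
      simp_rw [fun i => integral_sub (i2 i) ((i3 i).const_mul (y i)), integral_const_mul]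
      rfl
    rw [e]
    congr 1
    funext x
    unfold tphi tee
    have e1 : ∑ i, g x * phi s (pd (pd N i) i) x σ y * ee x σ y
        = g x * ee x σ y * ∑ i, phi s (pd (pd N i) i) x σ y := by
      rw [Finset.mul_sum]; exact Finset.sum_congr rfl fun i _ => by ring
    have e2 : ∑ i, (x i * g x * phi s (pd N i) x σ y * ee x σ y
          - y i * (g x * phi s (pd N i) x σ y * ee x σ y))
        = g x * ee x σ y * ∑ i, (x i - y i) * phi s (pd N i) x σ y := by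
      rw [Finset.mul_sum]; exact Finset.sum_congr rfl fun i _ => by ring
    have e3 : ∑ i, x i * (x i * g x) * phi s N x σ y * ee x σ y
        = g x * phi s N x σ y * ee x σ y * ∑ i, x i ^ 2 := by
      rw [Finset.mul_sum]; exact Finset.sum_congr rfl fun i _ => by ring
    have e4 : ∑ i, y i * (x i * g x * phi s N x σ y * ee x σ y)
        = g x * phi s N x σ y * ee x σ y * ∑ i, y i * x i := by
      rw [Finset.mul_sum]; exact Finset.sum_congr rfl fun i _ => by ring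
    rw [e1, e2, e3, e4]
    ring
  · have hσ0 : 0 < σ := hs.trans hσ
    unfold Af
    rw [← integral_const_mul, ← integral_const_mul, ← integral_add
      ((int_Af h hg (sb_cbd (sb_pd hN i)) s hσ0 y).const_mul _)
      ((int_Af h (hg.xmul h i) (sb_cbd hN) s hσ0 y).const_mul _)]
    congr 1
    funext x
    ring

/-! ### the partition function -/

theorem H1_Zv (h : CSupp μ R) :
    H1 (Ioi 0) (Zv μ) (fun σ y => 1 / σ * (1 / σ) * (1 / 2 * ∑ i, ∫ x, x i ^ 2 * ee x σ y ∂μ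
      - ∑ i, y i * ∫ x, x i * ee x σ y ∂μ)) (fun i σ y => 1 / σ * ∫ x, x i * ee x σ y ∂μ) := by
  have hB : ∀ᵐ x ∂μ, x ∈ Bx R 1 (fun _ => 0) := by
    filter_upwards [h.supp] with x h2 using ⟨h2, by simp only [abs_zero, zero_le_one]⟩
  have h2 := (HX_ee (B := Bx R 1 (fun _ => 0)) (n := n) h.nonneg fun x hx => hx.1).integral
    (ν := μ) hB isOpen_Ioi
  refine h2.congr isOpen_Ioi (fun σ _ y => rfl) (fun σ hσ y => ?_) (fun i σ hσ y => ?_)
  · have i1 : ∀ i, Integrable (fun x => x i ^ 2 * ee x σ y) μ := fun i =>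
      int_ee h (by simpa [sq] using (h.adm_coord i).mul (h.adm_coord i)) σ y
    have i2 : ∀ i, Integrable (fun x => x i * ee x σ y) μ := fun i =>
      int_ee h (h.adm_coord i) σ y
    have i3 : ∀ i, Integrable (fun x => y i * (x i * ee x σ y)) μ := fun i => (i2 i).const_mul _
    have j1 : Integrable (fun x => 1 / 2 * ∑ i, x i ^ 2 * ee x σ y) μ :=
      (integrable_finsetSum _ fun i _ => i1 i).const_mul _
    have j2 : Integrable (fun x => ∑ i, y i * (x i * ee x σ y)) μ :=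
      integrable_finsetSum _ fun i _ => i3 i
    have e : ∫ x, tee x σ y ∂μ = ∫ x, 1 / σ * (1 / σ) * (1 / 2 * ∑ i, x i ^ 2 * ee x σ y
        - ∑ i, y i * (x i * ee x σ y)) ∂μ := by
      congr 1
      funext x
      unfold tee
      have e1 : ∑ i, x i ^ 2 * ee x σ y = ee x σ y * ∑ i, x i ^ 2 := by
        rw [Finset.mul_sum]; exact Finset.sum_congr rfl fun i _ => by ring
      have e2 : ∑ i, y i * (x i * ee x σ y) = ee x σ y * ∑ i, y i * x i := by
        rw [Finset.mul_sum]; exact Finset.sum_congr rfl fun i _ => by ring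
      rw [e1, e2]
      ring
    rw [e, integral_const_mul, integral_sub j1 j2, integral_const_mul,
      integral_finsetSum _ fun i _ => i1 i, integral_finsetSum _ fun i _ => i3 i]
    simp_rw [integral_const_mul]
  · rw [← integral_const_mul]
    congr 1
    funext x
    ring

theorem UE_Zv_inv (h : CSupp μ R) : UE (Ioi 0) (fun σ y => (Zv μ σ y)⁻¹) := by
  refine ⟨(H1_Zv h).uf.1.inv₀ fun p _ => (Zv_pos h _ _).ne', fun p q hpq => ?_⟩
  refine ⟨max (exp (1 / p * (n * R ^ 2))) (R / p), le_max_of_le_left (exp_pos _).le,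
    fun σ hσ y => ?_⟩
  have hp : 0 < p := hpq ⟨le_rfl, hσ.1.trans hσ.2⟩
  have hS := sum_abs_nonneg y
  have h1 : exp (-(1 / p * (n * R ^ 2))) * exp (-(R / p * ∑ i, |y i|)) ≤ Zv μ σ y := by
    have e1 : exp (-(1 / p * (n * R ^ 2))) * exp (-(R / p * ∑ i, |y i|))
        = ∫ _x : Fin n → ℝ, exp (-(1 / p * (n * R ^ 2))) * exp (-(R / p * ∑ i, |y i|)) ∂μ := by
      simp only [one_div, integral_const, probReal_univ, smul_eq_mul, one_mul]
    rw [e1]
    unfold Zv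
    have i1 : Integrable (fun x => ee x σ y) μ := by
      simpa only [one_mul] using int_ee h (Adm.const μ 1) σ y
    apply integral_mono_ae (integrable_const _) i1
    filter_upwards [h.supp] with x hx
    exact ee_ge h.nonneg hx hp hσ.1 y
  rw [abs_of_pos (inv_pos.2 (Zv_pos h σ y))]
  have h2 : (Zv μ σ y)⁻¹ ≤ (exp (-(1 / p * (n * R ^ 2))) * exp (-(R / p * ∑ i, |y i|)))⁻¹ :=
    inv_anti₀ (by positivity) h1
  refine h2.trans ?_
  rw [mul_inv, ← exp_neg, ← exp_neg, neg_neg, neg_neg]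
  exact mul_le_mul (le_max_left _ _) (exp_le_exp.2
    (mul_le_mul_of_nonneg_right (le_max_right _ _) hS)) (exp_pos _).le
    (le_max_of_le_left (exp_pos _).le)

/-! ### the normalised blocks -/

/-- the gradient of `Bf` -/
noncomputable def gB (μ : Measure (Fin n → ℝ)) (s : ℝ) (g N : (Fin n → ℝ) → ℝ) (i : Fin n)
    (σ : ℝ) (y : Fin n → ℝ) : ℝ :=
  s / σ * Bf μ s g (pd N i) σ y + 1 / σ * (Bf μ s (fun x => x i * g x) N σ y
    - Bf μ s g N σ y * UP μ σ (fun x => x i) y)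

/-- the time derivative of `Bf` -/
noncomputable def tB (μ : Measure (Fin n → ℝ)) (s : ℝ) (g N : (Fin n → ℝ) → ℝ)
    (σ : ℝ) (y : Fin n → ℝ) : ℝ :=
  (s / σ) ^ 2 / 2 * ∑ i, Bf μ s g (pd (pd N i) i) σ y
    + s / σ ^ 2 * ∑ i, (Bf μ s (fun x => x i * g x) (pd N i) σ y - y i * Bf μ s g (pd N i) σ y)
    + 1 / σ * (1 / σ) * (1 / 2 * ∑ i, (Bf μ s (fun x => x i * (x i * g x)) N σ y
        - Bf μ s g N σ y * UP μ σ (fun x => x i ^ 2) y)
      - ∑ i, y i * (Bf μ s (fun x => x i * g x) N σ y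
        - Bf μ s g N σ y * UP μ σ (fun x => x i) y))

omit [IsProbabilityMeasure μ] in
theorem gB_eq (s : ℝ) (g N : (Fin n → ℝ) → ℝ) (i : Fin n) (σ : ℝ)
    (y : Fin n → ℝ) : gB μ s g N i σ y
      = (s / σ * Af μ s g (pd N i) σ y + 1 / σ * Af μ s (fun x => x i * g x) N σ y)
          * (Zv μ σ y)⁻¹
        + Af μ s g N σ y * (-(1 / σ * ∫ x, x i * ee x σ y ∂μ) * ((Zv μ σ y)⁻¹ * (Zv μ σ y)⁻¹)) := by
  unfold gB
  rw [Bf_eq, Bf_eq, Bf_eq, UP_eq]
  ring

theorem S1_Bf (h : CSupp μ R) {g N : (Fin n → ℝ) → ℝ} (hg : Adm μ g) (hN : SB N) (s : ℝ) :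
    S1 (Ioi 0) (Bf μ s g N) (gB μ s g N) := by
  have h1 := S1_Af h hg hN s
  have h2 := (H1_Zv h).s1.inv' (UE_Zv_inv h) fun σ _ y => (Zv_pos h σ y).ne'
  refine (h1.mul h2).congr (fun σ _ y => Bf_eq μ s g N σ y) (fun i σ _ y => ?_)
  rw [gB_eq]
  ring

theorem H1_Bf (h : CSupp μ R) {g N : (Fin n → ℝ) → ℝ} (hg : Adm μ g) (hN : SB N) {s : ℝ}
    (hs : 0 < s) : H1 (Ioi s) (Bf μ s g N) (tB μ s g N) (gB μ s g N) := by
  have h1 := H1_Af h hg hN hs
  have h2 := ((H1_Zv h).inv' (UE_Zv_inv h) fun σ _ y => (Zv_pos h σ y).ne').mono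
    (Ioi_subset_Ioi hs.le)
  refine (h1.mul h2).congr isOpen_Ioi (fun σ _ y => Bf_eq μ s g N σ y) (fun σ _ y => ?_)
    (fun i σ _ y => ?_)
  · unfold tB tAf
    simp_rw [Bf_eq, UP_eq]
    set z := (Zv μ σ y)⁻¹ with hz
    have e1 : ∑ i, Af μ s g (pd (pd N i) i) σ y * z = z * ∑ i, Af μ s g (pd (pd N i) i) σ y := by
      rw [Finset.mul_sum]; exact Finset.sum_congr rfl fun i _ => by ring
    have e2 : ∑ i, (Af μ s (fun x => x i * g x) (pd N i) σ y * z
          - y i * (Af μ s g (pd N i) σ y * z))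
        = z * ∑ i, (Af μ s (fun x => x i * g x) (pd N i) σ y - y i * Af μ s g (pd N i) σ y) := by
      rw [Finset.mul_sum]; exact Finset.sum_congr rfl fun i _ => by ring
    have e3 : ∑ i, (Af μ s (fun x => x i * (x i * g x)) N σ y * z
          - Af μ s g N σ y * z * ((∫ x, x i ^ 2 * ee x σ y ∂μ) * z))
        = z * (∑ i, Af μ s (fun x => x i * (x i * g x)) N σ y)
          - Af μ s g N σ y * z * z * ∑ i, ∫ x, x i ^ 2 * ee x σ y ∂μ := by
      rw [Finset.mul_sum, Finset.mul_sum, ← Finset.sum_sub_distrib]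
      exact Finset.sum_congr rfl fun i _ => by ring
    have e4 : ∑ i, y i * (Af μ s (fun x => x i * g x) N σ y * z
          - Af μ s g N σ y * z * ((∫ x, x i * ee x σ y ∂μ) * z))
        = z * (∑ i, y i * Af μ s (fun x => x i * g x) N σ y)
          - Af μ s g N σ y * z * z * ∑ i, y i * ∫ x, x i * ee x σ y ∂μ := by
      rw [Finset.mul_sum, Finset.mul_sum, ← Finset.sum_sub_distrib]
      exact Finset.sum_congr rfl fun i _ => by ring
    rw [e1, e2, e3, e4]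
    ring
  · rw [gB_eq]
    ring

theorem phi_one (s : ℝ) (x : Fin n → ℝ) (σ : ℝ) (y : Fin n → ℝ) :
    phi s (fun _ => 1) x σ y = 1 := by
  unfold phi
  rw [PH_const]

omit [IsProbabilityMeasure μ] in
theorem UP_eq_Bf (s : ℝ) (f : (Fin n → ℝ) → ℝ) (σ : ℝ) (y : Fin n → ℝ) :
    UP μ σ f y = Bf μ s f (fun _ => 1) σ y := by
  unfold UP Bf
  simp only [phi_one, mul_one]

theorem HS_Bf (h : CSupp μ R) (s : ℝ) : ∀ (k : ℕ) {g N : (Fin n → ℝ) → ℝ}, Adm μ g → SB N →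
    HS (Ioi 0) k (Bf μ s g N)
  | 0, _, _, hg, hN => (S1_Bf h hg hN s).uf
  | k + 1, g, N, hg, hN => by
    refine ⟨_, S1_Bf h hg hN s, fun i => ?_⟩
    have c1 : HS (n := n) (Ioi 0) k (fun σ _ => s / σ) :=
      HS.time (continuousOn_const.div continuousOn_id fun σ hσ => ne_of_gt hσ) k
    have c2 : HS (n := n) (Ioi 0) k (fun σ _ => 1 / σ) :=
      HS.time (continuousOn_const.div continuousOn_id fun σ hσ => ne_of_gt hσ) k
    have h1 := HS_Bf h s k hg (hN.pd i)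
    have h2 := HS_Bf h s k (hg.xmul h i) hN
    have h3 := HS_Bf h s k hg hN
    have h4 := HS_Bf h s k (h.adm_coord i) (SB.const (n := n) 1)
    refine ((c1.mul h1).add (c2.mul (h2.sub (h3.mul h4)))).congr fun σ _ y => ?_
    unfold gB
    rw [UP_eq_Bf s]

theorem Bf_abs_le (h : CSupp μ R) {g N : (Fin n → ℝ) → ℝ} (hg : Adm μ g) (hN : CBd N) (s : ℝ) :
    ∃ C, 0 ≤ C ∧ ∀ σ y, |Bf μ s g N σ y| ≤ C := by
  obtain ⟨C, hC0, hC⟩ := cbd_bound hN
  obtain ⟨G, hG0, hG⟩ := hg.bdd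
  refine ⟨G * C, by (clear * - hG0 hC0; positivity), fun σ y => ?_⟩
  unfold Bf
  have ha : Adm μ (fun x => phi s N x σ y) := Adm.of_continuous h (cont_phi_x hN s y)
  refine Mf_abs_le h (hg.mul ha) ?_ _
  filter_upwards [hG] with x hx
  rw [abs_mul]
  exact mul_le_mul hx (abs_phi_le hC x σ y) (abs_nonneg _) hG0

/-- the Hessian of `Bf` -/
noncomputable def hB (μ : Measure (Fin n → ℝ)) (s : ℝ) (g N : (Fin n → ℝ) → ℝ) (i j : Fin n)
    (σ : ℝ) (y : Fin n → ℝ) : ℝ :=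
  s / σ * gB μ s g (pd N i) j σ y + 1 / σ * (gB μ s (fun x => x i * g x) N j σ y
    - (gB μ s g N j σ y * UP μ σ (fun x => x i) y
      + Bf μ s g N σ y * gU μ (fun x => x i) j σ y))

theorem S1_gB (h : CSupp μ R) {g N : (Fin n → ℝ) → ℝ} (hg : Adm μ g) (hN : SB N) (s : ℝ)
    (i : Fin n) : S1 (Ioi 0) (gB μ s g N i) (hB μ s g N i) := by
  have c1 : S1 (n := n) (Ioi 0) (fun σ _ => s / σ) (fun _ _ _ => 0) :=
    S1.time (continuousOn_const.div continuousOn_id fun σ hσ => ne_of_gt hσ)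
  have c2 : S1 (n := n) (Ioi 0) (fun σ _ => 1 / σ) (fun _ _ _ => 0) :=
    S1.time (continuousOn_const.div continuousOn_id fun σ hσ => ne_of_gt hσ)
  have c3 : S1 (n := n) (Ioi 0) (fun _ _ => (-1 : ℝ)) (fun _ _ _ => 0) :=
    S1.time continuousOn_const
  have h1 := S1_Bf h hg (hN.pd i) s
  have h2 := S1_Bf h (hg.xmul h i) hN s
  have h3 := S1_Bf h hg hN s
  have h4 := (H1_UP h (h.adm_coord i)).s1
  refine ((c1.mul h1).add (c2.mul (h2.add (c3.mul (h3.mul h4))))).congr (fun σ _ y => ?_)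
    (fun j σ _ y => ?_)
  · unfold gB; ring
  · unfold hB; ring

/-! ### the lift -/

/-- all spatial derivatives of the lift, for all levels in `(0, ∞)`, including `σ = s` -/
theorem HS_UP2 (h : CSupp μ R) {N : (Fin n → ℝ) → ℝ} (hN : SB N) (s : ℝ) (k : ℕ) :
    HS (Ioi 0) k (fun σ => UP2 μ s σ N) :=
  (HS_Bf h s k (Adm.const μ 1) hN).congr fun σ _ y => by rw [UP2_eq_Bf]

omit [IsProbabilityMeasure μ] in
theorem tB_eq {s : ℝ} {N : (Fin n → ℝ) → ℝ} {σ : ℝ} (hσ : 0 < σ)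
    (y : Fin n → ℝ) : tB μ s (fun _ => 1) N σ y
      = 1 / 2 * ∑ i, hB μ s (fun _ => 1) N i i σ y
        + ∑ i, sc μ i σ y * gB μ s (fun _ => 1) N i σ y := by
  have hσ' : (σ : ℝ) ≠ 0 := hσ.ne'
  unfold tB
  simp_rw [Finset.mul_sum]
  rw [← Finset.sum_sub_distrib, Finset.mul_sum, ← Finset.sum_add_distrib,
    ← Finset.sum_add_distrib, ← Finset.sum_add_distrib]
  apply Finset.sum_congr rfl
  intro i _
  unfold hB gB gU sc
  simp only [mul_one, sq]
  field_simp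
  ring

end lift

end Vale.Agent.P245.E1
end
end

section

section

open MeasureTheory Real Set Filter Topology
open scoped ENNReal ContDiff

/-! # Regularity in the level of the lift `UL` (module UL of E1): `thUL` -/

namespace Vale.Agent.P245.E1

open LS LS.Down

variable {n : ℕ} {μ : Measure (Fin n → ℝ)} [IsProbabilityMeasure μ] {R : ℝ}

omit [IsProbabilityMeasure μ] in
theorem UL_eq_UP2 (s : ℝ) {r : ℝ} (hr : 0 < r) (f : (Fin n → ℝ) → ℝ) :
    UL μ s r f = UP2 μ s r f := by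
  funext y
  unfold UL UP2
  have e : s * (r - s) / r = s * (1 - s / r) := by
    field_simp
  rw [e]

/-- a bounded version of the coordinate -/
noncomputable def clip (R : ℝ) (i : Fin n) (x : Fin n → ℝ) : ℝ := max (-R) (min R (x i))

theorem clip_eq {x : Fin n → ℝ} {i : Fin n} (hx : |x i| ≤ R) : clip R i x = x i := by
  have := abs_le.1 hx
  unfold clip
  rw [min_eq_right this.2, max_eq_right this.1]

theorem abs_clip_le (hR : 0 ≤ R) (i : Fin n) (x : Fin n → ℝ) : |clip R i x| ≤ R := by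
  unfold clip
  rw [abs_le]
  constructor
  · exact le_max_left _ _
  · exact max_le (by linarith) (min_le_left _ _)

theorem measurable_clip (R : ℝ) (i : Fin n) : Measurable (clip R i) := by
  unfold clip
  exact measurable_const.max (measurable_const.min (measurable_pi_apply i))

/-- the averages against `X_i` -/
theorem EY_Bf_coord (h : CSupp μ R) {f Φ : (Fin n → ℝ) → ℝ} (hf : BM f) (hΦ : BM Φ) {s r : ℝ}
    (hs : 0 < s) (hsr : s ≤ r) (i : Fin n) :
    EY μ r (fun y => Bf μ s (fun x => x i) f r y * Φ y)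
      = ∫ x, clip R i x * PH s (fun y => f y * PH (r - s) Φ y) x ∂μ := by
  have hr : 0 < r := hs.trans_le hsr
  have hk : KB (fun x y => clip R i x * phi s f x r y * Φ y) := by
    obtain ⟨C, hC0, hC⟩ := hf.bdd'
    obtain ⟨D, hD0, hD⟩ := hΦ.bdd'
    refine ⟨((measurable_clip R i).comp measurable_fst).mul ?_ |>.mul (hΦ.1.comp measurable_snd),
      R * C * D, mul_nonneg (mul_nonneg h.nonneg hC0) hD0, fun x y => ?_⟩
    · exact (measurable_PH hf.1 _).comp (by fun_prop)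
    · refine abs_mul_le_of (abs_mul_le_of (abs_clip_le h.nonneg i x) (PH_abs_le hC _ _)) (hD y)
  have e1 : (fun y => Bf μ s (fun x => x i) f r y * Φ y)
      = fun y => Mf μ (fun x => clip R i x * phi s f x r y * Φ y) (1 / r, (1 / r) • y) := by
    funext y
    have e2 : Mf μ (fun x => clip R i x * phi s f x r y * Φ y) (1 / r, (1 / r) • y)
        = Mf μ (fun x => Φ y * (x i * phi s f x r y)) (1 / r, (1 / r) • y) := by
      apply Mf_congr_ae
      filter_upwards [h.supp] with x hx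
      rw [clip_eq (hx i)]
      ring
    rw [e2, Mf_const_mul]
    unfold Bf
    ring
  rw [e1, EY_Mf_ker h hk hr]
  congr 1
  funext x
  rw [gauss_adj hf hΦ hs hsr x, ← integral_const_mul]
  congr 1
  funext z
  unfold phi
  have e : s * (r - s) / r = s * (1 - s / r) := by
    (clear * - hr hs; field_simp)
  rw [e]
  ring

theorem EY_XB_mul (h : CSupp μ R) {Ψ : (Fin n → ℝ) → ℝ} (hΨ : BM Ψ) {s : ℝ} (hs : 0 < s)
    (i : Fin n) : EY μ s (fun y => XB μ s i y * Ψ y) = ∫ x, clip R i x * PH s Ψ x ∂μ := by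
  have hk : KB (fun x y => clip R i x * Ψ y) := by
    obtain ⟨D, hD0, hD⟩ := hΨ.bdd'
    refine ⟨((measurable_clip R i).comp measurable_fst).mul (hΨ.1.comp measurable_snd),
      R * D, mul_nonneg h.nonneg hD0, fun x y => ?_⟩
    exact abs_mul_le_of (abs_clip_le h.nonneg i x) (hD y)
  have e1 : (fun y => XB μ s i y * Ψ y)
      = fun y => Mf μ (fun x => clip R i x * Ψ y) (1 / s, (1 / s) • y) := by
    funext y
    have e2 : Mf μ (fun x => clip R i x * Ψ y) (1 / s, (1 / s) • y)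
        = Mf μ (fun x => Ψ y * x i) (1 / s, (1 / s) • y) := by
      apply Mf_congr_ae
      filter_upwards [h.supp] with x hx
      rw [clip_eq (hx i)]
      ring
    rw [e2, Mf_const_mul]
    unfold XB
    ring
  rw [e1, EY_Mf_ker h hk hs]
  congr 1
  funext x
  rw [integral_const_mul]
  rfl

/-- the tower property for `X_i` -/
theorem Bf_coord_eq (h : CSupp μ R) {f : (Fin n → ℝ) → ℝ} (hf : SB f) {s r : ℝ}
    (hs : 0 < s) (hsr : s < r) (i : Fin n) :
    Bf μ s (fun x => x i) f r = UL μ s r (fun y => f y * XB μ s i y) := by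
  have hr : 0 < r := hs.trans hsr
  have hfb : BM f := SB.bm hf
  have hX : BM (XB μ s i) := SB.bm (UP_sb h (h.adm_coord i) s)
  have hfX := hfb.mul hX
  have cA : Continuous (Bf μ s (fun x => x i) f r) := (S1_Bf h (h.adm_coord i) hf s).uf.cont hr
  have cB := continuous_UL h hfX hs hsr
  have bA : BM (Bf μ s (fun x => x i) f r) := by
    obtain ⟨C, hC0, hC⟩ := Bf_abs_le h (h.adm_coord i) (sb_cbd hf) s
    exact ⟨cA.measurable, C, hC r⟩
  have bB := bm_UL h hfX s r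
  have b4 := bA.sub bB
  have k1 : ∀ Φ : (Fin n → ℝ) → ℝ, BM Φ →
      EY μ r (fun y => Bf μ s (fun x => x i) f r y * Φ y)
        = EY μ r (fun y => UL μ s r (fun y => f y * XB μ s i y) y * Φ y) := by
    intro Φ hΦ
    rw [EY_Bf_coord h hfb hΦ hs hsr.le, EY_UL h hfX hΦ hs hsr.le]
    have h2 := EY_XB_mul h (hfb.mul (hΦ.ph (r - s))) hs i
    rw [← h2]
    congr 1
    funext y
    ring
  have k2 := k1 _ b4
  have k3 : EY μ r (fun y => (Bf μ s (fun x => x i) f r y -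
      UL μ s r (fun y => f y * XB μ s i y) y) * (Bf μ s (fun x => x i) f r y -
      UL μ s r (fun y => f y * XB μ s i y) y)) = 0 := by
    have e : (fun y => (Bf μ s (fun x => x i) f r y -
      UL μ s r (fun y => f y * XB μ s i y) y) * (Bf μ s (fun x => x i) f r y -
      UL μ s r (fun y => f y * XB μ s i y) y)) = fun y =>
      Bf μ s (fun x => x i) f r y * (Bf μ s (fun x => x i) f r y -
        UL μ s r (fun y => f y * XB μ s i y) y) -
      UL μ s r (fun y => f y * XB μ s i y) y * (Bf μ s (fun x => x i) f r y -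
        UL μ s r (fun y => f y * XB μ s i y) y) := by
      funext y; ring
    rw [e, EY_sub_bm (bA.mul b4) (bB.mul b4), k2, sub_self]
  funext y
  have := eq_zero_of_EY ((cA.sub cB).mul (cA.sub cB)) (fun y => mul_self_nonneg _)
    (b4.mul b4) hr k3 y
  exact sub_eq_zero.1 (mul_self_eq_zero.1 this)

theorem gL_eq_gB (h : CSupp μ R) {f : (Fin n → ℝ) → ℝ} (hf : SB f) {s r : ℝ}
    (hs : 0 < s) (hsr : s < r) (i : Fin n) : gL μ s f i r = gB μ s (fun _ => 1) f i r := by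
  have hr : 0 < r := hs.trans hsr
  funext y
  unfold gL gB
  rw [← Bf_coord_eq h hf hs hsr i, UL_eq_UP2 s hr, UL_eq_UP2 s hr, UP2_eq_Bf, UP2_eq_Bf]
  simp only [mul_one]
  have e : UP μ r (fun x => x i) y = XB μ r i y := rfl
  rw [e]
  ring

theorem UE_UL (h : CSupp μ R) {f : (Fin n → ℝ) → ℝ} (hf : SB f) (s : ℝ) :
    UE (Ioi 0) (fun ρ => UL μ s ρ f) :=
  (HS_UP2 h hf s 0).ue.congr fun σ hσ y => by rw [UL_eq_UP2 s hσ]

/-- module UL -/
theorem thUL (n : ℕ) : StUL n := by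
  intro μ _ R h s f hs hf
  refine ⟨(UE_UL h hf s).mono fun ρ hρ => hs.trans_le hρ, ?_⟩
  refine (H1_Bf h (Adm.const μ 1) hf hs).congr isOpen_Ioi (fun σ hσ y => ?_) (fun σ hσ y => ?_)
    (fun i σ hσ y => ?_)
  · rw [UL_eq_UP2 s (hs.trans hσ), UP2_eq_Bf]
  · have hσ0 : 0 < σ := hs.trans hσ
    unfold tL
    simp only [gL_eq_gB h hf hs hσ]
    rw [tB_eq hσ0]
    simp_rw [(S1_gB h (Adm.const μ 1) hf s _).pd_eq hσ0]
  · rw [gL_eq_gB h hf hs hσ]

end Vale.Agent.P245.E1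
end
end

section

section

open MeasureTheory Real Set
open scoped ENNReal

namespace Vale.Agent.P245

variable {n : ℕ}

theorem map_smul_mu {ρ : (Fin n → ℝ) → ℝ} (hm : Measurable ρ) {a : ℝ} (ha : 0 < a) :
    (mu ρ).map (fun x => a⁻¹ • x) = mu (fun y => a ^ n * ρ (a • y)) := by
  have hmeas : Measurable (fun x : Fin n → ℝ => a⁻¹ • x) := measurable_const_smul _
  have hm2 : Measurable (fun y : Fin n → ℝ => ENNReal.ofReal (ρ (a • y))) :=
    (hm.comp (measurable_const_smul a)).ennreal_ofReal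
  ext A hA
  rw [Measure.map_apply hmeas hA, mu, mu, withDensity_apply _ (hmeas hA), withDensity_apply _ hA]
  have h1 : (volume : Measure (Fin n → ℝ)).map (fun x => a⁻¹ • x)
      = ENNReal.ofReal (a ^ n) • volume := by
    have := Measure.map_addHaar_smul (volume : Measure (Fin n → ℝ)) (inv_ne_zero ha.ne')
    rw [show (fun x : Fin n → ℝ => a⁻¹ • x) = (a⁻¹ • ·) from rfl, this]
    congr 2
    rw [Module.finrank_fintype_fun_eq_card, Fintype.card_fin, inv_pow, inv_inv,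
      abs_of_pos (pow_pos ha n)]
  calc ∫⁻ x in (fun x => a⁻¹ • x) ⁻¹' A, ENNReal.ofReal (ρ x)
      = ∫⁻ x in (fun x => a⁻¹ • x) ⁻¹' A, ENNReal.ofReal (ρ (a • (a⁻¹ • x))) := by
        simp_rw [smul_smul, mul_inv_cancel₀ ha.ne', one_smul]
    _ = ∫⁻ y in A, ENNReal.ofReal (ρ (a • y)) ∂((volume : Measure (Fin n → ℝ)).map
          (fun x => a⁻¹ • x)) := by
        rw [setLIntegral_map hA hm2 hmeas]
    _ = ∫⁻ y in A, ENNReal.ofReal (a ^ n * ρ (a • y)) := by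
        rw [h1, Measure.restrict_smul, lintegral_smul_measure, smul_eq_mul,
          ← lintegral_const_mul _ hm2]
        apply lintegral_congr
        intro y
        rw [ENNReal.ofReal_mul (pow_pos ha n).le]

theorem LCd_scale {ρ : (Fin n → ℝ) → ℝ} (hm : Measurable ρ) (h0 : ∀ x, 0 ≤ ρ x) (h : LC ρ)
    {a : ℝ} (ha : 0 < a) : LCd (fun y => a ^ n * ρ (a • y)) where
  meas := (hm.comp (measurable_const_smul a)).const_mul _
  nonneg := fun x => mul_nonneg (pow_pos ha n).le (h0 _)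
  lc := by
    intro x y s hs0 hs1
    have hc : 0 < a ^ n := pow_pos ha n
    rw [mul_rpow hc.le (h0 _), mul_rpow hc.le (h0 _)]
    have e1 : a • ((1 - s) • x + s • y) = (1 - s) • (a • x) + s • (a • y) := by
      rw [smul_add, smul_comm a (1 - s) x, smul_comm a s y]
    rw [e1]
    have e2 : (a ^ n) ^ (1 - s) * (a ^ n) ^ s = a ^ n := by
      rw [← rpow_add hc]; norm_num
    calc (a ^ n) ^ (1 - s) * ρ (a • x) ^ (1 - s) * ((a ^ n) ^ s * ρ (a • y) ^ s)
        = ((a ^ n) ^ (1 - s) * (a ^ n) ^ s) * (ρ (a • x) ^ (1 - s) * ρ (a • y) ^ s) := by ring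
      _ = a ^ n * (ρ (a • x) ^ (1 - s) * ρ (a • y) ^ s) := by rw [e2]
      _ ≤ _ := mul_le_mul_of_nonneg_left (h _ _ s hs0 hs1) hc.le

/-- the scaling `x ↦ a⁻¹ x` from `EuclideanSpace` to `Fin n → ℝ` -/
noncomputable def scE (n : ℕ) (a : ℝ) (ha : a ≠ 0) : EuclideanSpace ℝ (Fin n) ≃ᵐ (Fin n → ℝ) :=
  (MeasurableEquiv.toLp 2 (Fin n → ℝ)).symm.trans (MeasurableEquiv.smul₀ a⁻¹ (inv_ne_zero ha))

theorem scE_apply {a : ℝ} (ha : a ≠ 0) (x : EuclideanSpace ℝ (Fin n)) :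
    scE n a ha x = a⁻¹ • WithLp.ofLp x := rfl

/-- the normalised image on `Fin n → ℝ` of a log-concave measure -/
theorem exists_LCd {μ : Measure (EuclideanSpace ℝ (Fin n))} [IsProbabilityMeasure μ]
    (hlc : HasLogConcaveDensity μ) {a : ℝ} (ha : 0 < a) :
    ∃ ρ : (Fin n → ℝ) → ℝ, LCd ρ ∧ IsProbabilityMeasure (mu ρ) ∧
      μ.map (scE n a ha.ne') = mu ρ := by
  obtain ⟨ρ, hm, h0, hc, hμ⟩ := hlc
  set e := (MeasurableEquiv.toLp 2 (Fin n → ℝ)).symm with he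
  have hmp : MeasurePreserving e volume volume :=
    EuclideanSpace.volume_preserving_symm_measurableEquiv_toLp (Fin n)
  set ρ0 : (Fin n → ℝ) → ℝ := fun y => ρ (WithLp.toLp 2 y) with hρ0
  have hρ0m : Measurable ρ0 := hm.comp (WithLp.measurable_toLp 2 _)
  have hmap : μ.map e = mu ρ0 := by
    ext A hA
    rw [Measure.map_apply e.measurable hA, hμ, mu, withDensity_apply _ (e.measurable hA),
      withDensity_apply _ hA]
    have := hmp.setLIntegral_comp_preimage hA (f := fun y => ENNReal.ofReal (ρ0 y))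
      hρ0m.ennreal_ofReal
    rw [← this]
    rfl
  have hmap2 : μ.map (scE n a ha.ne') = mu (fun y => a ^ n * ρ0 (a • y)) := by
    rw [← map_smul_mu hρ0m ha, ← hmap, Measure.map_map (measurable_const_smul _) e.measurable]
    rfl
  have hprob : IsProbabilityMeasure (μ.map (scE n a ha.ne')) :=
    Measure.isProbabilityMeasure_map (scE n a ha.ne').measurable.aemeasurable
  exact ⟨_, LCd_scale hρ0m (fun x => h0 _) (LC_of_concaveOn h0 hc) ha, hmap2 ▸ hprob, hmap2⟩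

theorem integral_scE {μ : Measure (EuclideanSpace ℝ (Fin n))} {a : ℝ} (ha : 0 < a)
    (F : (Fin n → ℝ) → ℝ) :
    ∫ y, F y ∂(μ.map (scE n a ha.ne')) = ∫ x, F (a⁻¹ • WithLp.ofLp x) ∂μ := by
  rw [integral_map_equiv]
  rfl

theorem exp_moment_scE {μ : Measure (EuclideanSpace ℝ (Fin n))} [IsProbabilityMeasure μ]
    {a : ℝ} (ha : 0 < a) (hs : LinearlySubgaussian μ a) (h : Fin n → ℝ) :
    ∫⁻ x, ENNReal.ofReal (exp (∑ i, h i * x i)) ∂(μ.map (scE n a ha.ne'))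
      ≤ 2 * ENNReal.ofReal (exp ((∑ i, h i ^ 2) / 4)) := by
  have h1 := exp_moment ha hs (fun i => a⁻¹ * h i)
  rw [lintegral_map (by fun_prop) (MeasurableEquiv.measurable _)] at h1 ⊢
  have e1 : a ^ 2 / 4 * ∑ i, (a⁻¹ * h i) ^ 2 = (∑ i, h i ^ 2) / 4 := by
    simp_rw [mul_pow]
    rw [← Finset.mul_sum]
    field_simp
  rw [e1] at h1
  refine le_trans (le_of_eq ?_) h1
  apply lintegral_congr
  intro x
  rw [scE_apply]
  congr 2
  apply Finset.sum_congr rfl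
  intro i _
  simp only [Pi.smul_apply, smul_eq_mul]
  have : ((MeasurableEquiv.toLp 2 (Fin n → ℝ)).symm x) i = x i := rfl
  rw [this]
  ring

/-- the rescaled test function -/
def rsc (a : ℝ) (f : EuclideanSpace ℝ (Fin n) → ℝ) : (Fin n → ℝ) → ℝ :=
  fun y => f (WithLp.toLp 2 (a • y))

theorem rsc_scE {a : ℝ} (ha : 0 < a) (f : EuclideanSpace ℝ (Fin n) → ℝ)
    (x : EuclideanSpace ℝ (Fin n)) : rsc a f (a⁻¹ • WithLp.ofLp x) = f x := by
  unfold rsc
  rw [smul_smul, mul_inv_cancel₀ ha.ne', one_smul]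

theorem integral_rsc {μ : Measure (EuclideanSpace ℝ (Fin n))} {a : ℝ} (ha : 0 < a)
    (f : EuclideanSpace ℝ (Fin n) → ℝ) (F : ℝ → ℝ) :
    ∫ y, F (rsc a f y) ∂(μ.map (scE n a ha.ne')) = ∫ x, F (f x) ∂μ := by
  rw [integral_scE ha]
  simp_rw [rsc_scE ha]

theorem entropy_rsc {μ : Measure (EuclideanSpace ℝ (Fin n))} {a : ℝ} (ha : 0 < a)
    (f : EuclideanSpace ℝ (Fin n) → ℝ) (F : ℝ → ℝ) :
    Entropy μ (fun x => F (f x)) = ent (μ.map (scE n a ha.ne')) (fun y => F (rsc a f y)) := by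
  unfold Entropy ent
  rw [integral_rsc ha f F, integral_rsc ha f (fun t => F t * log (F t))]

theorem pd_rsc {a : ℝ} {f : EuclideanSpace ℝ (Fin n) → ℝ} (hf : Differentiable ℝ f)
    (i : Fin n) (y : Fin n → ℝ) :
    pd (rsc a f) i y = a * pd (fun y : Fin n → ℝ => f (WithLp.toLp 2 y)) i (a • y) := by
  unfold pd
  have hg : Differentiable ℝ (fun y : Fin n → ℝ => f (WithLp.toLp 2 y)) :=
    hf.comp (EuclideanSpace.equiv (Fin n) ℝ).symm.differentiable
  have e : rsc a f = (fun y : Fin n → ℝ => f (WithLp.toLp 2 y)) ∘ (fun y => a • y) := rfl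
  have h2 : HasFDerivAt (fun y : Fin n → ℝ => a • y) (a • ContinuousLinearMap.id ℝ (Fin n → ℝ)) y :=
    (hasFDerivAt_id (𝕜 := ℝ) y).const_smul a
  have h3 := ((hg (a • y)).hasFDerivAt.comp y h2).fderiv
  rw [e, h3]
  simp

theorem energy_rsc {μ : Measure (EuclideanSpace ℝ (Fin n))} {a : ℝ} (ha : 0 < a)
    {f : EuclideanSpace ℝ (Fin n) → ℝ} (hf : Differentiable ℝ f) :
    ∫ y, ∑ i, pd (rsc a f) i y ^ 2 ∂(μ.map (scE n a ha.ne')) = a ^ 2 * ∫ x, ‖gradient f x‖ ^ 2 ∂μ := by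
  rw [integral_scE ha, ← integral_const_mul]
  apply integral_congr_ae
  filter_upwards with x
  rw [gradient_norm_sq hf, Finset.mul_sum]
  apply Finset.sum_congr rfl
  intro i _
  rw [pd_rsc hf, smul_smul, mul_inv_cancel₀ ha.ne', one_smul]
  ring

theorem contDiff_rsc {a : ℝ} {f : EuclideanSpace ℝ (Fin n) → ℝ} {m : WithTop ℕ∞}
    (hf : ContDiff ℝ m f) : ContDiff ℝ m (rsc a f) := by
  have h := contDiff_transfer (m := m) hf
  exact h.comp (contDiff_const_smul a)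

theorem hasCompactSupport_rsc {a : ℝ} (ha : 0 < a) {f : EuclideanSpace ℝ (Fin n) → ℝ}
    (hf : HasCompactSupport f) : HasCompactSupport (rsc a f) := by
  have h := hasCompactSupport_transfer hf
  exact h.comp_homeomorph (Homeomorph.smulOfNeZero a ha.ne')

theorem rsc_const_outside {a : ℝ} (ha : 0 < a) {f : EuclideanSpace ℝ (Fin n) → ℝ}
    (hf : HasCompactSupport f) : ∃ R, 0 ≤ R ∧ ∀ x, R < ‖x‖ → rsc a f x = 0 := by
  obtain ⟨R, hR⟩ := (hasCompactSupport_rsc ha hf).isCompact.isBounded.exists_norm_le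
  refine ⟨max R 0, le_max_right _ _, fun x hx => ?_⟩
  apply image_eq_zero_of_notMem_tsupport
  intro hmem
  have := hR x hmem
  have := le_max_left R 0
  linarith

theorem integrable_pd_sq {ν : Measure (Fin n → ℝ)} [IsFiniteMeasure ν] {g : (Fin n → ℝ) → ℝ}
    (hg2 : ContDiff ℝ 2 g) (hgs : HasCompactSupport g) (i : Fin n) :
    Integrable (fun x => pd g i x ^ 2) ν := by
  have hcont : Continuous (pd g i) := by
    unfold pd
    exact (hg2.continuous_fderiv (by norm_num)).clm_apply continuous_const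
  have hcs : HasCompactSupport (pd g i) := by
    unfold pd
    exact (hgs.fderiv ℝ).comp_left
      (g := fun (L : (Fin n → ℝ) →L[ℝ] ℝ) => L (Pi.single i (1 : ℝ))) (by simp)
  have hcs2 : HasCompactSupport (fun x => pd g i x ^ 2) :=
    hcs.comp_left (g := fun t : ℝ => t ^ 2) (by norm_num)
  exact (hcont.pow 2).integrable_of_hasCompactSupport hcs2

end Vale.Agent.P245
end
end

section

section

open MeasureTheory Real Set
open scoped ENNReal ContDiff

namespace Vale.Agent.P245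

variable {n : ℕ} {ρ : (Fin n → ℝ) → ℝ}

theorem energy_mu {μ : Measure (EuclideanSpace ℝ (Fin n))} [IsProbabilityMeasure (mu ρ)]
    {a : ℝ} (ha : 0 < a) (hmap : μ.map (scE n a ha.ne') = mu ρ)
    {f : EuclideanSpace ℝ (Fin n) → ℝ} (hf : ContDiff ℝ 2 f) (hs : HasCompactSupport f) :
    ∑ i, ∫ x, pd (rsc a f) i x ^ 2 ∂(mu ρ) = a ^ 2 * ∫ x, ‖gradient f x‖ ^ 2 ∂μ := by
  have hfd : Differentiable ℝ f := hf.differentiable (by norm_num)
  rw [← energy_rsc ha hfd, hmap, integral_finsetSum _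
    (fun i _ => integrable_pd_sq (contDiff_rsc hf) (hasCompactSupport_rsc ha hs) i)]

end Vale.Agent.P245
end
end

section

section

open MeasureTheory Real Set Filter Topology
open scoped ENNReal ContDiff

/-! # Module I: from compactly supported log-concave measures to the final statement -/

namespace Vale.Agent.P245.LS

variable {n : ℕ} {ρ : (Fin n → ℝ) → ℝ}

/-- Removing the compact support assumption by truncation. -/
theorem dl_of_trunc (hρ : LCd ρ) [IsProbabilityMeasure (mu ρ)] {K : ℝ}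
    (h : ∀ᶠ k : ℕ in atTop, DL (muT ρ k) K 0) : DL (mu ρ) K 0 := by
  intro g hg
  obtain ⟨hg2, R, c, hc⟩ := hg
  have hg1 : ContDiff ℝ 1 g := hg2.of_le (by norm_num)
  have hgm : Measurable fun x => g x ^ 2 := hg2.continuous.measurable.pow_const 2
  obtain ⟨M, hM⟩ := bdd_of_const_outside hg2.continuous hc
  have hM2 : ∀ x, g x ^ 2 ≤ M ^ 2 := fun x => by
    rw [← sq_abs]; exact pow_le_pow_left₀ (abs_nonneg _) (hM x) 2
  have hP : ∀ i, ∃ P, ∀ x, |pd g i x| ≤ P := fun i =>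
    bdd_of_const_outside (continuous_pd hg1 i) (pd_const_outside hc i)
  choose P hP using hP
  have hpdi : ∀ i, Integrable (fun x => pd g i x ^ 2) (mu ρ) := fun i =>
    integrable_of_bdd _ ((continuous_pd hg1 i).measurable.pow_const 2) (K := P i ^ 2) fun x => by
      rw [abs_of_nonneg (sq_nonneg _), ← sq_abs]; exact pow_le_pow_left₀ (abs_nonneg _) (hP i x) 2
  have hlim1 := tendsto_integral_muT hρ (φ := fun x => g x ^ 2 * log (g x ^ 2))
    (integrable_mul_log (mu ρ) hgm (fun x => sq_nonneg _) hM2)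
  have hlim2 := tendsto_integral_muT hρ (φ := fun x => g x ^ 2)
    (integrable_of_bdd _ hgm (K := M ^ 2) fun x => by
      rw [abs_of_nonneg (sq_nonneg _)]; exact hM2 x)
  have hlim3 : Tendsto (fun k : ℕ => ∑ i, ∫ x, pd g i x ^ 2 ∂(muT ρ k)) atTop
      (𝓝 (∑ i, ∫ x, pd g i x ^ 2 ∂(mu ρ))) :=
    tendsto_finsetSum _ fun i _ => tendsto_integral_muT hρ (hpdi i)
  have hlimE : Tendsto (fun k : ℕ => ent (muT ρ k) (fun x => g x ^ 2)) atTop
      (𝓝 (ent (mu ρ) fun x => g x ^ 2)) := by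
    unfold ent
    exact hlim1.sub (continuous_mul_log.tendsto _ |>.comp hlim2)
  have hlimR := (hlim3.const_mul K).add (hlim2.const_mul 0)
  refine le_of_tendsto_of_tendsto hlimE hlimR ?_
  filter_upwards [h] with k hk using hk g ⟨hg2, R, c, hc⟩

end Vale.Agent.P245.LS
end
end

section

section

open MeasureTheory Real Set Filter Topology
open scoped ENNReal ContDiff

/-! Fin: from compactly supported log-concave measures to the final statement, with
`C (1 + log n)`. -/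

namespace Vale.Agent.P245.E1

open LS

variable {n : ℕ} {ρ : (Fin n → ℝ) → ℝ}

/-- `StG` gives the inequality for all log-concave measures with the exponential moment
bound. -/
theorem fin_dl_of_stG {C : ℝ} (hG : E1.StG n C) (hn : 1 ≤ n) (hρ : LCd ρ)
    [IsProbabilityMeasure (mu ρ)]
    (hexp : ∀ h : Fin n → ℝ, ∫⁻ x, ENNReal.ofReal (exp (∑ i, h i * x i)) ∂(mu ρ)
      ≤ 2 * ENNReal.ofReal (exp ((∑ i, h i ^ 2) / 4))) :
    DL (mu ρ) (C * (1 + log n)) 0 := by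
  apply dl_of_trunc hρ
  have : ∀ᶠ k : ℕ in atTop, 2 / 3 < (mu ρ).real (cube n k) :=
    (tendsto_real_cube (ρ := ρ)).eventually (lt_mem_nhds (by norm_num))
  filter_upwards [this] with k hk
  have hk0 : 0 < (mu ρ).real (cube n (k : ℝ)) := by linarith only [hk]
  exact hG (trunc ρ k ((mu ρ).real (cube n k))) k hn (trunc_LCd hρ hk0) (isProb_muT hρ hk0)
    (csupp_muT hρ (Nat.cast_nonneg k) hk0) (expM_muT hρ (Nat.cast_nonneg k) hk.le hexp)

/-- Logarithmic Sobolev inequality for linearly subgaussian log-concave measures, from the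
inequality for compactly supported normalised measures. -/
theorem fin_logSobolev_of_stG {C : ℝ} (hG : E1.StG n C) (hn : 1 ≤ n)
    (μ : Measure (EuclideanSpace ℝ (Fin n))) [IsProbabilityMeasure μ]
    (hlc : HasLogConcaveDensity μ) {a : ℝ} (ha : 0 < a) (hsub : LinearlySubgaussian μ a)
    {f : EuclideanSpace ℝ (Fin n) → ℝ} (hf : ContDiff ℝ ∞ f) (hs : HasCompactSupport f) :
    Entropy μ (fun x => f x ^ 2)
      ≤ C * (1 + log n) * a ^ 2 * ∫ x, ‖gradient f x‖ ^ 2 ∂μ := by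
  obtain ⟨ρ, hρ, hprob, hmap⟩ := exists_LCd hlc ha
  have hexp : ∀ h : Fin n → ℝ, ∫⁻ x, ENNReal.ofReal (Real.exp (∑ i, h i * x i)) ∂(mu ρ)
      ≤ 2 * ENNReal.ofReal (Real.exp ((∑ i, h i ^ 2) / 4)) := by
    intro h
    rw [← hmap]
    exact exp_moment_scE ha hsub h
  have hf2 : ContDiff ℝ 2 f := hf.of_le (WithTop.coe_le_coe.2 le_top)
  obtain ⟨R, -, hR⟩ := rsc_const_outside ha hs
  have main := fin_dl_of_stG hG hn hρ hexp (rsc a f) ⟨contDiff_rsc hf2, R, 0, hR⟩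
  have e3 : ent (mu ρ) (fun x => rsc a f x ^ 2) = Entropy μ (fun x => f x ^ 2) := by
    rw [entropy_rsc ha f (fun t => t ^ 2), hmap]
  rw [e3, energy_mu ha hmap hf2 hs, zero_mul, add_zero] at main
  refine main.trans (le_of_eq ?_)
  ring

/-- Fin: the final statement from `StG` -/
theorem logSobolev_log (hG : ∃ C, ∀ n, E1.StG n C) :
    ∃ C : ℝ, ∀ (n : ℕ), 1 ≤ n → ∀ (μ : Measure (EuclideanSpace ℝ (Fin n)))
      [IsProbabilityMeasure μ], HasLogConcaveDensity μ → ∀ a : ℝ, 0 < a →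
      LinearlySubgaussian μ a → ∀ f : EuclideanSpace ℝ (Fin n) → ℝ, ContDiff ℝ ∞ f →
      HasCompactSupport f →
      Entropy μ (fun x => f x ^ 2)
        ≤ C * (1 + log n) * a ^ 2 * ∫ x, ‖gradient f x‖ ^ 2 ∂μ := by
  obtain ⟨C, hC⟩ := hG
  exact ⟨C, fun n hn μ _ hlc a ha hsub f hf hs =>
    fin_logSobolev_of_stG (hC n) hn μ hlc ha hsub hf hs⟩

end Vale.Agent.P245.E1
end
end

section

section

/-! Assembly of the modules of E1. -/

namespace Vale.Agent.P245.E1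

theorem thR' (n : ℕ) : StR n := thR n (thUL n) (thK n)

theorem thT' (n : ℕ) : StT n := thT n (thK n) (thR' n)

theorem thU' (n : ℕ) : StU n := thU n (thUL n) (thK n)

theorem thDn' (n : ℕ) : StDn n := thDn n (thUL n) (thK n) (thR' n)

theorem thG0' (n : ℕ) : StG0 n := thG0 n (thR' n)

/-- the final inequality for compactly supported measures, from `PathA` -/
theorem thG_of (hPA : ∀ n, StPathA n) : ∃ C, ∀ n, StG n C := by
  have hB : ∀ n, StBoot n := fun n => boot_of n (thK n) (thR' n) (thT' n) (thCo n) (thRv n)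
    (thG0' n) (thU' n) (thDn' n) (thP n) (hPA n)
  have hP : ∀ n, StPath n := fun n => thPath n (hPA n) (thR' n) (thCo n) (thU' n) (thP n)
  have hA : ∀ n, StAmp n := fun n => thAmp n (thCo n) (thRv n)
  exact thG (thStep hB hP hA thCo) thLv

theorem thPathA' (n : ℕ) : StPathA n :=
  thPathA n (thK n) (thR' n) (thT' n) (thCo n) (thRv n) (thU' n) (thDn' n) (thPr n) (thP n)

/-- the final inequality for compactly supported log-concave measures -/
theorem thG_all : ∃ C, ∀ n, StG n C := thG_of thPathA'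

end Vale.Agent.P245.E1
end
end
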